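import Vale.Agent.Lib.P361.ZDecomp

/-!
# The a priori bound on the partition function for any positive chemical potential
-/

open Matrix
open scoped MatrixOrder ComplexOrder

noncomputable section

namespace Vale.Agent.P361Lib

variable {X : Type} [Fintype X] [DecidableEq X] {n : ℕ}

lemma inv_one_sub_le_exp_gen {z z₁ : ℝ} (hz0 : 0 ≤ z) (hz₁ : z₁ < 1) (hzz : z ≤ z₁) :
    1 / (1 - z) ≤ Real.exp ((1 - z₁)⁻¹ * z) := by
  have h1 : 0 < 1 - z := by linarith
  have h2 : 0 < 1 - z₁ := by linarith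
  have h3 : 1 / (1 - z) = z / (1 - z) + 1 := by
    field_simp
    ring
  rw [h3]
  refine (Real.add_one_le_exp _).trans (Real.exp_le_exp.mpr ?_)
  rw [div_eq_mul_inv, mul_comm]
  refine mul_le_mul_of_nonneg_right ?_ hz0
  exact inv_anti₀ h2 (by linarith)

lemma Xi_bound_gen {y : ℕ → ℝ} {m : ℕ} (hy0 : ∀ q, 0 ≤ y q) (hy1 : ∀ q, y q ≤ 1)
    (hy2 : ∀ q, q + 8 ≤ m → y q ≤ 1 / 16) {z₁ : ℝ} (hz₁ : z₁ < 1) (r : ℕ) :
    ∀ z : ℝ, 0 ≤ z → z ≤ z₁ → 0 ≤ Xi y r z ∧ Xi y r z ≤ Real.exp ((1 - z₁)⁻¹ * phiC m r * z) := by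
  have hc : 0 < (1 - z₁)⁻¹ := inv_pos.mpr (by linarith)
  induction r with
  | zero =>
    intro z hz0 hz1
    have h1 : 0 < 1 - z := by linarith
    refine ⟨by show 0 ≤ 1 / (1 - z); positivity, ?_⟩
    refine (inv_one_sub_le_exp_gen hz0 hz₁ hz1).trans (Real.exp_le_exp.mpr ?_)
    have := phiC_ge m 0
    have h2 : (1 - z₁)⁻¹ * z ≥ 0 := by positivity
    nlinarith
  | succ r ih =>
    intro z hz0 hz1
    have h1 : 0 < 1 - z := by linarith
    have hy := hy0 (r + 1)
    have hy' := hy1 (r + 1)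
    have hzy0 : 0 ≤ z * y (r + 1) := by positivity
    have hzy1 : z * y (r + 1) ≤ z₁ := by nlinarith
    obtain ⟨h2, h3⟩ := ih _ hzy0 hzy1
    have e : Xi y (r + 1) z = (1 / (1 - z)) * (Xi y r (z * y (r + 1))) ^ 8 := rfl
    rw [e]
    refine ⟨by positivity, ?_⟩
    set c := (1 - z₁)⁻¹ with hcdef
    have h4 : (Xi y r (z * y (r + 1))) ^ 8 ≤ Real.exp (c * phiC m r * (z * y (r + 1))) ^ 8 :=
      pow_le_pow_left₀ h2 h3 8
    have h5 : Real.exp (c * phiC m r * (z * y (r + 1))) ^ 8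
        = Real.exp (8 * (c * phiC m r * (z * y (r + 1)))) := by
      rw [← Real.exp_nat_mul]
      norm_num
    rw [h5] at h4
    have h6 : (1 / (1 - z)) * (Xi y r (z * y (r + 1))) ^ 8
        ≤ Real.exp (c * z) * Real.exp (8 * (c * phiC m r * (z * y (r + 1)))) :=
      mul_le_mul (inv_one_sub_le_exp_gen hz0 hz₁ hz1) h4 (by positivity) (Real.exp_pos _).le
    refine h6.trans ?_
    rw [← Real.exp_add]
    refine Real.exp_le_exp.mpr ?_
    have h7 : 2 + 8 * (phiC m r * y (r + 1)) ≤ phiC m (r + 1) := by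
      by_cases hc : r + 1 + 8 ≤ m
      · have e1 : r + 8 - m = 0 := by omega
        have e2 : r + 1 + 8 - m = 0 := by omega
        unfold phiC
        rw [e1, e2]
        have := hy2 (r + 1) hc
        norm_num
        nlinarith
      · have e1 : r + 1 + 8 - m = (r + 8 - m) + 1 := by omega
        have hphi : phiC m (r + 1) = 9 * phiC m r := by
          unfold phiC
          rw [e1, pow_succ]
          ring
        rw [hphi]
        have := phiC_ge m r
        nlinarith
    have hcz : 0 ≤ c * z := by positivity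
    have h8 := mul_le_mul_of_nonneg_left h7 hcz
    nlinarith

theorem upper_general (hn : 1 ≤ n) {adj : X → X → Prop} [DecidableRel adj] {Q : ℕ}
    {G : ℕ → ℕ → ℕ → X} (h : GridOK adj Q G) {β : ℝ} (hβ : 0 ≤ β) (m : ℕ)
    (hm : (4 : ℝ) ^ m ≤ β * n) {lam : ℝ} (hlam : 0 < lam) :
    (trace (NormedSpace.exp (-(β • edgeSum adj (Finset.univ : Finset X)
        + lam • (totalOp (Finset.univ : Finset X) (devD n) : Op X n))))).re
      ≤ Real.exp ((1 - Real.exp (-lam))⁻¹ * ((((Q / 2 ^ m : ℕ) : ℝ) ^ 3 * (4 * (9 : ℝ) ^ 8)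
          + ((Fintype.card X : ℝ) - ((Q / 2 ^ m : ℕ) : ℝ) ^ 3 * (8 : ℝ) ^ m))
            * Real.exp (-lam))) := by
  set z : ℝ := Real.exp (-lam) with hz
  have hz0 : 0 ≤ z := (Real.exp_pos _).le
  have hz1 : z < 1 := by
    rw [hz, Real.exp_lt_one_iff]
    linarith
  set q : ℕ := Q / 2 ^ m with hq
  set T : Finset (ℕ × ℕ × ℕ) := Finset.range q ×ˢ Finset.range q ×ˢ Finset.range q with hT
  set w : ℕ → ℝ := wOf β m with hw
  have hw0 : ∀ q, 0 ≤ w q := wOf_nonneg hβ m
  set root : ℕ × ℕ × ℕ → Finset X :=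
    fun t => blk G (2 ^ m) (0 + t.1 * 2 ^ m) (0 + t.2.1 * 2 ^ m) (0 + t.2.2 * 2 ^ m) with hroot
  have hqP : q * 2 ^ m ≤ Q := Nat.div_mul_le_self Q (2 ^ m)
  have hbd : ∀ i, i < q → 0 + i * 2 ^ m + 2 ^ m ≤ Q := by
    intro i hi
    have : (i + 1) * 2 ^ m ≤ q * 2 ^ m := Nat.mul_le_mul_right _ hi
    have e : (i + 1) * 2 ^ m = i * 2 ^ m + 2 ^ m := by ring
    omega
  have hTmem : ∀ t ∈ T, t.1 < q ∧ t.2.1 < q ∧ t.2.2 < q := by
    intro t ht
    simpa [hT] using ht
  have hdisj : ∀ t ∈ T, ∀ t' ∈ T, t ≠ t' → Disjoint (root t) (root t') := by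
    intro t ht t' ht' hne
    obtain ⟨h1, h2, h3⟩ := hTmem t ht
    obtain ⟨h1', h2', h3'⟩ := hTmem t' ht'
    exact spaced_disjoint h le_rfl (hbd _ h1) (hbd _ h2) (hbd _ h3) (hbd _ h1') (hbd _ h2')
      (hbd _ h3') hne
  set Aroot : Op X n := ∑ t ∈ T, treeOp w G m (0 + t.1 * 2 ^ m) (0 + t.2.1 * 2 ^ m)
    (0 + t.2.2 * 2 ^ m) with hAroot
  have hGR : Good (T.biUnion root) Aroot (fun z => ∏ _t ∈ T, Xi (yOf n w) m z) := by
    refine good_biUnion T root _ (fun _ => Xi (yOf n w) m) hdisj ?_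
    intro t ht
    obtain ⟨h1, h2, h3⟩ := hTmem t ht
    exact treeOp_good h hw0 m _ _ _ (hbd _ h1) (hbd _ h2) (hbd _ h3)
  set R : Finset X := T.biUnion root with hR
  set U : Finset X := Finset.univ \ R with hU
  have hGU : Good U (0 : Op X n) (fun z => ∏ _x ∈ U, 1 / (1 - z)) := by
    have := good_biUnion (X := X) (n := n) U (fun x => ({x} : Finset X)) (fun _ => 0)
      (fun _ z => 1 / (1 - z))
      (by
        intro i _ j _ hij
        simpa using hij)
      (fun x _ => good_singleton x)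
    rw [Finset.biUnion_singleton_eq_self] at this
    simpa using this
  have hRU : Disjoint R U := Finset.disjoint_sdiff
  have hRUu : R ∪ U = Finset.univ := Finset.union_sdiff_of_subset (Finset.subset_univ R)
  have hG := hGR.union hRU hGU
  rw [hRUu, add_zero] at hG
  -- the trace estimate
  have hcomp : Aroot ≤ β • edgeSum adj (Finset.univ : Finset X) := by
    have h1 : Aroot ≤ ∑ t ∈ T, (treeCoef w m) • edgeSum adj (root t) := by
      refine Finset.sum_le_sum fun t ht => ?_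
      obtain ⟨h1, h2, h3⟩ := hTmem t ht
      exact treeOp_le hn h hw0 m _ _ _ (hbd _ h1) (hbd _ h2) (hbd _ h3)
    refine h1.trans ?_
    rw [← Finset.smul_sum]
    have h2 : ∑ t ∈ T, (edgeSum adj (root t) : Op X n) ≤ edgeSum adj (Finset.univ : Finset X) := by
      refine (edgeSum_biUnion_le adj T root hdisj).trans ?_
      rw [← hRUu]
      have := edgeSum_union_le (X := X) (n := n) adj hRU
      refine le_trans ?_ this
      exact le_add_of_nonneg_right (edgeSum_nonneg adj U)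
    refine (smul_le_smul_of_nonneg_left h2 (treeCoef_nonneg hw0 m)).trans ?_
    exact smul_le_smul_of_nonneg_right (treeCoef_le_beta hβ m) (edgeSum_nonneg adj _)
  set N : Op X n := lam • (totalOp (Finset.univ : Finset X) (devD n) : Op X n) with hN
  have hNH : N.IsHermitian := by
    rw [hN, totalOp_devD]
    unfold Matrix.IsHermitian
    rw [Matrix.conjTranspose_smul, star_trivial, Matrix.diagonal_conjTranspose]
    congr 2
    funext σ
    simp
  have hH1 : (Aroot + N).IsHermitian := hG.herm.add hNH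
  have hH2 : (β • edgeSum adj (Finset.univ : Finset X) + N).IsHermitian := by
    refine Matrix.IsHermitian.add ?_ hNH
    unfold Matrix.IsHermitian
    rw [Matrix.conjTranspose_smul, star_trivial, (edgeSum_isHermitian adj _).eq]
  have hmono := trace_exp_neg_mono hH1 hH2 (add_le_add_left hcomp N)
  refine hmono.trans ?_
  -- factor the exponential
  have hcomm : Commute (-Aroot) (-N) := by
    have : Commute Aroot N := by
      rw [hN, totalOp_devD]
      have := hG.comD (fun j => (j : ℂ))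
      exact (Commute.smul_right this lam)
    exact (this.neg_left).neg_right
  rw [neg_add, Matrix.exp_add_of_commute _ _ hcomm, hN, exp_neg_smul_devD, ← hz]
  have hb := hG.bound 1 Matrix.PosSemidef.one (Off.one _) z hz0
    (by linarith)
  rw [Matrix.one_mul, Matrix.one_mul, trace_wt_univ_zero, mul_one] at hb
  refine hb.trans ?_
  -- the numerical bound
  have hy0 := y_nonneg (n := n) w
  have hy1 := y_le_one (n := n) hw0
  have hy2 : ∀ q, q + 8 ≤ m → yOf n w q ≤ 1 / 16 := fun q hq => y_small hm hq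
  obtain ⟨hX0, hX1⟩ := Xi_bound_gen hy0 hy1 hy2 hz1 m z hz0 le_rfl
  have hphi : phiC m m = 4 * (9 : ℝ) ^ 8 := by
    unfold phiC
    have : m + 8 - m = 8 := by omega
    rw [this]
  rw [hphi] at hX1
  have hprod1 : ∏ _t ∈ T, Xi (yOf n w) m z ≤ Real.exp ((q : ℝ) ^ 3 * ((1 - z)⁻¹ * (4 * (9 : ℝ) ^ 8) * z)) := by
    rw [Finset.prod_const]
    have hTc : T.card = q ^ 3 := by
      rw [hT]
      simp only [Finset.card_product, Finset.card_range]
      ring
    rw [hTc]
    refine (pow_le_pow_left₀ hX0 hX1 _).trans (le_of_eq ?_)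
    rw [← Real.exp_nat_mul]
    congr 1
    push_cast
    ring
  have hRcard : (R.card : ℝ) = (q : ℝ) ^ 3 * (8 : ℝ) ^ m := by
    rw [hR, Finset.card_biUnion hdisj]
    have : ∀ t ∈ T, (root t).card = (2 ^ m) ^ 3 := by
      intro t ht
      obtain ⟨h1, h2, h3⟩ := hTmem t ht
      exact blk_card h (hbd _ h1) (hbd _ h2) (hbd _ h3)
    rw [Finset.sum_congr rfl this, Finset.sum_const]
    have hTc : T.card = q ^ 3 := by
      rw [hT]
      simp only [Finset.card_product, Finset.card_range]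
      ring
    rw [hTc]
    push_cast
    rw [nsmul_eq_mul]
    push_cast
    rw [← pow_mul, mul_comm m 3, pow_mul]
    norm_num
  have hUcard : (U.card : ℝ) = (Fintype.card X : ℝ) - (q : ℝ) ^ 3 * (8 : ℝ) ^ m := by
    rw [hU, Finset.card_sdiff_of_subset (Finset.subset_univ R), Finset.card_univ,
      Nat.cast_sub (by rw [← Finset.card_univ]; exact Finset.card_le_card (Finset.subset_univ R)), hRcard]
  have hprod2 : ∏ _x ∈ U, 1 / (1 - z)
      ≤ Real.exp (((Fintype.card X : ℝ) - (q : ℝ) ^ 3 * (8 : ℝ) ^ m) * ((1 - z)⁻¹ * z)) := by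
    rw [Finset.prod_const]
    have h1 : 0 < 1 - z := by linarith
    refine (pow_le_pow_left₀ (by positivity) (inv_one_sub_le_exp_gen hz0 hz1 le_rfl) _).trans (le_of_eq ?_)
    rw [← Real.exp_nat_mul, hUcard]
  have hfin := mul_le_mul hprod1 hprod2 (Finset.prod_nonneg fun _ _ => by
    have h1 : 0 < 1 - z := by linarith
    positivity) (Real.exp_pos _).le
  refine hfin.trans (le_of_eq ?_)
  rw [← Real.exp_add]
  congr 1
  ring


end Vale.Agent.P361Lib
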