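import Vale.Agent.Lib.P361.Spin

/-!
# Bond operators: the Schwinger form of the pair energy and the triangle inequality
-/

open Matrix
open scoped MatrixOrder ComplexOrder

noncomputable section

namespace Vale.Agent.P361Lib

variable {X : Type} [Fintype X] [DecidableEq X] {n : ℕ}

/-- The Schwinger bond operator `a_x b_y - b_x a_y`. -/
def bondA (x y : X) : Op X n :=
  siteOp x (bosA n) * siteOp y (bosB n) - siteOp x (bosB n) * siteOp y (bosA n)

/-- The pair energy `S² - S_x·S_y` for `x ≠ y`, and `0` for `x = y`. -/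
def hEdge (x y : X) : Op X n :=
  if x = y then 0 else
    ((n : ℂ) / 2) ^ 2 • (1 : Op X n) - siteOp x (spinZ n) * siteOp y (spinZ n)
      - (1 / 2 : ℂ) • (siteOp x (spinP n) * siteOp y (spinM n)
          + siteOp x (spinM n) * siteOp y (spinP n))

lemma siteOp_sandwich {x y : X} (hxy : x ≠ y) (p q r s : SMat n) :
    siteOp y r * siteOp x p * (siteOp x q * siteOp y s) = siteOp x (p * q) * siteOp y (r * s) := by
  have h1 : siteOp y r * siteOp x p = siteOp x p * siteOp y r := (siteOp_commute hxy.symm r p).eq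
  have h2 : siteOp y r * siteOp x q = siteOp x q * siteOp y r := (siteOp_commute hxy.symm r q).eq
  rw [h1, ← siteOp_mul_same, ← siteOp_mul_same]
  calc siteOp x p * siteOp y r * (siteOp x q * siteOp y s)
      = siteOp x p * (siteOp y r * siteOp x q) * siteOp y s := by simp only [mul_assoc]
    _ = siteOp x p * (siteOp x q * siteOp y r) * siteOp y s := by rw [h2]
    _ = siteOp x p * siteOp x q * (siteOp y r * siteOp y s) := by simp only [mul_assoc]

lemma bondA_conjTranspose (x y : X) :
    (bondA x y : Op X n)ᴴ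
      = siteOp y (bosB n)ᴴ * siteOp x (bosA n) - siteOp y (bosA n) * siteOp x (bosB n)ᴴ := by
  unfold bondA
  rw [Matrix.conjTranspose_sub, Matrix.conjTranspose_mul, Matrix.conjTranspose_mul]
  simp only [siteOp_conjTranspose, bosA_isHermitian]

/-- `S² - S_x·S_y = ½ A†A`. -/
lemma bondA_sq {x y : X} (hxy : x ≠ y) :
    (bondA x y : Op X n)ᴴ * bondA x y = (2 : ℂ) • hEdge x y := by
  rw [bondA_conjTranspose]
  unfold bondA hEdge
  rw [if_neg hxy]
  rw [sub_mul, mul_sub, mul_sub]
  rw [siteOp_sandwich hxy, siteOp_sandwich hxy, siteOp_sandwich hxy, siteOp_sandwich hxy]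
  rw [bosA_mul_bosA, bosBH_mul_bosB, bosA_mul_bosB, bosBH_mul_bosA, diag_eq_half_add_Z,
    devD_eq_half_sub_Z]
  simp only [siteOp_add, siteOp_sub, siteOp_smul, siteOp_one, add_mul, mul_add, sub_mul, mul_sub,
    smul_mul_assoc, mul_smul_comm, mul_one, one_mul, smul_add, smul_sub, smul_smul]
  ext σ τ
  simp only [Matrix.add_apply, Matrix.sub_apply, Matrix.smul_apply, smul_eq_mul]
  ring

lemma hEdge_self (x : X) : (hEdge x x : Op X n) = 0 := by
  unfold hEdge; simp

lemma hEdge_eq_half_bond {x y : X} (hxy : x ≠ y) :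
    (hEdge x y : Op X n) = (1 / 2 : ℝ) • ((bondA x y : Op X n)ᴴ * bondA x y) := by
  rw [bondA_sq hxy]
  ext σ τ
  simp only [Matrix.smul_apply, Complex.real_smul, smul_eq_mul]
  push_cast
  ring

lemma hEdge_nonneg (x y : X) : 0 ≤ (hEdge x y : Op X n) := by
  by_cases hxy : x = y
  · subst hxy; rw [hEdge_self]
  · rw [hEdge_eq_half_bond hxy]
    refine smul_nonneg (by norm_num) ?_
    exact (Matrix.posSemidef_conjTranspose_mul_self _).nonneg

lemma hEdge_isHermitian (x y : X) : (hEdge x y : Op X n).IsHermitian := by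
  by_cases hxy : x = y
  · subst hxy; rw [hEdge_self]; exact Matrix.isHermitian_zero
  · rw [hEdge_eq_half_bond hxy]
    have := (Matrix.posSemidef_conjTranspose_mul_self (bondA x y : Op X n)).smul
      (show (0 : ℝ) ≤ 1 / 2 by norm_num)
    exact this.1

lemma hEdge_comm (x y : X) : (hEdge x y : Op X n) = hEdge y x := by
  unfold hEdge
  by_cases hxy : x = y
  · subst hxy; rfl
  · rw [if_neg hxy, if_neg (Ne.symm hxy)]
    have h1 : siteOp x (spinZ n) * siteOp y (spinZ n) = (siteOp y (spinZ n) * siteOp x (spinZ n) : Op X n) :=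
      (siteOp_commute hxy _ _).eq
    have h2 : siteOp x (spinP n) * siteOp y (spinM n) = (siteOp y (spinM n) * siteOp x (spinP n) : Op X n) :=
      (siteOp_commute hxy _ _).eq
    have h3 : siteOp x (spinM n) * siteOp y (spinP n) = (siteOp y (spinP n) * siteOp x (spinM n) : Op X n) :=
      (siteOp_commute hxy _ _).eq
    rw [h1, h2, h3, add_comm (siteOp y (spinM n) * siteOp x (spinP n))]

section Cross

variable {x y z : X}

private lemma cross_t1 (hxy : x ≠ y) (u v w : SMat n) :
    (siteOp y u * (siteOp x v * siteOp z w) : Op X n) = siteOp x v * (siteOp y u * siteOp z w) := by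
  rw [← mul_assoc, (siteOp_commute hxy.symm u v).eq, mul_assoc]

private lemma cross_t2 (hxz : x ≠ z) (hyz : y ≠ z) (u v w : SMat n) :
    (siteOp z u * (siteOp x v * siteOp y w) : Op X n) = siteOp x v * (siteOp y w * siteOp z u) := by
  rw [← mul_assoc, (siteOp_commute hxz.symm u v).eq, mul_assoc, (siteOp_commute hyz.symm u w).eq]

/-- The cross identity behind the triangle inequality, for `c = a`. -/
lemma bond_cross_a (hxy : x ≠ y) (hxz : x ≠ z) (hyz : y ≠ z) :
    siteOp y (bosA n) * bondA x z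
      = siteOp z (bosA n) * bondA x y + siteOp x (bosA n) * bondA y z := by
  unfold bondA
  simp only [mul_sub, cross_t1 hxy, cross_t2 hxz hyz]
  abel

/-- The cross identity behind the triangle inequality, for `c = b`. -/
lemma bond_cross_b (hxy : x ≠ y) (hxz : x ≠ z) (hyz : y ≠ z) :
    siteOp y (bosB n) * bondA x z
      = siteOp z (bosB n) * bondA x y + siteOp x (bosB n) * bondA y z := by
  unfold bondA
  simp only [mul_sub, cross_t1 hxy, cross_t2 hxz hyz]
  abel

end Cross

/-- Number identity at a site, conjugated by any operator. -/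
lemma number_conj (y : X) (U : Op X n) :
    (siteOp y (bosA n) * U)ᴴ * (siteOp y (bosA n) * U)
      + (siteOp y (bosB n) * U)ᴴ * (siteOp y (bosB n) * U) = (n : ℂ) • (Uᴴ * U) := by
  rw [Matrix.conjTranspose_mul, Matrix.conjTranspose_mul, siteOp_conjTranspose, siteOp_conjTranspose,
    bosA_isHermitian]
  have key : (siteOp y (bosA n) * siteOp y (bosA n) + siteOp y (bosB n)ᴴ * siteOp y (bosB n) : Op X n)
      = (n : ℂ) • (1 : Op X n) := by
    rw [siteOp_mul_same, siteOp_mul_same, ← siteOp_add, bos_number, siteOp_smul, siteOp_one]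
  calc Uᴴ * siteOp y (bosA n) * (siteOp y (bosA n) * U)
        + Uᴴ * siteOp y (bosB n)ᴴ * (siteOp y (bosB n) * U)
      = Uᴴ * (siteOp y (bosA n) * siteOp y (bosA n) + siteOp y (bosB n)ᴴ * siteOp y (bosB n)) * U := by
        simp only [mul_add, add_mul, mul_assoc]
    _ = (n : ℂ) • (Uᴴ * U) := by
        rw [key, mul_smul_comm, smul_mul_assoc, mul_one]

/-- The elementary inequality `(P+Q)†(P+Q) ≤ (1+t) P†P + (1+1/t) Q†Q`. -/
lemma add_sq_le {m : Type} [Fintype m] (P Q : Matrix m m ℂ) {t : ℝ} (ht : 0 < t) :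
    (P + Q)ᴴ * (P + Q) ≤ (1 + t) • (Pᴴ * P) + (1 + 1 / t) • (Qᴴ * Q) := by
  rw [Matrix.le_iff]
  have hs : 0 < Real.sqrt t := Real.sqrt_pos.mpr ht
  set s : ℝ := Real.sqrt t with hsdef
  have hss : s * s = t := Real.mul_self_sqrt ht.le
  have h := Matrix.posSemidef_conjTranspose_mul_self (s • P - (1 / s) • Q)
  have e1 : (s • P - (1 / s) • Q)ᴴ = s • Pᴴ - (1 / s) • Qᴴ := by
    rw [Matrix.conjTranspose_sub, Matrix.conjTranspose_smul, Matrix.conjTranspose_smul]
    simp
  have hst : (1 / s) * (1 / s) = 1 / t := by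
    rw [← hss]; field_simp
  have hs1 : s * (1 / s) = 1 := by field_simp
  have hs2 : (1 / s) * s = 1 := by field_simp
  have e : (1 + t) • (Pᴴ * P) + (1 + 1 / t) • (Qᴴ * Q) - (P + Q)ᴴ * (P + Q)
      = (s • P - (1 / s) • Q)ᴴ * (s • P - (1 / s) • Q) := by
    rw [e1]
    simp only [Matrix.conjTranspose_add, add_mul, mul_add, sub_mul, mul_sub, smul_mul_assoc,
      mul_smul_comm, smul_smul, smul_add, smul_sub, hss, hst, hs1, hs2, add_smul, one_smul]
    abel
  rw [e]
  exact h

/-- Triangle inequality for the squared bond operators. -/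
lemma bond_triangle (hn : 1 ≤ n) {x y z : X} (hxy : x ≠ y) (hxz : x ≠ z) (hyz : y ≠ z) {t : ℝ}
    (ht : 0 < t) :
    (bondA x z : Op X n)ᴴ * bondA x z
      ≤ (1 + t) • ((bondA x y : Op X n)ᴴ * bondA x y)
        + (1 + 1 / t) • ((bondA y z : Op X n)ᴴ * bondA y z) := by
  have hn0 : (0 : ℝ) < n := by exact_mod_cast hn
  -- abbreviations
  set U : Op X n := bondA x z
  set V : Op X n := bondA x y
  set W : Op X n := bondA y z
  have h1 := add_sq_le (siteOp z (bosA n) * V) (siteOp x (bosA n) * W) ht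
  have h2 := add_sq_le (siteOp z (bosB n) * V) (siteOp x (bosB n) * W) ht
  have ca : siteOp y (bosA n) * U = siteOp z (bosA n) * V + siteOp x (bosA n) * W :=
    bond_cross_a hxy hxz hyz
  have cb : siteOp y (bosB n) * U = siteOp z (bosB n) * V + siteOp x (bosB n) * W :=
    bond_cross_b hxy hxz hyz
  have hU := number_conj y U
  have hV := number_conj z V
  have hW := number_conj x W
  rw [ca, cb] at hU
  have hsum := add_le_add h1 h2
  rw [hU] at hsum
  have hR : ((1 + t) • ((siteOp z (bosA n) * V)ᴴ * (siteOp z (bosA n) * V))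
        + (1 + 1 / t) • ((siteOp x (bosA n) * W)ᴴ * (siteOp x (bosA n) * W)))
      + ((1 + t) • ((siteOp z (bosB n) * V)ᴴ * (siteOp z (bosB n) * V))
        + (1 + 1 / t) • ((siteOp x (bosB n) * W)ᴴ * (siteOp x (bosB n) * W)))
      = (n : ℂ) • ((1 + t) • (Vᴴ * V) + (1 + 1 / t) • (Wᴴ * W)) := by
    rw [smul_add, smul_comm (n : ℂ) (1 + t), smul_comm (n : ℂ) (1 + 1 / t), ← hV, ← hW]
    simp only [smul_add]
    abel
  rw [hR] at hsum
  -- divide by `n`
  have hscale := smul_le_smul_of_nonneg_left hsum (show (0 : ℝ) ≤ 1 / (n : ℝ) by positivity)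
  have e : ∀ M : Op X n, (1 / (n : ℝ)) • ((n : ℂ) • M) = M := by
    intro M
    ext σ τ
    simp only [Matrix.smul_apply, Complex.real_smul, smul_eq_mul]
    have : (n : ℂ) ≠ 0 := by exact_mod_cast hn0.ne'
    push_cast
    field_simp
  rwa [e, e] at hscale

/-- Triangle inequality for the pair energy, valid for all triples of sites. -/
lemma hEdge_triangle (hn : 1 ≤ n) (x y z : X) {t : ℝ} (ht : 0 < t) :
    (hEdge x z : Op X n) ≤ (1 + t) • hEdge x y + (1 + 1 / t) • hEdge y z := by
  have ht1 : 0 ≤ 1 + t := by linarith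
  have ht2 : 0 ≤ 1 + 1 / t := by positivity
  by_cases hxz : x = z
  · subst hxz
    rw [hEdge_self]
    exact add_nonneg (smul_nonneg ht1 (hEdge_nonneg _ _)) (smul_nonneg ht2 (hEdge_nonneg _ _))
  by_cases hxy : x = y
  · subst hxy
    rw [hEdge_self, smul_zero, zero_add]
    have : (1 / t) • (hEdge x z : Op X n) ≥ 0 := smul_nonneg (by positivity) (hEdge_nonneg _ _)
    rw [add_smul, one_smul]
    exact le_add_of_nonneg_right this
  by_cases hyz : y = z
  · subst hyz
    rw [hEdge_self, smul_zero, add_zero]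
    have : t • (hEdge x y : Op X n) ≥ 0 := smul_nonneg ht.le (hEdge_nonneg _ _)
    rw [add_smul, one_smul]
    exact le_add_of_nonneg_right this
  rw [hEdge_eq_half_bond hxz, hEdge_eq_half_bond hxy, hEdge_eq_half_bond hyz]
  have h := smul_le_smul_of_nonneg_left (bond_triangle hn hxy hxz hyz ht)
    (show (0 : ℝ) ≤ 1 / 2 by norm_num)
  rw [smul_add, smul_comm (1 / 2 : ℝ) (1 + t), smul_comm (1 / 2 : ℝ) (1 + 1 / t)] at h
  exact h

/-- Path inequality: the pair energy between the endpoints of a path of `d` steps is at most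
`d` times the sum of the pair energies along the path. -/
lemma hEdge_path (hn : 1 ≤ n) (g : ℕ → X) (a d : ℕ) :
    (hEdge (g a) (g (a + d)) : Op X n)
      ≤ (d : ℝ) • ∑ i ∈ Finset.range d, hEdge (g (a + i)) (g (a + i + 1)) := by
  induction d with
  | zero => simp [hEdge_self]
  | succ d ih =>
    rw [Finset.sum_range_succ, ← add_assoc a d 1]
    by_cases hd : d = 0
    · subst hd
      simp
    · have hd' : (0 : ℝ) < d := by exact_mod_cast Nat.pos_of_ne_zero hd
      have h := hEdge_triangle (X := X) (n := n) hn (g a) (g (a + d)) (g (a + d + 1))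
        (t := 1 / (d : ℝ)) (by positivity)
      refine h.trans ?_
      have h2 := smul_le_smul_of_nonneg_left ih (show (0 : ℝ) ≤ 1 + 1 / (d : ℝ) by positivity)
      have e1 : (1 + 1 / (d : ℝ)) • (d : ℝ) • ∑ i ∈ Finset.range d, (hEdge (g (a + i)) (g (a + i + 1)) : Op X n)
          = ((d + 1 : ℕ) : ℝ) • ∑ i ∈ Finset.range d, (hEdge (g (a + i)) (g (a + i + 1)) : Op X n) := by
        rw [smul_smul]
        congr 1
        push_cast
        field_simp
      have e2 : (1 + 1 / (1 / (d : ℝ))) = ((d + 1 : ℕ) : ℝ) := by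
        push_cast
        field_simp
        ring
      rw [e2, smul_add]
      exact add_le_add (e1 ▸ h2) le_rfl

end Vale.Agent.P361Lib
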