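import Vale.Agent.Lib.P361.Bond

/-!
# Total spin operators on a block and the complete-graph Casimir
-/

open Matrix
open scoped MatrixOrder ComplexOrder

noncomputable section

namespace Vale.Agent.P361Lib

variable {X : Type} [Fintype X] [DecidableEq X] {n : ℕ}

/-- Number of spin deviations in the block `k`. -/
def devCount (k : Finset X) (σ : Cfg X n) : ℕ := ∑ x ∈ k, ((σ x : Fin (n + 1)) : ℕ)

/-- The complete-graph pair energy on the block `k` (each unordered pair counted once). -/
def casimir (k : Finset X) : Op X n := (1 / 2 : ℂ) • ∑ x ∈ k, ∑ y ∈ k, hEdge x y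

lemma totalOp_mul_totalOp (k : Finset X) (a b : SMat n) :
    totalOp k a * totalOp k b = ∑ x ∈ k, ∑ y ∈ k, siteOp x a * siteOp y b := by
  unfold totalOp
  rw [Finset.sum_mul_sum]

lemma totalOp_sub_comm (k : Finset X) (a b : SMat n) :
    totalOp k a * totalOp k b - totalOp k b * totalOp k a = totalOp k (a * b - b * a) := by
  rw [totalOp_mul_totalOp, totalOp_mul_totalOp]
  rw [Finset.sum_comm (f := fun x y => siteOp x b * siteOp y a)]
  rw [← Finset.sum_sub_distrib]
  unfold totalOp
  refine Finset.sum_congr rfl fun x hx => ?_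
  rw [← Finset.sum_sub_distrib]
  rw [Finset.sum_eq_single x]
  · rw [siteOp_mul_same, siteOp_mul_same, siteOp_sub]
  · intro y _ hy
    have := (siteOp_commute (Ne.symm hy) a b).eq
    rw [this, sub_self]
  · intro h; exact absurd hx h

lemma totalOp_add (k : Finset X) (a b : SMat n) :
    totalOp k (a + b) = totalOp k a + totalOp k b := by
  unfold totalOp
  simp only [siteOp_add, Finset.sum_add_distrib]

lemma totalOp_sub (k : Finset X) (a b : SMat n) :
    totalOp k (a - b) = totalOp k a - totalOp k b := by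
  unfold totalOp
  simp only [siteOp_sub, Finset.sum_sub_distrib]

lemma totalOp_smul (k : Finset X) (c : ℂ) (a : SMat n) :
    totalOp k (c • a) = c • totalOp k a := by
  unfold totalOp
  simp only [siteOp_smul, Finset.smul_sum]

lemma totalOp_neg (k : Finset X) (a : SMat n) :
    totalOp k (-a) = -totalOp k a := by
  unfold totalOp
  simp only [siteOp_neg, Finset.sum_neg_distrib]

lemma totalOp_one (k : Finset X) :
    totalOp k (1 : SMat n) = ((k.card : ℂ)) • (1 : Op X n) := by
  unfold totalOp
  simp only [siteOp_one, Finset.sum_const]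
  rw [← Nat.cast_smul_eq_nsmul ℂ]

lemma totalOp_conjTranspose (k : Finset X) (a : SMat n) :
    (totalOp k a)ᴴ = totalOp k aᴴ := by
  unfold totalOp
  rw [Matrix.conjTranspose_sum]
  simp only [siteOp_conjTranspose]

/-- The total deviation number is diagonal. -/
lemma totalOp_devD (k : Finset X) :
    totalOp k (devD n) = diagonal (fun σ : Cfg X n => ((devCount k σ : ℕ) : ℂ)) := by
  unfold totalOp devD devCount
  simp only [siteOp_diagonal]
  ext σ τ
  rw [Matrix.sum_apply]
  by_cases h : σ = τ
  · subst h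
    simp
  · rw [Matrix.diagonal_apply_ne _ h]
    refine Finset.sum_eq_zero fun x _ => ?_
    exact Matrix.diagonal_apply_ne _ h

lemma totalZ_eq (k : Finset X) :
    totalOp k (spinZ n) = (((n : ℂ) / 2) * k.card) • (1 : Op X n) - totalOp k (devD n) := by
  rw [spinZ_eq_half_sub_D, totalOp_sub, totalOp_smul, totalOp_one, smul_smul, mul_comm]

/-- The commutator `[S⁺_k, S⁻_k] = 2 S³_k`. -/
lemma total_comm_PM (k : Finset X) :
    totalOp k (spinP n) * totalOp k (spinM n) - totalOp k (spinM n) * totalOp k (spinP n)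
      = (2 : ℂ) • totalOp k (spinZ n) := by
  rw [totalOp_sub_comm, spin_comm_PM, totalOp_smul]

lemma total_comm_DM (k : Finset X) :
    totalOp k (devD n) * totalOp k (spinM n) - totalOp k (spinM n) * totalOp k (devD n)
      = totalOp k (spinM n) := by
  rw [totalOp_sub_comm, devD_comm_M]

lemma total_comm_DP (k : Finset X) :
    totalOp k (devD n) * totalOp k (spinP n) - totalOp k (spinP n) * totalOp k (devD n)
      = -totalOp k (spinP n) := by
  rw [totalOp_sub_comm, devD_comm_P, totalOp_neg]

/-- The diagonal term of the pair expression: `S² - S_x·S_x = -S`. -/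
lemma single_site_pair :
    ((n : ℂ) / 2) ^ 2 • (1 : SMat n) - spinZ n * spinZ n
      - (1 / 2 : ℂ) • (spinP n * spinM n + spinM n * spinP n) = (-((n : ℂ) / 2)) • (1 : SMat n) := by
  rw [spinP_mul_spinM, spinM_mul_spinP]
  unfold spinZ
  rw [Matrix.diagonal_mul_diagonal, Matrix.diagonal_add, ← Matrix.diagonal_one,
    ← Matrix.diagonal_smul, ← Matrix.diagonal_smul, ← Matrix.diagonal_smul, Matrix.diagonal_sub,
    Matrix.diagonal_sub]
  congr 1
  funext i
  simp only [Pi.smul_apply, smul_eq_mul]
  ring

/-- The Casimir identity: `2 C_k = (2s+1) N - N² - S⁻S⁺` with `2s = n |k|`. -/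
lemma casimir_eq (k : Finset X) :
    (2 : ℂ) • (casimir k : Op X n)
      = (((n : ℂ) * k.card + 1)) • totalOp k (devD n) - totalOp k (devD n) * totalOp k (devD n)
        - totalOp k (spinM n) * totalOp k (spinP n) := by
  -- the pair expression without the diagonal restriction
  set T : X → X → Op X n := fun x y =>
    ((n : ℂ) / 2) ^ 2 • (1 : Op X n) - siteOp x (spinZ n) * siteOp y (spinZ n)
      - (1 / 2 : ℂ) • (siteOp x (spinP n) * siteOp y (spinM n)
          + siteOp x (spinM n) * siteOp y (spinP n)) with hT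
  have hdiag : ∀ x : X, T x x = (-((n : ℂ) / 2)) • (1 : Op X n) := by
    intro x
    simp only [hT]
    rw [siteOp_mul_same, siteOp_mul_same, siteOp_mul_same, ← siteOp_one (x := x), ← siteOp_smul,
      ← siteOp_sub, ← siteOp_add, ← siteOp_smul, ← siteOp_sub, single_site_pair, siteOp_smul]
  have hE : ∀ x y : X, (hEdge x y : Op X n) = T x y - if x = y then T x y else 0 := by
    intro x y
    unfold hEdge
    by_cases h : x = y
    · simp [h]
    · simp [h, hT]
  have hsum : ∑ x ∈ k, ∑ y ∈ k, (hEdge x y : Op X n)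
      = (∑ x ∈ k, ∑ y ∈ k, T x y) + (((n : ℂ) / 2) * k.card) • (1 : Op X n) := by
    have : ∀ x ∈ k, ∑ y ∈ k, (hEdge x y : Op X n) = (∑ y ∈ k, T x y) - T x x := by
      intro x hx
      simp only [hE]
      rw [Finset.sum_sub_distrib]
      congr 1
      rw [Finset.sum_ite_eq, if_pos hx]
    rw [Finset.sum_congr rfl this, Finset.sum_sub_distrib, sub_eq_add_neg]
    congr 1
    simp only [hdiag, Finset.sum_const]
    rw [← Nat.cast_smul_eq_nsmul ℂ, smul_smul, ← neg_smul]
    congr 1
    ring
  have hsumT : ∑ x ∈ k, ∑ y ∈ k, T x y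
      = (((n : ℂ) / 2) ^ 2 * ((k.card : ℂ) * k.card)) • (1 : Op X n)
        - totalOp k (spinZ n) * totalOp k (spinZ n)
        - (1 / 2 : ℂ) • (totalOp k (spinP n) * totalOp k (spinM n)
            + totalOp k (spinM n) * totalOp k (spinP n)) := by
    rw [totalOp_mul_totalOp, totalOp_mul_totalOp, totalOp_mul_totalOp]
    simp only [hT, Finset.sum_sub_distrib, Finset.sum_const, ← Finset.smul_sum,
      Finset.sum_add_distrib]
    congr 2
    rw [← Nat.cast_smul_eq_nsmul ℂ, ← Nat.cast_smul_eq_nsmul ℂ, smul_smul, smul_smul]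
    congr 1
    ring
  have hPM := total_comm_PM (n := n) k
  have hPM' : totalOp k (spinP n) * totalOp k (spinM n)
      = totalOp k (spinM n) * totalOp k (spinP n) + (2 : ℂ) • totalOp k (spinZ n) := by
    rw [← hPM]; abel
  unfold casimir
  rw [smul_smul]
  norm_num
  rw [hsum, hsumT, hPM', totalZ_eq]
  set D : Op X n := totalOp k (devD n)
  set B : Op X n := totalOp k (spinM n) * totalOp k (spinP n)
  set s : ℂ := ((n : ℂ) / 2) * k.card with hs
  have hsq : ((n : ℂ) / 2) ^ 2 * ((k.card : ℂ) * k.card) = s * s := by rw [hs]; ring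
  have hcard : ((n : ℂ) * k.card + 1) = 2 * s + 1 := by rw [hs]; ring
  rw [hsq, hcard]
  simp only [sub_mul, mul_sub, smul_mul_assoc, mul_smul_comm, one_mul, mul_one, smul_sub, smul_add,
    smul_smul, add_smul, one_smul]
  ext σ τ
  simp only [Matrix.add_apply, Matrix.sub_apply, Matrix.smul_apply, smul_eq_mul]
  ring

end Vale.Agent.P361Lib
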