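import Vale.Agent.Lib.P361.Occ

/-!
# Algebra of coarse blocks
-/

open Matrix Finset
open scoped MatrixOrder ComplexOrder

noncomputable section

namespace Vale.Agent.P361Lib

section PSD

variable {Ω : Type} [Fintype Ω] [DecidableEq Ω]

/-- A product of commuting positive semidefinite matrices is positive semidefinite. -/
theorem posSemidef_mul_of_commute {A B : Matrix Ω Ω ℂ} (hA : A.PosSemidef) (hB : B.PosSemidef)
    (hc : Commute A B) : (B * A).PosSemidef := by
  classical
  have hAH : A.IsHermitian := hA.isHermitian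
  set V : Matrix Ω Ω ℂ := (hAH.eigenvectorUnitary : Matrix Ω Ω ℂ) with hVdef
  have hV1 : Vᴴ * V = 1 := by
    have := Unitary.coe_star_mul_self hAH.eigenvectorUnitary
    rwa [Matrix.star_eq_conjTranspose] at this
  have hV2 : V * Vᴴ = 1 := mul_eq_one_comm.mp hV1
  set lam : Ω → ℝ := hAH.eigenvalues with hlam
  have hspec : A = V * rdiag lam * Vᴴ := by
    have := hAH.spectral_theorem
    rw [Unitary.conjStarAlgAut_apply, Matrix.star_eq_conjTranspose] at this
    exact this
  have hlam0 : ∀ i, 0 ≤ lam i := fun i => hA.eigenvalues_nonneg i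
  set r : Ω → ℝ := fun i => Real.sqrt (lam i) with hr
  have hrr : ∀ i, r i * r i = lam i := fun i => Real.mul_self_sqrt (hlam0 i)
  set R : Matrix Ω Ω ℂ := V * rdiag r * Vᴴ with hR
  have hRH : Rᴴ = R := by
    rw [hR, Matrix.conjTranspose_mul, Matrix.conjTranspose_mul, Matrix.conjTranspose_conjTranspose,
      (rdiag_herm r).eq, Matrix.mul_assoc]
  have hdd : rdiag r * rdiag r = rdiag lam := by
    unfold rdiag
    rw [Matrix.diagonal_mul_diagonal]
    congr 1
    funext i
    rw [← Complex.ofReal_mul, hrr]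
  have hRR : R * R = A := by
    rw [hR, hspec, ← hdd]
    have : V * rdiag r * Vᴴ * (V * rdiag r * Vᴴ) = V * (rdiag r * (Vᴴ * V) * rdiag r) * Vᴴ := by
      simp only [Matrix.mul_assoc]
    rw [this, hV1, Matrix.mul_one]
  -- the commutation of `B` with the square root
  set B' : Matrix Ω Ω ℂ := Vᴴ * B * V with hB'
  have hB'c : ∀ i j, (((lam j : ℝ) : ℂ) - ((lam i : ℝ) : ℂ)) * B' i j = 0 := by
    intro i j
    have h1 : rdiag lam * B' = B' * rdiag lam := by
      have e1 : rdiag lam = Vᴴ * A * V := by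
        rw [hspec]
        simp only [Matrix.mul_assoc]
        rw [hV1, Matrix.mul_one, ← Matrix.mul_assoc, hV1, Matrix.one_mul]
      rw [e1, hB']
      have e2 : Vᴴ * A * V * (Vᴴ * B * V) = Vᴴ * A * (V * Vᴴ) * B * V := by
        simp only [Matrix.mul_assoc]
      have e3 : Vᴴ * B * V * (Vᴴ * A * V) = Vᴴ * B * (V * Vᴴ) * A * V := by
        simp only [Matrix.mul_assoc]
      rw [e2, e3, hV2, Matrix.mul_one, Matrix.mul_one]
      simp only [Matrix.mul_assoc]
      rw [← Matrix.mul_assoc A B, hc.eq, Matrix.mul_assoc]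
    have h2 := congrFun (congrFun h1 i) j
    unfold rdiag at h2
    rw [Matrix.diagonal_mul, Matrix.mul_diagonal] at h2
    rw [sub_mul, mul_comm _ (B' i j), ← h2, sub_self]
  have hB'r : rdiag r * B' = B' * rdiag r := by
    ext i j
    unfold rdiag
    rw [Matrix.diagonal_mul, Matrix.mul_diagonal]
    rcases mul_eq_zero.mp (hB'c i j) with h | h
    · have h1 : lam j = lam i := by
        have := sub_eq_zero.mp h
        exact_mod_cast this
      simp only [hr]
      rw [h1, mul_comm]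
    · rw [h]
      simp
  have hRB : Commute B R := by
    show B * R = R * B
    have e1 : B = V * B' * Vᴴ := by
      rw [hB']
      simp only [Matrix.mul_assoc]
      rw [hV2, Matrix.mul_one, ← Matrix.mul_assoc, hV2, Matrix.one_mul]
    rw [e1, hR]
    have e2 : V * B' * Vᴴ * (V * rdiag r * Vᴴ) = V * (B' * (Vᴴ * V) * rdiag r) * Vᴴ := by
      simp only [Matrix.mul_assoc]
    have e3 : V * rdiag r * Vᴴ * (V * B' * Vᴴ) = V * (rdiag r * (Vᴴ * V) * B') * Vᴴ := by
      simp only [Matrix.mul_assoc]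
    rw [e2, e3, hV1, Matrix.mul_one, Matrix.mul_one, hB'r]
  have e : B * A = Rᴴ * B * R := by
    rw [hRH, ← hRR, ← Matrix.mul_assoc, hRB.eq]
  rw [e]
  exact hB.conjTranspose_mul_mul_same R

end PSD

section Blocks

variable {X : Type} [Fintype X] [DecidableEq X] {n : ℕ}

lemma siteP_comm (x y : X) : Commute (siteOp x (spinP n) : Op X n) (siteOp y (spinP n)) := by
  by_cases h : x = y
  · subst h
    exact Commute.refl _
  · exact siteOp_commute h _ _

lemma totalP_comm (k k' : Finset X) :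
    Commute (totalOp k (spinP n) : Op X n) (totalOp k' (spinP n)) := by
  unfold totalOp
  exact Commute.sum_left _ _ _ fun x _ => Commute.sum_right _ _ _ fun y _ => siteP_comm x y

/-- The algebra behind the `SU(2)` invariance of the Casimir. -/
lemma casimir_comm_P_aux {R : Type} [Ring R] {N P M : R} {s : ℂ} [Algebra ℂ R]
    (h1 : N * P - P * N = -P)
    (h2 : P * M - M * P = (2 : ℂ) • (s • (1 : R) - N)) :
    (((2 * s + 1 : ℂ) • N) - N * N - M * P) * P = P * (((2 * s + 1 : ℂ) • N) - N * N - M * P) := by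
  have h1' : N * P = P * N - P := by rw [← sub_eq_zero, ← sub_eq_zero.mpr h1]; abel
  have h2' : P * M = M * P + (2 : ℂ) • (s • (1 : R) - N) := by rw [← h2]; abel
  have e1 : N * N * P = P * N * N - P * N - N * P := by
    rw [mul_assoc, h1', mul_sub, ← mul_assoc, h1']
    noncomm_ring
  have e2 : P * (M * P) = M * P * P + (2 * s) • P - (2 : ℂ) • (N * P) := by
    rw [← mul_assoc, h2', add_mul, smul_mul_assoc, sub_mul, smul_mul_assoc, one_mul, smul_sub, smul_smul]
    abel
  have e3 : P * (N * N) = P * N * N := (mul_assoc _ _ _).symm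
  simp only [sub_mul, mul_sub, smul_mul_assoc, mul_smul_comm]
  rw [e1, e2, e3, h1']
  module

lemma total_comm_PM' (k : Finset X) :
    (totalOp k (spinP n) : Op X n) * totalOp k (spinM n) - totalOp k (spinM n) * totalOp k (spinP n)
      = (2 : ℂ) • ((((n : ℂ) / 2) * k.card) • (1 : Op X n) - totalOp k (devD n)) := by
  rw [total_comm_PM, totalZ_eq]

lemma casimir_comm_P (k : Finset X) :
    Commute (casimir k : Op X n) (totalOp k (spinP n)) := by
  have h := casimir_eq (X := X) (n := n) k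
  have e : ((n : ℂ) * k.card + 1) = 2 * (((n : ℂ) / 2) * k.card) + 1 := by ring
  rw [e] at h
  have h2 := casimir_comm_P_aux (R := Op X n) (N := totalOp k (devD n)) (P := totalOp k (spinP n))
    (M := totalOp k (spinM n)) (s := ((n : ℂ) / 2) * k.card) (total_comm_DP k) (total_comm_PM' k)
  rw [← h] at h2
  show _ * _ = _ * _
  rw [smul_mul_assoc, mul_smul_comm] at h2
  exact smul_right_injective _ (two_ne_zero (α := ℂ)) h2

lemma casimir_comm_N (k : Finset X) :
    Commute (casimir k : Op X n) (totalOp k (devD n)) := by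
  have h := casimir_eq (X := X) (n := n) k
  have hNM : totalOp k (devD n) * (totalOp k (spinM n) * totalOp k (spinP n))
      = (totalOp k (spinM n) * totalOp k (spinP n)) * (totalOp k (devD n) : Op X n) := by
    have h1 := total_comm_DM (X := X) (n := n) k
    have h2 := total_comm_DP (X := X) (n := n) k
    have h1' : (totalOp k (devD n) : Op X n) * totalOp k (spinM n)
        = totalOp k (spinM n) * totalOp k (devD n) + totalOp k (spinM n) := by
      have := sub_eq_iff_eq_add.mp h1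
      rw [this]; abel
    have h2' : (totalOp k (devD n) : Op X n) * totalOp k (spinP n)
        = totalOp k (spinP n) * totalOp k (devD n) - totalOp k (spinP n) := by
      have := sub_eq_iff_eq_add.mp h2
      rw [this]; abel
    rw [← mul_assoc, h1', add_mul, mul_assoc, h2', mul_sub, mul_assoc]
    abel
  have h2 : ((2 : ℂ) • (casimir k : Op X n)) * totalOp k (devD n)
      = totalOp k (devD n) * ((2 : ℂ) • (casimir k : Op X n)) := by
    rw [h]
    simp only [sub_mul, mul_sub, smul_mul_assoc, mul_smul_comm]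
    rw [hNM, mul_assoc]
  show _ * _ = _ * _
  rw [smul_mul_assoc, mul_smul_comm] at h2
  exact smul_right_injective _ (two_ne_zero (α := ℂ)) h2

/-- Operators localised in disjoint blocks commute. -/
lemma Loc.commute_of_disjoint {a b : Finset X} (h : Disjoint a b) {A B : Op X n} (hA : Loc a A)
    (hB : Loc b B) : Commute A B :=
  hA B (hB.off h.symm)

/-- The positive remainder in the square of the block raising operator. -/
def blockW (k : Finset X) : Op X n :=
  totalOp k (devD n) * totalOp k (devD n) - totalOp k (devD n) + (2 : ℂ) • casimir k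

lemma blockP_sq (k : Finset X) :
    (totalOp k (spinP n) : Op X n)ᴴ * totalOp k (spinP n)
      = ((n : ℂ) * k.card) • totalOp k (devD n) - blockW k := by
  rw [totalOp_conjTranspose]
  have h := casimir_eq (X := X) (n := n) k
  unfold blockW
  rw [h]
  show totalOp k (spinM n) * _ = _
  have e : ((n : ℂ) * k.card + 1) • (totalOp k (devD n) : Op X n)
      = ((n : ℂ) * k.card) • totalOp k (devD n) + totalOp k (devD n) := by
    rw [add_smul, one_smul]
  rw [e]
  abel

lemma totalOp_devD_rdiag (k : Finset X) :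
    (totalOp k (devD n) : Op X n) = rdiag fun σ : Cfg X n => ((devCount k σ : ℕ) : ℝ) := by
  rw [totalOp_devD]
  unfold rdiag
  congr 1

lemma blockW_psd (k : Finset X) : (blockW k : Op X n).PosSemidef := by
  unfold blockW
  refine Matrix.PosSemidef.add ?_ ?_
  · rw [totalOp_devD_rdiag]
    unfold rdiag
    rw [Matrix.diagonal_mul_diagonal, Matrix.diagonal_sub]
    refine Matrix.PosSemidef.diagonal ?_
    intro σ
    show (0 : ℂ) ≤ ((devCount k σ : ℕ) : ℝ) * (((devCount k σ : ℕ) : ℝ) : ℂ) - (((devCount k σ : ℕ) : ℝ) : ℂ)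
    have h : (0 : ℝ) ≤ ((devCount k σ : ℕ) : ℝ) * ((devCount k σ : ℕ) : ℝ) - ((devCount k σ : ℕ) : ℝ) := by
      rcases Nat.eq_zero_or_pos (devCount k σ) with h0 | h0
      · simp [h0]
      · have : (1 : ℝ) ≤ ((devCount k σ : ℕ) : ℝ) := by exact_mod_cast h0
        nlinarith
    exact_mod_cast h
  · have h := casimir_nonneg (X := X) (n := n) k
    have h2 : (casimir k : Op X n).PosSemidef := by
      have := Matrix.le_iff.mp h
      simpa using this
    have e : (2 : ℂ) • (casimir k : Op X n) = (2 : ℝ) • casimir k := by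
      rw [show (2 : ℂ) = ((2 : ℝ) : ℂ) by push_cast; rfl, Complex.coe_smul]
    rw [e]
    exact h2.smul (by norm_num)

/-- The normalised block raising operator. -/
def bOp (n V : ℕ) (k : Finset X) : Op X n :=
  ((Real.sqrt ((n : ℝ) * V))⁻¹ : ℝ) • totalOp k (spinP n)

lemma bOp_sq {V : ℕ} {k : Finset X} (hk : k.card = V) (hv : 0 < (n : ℝ) * V) :
    (bOp n V k)ᴴ * bOp n V k = totalOp k (devD n) - ((1 / ((n : ℝ) * V) : ℝ) : ℂ) • blockW k := by
  unfold bOp
  rw [Matrix.conjTranspose_smul, star_trivial, smul_mul_smul_comm, blockP_sq, hk]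
  have hs := Real.mul_self_sqrt hv.le
  have hs0 : Real.sqrt ((n : ℝ) * V) ≠ 0 := (Real.sqrt_pos.mpr hv).ne'
  have e : (Real.sqrt ((n : ℝ) * V))⁻¹ * (Real.sqrt ((n : ℝ) * V))⁻¹ = 1 / ((n : ℝ) * V) := by
    rw [one_div, ← mul_inv, hs]
  rw [e, ← Complex.coe_smul, smul_sub, smul_smul]
  have e2 : ((1 / ((n : ℝ) * V) : ℝ) : ℂ) * ((n : ℂ) * V) = 1 := by
    have : (((n : ℝ) * V : ℝ) : ℂ) ≠ 0 := by exact_mod_cast hv.ne'
    push_cast at this ⊢
    exact one_div_mul_cancel this
  rw [e2, one_smul]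

lemma nrm_mulVec (A : Op X n) (ψ : Cfg X n → ℂ) : nrm (A *ᵥ ψ) = qf (Aᴴ * A) ψ := by
  have h := qf_conj (1 : Op X n) A ψ
  rw [Matrix.mul_one, qf_one] at h
  rw [nrm_eq_vnsq, h]

lemma qf_sub (A B : Op X n) (v : Cfg X n → ℂ) : qf (A - B) v = qf A v - qf B v := by
  unfold qf
  rw [Matrix.sub_mulVec, dotProduct_sub, Complex.sub_re]

lemma qf_csmul (r : ℝ) (A : Op X n) (v : Cfg X n → ℂ) : qf ((r : ℂ) • A) v = r * qf A v := by
  rw [Complex.coe_smul, qf_smul]

lemma qf_psd_nonneg {A : Op X n} (h : A.PosSemidef) (v : Cfg X n → ℂ) : 0 ≤ qf A v :=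
  h.re_dotProduct_nonneg v

lemma nrm_bOp {V : ℕ} {k : Finset X} (hk : k.card = V) (hv : 0 < (n : ℝ) * V) (ψ : Cfg X n → ℂ) :
    nrm (bOp n V k *ᵥ ψ) = qf (totalOp k (devD n)) ψ - (1 / ((n : ℝ) * V)) * qf (blockW k) ψ := by
  rw [nrm_mulVec, bOp_sq hk hv, qf_sub, qf_csmul]

lemma wnsq_sum_sector {K : ℕ} {ψ : Cfg X n → ℂ} (h : InSec K ψ) (f : Cfg X n → ℝ) {c : ℝ}
    (hf : ∀ σ, devCount (Finset.univ : Finset X) σ = K → f σ ≤ c) : wnsq f ψ ≤ c * nrm ψ := by
  rw [nrm_eq_vnsq]
  unfold wnsq vnsq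
  rw [Finset.mul_sum]
  refine Finset.sum_le_sum fun σ _ => ?_
  by_cases hσ : devCount (Finset.univ : Finset X) σ = K
  · exact mul_le_mul_of_nonneg_right (hf σ hσ) (Complex.normSq_nonneg _)
  · rw [h σ hσ]
    simp

lemma wnsq_sum_sector_ge {K : ℕ} {ψ : Cfg X n → ℂ} (h : InSec K ψ) (f : Cfg X n → ℝ) {c : ℝ}
    (hf : ∀ σ, devCount (Finset.univ : Finset X) σ = K → c ≤ f σ) : c * nrm ψ ≤ wnsq f ψ := by
  rw [nrm_eq_vnsq]
  unfold wnsq vnsq
  rw [Finset.mul_sum]
  refine Finset.sum_le_sum fun σ _ => ?_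
  by_cases hσ : devCount (Finset.univ : Finset X) σ = K
  · exact mul_le_mul_of_nonneg_right (hf σ hσ) (Complex.normSq_nonneg _)
  · rw [h σ hσ]
    simp

variable {ι : Type} [Fintype ι] [DecidableEq ι]

/-- The sum of the Casimir operators of the blocks. -/
def cas (b : ι → Finset X) : Op X n := ∑ i, casimir (b i)

lemma cas_psd (b : ι → Finset X) : (cas b : Op X n).PosSemidef := by
  unfold cas
  refine Matrix.posSemidef_sum _ fun i _ => ?_
  have := Matrix.le_iff.mp (casimir_nonneg (X := X) (n := n) (b i))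
  simpa using this

lemma cas_herm (b : ι → Finset X) : (cas b : Op X n).IsHermitian := (cas_psd b).isHermitian

lemma cas_comm_P {b : ι → Finset X} (hdis : ∀ i j, i ≠ j → Disjoint (b i) (b j)) (j : ι) :
    Commute (cas b : Op X n) (totalOp (b j) (spinP n)) := by
  unfold cas
  refine Commute.sum_left _ _ _ fun i _ => ?_
  by_cases h : i = j
  · subst h
    exact casimir_comm_P _
  · exact Loc.commute_of_disjoint (hdis i j h) (loc_casimir _) (loc_totalOp _ _)

lemma cas_comm_N {b : ι → Finset X} (hdis : ∀ i j, i ≠ j → Disjoint (b i) (b j)) (j : ι) :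
    Commute (cas b : Op X n) (totalOp (b j) (devD n)) := by
  unfold cas
  refine Commute.sum_left _ _ _ fun i _ => ?_
  by_cases h : i = j
  · subst h
    exact casimir_comm_N _
  · exact Loc.commute_of_disjoint (hdis i j h) (loc_casimir _) (loc_totalOp _ _)

lemma cas_comm_C {b : ι → Finset X} (hdis : ∀ i j, i ≠ j → Disjoint (b i) (b j)) (j : ι) :
    Commute (cas b : Op X n) (casimir (b j)) := by
  unfold cas
  refine Commute.sum_left _ _ _ fun i _ => ?_
  by_cases h : i = j
  · subst h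
    exact Commute.refl _
  · exact Loc.commute_of_disjoint (hdis i j h) (loc_casimir _) (loc_casimir _)

lemma cas_comm_W {b : ι → Finset X} (hdis : ∀ i j, i ≠ j → Disjoint (b i) (b j)) (j : ι) :
    Commute (cas b : Op X n) (blockW (b j)) := by
  unfold blockW
  refine Commute.add_right (Commute.sub_right ?_ ?_) ?_
  · exact (cas_comm_N hdis j).mul_right (cas_comm_N hdis j)
  · exact cas_comm_N hdis j
  · exact (cas_comm_C hdis j).smul_right _

lemma cas_comm_bOp {b : ι → Finset X} (hdis : ∀ i j, i ≠ j → Disjoint (b i) (b j)) (V : ℕ) (j : ι) :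
    Commute (cas b : Op X n) (bOp n V (b j)) := by
  unfold bOp
  exact (cas_comm_P hdis j).smul_right _

lemma sum_devCount {b : ι → Finset X} (hdis : ∀ i j, i ≠ j → Disjoint (b i) (b j))
    (hcov : ∀ x, ∃ i, x ∈ b i) (σ : Cfg X n) :
    ∑ i, devCount (b i) σ = devCount (Finset.univ : Finset X) σ := by
  unfold devCount
  have h : (Finset.univ : Finset X) = Finset.univ.biUnion b := by
    ext x
    simp [hcov x]
  rw [h, Finset.sum_biUnion]
  intro i _ j _ hij
  exact hdis i j hij

lemma sum_totalOp_devD {b : ι → Finset X} (hdis : ∀ i j, i ≠ j → Disjoint (b i) (b j))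
    (hcov : ∀ x, ∃ i, x ∈ b i) :
    ∑ i, (totalOp (b i) (devD n) : Op X n) = totalOp (Finset.univ : Finset X) (devD n) := by
  have h : (Finset.univ : Finset X) = Finset.univ.biUnion b := by
    ext x
    simp [hcov x]
  rw [h]
  unfold totalOp
  rw [Finset.sum_biUnion]
  intro i _ j _ hij
  exact hdis i j hij

lemma devTotal_act {K : ℕ} {ψ : Cfg X n → ℂ} (h : InSec K ψ) :
    (totalOp (Finset.univ : Finset X) (devD n) : Op X n) *ᵥ ψ = ((K : ℝ) : ℂ) • ψ := by
  rw [totalOp_devD]
  funext σ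
  rw [Matrix.mulVec_diagonal]
  by_cases hσ : devCount (Finset.univ : Finset X) σ = K
  · rw [hσ]
    simp
  · simp [h σ hσ]

/-- The three basic bounds for the block raising operators. -/
theorem blocks_upper {b : ι → Finset X} (hdis : ∀ i j, i ≠ j → Disjoint (b i) (b j))
    (hcov : ∀ x, ∃ i, x ∈ b i) {V : ℕ} (hV : ∀ i, (b i).card = V) (hv : 0 < (n : ℝ) * V) {K : ℕ}
    {ψ : Cfg X n → ℂ} (hψ : InSec K ψ) :
    ∑ i, nrm (bOp n V (b i) *ᵥ ψ) ≤ (K : ℝ) * nrm ψ := by
  have hv' : 0 < 1 / ((n : ℝ) * V) := by positivity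
  have h1 : ∀ i, nrm (bOp n V (b i) *ᵥ ψ) ≤ qf (totalOp (b i) (devD n)) ψ := by
    intro i
    rw [nrm_bOp (hV i) hv]
    have := qf_psd_nonneg (blockW_psd (n := n) (b i)) ψ
    nlinarith [mul_nonneg hv'.le this]
  refine (Finset.sum_le_sum fun i _ => h1 i).trans (le_of_eq ?_)
  rw [← qf_sum, sum_totalOp_devD hdis hcov]
  unfold qf
  rw [devTotal_act hψ, dotProduct_smul, smul_eq_mul, Complex.re_ofReal_mul]
  rfl

/-- The lower bound on the sum of squares of the block raising operators. -/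
theorem blocks_lower {b : ι → Finset X} (hdis : ∀ i j, i ≠ j → Disjoint (b i) (b j))
    (hcov : ∀ x, ∃ i, x ∈ b i) {V : ℕ} (hV : ∀ i, (b i).card = V) (hv : 0 < (n : ℝ) * V) {K : ℕ}
    {ψ : Cfg X n → ℂ} (hψ : InSec K ψ) :
    (K : ℝ) * (1 - ((K : ℝ) - 1) / ((n : ℝ) * V)) * nrm ψ - (2 / ((n : ℝ) * V)) * qf (cas b) ψ
      ≤ ∑ i, nrm (bOp n V (b i) *ᵥ ψ) := by
  set v : ℝ := (n : ℝ) * V with hvdef
  have hE : ∑ i, nrm (bOp n V (b i) *ᵥ ψ)
      = (K : ℝ) * nrm ψ - (1 / v) * ∑ i, qf (blockW (b i)) ψ := by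
    simp only [nrm_bOp (hV _) hv]
    rw [Finset.sum_sub_distrib, ← Finset.mul_sum, ← qf_sum, sum_totalOp_devD hdis hcov]
    congr 1
    unfold qf
    rw [devTotal_act hψ, dotProduct_smul, smul_eq_mul, Complex.re_ofReal_mul]
    rfl
  rw [hE]
  have hW : ∑ i, qf (blockW (b i)) ψ ≤ ((K : ℝ) ^ 2 - K) * nrm ψ + 2 * qf (cas b) ψ := by
    have e : ∀ i, qf (blockW (b i)) ψ
        = wnsq (fun σ => ((devCount (b i) σ : ℕ) : ℝ) ^ 2 - ((devCount (b i) σ : ℕ) : ℝ)) ψ
          + 2 * qf (casimir (b i)) ψ := by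
      intro i
      unfold blockW
      rw [qf_add, totalOp_devD_rdiag, qf_sub]
      have e1 : (2 : ℂ) • (casimir (b i) : Op X n) = ((2 : ℝ) : ℂ) • casimir (b i) := by push_cast; rfl
      rw [e1, qf_csmul]
      congr 1
      have e2 : rdiag (fun σ : Cfg X n => ((devCount (b i) σ : ℕ) : ℝ))
          * rdiag (fun σ : Cfg X n => ((devCount (b i) σ : ℕ) : ℝ))
          = rdiag (fun σ : Cfg X n => ((devCount (b i) σ : ℕ) : ℝ) ^ 2) := by
        unfold rdiag
        rw [Matrix.diagonal_mul_diagonal]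
        congr 1
        funext σ
        push_cast
        ring
      rw [e2, qf_rdiag, qf_rdiag]
      unfold wnsq
      rw [← Finset.sum_sub_distrib]
      refine Finset.sum_congr rfl fun σ _ => ?_
      ring
    simp only [e]
    rw [Finset.sum_add_distrib, ← Finset.mul_sum, ← qf_sum]
    refine add_le_add ?_ (le_of_eq ?_)
    · have e3 : ∑ i, wnsq (fun σ => ((devCount (b i) σ : ℕ) : ℝ) ^ 2 - ((devCount (b i) σ : ℕ) : ℝ)) ψ
          = wnsq (fun σ => ∑ i, (((devCount (b i) σ : ℕ) : ℝ) ^ 2 - ((devCount (b i) σ : ℕ) : ℝ))) ψ := by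
        unfold wnsq
        rw [Finset.sum_comm]
        refine Finset.sum_congr rfl fun σ _ => ?_
        rw [Finset.sum_mul]
      rw [e3]
      refine wnsq_sum_sector hψ _ ?_
      intro σ hσ
      have hs := sum_devCount hdis hcov σ
      rw [hσ] at hs
      have hs' : ∑ i, ((devCount (b i) σ : ℕ) : ℝ) = (K : ℝ) := by exact_mod_cast hs
      rw [Finset.sum_sub_distrib, hs']
      have hle : ∑ i, ((devCount (b i) σ : ℕ) : ℝ) ^ 2 ≤ (K : ℝ) ^ 2 := by
        have : ∀ i, ((devCount (b i) σ : ℕ) : ℝ) ^ 2 ≤ (K : ℝ) * ((devCount (b i) σ : ℕ) : ℝ) := by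
          intro i
          have h1 : devCount (b i) σ ≤ K := by
            rw [← hs]
            exact Finset.single_le_sum (f := fun i => devCount (b i) σ) (fun _ _ => Nat.zero_le _)
              (Finset.mem_univ i)
          have h2 : ((devCount (b i) σ : ℕ) : ℝ) ≤ K := by exact_mod_cast h1
          have h3 : (0 : ℝ) ≤ ((devCount (b i) σ : ℕ) : ℝ) := by positivity
          nlinarith
        refine (Finset.sum_le_sum fun i _ => this i).trans (le_of_eq ?_)
        rw [← Finset.mul_sum, hs']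
        ring
      linarith
    · rfl
  have hinv : 0 < 1 / v := by positivity
  have h2 := mul_le_mul_of_nonneg_left hW hinv.le
  have e4 : (K : ℝ) * (1 - ((K : ℝ) - 1) / v) * nrm ψ - 2 / v * qf (cas b) ψ
      = (K : ℝ) * nrm ψ - (1 / v) * (((K : ℝ) ^ 2 - K) * nrm ψ + 2 * qf (cas b) ψ) := by
    field_simp
    ring
  rw [e4]
  linarith

/-- The bound on the Casimir form along the block raising operators. -/
theorem blocks_cas {b : ι → Finset X} (hdis : ∀ i j, i ≠ j → Disjoint (b i) (b j))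
    (hcov : ∀ x, ∃ i, x ∈ b i) {V : ℕ} (hV : ∀ i, (b i).card = V) (hv : 0 < (n : ℝ) * V) {K : ℕ}
    {ψ : Cfg X n → ℂ} (hψ : InSec K ψ) :
    ∑ i, qf (cas b) (bOp n V (b i) *ᵥ ψ) ≤ (K : ℝ) * qf (cas b) ψ := by
  set v : ℝ := (n : ℝ) * V with hvdef
  have hv' : 0 < 1 / v := by positivity
  have h1 : ∀ i, qf (cas b) (bOp n V (b i) *ᵥ ψ) ≤ qf (totalOp (b i) (devD n) * cas b) ψ := by
    intro i
    rw [← qf_conj]
    have e : (bOp n V (b i))ᴴ * cas b * bOp n V (b i)
        = totalOp (b i) (devD n) * cas b - ((1 / v : ℝ) : ℂ) • (blockW (b i) * cas b) := by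
      rw [Matrix.mul_assoc, (cas_comm_bOp hdis V i).eq, ← Matrix.mul_assoc, bOp_sq (hV i) hv]
      rw [Matrix.sub_mul, smul_mul_assoc]
    rw [e, qf_sub, qf_csmul]
    have hp := posSemidef_mul_of_commute (cas_psd b) (blockW_psd (n := n) (b i)) (cas_comm_W hdis i)
    have := qf_psd_nonneg hp ψ
    nlinarith [mul_nonneg hv'.le this]
  refine (Finset.sum_le_sum fun i _ => h1 i).trans (le_of_eq ?_)
  rw [← qf_sum, ← Finset.sum_mul, sum_totalOp_devD hdis hcov]
  have hc : Commute (totalOp (Finset.univ : Finset X) (devD n) : Op X n) (cas b) := by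
    have := sum_totalOp_devD (n := n) hdis hcov
    rw [← this]
    exact Commute.sum_left _ _ _ fun i _ => (cas_comm_N hdis i).symm
  rw [hc.eq]
  unfold qf
  rw [← Matrix.mulVec_mulVec, devTotal_act hψ, Matrix.mulVec_smul, dotProduct_smul, smul_eq_mul,
    Complex.re_ofReal_mul]

end Blocks

end Vale.Agent.P361Lib
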