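import Vale.Agent.Lib.P361.Fine

/-!
# The comparison map for a grid
-/

open Matrix Finset
open scoped MatrixOrder ComplexOrder

noncomputable section

namespace Vale.Agent.P361Lib

variable {X : Type} [Fintype X] [DecidableEq X] {n : ℕ}

lemma block_div {a c c' u u' : ℕ} (hu : u < a) (hu' : u' < a) (e : a * c + u = a * c' + u') :
    c = c' ∧ u = u' := by
  have h1 : (a * c + u) / a = c := by
    rw [Nat.mul_add_div (by omega), Nat.div_eq_of_lt hu, add_zero]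
  have h2 : (a * c' + u') / a = c' := by
    rw [Nat.mul_add_div (by omega), Nat.div_eq_of_lt hu', add_zero]
  have h3 : c = c' := by rw [← h1, e, h2]
  subst h3
  exact ⟨rfl, by omega⟩

/-- The coarse block attached to a coarse site. -/
def cblock (G : ℕ → ℕ → ℕ → X) (a : ℕ) {M : ℕ} (c : C3 M) : Finset X :=
  blk G a (a * c.1) (a * c.2.1) (a * c.2.2)

section Grid

variable {adj : X → X → Prop} {a M : ℕ} {G : ℕ → ℕ → ℕ → X}

omit [Fintype X] in
lemma cblock_disj (h : GridOK adj (a * M) G) (i j : C3 M) (hij : i ≠ j) :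
    Disjoint (cblock G a i) (cblock G a j) := by
  rw [Finset.disjoint_left]
  intro x hx hx'
  obtain ⟨u, v, w, hu, hv, hw, rfl⟩ := mem_blk.mp hx
  obtain ⟨u', v', w', hu', hv', hw', e⟩ := mem_blk.mp hx'
  obtain ⟨e1, e2, e3⟩ := h.inj _ _ _ _ _ _ (c_lt i.1.2 hu) (c_lt i.2.1.2 hv) (c_lt i.2.2.2 hw)
    (c_lt j.1.2 hu') (c_lt j.2.1.2 hv') (c_lt j.2.2.2 hw') e.symm
  apply hij
  obtain ⟨k1, _⟩ := block_div hu hu' e1
  obtain ⟨k2, _⟩ := block_div hv hv' e2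
  obtain ⟨k3, _⟩ := block_div hw hw' e3
  exact Prod.ext (Fin.ext k1) (Prod.ext (Fin.ext k2) (Fin.ext k3))

omit [Fintype X] in
lemma cblock_cover (ha : 0 < a)
    (hsurj : ∀ x, ∃ u v w, u < a * M ∧ v < a * M ∧ w < a * M ∧ G u v w = x) (x : X) :
    ∃ c : C3 M, x ∈ cblock G a c := by
  obtain ⟨u, v, w, hu, hv, hw, rfl⟩ := hsurj x
  have key : ∀ t, t < a * M → t / a < M ∧ t % a < a ∧ a * (t / a) + t % a = t := by
    intro t ht
    refine ⟨Nat.div_lt_of_lt_mul ht, Nat.mod_lt _ ha, Nat.div_add_mod _ _⟩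
  obtain ⟨a1, a2, a3⟩ := key u hu
  obtain ⟨b1, b2, b3⟩ := key v hv
  obtain ⟨c1, c2, c3⟩ := key w hw
  refine ⟨(⟨u / a, a1⟩, ⟨v / a, b1⟩, ⟨w / a, c1⟩), mem_blk.mpr ⟨u % a, v % a, w % a, a2, b2, c2, ?_⟩⟩
  simp only [a3, b3, c3]

omit [Fintype X] in
lemma cblock_card (h : GridOK adj (a * M) G) (c : C3 M) : (cblock G a c).card = a ^ 3 := by
  unfold cblock
  have key : ∀ t : Fin M, a * (t : ℕ) + a ≤ a * M := by
    intro t
    have h1 : a * ((t : ℕ) + 1) ≤ a * M := Nat.mul_le_mul_left a t.2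
    have e : a * ((t : ℕ) + 1) = a * (t : ℕ) + a := by ring
    omega
  exact blk_card h (key _) (key _) (key _)

lemma cblock_totalOp (h : GridOK adj (a * M) G) (c : C3 M) (s : SMat n) :
    (totalOp (cblock G a c) s : Op X n)
      = ∑ u ∈ Finset.range a, ∑ v ∈ Finset.range a, ∑ w ∈ Finset.range a,
          siteOp (G (a * c.1 + u) (a * c.2.1 + v) (a * c.2.2 + w)) s := by
  unfold totalOp cblock blk gridBlock shiftG
  rw [Finset.sum_image]
  · simp only [Finset.sum_product]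
  · rintro ⟨u, v, w⟩ hp ⟨u', v', w'⟩ hp' e
    simp only [Finset.coe_product, Finset.coe_range, Set.mem_prod, Set.mem_Iio] at hp hp'
    obtain ⟨e1, e2, e3⟩ := h.inj _ _ _ _ _ _ (c_lt c.1.2 hp.1) (c_lt c.2.1.2 hp.2.1) (c_lt c.2.2.2 hp.2.2)
      (c_lt c.1.2 hp'.1) (c_lt c.2.1.2 hp'.2.1) (c_lt c.2.2.2 hp'.2.2) e
    have k1 : u = u' := by omega
    have k2 : v = v' := by omega
    have k3 : w = w' := by omega
    subst k1 k2 k3
    rfl

lemma cblock_mulVec (h : GridOK adj (a * M) G) (c : C3 M) (ψ : Cfg X n → ℂ) :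
    (totalOp (cblock G a c) (spinP n) : Op X n) *ᵥ ψ = WW G a ψ c.1 c.2.1 c.2.2 := by
  rw [cblock_totalOp h]
  unfold WW
  simp only [Matrix.sum_mulVec]

end Grid

/-- The annihilation operators of the modes. -/
def modeF (G : ℕ → ℕ → ℕ → X) (a M : ℕ) (q : C3 M) : Op X n :=
  ∑ c : C3 M, ((O3 c q : ℝ) : ℂ) • bOp n (a ^ 3) (cblock G a c)

lemma modeF_mulVec (G : ℕ → ℕ → ℕ → X) (a M : ℕ) (q : C3 M) (ψ : Cfg X n → ℂ) :
    modeF G a M q *ᵥ ψ = ∑ c : C3 M, ((O3 c q : ℝ) : ℂ) • (bOp n (a ^ 3) (cblock G a c) *ᵥ ψ) := by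
  unfold modeF
  rw [Matrix.sum_mulVec]
  simp only [Matrix.smul_mulVec]

lemma bOp_comm (V V' : ℕ) (k k' : Finset X) : Commute (bOp n V k) (bOp n V' k') := by
  unfold bOp
  exact ((totalP_comm k k').smul_left _).smul_right _

lemma modeF_comm (G : ℕ → ℕ → ℕ → X) (a M : ℕ) (p q : C3 M) :
    Commute (modeF (n := n) G a M p) (modeF G a M q) := by
  unfold modeF
  refine Commute.sum_left _ _ _ fun c _ => Commute.sum_right _ _ _ fun c' _ => ?_
  exact ((bOp_comm _ _ _ _).smul_left _).smul_right _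

/-- The modes lower the deviation number by one. -/
lemma modeF_lower (G : ℕ → ℕ → ℕ → X) (a M : ℕ) (q : C3 M) (K : ℕ) (ψ : Cfg X n → ℂ)
    (hψ : InSec (K + 1) ψ) : InSec K (modeF G a M q *ᵥ ψ) := by
  intro σ hσ
  rw [modeF_mulVec, Finset.sum_apply]
  refine Finset.sum_eq_zero fun c _ => ?_
  rw [Pi.smul_apply]
  unfold bOp
  rw [Matrix.smul_mulVec, Pi.smul_apply]
  unfold totalOp
  rw [Matrix.sum_mulVec, Finset.sum_apply]
  have : ∑ x ∈ cblock G a c, (siteOp x (spinP n) *ᵥ ψ) σ = 0 := by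
    refine Finset.sum_eq_zero fun x _ => ?_
    by_contra hne
    have := lowering_site spinP_lower x hψ hne
    omega
  rw [this]
  simp

section Forms

variable {adj : X → X → Prop} {a M : ℕ} {G : ℕ → ℕ → ℕ → X}

lemma cblock_hV (h : GridOK adj (a * M) G) (i : C3 M) : (cblock G a i).card = a ^ 3 := cblock_card h i

lemma modeF_sum_qf (A : Op X n) (ψ : Cfg X n → ℂ) :
    ∑ q : C3 M, qf A (modeF G a M q *ᵥ ψ)
      = ∑ c : C3 M, qf A (bOp n (a ^ 3) (cblock G a c) *ᵥ ψ) := by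
  simp only [modeF_mulVec]
  exact parseval_orth A (fun c q => O3 c q) O3_compl _

/-- The upper bound on the mode norms. -/
lemma modeF_upper (hv : 0 < (n : ℝ) * ((a ^ 3 : ℕ) : ℝ)) (h : GridOK adj (a * M) G) (ha : 0 < a)
    (hsurj : ∀ x, ∃ u v w, u < a * M ∧ v < a * M ∧ w < a * M ∧ G u v w = x)
    {K : ℕ} {ψ : Cfg X n → ℂ} (hψ : InSec K ψ) :
    ∑ q : C3 M, nrm (modeF G a M q *ᵥ ψ) ≤ (K : ℝ) * nrm ψ := by
  have e : ∀ v : Cfg X n → ℂ, nrm v = qf (1 : Op X n) v := fun v => by rw [nrm_eq_vnsq, qf_one]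
  simp only [e]
  rw [modeF_sum_qf]
  simp only [← e]
  exact blocks_upper (b := cblock (M := M) G a) (fun i j hij => cblock_disj h i j hij)
    (cblock_cover ha hsurj) (cblock_hV h) hv hψ

/-- The lower bound on the mode norms. -/
lemma modeF_lower_bd (hv : 0 < (n : ℝ) * ((a ^ 3 : ℕ) : ℝ)) (h : GridOK adj (a * M) G) (ha : 0 < a)
    (hsurj : ∀ x, ∃ u v w, u < a * M ∧ v < a * M ∧ w < a * M ∧ G u v w = x)
    {K : ℕ} {ψ : Cfg X n → ℂ} (hψ : InSec K ψ) :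
    (K : ℝ) * (1 - ((K : ℝ) - 1) / ((n : ℝ) * ((a ^ 3 : ℕ) : ℝ))) * nrm ψ
        - (2 / ((n : ℝ) * ((a ^ 3 : ℕ) : ℝ))) * qf (cas (cblock (M := M) G a)) ψ
      ≤ ∑ q : C3 M, nrm (modeF G a M q *ᵥ ψ) := by
  have e : ∀ v : Cfg X n → ℂ, nrm v = qf (1 : Op X n) v := fun v => by rw [nrm_eq_vnsq, qf_one]
  have h1 := blocks_lower (b := cblock (M := M) G a) (fun i j hij => cblock_disj h i j hij)
    (cblock_cover ha hsurj) (cblock_hV h) hv hψ
  refine h1.trans (le_of_eq ?_)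
  simp only [e]
  rw [modeF_sum_qf]

/-- The Casimir form along the modes. -/
lemma modeF_cas (hv : 0 < (n : ℝ) * ((a ^ 3 : ℕ) : ℝ)) (h : GridOK adj (a * M) G) (ha : 0 < a)
    (hsurj : ∀ x, ∃ u v w, u < a * M ∧ v < a * M ∧ w < a * M ∧ G u v w = x)
    {K : ℕ} {ψ : Cfg X n → ℂ} (hψ : InSec K ψ) :
    ∑ q : C3 M, qf (cas (cblock (M := M) G a)) (modeF G a M q *ᵥ ψ)
      ≤ (K : ℝ) * qf (cas (cblock (M := M) G a)) ψ := by
  rw [modeF_sum_qf]
  exact blocks_cas (b := cblock (M := M) G a) (fun i j hij => cblock_disj h i j hij)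
    (cblock_cover ha hsurj) (cblock_hV h) hv hψ

/-- The one-particle energies of the coarse modes. -/
def epsQ (n a : ℕ) {M : ℕ} (q : C3 M) : ℝ := (n : ℝ) / (2 * (a : ℝ) ^ 2) * lam3 q

lemma lamN_nonneg (M q : ℕ) : 0 ≤ lamN M q := by
  unfold lamN
  have := Real.cos_le_one (Real.pi * q / M)
  linarith

lemma lam3_nonneg (q : C3 M) : 0 ≤ lam3 q :=
  add_nonneg (add_nonneg (lamN_nonneg _ _) (lamN_nonneg _ _)) (lamN_nonneg _ _)

lemma epsQ_nonneg (q : C3 M) : 0 ≤ epsQ n a q :=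
  mul_nonneg (by positivity) (lam3_nonneg q)

/-- The energy identity for the modes. -/
lemma modes_energy (hv : 0 < (n : ℝ) * ((a ^ 3 : ℕ) : ℝ)) (h : GridOK adj (a * M) G) (ha : 0 < a)
    (ψ : Cfg X n → ℂ) :
    ∑ q : C3 M, epsQ n a q * nrm (modeF G a M q *ᵥ ψ)
      = (1 / (2 * (a : ℝ) ^ 5)) *
        (∑ c2 ∈ Finset.range M, ∑ c3 ∈ Finset.range M, ∑ t ∈ Finset.range (M - 1),
            nrm (WW G a ψ t c2 c3 - WW G a ψ (t + 1) c2 c3)
          + ∑ c1 ∈ Finset.range M, ∑ c3 ∈ Finset.range M, ∑ t ∈ Finset.range (M - 1),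
            nrm (WW G a ψ c1 t c3 - WW G a ψ c1 (t + 1) c3)
          + ∑ c1 ∈ Finset.range M, ∑ c2 ∈ Finset.range M, ∑ t ∈ Finset.range (M - 1),
            nrm (WW G a ψ c1 c2 t - WW G a ψ c1 c2 (t + 1))) := by
  set v : ℝ := (n : ℝ) * ((a ^ 3 : ℕ) : ℝ) with hvdef
  set r : ℝ := (Real.sqrt v)⁻¹ with hr
  have hr2 : r ^ 2 = 1 / v := by
    rw [hr, inv_pow, Real.sq_sqrt hv.le, one_div]
  set W : ℕ → ℕ → ℕ → Cfg X n → ℂ := fun c1 c2 c3 => ((r : ℝ) : ℂ) • WW G a ψ c1 c2 c3 with hW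
  have hmodes : ∀ q : C3 M, modeF G a M q *ᵥ ψ = ∑ c : C3 M, ((O3 c q : ℝ) : ℂ) • W c.1 c.2.1 c.2.2 := by
    intro q
    rw [modeF_mulVec]
    refine Finset.sum_congr rfl fun c _ => ?_
    congr 1
    unfold bOp
    rw [Matrix.smul_mulVec, cblock_mulVec h]
    funext σ
    simp only [hW, Pi.smul_apply, hr, hvdef, Complex.real_smul, smul_eq_mul]
  have hlap := modes_lap (M := M) W
  simp only [← hmodes] at hlap
  unfold epsQ
  simp only [mul_assoc]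
  rw [← Finset.mul_sum, hlap]
  have hsub : ∀ A B : Cfg X n → ℂ, nrm (((r : ℝ) : ℂ) • A - ((r : ℝ) : ℂ) • B) = (1 / v) * nrm (A - B) := by
    intro A B
    rw [← smul_sub, nrm_smul, hr2]
  simp only [hW, hsub]
  simp only [← Finset.mul_sum]
  have e1 : ∀ f : ℕ → ℝ, ∑ i : Fin M, f i = ∑ i ∈ Finset.range M, f i :=
    fun f => Fin.sum_univ_eq_sum_range f M
  have e2 : ∑ c2 : Fin M, ∑ c3 : Fin M, ∑ t ∈ Finset.range (M - 1), nrm (WW G a ψ t c2 c3 - WW G a ψ (t + 1) c2 c3)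
      = ∑ c2 ∈ Finset.range M, ∑ c3 ∈ Finset.range M, ∑ t ∈ Finset.range (M - 1), nrm (WW G a ψ t c2 c3 - WW G a ψ (t + 1) c2 c3) := by
    rw [← e1 (fun c2 => ∑ c3 ∈ Finset.range M, ∑ t ∈ Finset.range (M - 1), nrm (WW G a ψ t c2 c3 - WW G a ψ (t + 1) c2 c3))]
    refine Finset.sum_congr rfl fun c2 _ => ?_
    rw [e1 (fun c3 => ∑ t ∈ Finset.range (M - 1), nrm (WW G a ψ t c2 c3 - WW G a ψ (t + 1) c2 c3))]
  have e3 : ∑ c1 : Fin M, ∑ c3 : Fin M, ∑ t ∈ Finset.range (M - 1), nrm (WW G a ψ c1 t c3 - WW G a ψ c1 (t + 1) c3)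
      = ∑ c1 ∈ Finset.range M, ∑ c3 ∈ Finset.range M, ∑ t ∈ Finset.range (M - 1), nrm (WW G a ψ c1 t c3 - WW G a ψ c1 (t + 1) c3) := by
    rw [← e1 (fun c1 => ∑ c3 ∈ Finset.range M, ∑ t ∈ Finset.range (M - 1), nrm (WW G a ψ c1 t c3 - WW G a ψ c1 (t + 1) c3))]
    refine Finset.sum_congr rfl fun c1 _ => ?_
    rw [e1 (fun c3 => ∑ t ∈ Finset.range (M - 1), nrm (WW G a ψ c1 t c3 - WW G a ψ c1 (t + 1) c3))]
  have e4 : ∑ c1 : Fin M, ∑ c2 : Fin M, ∑ t ∈ Finset.range (M - 1), nrm (WW G a ψ c1 c2 t - WW G a ψ c1 c2 (t + 1))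
      = ∑ c1 ∈ Finset.range M, ∑ c2 ∈ Finset.range M, ∑ t ∈ Finset.range (M - 1), nrm (WW G a ψ c1 c2 t - WW G a ψ c1 c2 (t + 1)) := by
    rw [← e1 (fun c1 => ∑ c2 ∈ Finset.range M, ∑ t ∈ Finset.range (M - 1), nrm (WW G a ψ c1 c2 t - WW G a ψ c1 c2 (t + 1)))]
    refine Finset.sum_congr rfl fun c1 _ => ?_
    rw [e1 (fun c2 => ∑ t ∈ Finset.range (M - 1), nrm (WW G a ψ c1 c2 t - WW G a ψ c1 c2 (t + 1)))]
  rw [e2, e3, e4]
  have hn0 : (n : ℝ) ≠ 0 := by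
    intro h0
    rw [hvdef, h0] at hv
    simp at hv
  have ha0 : (a : ℝ) ≠ 0 := by
    have : a ≠ 0 := by omega
    exact_mod_cast this
  have hvv : v = (n : ℝ) * (a : ℝ) ^ 3 := by
    rw [hvdef]
    push_cast
    rfl
  rw [hvv]
  field_simp

/-- The comparison between the Casimir and the edge energy on a coarse partition. -/
lemma cas_le_edgeSum (hn : 1 ≤ n) [DecidableRel adj] (h : GridOK adj (a * M) G) :
    (cas (cblock (M := M) G a) : Op X n) ≤ (9 * (a : ℝ) ^ 5) • edgeSum adj (Finset.univ : Finset X) := by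
  unfold cas
  have h1 : ∀ c : C3 M, (casimir (cblock G a c) : Op X n) ≤ (9 * (a : ℝ) ^ 5) • edgeSum adj (cblock G a c) := by
    intro c
    have key : ∀ t : Fin M, a * (t : ℕ) + a ≤ a * M := by
      intro t
      have h1 : a * ((t : ℕ) + 1) ≤ a * M := Nat.mul_le_mul_left a t.2
      have e : a * ((t : ℕ) + 1) = a * (t : ℕ) + a := by ring
      omega
    exact casimir_le_edgeSum (n := n) a (shiftG G _ _ _) hn (h.shift (key _) (key _) (key _))
  refine (Finset.sum_le_sum fun c _ => h1 c).trans ?_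
  rw [← Finset.smul_sum]
  refine smul_le_smul_of_nonneg_left ?_ (by positivity)
  have h2 := edgeSum_biUnion_le (X := X) (n := n) adj (Finset.univ : Finset (C3 M)) (cblock G a)
    (fun i _ j _ hij => cblock_disj h i j hij)
  refine h2.trans ?_
  have h3 : (Finset.univ : Finset X) = Finset.univ.biUnion (cblock (M := M) G a) ∪
      (Finset.univ \ Finset.univ.biUnion (cblock (M := M) G a)) := by
    rw [Finset.union_sdiff_of_subset (Finset.subset_univ _)]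
  rw [h3]
  refine le_trans ?_ (edgeSum_union_le adj Finset.disjoint_sdiff)
  exact le_add_of_nonneg_right (edgeSum_nonneg adj _)

end Forms

section SectorMap

variable {Q : Type} [Fintype Q] [DecidableEq Q]

/-- Extension by zero from the sector. -/
def extS {K : ℕ} (ψ₀ : Sec X n K → ℂ) : Cfg X n → ℂ :=
  fun σ => if h : devCount (Finset.univ : Finset X) σ = K then ψ₀ ⟨σ, h⟩ else 0

lemma extS_inSec {K : ℕ} (ψ₀ : Sec X n K → ℂ) : InSec K (extS ψ₀) := by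
  intro σ hσ
  unfold extS
  rw [dif_neg hσ]

lemma extS_val {K : ℕ} (ψ₀ : Sec X n K → ℂ) (σ : Sec X n K) : extS ψ₀ σ.1 = ψ₀ σ := by
  unfold extS
  rw [dif_pos σ.2]

/-- Sums of functions vanishing off a sector. -/
lemma sum_sec {E : Type} [AddCommMonoid E] {K : ℕ} (f : Cfg X n → E)
    (hf : ∀ σ, devCount (Finset.univ : Finset X) σ ≠ K → f σ = 0) :
    ∑ σ : Sec X n K, f σ.1 = ∑ σ, f σ := by
  have h1 : ∑ σ, f σ = ∑ σ ∈ Finset.univ.filter (fun σ : Cfg X n => devCount (Finset.univ : Finset X) σ = K), f σ := by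
    rw [Finset.sum_filter]
    refine Finset.sum_congr rfl fun σ _ => ?_
    by_cases h : devCount (Finset.univ : Finset X) σ = K
    · rw [if_pos h]
    · rw [if_neg h, hf σ h]
  rw [h1]
  rw [Finset.sum_subtype (Finset.univ.filter (fun σ : Cfg X n => devCount (Finset.univ : Finset X) σ = K))
    (p := fun σ : Cfg X n => devCount (Finset.univ : Finset X) σ = K) (by simp)]

lemma vnsq_sec {K : ℕ} (ψ₀ : Sec X n K → ℂ) : vnsq ψ₀ = nrm (extS ψ₀) := by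
  rw [nrm_apply_sum]
  unfold vnsq
  rw [← sum_sec (K := K) (fun σ => Complex.normSq (extS ψ₀ σ))]
  · refine Finset.sum_congr rfl fun σ _ => ?_
    rw [extS_val]
  · intro σ hσ
    rw [extS_inSec ψ₀ σ hσ]
    simp

lemma mulVec_sec {K : ℕ} (A : Op X n) (ψ₀ : Sec X n K → ℂ) (σ : Cfg X n) :
    (A *ᵥ extS ψ₀) σ = ∑ τ : Sec X n K, A σ τ.1 * ψ₀ τ := by
  simp only [Matrix.mulVec, dotProduct]
  rw [← sum_sec (K := K) (fun τ => A σ τ * extS ψ₀ τ)]
  · refine Finset.sum_congr rfl fun τ _ => ?_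
    rw [extS_val]
  · intro τ hτ
    rw [extS_inSec ψ₀ τ hτ, mul_zero]

lemma qf_sec {K : ℕ} (A : Op X n) (ψ₀ : Sec X n K → ℂ) : qf (secBlock K A) ψ₀ = qf A (extS ψ₀) := by
  unfold qf
  congr 1
  simp only [dotProduct]
  rw [← sum_sec (K := K) (fun σ => (star (extS ψ₀)) σ * (A *ᵥ extS ψ₀) σ)]
  · refine Finset.sum_congr rfl fun σ _ => ?_
    simp only [Pi.star_apply, extS_val]
    congr 1
    rw [mulVec_sec]
    rfl
  · intro σ hσ
    simp only [Pi.star_apply]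
    rw [extS_inSec ψ₀ σ hσ]
    simp

/-- The comparison map as a matrix. -/
def RMat (F : Q → Op X n) (hc : ∀ p q, Commute (F p) (F q)) (K : ℕ) :
    Matrix {m // m ∈ Occ Q K} (Sec X n K) ℂ :=
  Matrix.of fun m σ => (((Real.sqrt (mfac m.1))⁻¹ : ℝ) : ℂ) * mono F hc m.1 vac0 σ.1

lemma RMat_mulVec (F : Q → Op X n) (hc : ∀ p q, Commute (F p) (F q)) {K : ℕ} (ψ₀ : Sec X n K → ℂ)
    (m : {m // m ∈ Occ Q K}) :
    (RMat F hc K *ᵥ ψ₀) m = (((Real.sqrt (mfac m.1))⁻¹ : ℝ) : ℂ) * amp F hc m.1 (extS ψ₀) := by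
  unfold amp
  rw [mulVec_sec, Finset.mul_sum]
  simp only [Matrix.mulVec, dotProduct, RMat, Matrix.of_apply]
  refine Finset.sum_congr rfl fun τ _ => ?_
  ring

lemma RMat_normSq (F : Q → Op X n) (hc : ∀ p q, Commute (F p) (F q)) {K : ℕ} (ψ₀ : Sec X n K → ℂ)
    (m : {m // m ∈ Occ Q K}) :
    Complex.normSq ((RMat F hc K *ᵥ ψ₀) m) = rsq F hc (extS ψ₀) m.1 := by
  rw [RMat_mulVec, Complex.normSq_mul, Complex.normSq_ofReal]
  unfold rsq
  have h := mfac_pos m.1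
  have hs := Real.mul_self_sqrt h.le
  have h0 : Real.sqrt (mfac m.1) ≠ 0 := (Real.sqrt_pos.mpr h).ne'
  rw [div_eq_inv_mul, ← hs, mul_inv]
  rw [hs]

lemma RMat_vnsq (F : Q → Op X n) (hc : ∀ p q, Commute (F p) (F q)) {K : ℕ} (ψ₀ : Sec X n K → ℂ) :
    vnsq (RMat F hc K *ᵥ ψ₀) = RN F hc K (extS ψ₀) := by
  unfold vnsq RN
  simp only [RMat_normSq]
  exact Finset.sum_coe_sort (Occ Q K) (fun m => rsq F hc (extS ψ₀) m)

lemma RMat_wnsq (F : Q → Op X n) (hc : ∀ p q, Commute (F p) (F q)) {K : ℕ} (ψ₀ : Sec X n K → ℂ)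
    (E : (Q → ℕ) → ℝ) :
    wnsq (fun m : {m // m ∈ Occ Q K} => E m.1) (RMat F hc K *ᵥ ψ₀)
      = ∑ m ∈ Occ Q K, E m * rsq F hc (extS ψ₀) m := by
  unfold wnsq
  simp only [RMat_normSq]
  exact Finset.sum_coe_sort (Occ Q K) (fun m => E m * rsq F hc (extS ψ₀) m)

end SectorMap

section Main

variable {adj : X → X → Prop} [DecidableRel adj] {a M : ℕ} {G : ℕ → ℕ → ℕ → X}

lemma secBlock_herm {A : Op X n} (hA : A.IsHermitian) (K : ℕ) : (secBlock K A).IsHermitian := by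
  unfold secBlock
  exact hA.submatrix _

/-- The energy attached to an occupation multi-index. -/
def Eocc (n a : ℕ) {M : ℕ} (m : C3 M → ℕ) : ℝ := ∑ q, epsQ n a q * (m q : ℝ)

lemma Eocc_nonneg (m : C3 M → ℕ) : 0 ≤ Eocc n a m :=
  Finset.sum_nonneg fun q _ => mul_nonneg (epsQ_nonneg q) (by positivity)

/-- The two quadratic form estimates on the sector. -/
theorem sector_forms (hn : 1 ≤ n) (ha : 0 < a) (hirr : ∀ x, ¬ adj x x)
    (hsym : ∀ x y, adj x y → adj y x) (h : GridOK adj (a * M) G)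
    (hsurj : ∀ x, ∃ u v w, u < a * M ∧ v < a * M ∧ w < a * M ∧ G u v w = x)
    {K : ℕ} (hKv : (K : ℝ) ^ 2 ≤ (n : ℝ) * ((a ^ 3 : ℕ) : ℝ)) {η : ℝ} (hη : 0 < η)
    {ψ : Cfg X n → ℂ} (hψ : InSec K ψ) :
    ∑ m ∈ Occ (C3 M) K, Eocc n a m * rsq (modeF (n := n) G a M) (modeF_comm G a M) ψ m
        ≤ (1 + η) * qf (edgeSum adj (Finset.univ : Finset X) : Op X n) ψ
          + (1 + 1 / η) * (12 * (n : ℝ) * (K : ℝ) ^ 2 / (a : ℝ) ^ 3) * nrm ψ ∧
      (1 - (K : ℝ) ^ 2 / ((n : ℝ) * ((a ^ 3 : ℕ) : ℝ))) * nrm ψ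
          - (18 * (K : ℝ) * (a : ℝ) ^ 2 / n) * qf (edgeSum adj (Finset.univ : Finset X) : Op X n) ψ
        ≤ RN (modeF (n := n) G a M) (modeF_comm G a M) K ψ := by
  have hn0 : (0 : ℝ) < n := by exact_mod_cast hn
  have ha0 : (0 : ℝ) < a := by exact_mod_cast ha
  have hv : 0 < (n : ℝ) * ((a ^ 3 : ℕ) : ℝ) := by
    push_cast
    positivity
  have hH : 0 ≤ qf (edgeSum adj (Finset.univ : Finset X) : Op X n) ψ := by
    have := qf_le_of_le (edgeSum_nonneg (X := X) (n := n) adj Finset.univ) ψ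
    simpa [qf_zero] using this
  have hnψ := nrm_nonneg ψ
  have hL : ∀ q K ψ, InSec (K + 1) ψ → InSec K ((modeF (n := n) G a M q) *ᵥ ψ) :=
    fun q K ψ hψ => modeF_lower G a M q K ψ hψ
  have hN : ∀ K (ψ : Cfg X n → ℂ), InSec (K + 1) ψ →
      ∑ q, nrm (modeF G a M q *ᵥ ψ) ≤ ((K : ℝ) + 1) * nrm ψ := by
    intro K ψ hψ
    have := modeF_upper hv h ha hsurj hψ
    push_cast at this
    exact this
  constructor
  · cases K with
    | zero =>
      rw [Occ_zero, Finset.sum_singleton]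
      have e : Eocc n a (0 : C3 M → ℕ) = 0 := by
        unfold Eocc
        simp
      rw [e, zero_mul]
      have h1 : 0 ≤ (1 + η) * qf (edgeSum adj (Finset.univ : Finset X) : Op X n) ψ := by positivity
      have h2 : 0 ≤ (1 + 1 / η) * (12 * (n : ℝ) * ((0 : ℕ) : ℝ) ^ 2 / (a : ℝ) ^ 3) * nrm ψ := by positivity
      linarith
    | succ K =>
      have h1 := wsum_le (modeF (n := n) G a M) (modeF_comm G a M) hL hN
        (eps := fun q => epsQ n a q) (fun q => epsQ_nonneg q) K hψ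
      rw [modes_energy hv h ha] at h1
      exact h1.trans (fine_total hirr hsym ha h hψ hη)
  · have h1 := RN_ge (modeF (n := n) G a M) (modeF_comm G a M) hL hv
      (fun ψ => qf (cas (cblock (M := M) G a)) ψ) (fun ψ => qf_psd_nonneg (cas_psd _) ψ)
      (by
        intro K ψ hψ
        have := modeF_lower_bd hv h ha hsurj hψ
        push_cast at this ⊢
        simpa using this)
      (by
        intro K ψ hψ
        have := modeF_cas hv h ha hsurj hψ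
        push_cast at this ⊢
        exact this) K hKv ψ hψ
    refine le_trans ?_ h1
    have hcas := qf_le_of_le (cas_le_edgeSum (X := X) (n := n) (M := M) hn h) ψ
    rw [qf_smul] at hcas
    have hK0 : (0 : ℝ) ≤ K := by positivity
    have hvv : (n : ℝ) * ((a ^ 3 : ℕ) : ℝ) = (n : ℝ) * (a : ℝ) ^ 3 := by push_cast; rfl
    have h3 := mul_le_mul_of_nonneg_left hcas (show 0 ≤ 2 * (K : ℝ) / ((n : ℝ) * ((a ^ 3 : ℕ) : ℝ)) by positivity)
    have e : 2 * (K : ℝ) / ((n : ℝ) * ((a ^ 3 : ℕ) : ℝ)) * (9 * (a : ℝ) ^ 5 * qf (edgeSum adj (Finset.univ : Finset X) : Op X n) ψ)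
        = (18 * (K : ℝ) * (a : ℝ) ^ 2 / n) * qf (edgeSum adj (Finset.univ : Finset X) : Op X n) ψ := by
      rw [hvv]
      field_simp
      ring
    rw [e] at h3
    linarith

/-- The bound on the trace over one sector. -/
theorem sector_trace_le (hn : 1 ≤ n) (ha : 0 < a) (hirr : ∀ x, ¬ adj x x)
    (hsym : ∀ x y, adj x y → adj y x) (h : GridOK adj (a * M) G)
    (hsurj : ∀ x, ∃ u v w, u < a * M ∧ v < a * M ∧ w < a * M ∧ G u v w = x)
    {K K₀ : ℕ} (hK : K ≤ K₀) (hKv : (K₀ : ℝ) ^ 2 ≤ (n : ℝ) * (a : ℝ) ^ 3) {η : ℝ} (hη : 0 < η)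
    {β E₀ : ℝ} (hβ : 0 < β) (hE₀ : 0 ≤ E₀)
    (hg : 0 < (1 - (K₀ : ℝ) ^ 2 / ((n : ℝ) * (a : ℝ) ^ 3)) - (18 * (K₀ : ℝ) * (a : ℝ) ^ 2 / n) * E₀) :
    (trace (NormedSpace.exp (-(β • secBlock K (edgeSum adj (Finset.univ : Finset X) : Op X n))))).re
      ≤ Real.exp (β * ((1 + 1 / η) * (12 * (n : ℝ) * (K₀ : ℝ) ^ 2 / (a : ℝ) ^ 3)) / (1 + η))
          * ∑ m ∈ Occ (C3 M) K, Real.exp (-(β * ((1 - (K₀ : ℝ) ^ 2 / ((n : ℝ) * (a : ℝ) ^ 3))
              - (18 * (K₀ : ℝ) * (a : ℝ) ^ 2 / n) * E₀) / (1 + η) * Eocc n a m))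
        + (Fintype.card (Sec X n K) : ℝ) * Real.exp (-(β * E₀)) := by
  have hn0 : (0 : ℝ) < n := by exact_mod_cast hn
  have ha0 : (0 : ℝ) < a := by exact_mod_cast ha
  have hvv : (n : ℝ) * ((a ^ 3 : ℕ) : ℝ) = (n : ℝ) * (a : ℝ) ^ 3 := by push_cast; rfl
  have hv : 0 < (n : ℝ) * (a : ℝ) ^ 3 := by positivity
  have hKK : (K : ℝ) ≤ K₀ := by exact_mod_cast hK
  have hK0 : (0 : ℝ) ≤ K := by positivity
  have hKsq : (K : ℝ) ^ 2 ≤ (K₀ : ℝ) ^ 2 := pow_le_pow_left₀ hK0 hKK 2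
  have hKv' : (K : ℝ) ^ 2 ≤ (n : ℝ) * ((a ^ 3 : ℕ) : ℝ) := by
    rw [hvv]
    linarith
  have hAH : (secBlock K (edgeSum adj (Finset.univ : Finset X) : Op X n)).IsHermitian :=
    secBlock_herm (edgeSum_isHermitian adj _) K
  have hω : 0 ≤ 18 * (K₀ : ℝ) * (a : ℝ) ^ 2 / n := by positivity
  have hmain := trace_bound_of_map hAH (RMat (modeF (n := n) G a M) (modeF_comm G a M) K)
    (fun m => Eocc n a m.1) (fun m => Eocc_nonneg m.1) (α := 1 + η)
    (e := (1 + 1 / η) * (12 * (n : ℝ) * (K₀ : ℝ) ^ 2 / (a : ℝ) ^ 3))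
    (θ := 1 - (K₀ : ℝ) ^ 2 / ((n : ℝ) * (a : ℝ) ^ 3))
    (ω := 18 * (K₀ : ℝ) * (a : ℝ) ^ 2 / n) (E₀ := E₀) (β := β) (by positivity) hω hβ hE₀
    (by
      intro ψ₀
      rw [RMat_wnsq (E := fun m => Eocc n a m), qf_sec, vnsq_sec]
      have h1 := (sector_forms hn ha hirr hsym h hsurj hKv' hη (extS_inSec ψ₀)).1
      refine h1.trans (add_le_add_right ?_ _)
      refine mul_le_mul_of_nonneg_right ?_ (nrm_nonneg _)
      refine mul_le_mul_of_nonneg_left ?_ (by positivity)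
      refine div_le_div_of_nonneg_right ?_ (by positivity)
      exact mul_le_mul_of_nonneg_left hKsq (by positivity))
    (by
      intro ψ₀
      rw [RMat_vnsq, qf_sec, vnsq_sec]
      have h2 := (sector_forms hn ha hirr hsym h hsurj hKv' hη (extS_inSec ψ₀)).2
      refine le_trans ?_ h2
      rw [hvv]
      have hH : 0 ≤ qf (edgeSum adj (Finset.univ : Finset X) : Op X n) (extS ψ₀) := by
        have := qf_le_of_le (edgeSum_nonneg (X := X) (n := n) adj Finset.univ) (extS ψ₀)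
        simpa [qf_zero] using this
      have hnψ := nrm_nonneg (extS ψ₀)
      have h3 : (1 - (K₀ : ℝ) ^ 2 / ((n : ℝ) * (a : ℝ) ^ 3)) ≤ 1 - (K : ℝ) ^ 2 / ((n : ℝ) * (a : ℝ) ^ 3) := by
        have := div_le_div_of_nonneg_right hKsq hv.le
        linarith
      have h4 : 18 * (K : ℝ) * (a : ℝ) ^ 2 / n ≤ 18 * (K₀ : ℝ) * (a : ℝ) ^ 2 / n := by
        refine div_le_div_of_nonneg_right ?_ hn0.le
        have : 0 ≤ (a : ℝ) ^ 2 := by positivity
        nlinarith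
      have h5 := mul_le_mul_of_nonneg_right h3 hnψ
      have h6 := mul_le_mul_of_nonneg_right h4 hH
      linarith)
    hg
  refine hmain.trans (le_of_eq ?_)
  congr 2
  exact Finset.sum_coe_sort (Occ (C3 M) K) (fun m => Real.exp (-(β * ((1 - (K₀ : ℝ) ^ 2 / ((n : ℝ) * (a : ℝ) ^ 3))
              - (18 * (K₀ : ℝ) * (a : ℝ) ^ 2 / n) * E₀) / (1 + η) * Eocc n a m)))

end Main

end Vale.Agent.P361Lib
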