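import Vale.Agent.Lib.P361.Pressure

/-!
# Convexity of the finite-volume pressure
-/

open Matrix
open scoped MatrixOrder ComplexOrder

noncomputable section

namespace Vale.Agent.P361Lib

variable {X : Type} [Fintype X] [DecidableEq X] {n : ℕ}

/-- The commutator of the total deviation number with a site operator. -/
lemma devTotal_comm_site (x : X) (a : SMat n) :
    (totalOp (Finset.univ : Finset X) (devD n) : Op X n) * siteOp x a
        - siteOp x a * totalOp (Finset.univ : Finset X) (devD n)
      = siteOp x (devD n * a - a * devD n) := by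
  unfold totalOp
  rw [Finset.sum_mul, Finset.mul_sum, ← Finset.sum_sub_distrib,
    Finset.sum_eq_single x]
  · rw [siteOp_mul_same, siteOp_mul_same, siteOp_sub]
  · intro z _ hz
    rw [(siteOp_commute hz (devD n) a).eq, sub_self]
  · intro h
    exact absurd (Finset.mem_univ x) h

lemma devTotal_mul_P (x : X) :
    (totalOp (Finset.univ : Finset X) (devD n) : Op X n) * siteOp x (spinP n)
      = siteOp x (spinP n) * totalOp (Finset.univ : Finset X) (devD n) - siteOp x (spinP n) := by
  have h := devTotal_comm_site (n := n) x (spinP n)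
  rw [devD_comm_P, siteOp_neg] at h
  rw [sub_eq_iff_eq_add] at h
  rw [h]
  abel

lemma devTotal_mul_M (x : X) :
    (totalOp (Finset.univ : Finset X) (devD n) : Op X n) * siteOp x (spinM n)
      = siteOp x (spinM n) * totalOp (Finset.univ : Finset X) (devD n) + siteOp x (spinM n) := by
  have h := devTotal_comm_site (n := n) x (spinM n)
  rw [devD_comm_M] at h
  rw [sub_eq_iff_eq_add] at h
  rw [h]
  abel

lemma devTotal_comm_Z (x : X) :
    Commute (totalOp (Finset.univ : Finset X) (devD n) : Op X n) (siteOp x (spinZ n)) := by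
  have h := devTotal_comm_site (n := n) x (spinZ n)
  have e : devD n * spinZ n - spinZ n * devD n = 0 := by
    unfold devD spinZ
    rw [Matrix.diagonal_mul_diagonal, Matrix.diagonal_mul_diagonal, sub_eq_zero]
    congr 1
    funext i
    ring
  rw [e, siteOp_zero, sub_eq_zero] at h
  exact h

lemma devTotal_comm_PM (x y : X) :
    Commute (totalOp (Finset.univ : Finset X) (devD n) : Op X n)
      (siteOp x (spinP n) * siteOp y (spinM n)) := by
  show _ * _ = _ * _
  rw [← mul_assoc, devTotal_mul_P, sub_mul, mul_assoc, devTotal_mul_M, mul_add, mul_assoc]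
  abel

lemma devTotal_comm_MP (x y : X) :
    Commute (totalOp (Finset.univ : Finset X) (devD n) : Op X n)
      (siteOp x (spinM n) * siteOp y (spinP n)) := by
  show _ * _ = _ * _
  rw [← mul_assoc, devTotal_mul_M, add_mul, mul_assoc, devTotal_mul_P, mul_sub, mul_assoc]
  abel

lemma hEdge_comm_devTotal (x y : X) :
    Commute (hEdge x y : Op X n) (totalOp (Finset.univ : Finset X) (devD n)) := by
  unfold hEdge
  split_ifs
  · exact Commute.zero_left _
  · refine Commute.symm ?_
    refine Commute.sub_right (Commute.sub_right ?_ ?_) ?_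
    · exact (Commute.one_right _).smul_right _
    · exact (devTotal_comm_Z x).mul_right (devTotal_comm_Z y)
    · exact Commute.smul_right ((devTotal_comm_PM x y).add_right (devTotal_comm_MP x y)) _

lemma edgeSum_comm_devTotal (adj : X → X → Prop) [DecidableRel adj] :
    Commute (edgeSum adj (Finset.univ : Finset X) : Op X n)
      (totalOp (Finset.univ : Finset X) (devD n)) := by
  unfold edgeSum
  refine Commute.smul_left ?_ _
  refine Commute.sum_left _ _ _ fun x _ => Commute.sum_left _ _ _ fun y _ => ?_
  split_ifs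
  · exact hEdge_comm_devTotal x y
  · exact Commute.zero_left _

/-- The diagonal weights of the partition function. -/
def gWeight (n N : ℕ) (β : ℝ) (σ : Cfg (BoxSite N) n) : ℝ :=
  (NormedSpace.exp (-(β • edgeSum nearest (Finset.univ : Finset (BoxSite N)))) σ σ).re

lemma gWeight_nonneg (n N : ℕ) (β : ℝ) (σ : Cfg (BoxSite N) n) : 0 ≤ gWeight n N β σ := by
  unfold gWeight
  have hH : (-(β • (edgeSum nearest (Finset.univ : Finset (BoxSite N)) : Op (BoxSite N) n))).IsHermitian := by
    unfold Matrix.IsHermitian
    rw [Matrix.conjTranspose_neg, Matrix.conjTranspose_smul, star_trivial,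
      (edgeSum_isHermitian nearest _).eq]
  have := (exp_posSemidef hH).diag_nonneg (i := σ)
  exact (Complex.le_def.mp this).1

lemma Ztil_eq_sum (n N : ℕ) (β lam : ℝ) :
    Ztil n N β lam = ∑ σ : Cfg (BoxSite N) n,
      gWeight n N β σ * Real.exp (lam * (-(devCount (Finset.univ : Finset (BoxSite N)) σ : ℝ))) := by
  unfold Ztil
  have hc : Commute (-(β • (edgeSum nearest (Finset.univ : Finset (BoxSite N)) : Op (BoxSite N) n)))
      (-(lam • (totalOp (Finset.univ : Finset (BoxSite N)) (devD n) : Op (BoxSite N) n))) := by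
    refine ((Commute.smul_left ?_ _).smul_right _).neg_left.neg_right
    exact edgeSum_comm_devTotal nearest
  rw [neg_add, Matrix.exp_add_of_commute _ _ hc, exp_neg_smul_devD]
  unfold wt
  rw [Matrix.trace, Complex.re_sum]
  refine Finset.sum_congr rfl fun σ _ => ?_
  rw [Matrix.diag_apply, Matrix.mul_diagonal, Complex.re_mul_ofReal]
  unfold gWeight
  congr 1
  rw [← Real.exp_nat_mul]
  congr 1
  ring

lemma convexOn_logZ (n N : ℕ) (β : ℝ) :
    ConvexOn ℝ Set.univ (fun lam : ℝ => Real.log (Ztil n N β lam)) := by
  simp only [Ztil_eq_sum]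
  refine convexOn_log_sum_exp _ _ (gWeight_nonneg n N β) ?_
  have h := Ztil_pos n N β 0
  rw [Ztil_eq_sum] at h
  simp only [zero_mul, Real.exp_zero, mul_one] at h
  by_contra hne
  push Not at hne
  have : ∑ σ : Cfg (BoxSite N) n, gWeight n N β σ ≤ 0 := Finset.sum_nonpos fun σ _ => hne σ
  linarith

/-- The finite-volume pressure is convex in the field. -/
theorem convexOn_pressureN (n N : ℕ) {β : ℝ} (hβ : 0 < β) :
    ConvexOn ℝ Set.univ (fun h : ℝ => pressureN n N β h) := by
  refine ⟨convex_univ, ?_⟩
  intro x _ y _ a b ha hb hab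
  simp only [smul_eq_mul, pressureN_eq]
  have hcard : 0 < (Fintype.card (BoxSite N) : ℝ) := by
    rw [card_boxSite]
    positivity
  set C : ℝ := 1 / (β * Fintype.card (BoxSite N)) with hC
  have hC0 : 0 < C := by positivity
  have hc := (convexOn_logZ n N β).2 (Set.mem_univ (β * x)) (Set.mem_univ (β * y)) ha hb hab
  simp only [smul_eq_mul] at hc
  have e : β * (a * x + b * y) = a * (β * x) + b * (β * y) := by ring
  rw [e]
  set c := ((n : ℝ) / 2) ^ 2 * edgeCount N with hc'
  set s := (n : ℝ) / 2 * Fintype.card (BoxSite N) with hs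
  have h2 := mul_le_mul_of_nonneg_left hc hC0.le
  have hb' : b = 1 - a := by linarith
  subst hb'
  have e2 : C * (β * (c + (a * x + (1 - a) * y) * s) + Real.log (Ztil n N β (a * (β * x) + (1 - a) * (β * y))))
      = a * (C * (β * (c + x * s))) + (1 - a) * (C * (β * (c + y * s)))
        + C * Real.log (Ztil n N β (a * (β * x) + (1 - a) * (β * y))) := by ring
  rw [e2]
  have e3 : a * (C * (β * (c + x * s) + Real.log (Ztil n N β (β * x))))
      + (1 - a) * (C * (β * (c + y * s) + Real.log (Ztil n N β (β * y))))
      = a * (C * (β * (c + x * s))) + (1 - a) * (C * (β * (c + y * s)))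
        + C * (a * Real.log (Ztil n N β (β * x)) + (1 - a) * Real.log (Ztil n N β (β * y))) := by ring
  rw [e3]
  linarith

end Vale.Agent.P361Lib
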