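import Vale.Agent.Lib.P361.Embed

/-!
# Existence of the thermodynamic limit
-/

open Matrix Filter Topology
open scoped MatrixOrder ComplexOrder

noncomputable section

namespace Vale.Agent.P361Lib

section General

variable {X : Type} [Fintype X] [DecidableEq X] {n : ℕ}

/-- The generator on a block. -/
def blockGen (adj : X → X → Prop) [DecidableRel adj] (β lam : ℝ) (k : Finset X) : Op X n :=
  β • edgeSum adj k + lam • totalOp k (devD n)

lemma loc_edgeSum (adj : X → X → Prop) [DecidableRel adj] (k : Finset X) :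
    Loc k (edgeSum adj k : Op X n) := by
  unfold edgeSum
  refine Loc.smul (1 / 2 : ℝ) ?_
  refine Loc.sum _ fun x hx => Loc.sum _ fun y hy => ?_
  split_ifs
  · exact loc_hEdge hx hy
  · exact Loc.zero _

lemma loc_blockGen (adj : X → X → Prop) [DecidableRel adj] (β lam : ℝ) (k : Finset X) :
    Loc k (blockGen adj β lam k : Op X n) :=
  ((loc_edgeSum adj k).smul β).add ((loc_totalOp k _).smul lam)

lemma blockGen_hermitian (adj : X → X → Prop) [DecidableRel adj] (β lam : ℝ) (k : Finset X) :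
    (blockGen adj β lam k : Op X n).IsHermitian := by
  unfold blockGen
  refine Matrix.IsHermitian.add ?_ (devTotal_hermitian _ _)
  unfold Matrix.IsHermitian
  rw [Matrix.conjTranspose_smul, star_trivial, (edgeSum_isHermitian adj _).eq]

lemma trace_wt_univ_zero_complex : trace (wt (Finset.univ : Finset X) 0 : Op X n) = 1 := by
  have h := trace_mul_wt_zero (Finset.univ : Finset X) (1 : Op X n)
  rw [Matrix.one_mul] at h
  rw [h, Finset.sum_eq_single (fun _ => 0)]
  · simp
  · intro σ _ hσ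
    rw [if_neg]
    intro h2
    apply hσ
    funext x
    exact h2 x (Finset.mem_univ x)
  · intro h0
    exact absurd (Finset.mem_univ _) h0

/-- The trace over disjoint blocks factorizes. -/
theorem trace_exp_sum_blocks {ι : Type} [DecidableEq ι] (s : Finset ι) (b : ι → Finset X)
    (A : ι → Op X n) (hdis : ∀ i ∈ s, ∀ j ∈ s, i ≠ j → Disjoint (b i) (b j))
    (hloc : ∀ i ∈ s, Loc (b i) (A i)) :
    trace (NormedSpace.exp (-∑ i ∈ s, A i) * wt (s.biUnion b)ᶜ 0)
      = ∏ i ∈ s, trace (NormedSpace.exp (-A i) * wt (b i)ᶜ 0) := by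
  induction s using Finset.induction_on with
  | empty =>
    simp only [Finset.sum_empty, neg_zero, NormedSpace.exp_zero, Finset.biUnion_empty,
      Finset.compl_empty, Finset.prod_empty, Matrix.one_mul]
    exact trace_wt_univ_zero_complex
  | insert a s ha ih =>
    have hdis' : Disjoint (b a) (s.biUnion b) := by
      rw [Finset.disjoint_biUnion_right]
      intro j hj
      refine hdis a (Finset.mem_insert_self a s) j (Finset.mem_insert_of_mem hj) ?_
      rintro rfl
      exact ha hj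
    have hLa : Loc (b a) (A a) := hloc a (Finset.mem_insert_self a s)
    have hLs : Loc (s.biUnion b) (∑ i ∈ s, A i) :=
      Loc.sum _ fun i hi => (hloc i (Finset.mem_insert_of_mem hi)).mono
        (Finset.subset_biUnion_of_mem b hi)
    have hc : Commute (A a) (∑ i ∈ s, A i) := hLa _ (hLs.off hdis'.symm)
    have hc' : Commute (-A a) (-∑ i ∈ s, A i) := hc.neg_left.neg_right
    rw [Finset.sum_insert ha, Finset.biUnion_insert, neg_add, Matrix.exp_add_of_commute _ _ hc',
      partial_trace_union hdis' hLa.neg.exp hLs.neg.exp, Finset.prod_insert ha,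
      ih (fun i hi j hj hij => hdis i (Finset.mem_insert_of_mem hi) j (Finset.mem_insert_of_mem hj) hij)
        (fun i hi => hloc i (Finset.mem_insert_of_mem hi))]

/-- The trace of the exponential of a Hermitian matrix is real. -/
lemma trace_exp_real {B : Op X n} (hB : B.IsHermitian) :
    trace (NormedSpace.exp (-B)) = (((trace (NormedSpace.exp (-B))).re : ℝ) : ℂ) := by
  have hE : (NormedSpace.exp (-B)).IsHermitian := (exp_posSemidef hB.neg).1
  have h1 : star (trace (NormedSpace.exp (-B))) = trace (NormedSpace.exp (-B)) := by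
    rw [← Matrix.trace_conjTranspose, hE.eq]
  exact (Complex.conj_eq_iff_real.mp h1).choose_spec ▸ by simp

/-- Subadditivity: the partition function is bounded by the product over a partition into blocks. -/
theorem Z_le_prod (adj : X → X → Prop) [DecidableRel adj] {β : ℝ} (hβ : 0 ≤ β) (lam : ℝ)
    {ι : Type} [DecidableEq ι] (s : Finset ι) (b : ι → Finset X)
    (hpart : s.biUnion b = Finset.univ)
    (hdis : ∀ i ∈ s, ∀ j ∈ s, i ≠ j → Disjoint (b i) (b j)) :
    (trace (NormedSpace.exp (-(blockGen adj β lam Finset.univ : Op X n)))).re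
      ≤ (∏ i ∈ s, trace (NormedSpace.exp (-(blockGen adj β lam (b i) : Op X n)) * wt (b i)ᶜ 0)).re := by
  have hfac := trace_exp_sum_blocks (X := X) (n := n) s b (fun i => blockGen adj β lam (b i)) hdis
    (fun i _ => loc_blockGen adj β lam (b i))
  rw [← hfac, hpart, Finset.compl_univ, wt_empty, Matrix.mul_one]
  have hH : (∑ i ∈ s, (blockGen adj β lam (b i) : Op X n)).IsHermitian := by
    unfold Matrix.IsHermitian
    rw [Matrix.conjTranspose_sum]
    exact Finset.sum_congr rfl fun i _ => (blockGen_hermitian adj β lam (b i)).eq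
  refine trace_exp_neg_mono hH (blockGen_hermitian adj β lam _) ?_
  unfold blockGen
  rw [Finset.sum_add_distrib, ← Finset.smul_sum, ← Finset.smul_sum]
  have h1 : ∑ i ∈ s, (totalOp (b i) (devD n) : Op X n) = totalOp Finset.univ (devD n) := by
    rw [← hpart]
    unfold totalOp
    rw [Finset.sum_biUnion hdis]
  rw [h1]
  refine add_le_add_left ?_ _
  refine smul_le_smul_of_nonneg_left ?_ hβ
  rw [← hpart]
  exact edgeSum_biUnion_le adj s b hdis

end General

section Embed

variable {X Y : Type} [Fintype X] [DecidableEq X] [Fintype Y] [DecidableEq Y] {n : ℕ}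

lemma embedOp_blockGen {j : Y → X} (hj : Function.Injective j) {adj : X → X → Prop}
    [DecidableRel adj] {adj' : Y → Y → Prop} [DecidableRel adj']
    (hadj : ∀ y y', adj' y y' ↔ adj (j y) (j y')) (β lam : ℝ) :
    embedOp j (blockGen adj' β lam Finset.univ : Op Y n) = blockGen adj β lam (imgB j) := by
  unfold blockGen
  rw [embedOp_add, embedOp_real_smul, embedOp_real_smul, embedOp_edgeSum hj hadj, embedOp_totalOp hj]

/-- The partial trace over an embedded block. -/
theorem trace_block_embed {j : Y → X} (hj : Function.Injective j) {adj : X → X → Prop}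
    [DecidableRel adj] {adj' : Y → Y → Prop} [DecidableRel adj']
    (hadj : ∀ y y', adj' y y' ↔ adj (j y) (j y')) (β lam : ℝ) :
    trace (NormedSpace.exp (-(blockGen adj β lam (imgB j) : Op X n)) * wt (imgB j)ᶜ 0)
      = trace (NormedSpace.exp (-(blockGen adj' β lam Finset.univ : Op Y n))) := by
  rw [← embedOp_blockGen hj hadj, ← embedOp_neg, ← embedOp_exp hj, trace_embedOp hj]

end Embed

/-- The translation of the small box into the large box. -/
def shiftSite (N M : ℕ) (v : ℤ × ℤ × ℤ) (y : BoxSite M) : BoxSite N :=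
  if h : y.1 + v ∈ boxFinset N then ⟨y.1 + v, h⟩ else ⟨0, by rw [mem_boxFinset]; simp⟩

lemma shiftSite_val {N M : ℕ} {v : ℤ × ℤ × ℤ} (hv : ∀ p ∈ boxFinset M, p + v ∈ boxFinset N)
    (y : BoxSite M) : (shiftSite N M v y).1 = y.1 + v := by
  unfold shiftSite
  rw [dif_pos (hv y.1 y.2)]

lemma shiftSite_injective {N M : ℕ} {v : ℤ × ℤ × ℤ} (hv : ∀ p ∈ boxFinset M, p + v ∈ boxFinset N) :
    Function.Injective (shiftSite N M v) := by
  intro y y' e
  have := congrArg Subtype.val e
  rw [shiftSite_val hv, shiftSite_val hv] at this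
  exact Subtype.ext (add_right_cancel this)

lemma shiftSite_nearest {N M : ℕ} {v : ℤ × ℤ × ℤ} (hv : ∀ p ∈ boxFinset M, p + v ∈ boxFinset N)
    (y y' : BoxSite M) : nearest y y' ↔ nearest (shiftSite N M v y) (shiftSite N M v y') := by
  unfold nearest latticeNearest
  rw [shiftSite_val hv, shiftSite_val hv]
  simp only [Prod.fst_add, Prod.snd_add, add_sub_add_right_eq_sub]

/-- The corners of the small boxes. -/
def cornerV (N M : ℕ) (t : ℕ × ℕ × ℕ) : ℤ × ℤ × ℤ :=
  (-(N : ℤ) + M + (t.1 : ℤ) * (2 * (M : ℤ) + 1), -(N : ℤ) + M + (t.2.1 : ℤ) * (2 * (M : ℤ) + 1),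
    -(N : ℤ) + M + (t.2.2 : ℤ) * (2 * (M : ℤ) + 1))

lemma corner_bound {N M i : ℕ} (hi : i < (2 * N + 1) / (2 * M + 1)) :
    (i : ℤ) * (2 * (M : ℤ) + 1) + 2 * M ≤ 2 * N := by
  have h1 : (i + 1) * (2 * M + 1) ≤ (2 * N + 1) / (2 * M + 1) * (2 * M + 1) :=
    Nat.mul_le_mul_right _ hi
  have h2 : (2 * N + 1) / (2 * M + 1) * (2 * M + 1) ≤ 2 * N + 1 := Nat.div_mul_le_self _ _
  have h3 : (i + 1) * (2 * M + 1) ≤ 2 * N + 1 := h1.trans h2
  have h4 : ((i : ℤ) + 1) * (2 * (M : ℤ) + 1) ≤ 2 * (N : ℤ) + 1 := by exact_mod_cast h3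
  have e : ((i : ℤ) + 1) * (2 * (M : ℤ) + 1) = (i : ℤ) * (2 * (M : ℤ) + 1) + 2 * M + 1 := by ring
  omega

lemma corner_good {N M : ℕ} {t : ℕ × ℕ × ℕ} (h1 : t.1 < (2 * N + 1) / (2 * M + 1))
    (h2 : t.2.1 < (2 * N + 1) / (2 * M + 1)) (h3 : t.2.2 < (2 * N + 1) / (2 * M + 1)) :
    ∀ p ∈ boxFinset M, p + cornerV N M t ∈ boxFinset N := by
  intro p hp
  rw [mem_boxFinset] at hp ⊢
  have k1 := corner_bound h1
  have k2 := corner_bound h2
  have k3 := corner_bound h3
  have n1 : 0 ≤ (t.1 : ℤ) * (2 * (M : ℤ) + 1) := by positivity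
  have n2 : 0 ≤ (t.2.1 : ℤ) * (2 * (M : ℤ) + 1) := by positivity
  have n3 : 0 ≤ (t.2.2 : ℤ) * (2 * (M : ℤ) + 1) := by positivity
  simp only [cornerV, Prod.fst_add, Prod.snd_add]
  obtain ⟨⟨a1, a2⟩, ⟨b1, b2⟩, ⟨c1, c2⟩⟩ := hp
  refine ⟨⟨?_, ?_⟩, ⟨?_, ?_⟩, ⟨?_, ?_⟩⟩ <;> omega

lemma corner_sep {M i i' : ℕ} {a a' : ℤ} (ha : -(M : ℤ) ≤ a ∧ a ≤ M) (ha' : -(M : ℤ) ≤ a' ∧ a' ≤ M)
    (e : a + (i : ℤ) * (2 * (M : ℤ) + 1) = a' + (i' : ℤ) * (2 * (M : ℤ) + 1)) : i = i' := by
  have key : ∀ {j j' : ℕ}, j < j' → (j : ℤ) * (2 * (M : ℤ) + 1) + (2 * (M : ℤ) + 1)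
      ≤ (j' : ℤ) * (2 * (M : ℤ) + 1) := by
    intro j j' hj
    have h3 : ((j : ℤ) + 1) * (2 * (M : ℤ) + 1) ≤ (j' : ℤ) * (2 * (M : ℤ) + 1) :=
      mul_le_mul_of_nonneg_right (by exact_mod_cast hj) (by positivity)
    have e : ((j : ℤ) + 1) * (2 * (M : ℤ) + 1) = (j : ℤ) * (2 * (M : ℤ) + 1) + (2 * (M : ℤ) + 1) := by
      ring
    omega
  by_contra hne
  rcases Nat.lt_or_gt_of_ne hne with h | h
  · have := key h
    omega
  · have := key h
    omega

lemma card_imgB_shift {N M : ℕ} {v : ℤ × ℤ × ℤ} (hv : ∀ p ∈ boxFinset M, p + v ∈ boxFinset N) :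
    (imgB (shiftSite N M v)).card = (2 * M + 1) ^ 3 := by
  unfold imgB
  rw [Finset.card_image_of_injective _ (shiftSite_injective hv), Finset.card_univ, card_boxSite]

lemma Ztil_eq_blockGen (n N : ℕ) (β lam : ℝ) :
    Ztil n N β lam = (trace (NormedSpace.exp
      (-(blockGen nearest β lam Finset.univ : Op (BoxSite N) n)))).re := rfl

lemma trace_eq_Ztil (n N : ℕ) (β lam : ℝ) :
    trace (NormedSpace.exp (-(blockGen nearest β lam Finset.univ : Op (BoxSite N) n)))
      = ((Ztil n N β lam : ℝ) : ℂ) :=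
  trace_exp_real (blockGen_hermitian nearest β lam Finset.univ)

instance instUniqueBoxZero : Unique (BoxSite 0) where
  default := ⟨0, by rw [mem_boxFinset]; simp⟩
  uniq := by
    rintro ⟨⟨a, b, c⟩, h⟩
    rw [mem_boxFinset] at h
    simp only at h
    apply Subtype.ext
    simp only [Nat.cast_zero, neg_zero] at h
    have h1 : a = 0 := by omega
    have h2 : b = 0 := by omega
    have h3 : c = 0 := by omega
    subst h1 h2 h3
    rfl

/-- Subadditivity of the partition function on boxes. -/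
theorem Ztil_subadd (n N M : ℕ) {β : ℝ} (hβ : 0 ≤ β) (lam : ℝ) :
    Ztil n N β lam ≤ (Ztil n M β lam) ^ (((2 * N + 1) / (2 * M + 1)) ^ 3)
      * (Ztil n 0 β lam) ^ ((2 * N + 1) ^ 3 - ((2 * N + 1) / (2 * M + 1)) ^ 3 * (2 * M + 1) ^ 3) := by
  set q : ℕ := (2 * N + 1) / (2 * M + 1) with hq
  set T : Finset (ℕ × ℕ × ℕ) := Finset.range q ×ˢ Finset.range q ×ˢ Finset.range q with hT
  have hTc : T.card = q ^ 3 := by
    rw [hT]
    simp only [Finset.card_product, Finset.card_range]
    ring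
  have hTmem : ∀ t ∈ T, t.1 < q ∧ t.2.1 < q ∧ t.2.2 < q := by
    intro t ht
    simpa [hT] using ht
  have hgood : ∀ t ∈ T, ∀ p ∈ boxFinset M, p + cornerV N M t ∈ boxFinset N := by
    intro t ht
    obtain ⟨h1, h2, h3⟩ := hTmem t ht
    exact corner_good h1 h2 h3
  set root : ℕ × ℕ × ℕ → Finset (BoxSite N) := fun t => imgB (shiftSite N M (cornerV N M t)) with hroot
  have hdisT : ∀ t ∈ T, ∀ t' ∈ T, t ≠ t' → Disjoint (root t) (root t') := by
    intro t ht t' ht' hne
    rw [Finset.disjoint_left]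
    intro x hx hx'
    obtain ⟨y, _, rfl⟩ := Finset.mem_image.mp hx
    obtain ⟨y', _, e⟩ := Finset.mem_image.mp hx'
    have e' := congrArg Subtype.val e
    rw [shiftSite_val (hgood t ht), shiftSite_val (hgood t' ht')] at e'
    have hy := mem_boxFinset.mp y.2
    have hy' := mem_boxFinset.mp y'.2
    have e1 := congrArg Prod.fst e'
    have e2 := congrArg (fun p : ℤ × ℤ × ℤ => p.2.1) e'
    have e3 := congrArg (fun p : ℤ × ℤ × ℤ => p.2.2) e'
    simp only [Prod.fst_add, Prod.snd_add, cornerV] at e1 e2 e3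
    apply hne
    refine Prod.ext ?_ (Prod.ext ?_ ?_)
    · exact corner_sep hy.1 hy'.1 (by omega)
    · exact corner_sep hy.2.1 hy'.2.1 (by omega)
    · exact corner_sep hy.2.2 hy'.2.2 (by omega)
  set R : Finset (BoxSite N) := T.biUnion root with hR
  set U : Finset (BoxSite N) := Finset.univ \ R with hU
  have hRcard : R.card = q ^ 3 * (2 * M + 1) ^ 3 := by
    rw [hR, Finset.card_biUnion hdisT, Finset.sum_congr rfl fun t ht => card_imgB_shift (hgood t ht),
      Finset.sum_const, hTc, smul_eq_mul]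
  have hUcard : U.card = (2 * N + 1) ^ 3 - q ^ 3 * (2 * M + 1) ^ 3 := by
    rw [hU, Finset.card_sdiff_of_subset (Finset.subset_univ R), Finset.card_univ, card_boxSite, hRcard]
  -- the partition into blocks
  set b : (ℕ × ℕ × ℕ) ⊕ BoxSite N → Finset (BoxSite N) := fun i => Sum.elim root (fun x => {x}) i
    with hb
  have hpart : (T.disjSum U).biUnion b = Finset.univ := by
    ext x
    simp only [Finset.mem_biUnion, Finset.mem_disjSum, Finset.mem_univ, iff_true]
    by_cases hx : x ∈ R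
    · obtain ⟨t, ht, hxt⟩ := Finset.mem_biUnion.mp hx
      exact ⟨Sum.inl t, Or.inl ⟨t, ht, rfl⟩, hxt⟩
    · refine ⟨Sum.inr x, Or.inr ⟨x, ?_, rfl⟩, ?_⟩
      · simp [hU, hx]
      · simp [hb]
  have hdis : ∀ i ∈ T.disjSum U, ∀ j ∈ T.disjSum U, i ≠ j → Disjoint (b i) (b j) := by
    rintro (t | x) hi (t' | x') hj hne
    · rw [Finset.inl_mem_disjSum] at hi hj
      exact hdisT t hi t' hj (fun e => hne (by rw [e]))
    · rw [Finset.inl_mem_disjSum] at hi
      rw [Finset.inr_mem_disjSum] at hj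
      simp only [hb, Sum.elim_inl, Sum.elim_inr, Finset.disjoint_singleton_right]
      intro hx
      exact (Finset.mem_sdiff.mp hj).2 (Finset.mem_biUnion.mpr ⟨t, hi, hx⟩)
    · rw [Finset.inr_mem_disjSum] at hi
      rw [Finset.inl_mem_disjSum] at hj
      simp only [hb, Sum.elim_inl, Sum.elim_inr, Finset.disjoint_singleton_left]
      intro hx
      exact (Finset.mem_sdiff.mp hi).2 (Finset.mem_biUnion.mpr ⟨t', hj, hx⟩)
    · simp only [hb, Sum.elim_inr, Finset.disjoint_singleton]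
      exact fun e => hne (by rw [e])
  have hZ := Z_le_prod (X := BoxSite N) (n := n) nearest hβ lam (T.disjSum U) b hpart hdis
  refine hZ.trans (le_of_eq ?_)
  rw [Finset.prod_disjSum]
  have hroots : ∀ t ∈ T, trace (NormedSpace.exp (-(blockGen nearest β lam (b (Sum.inl t)) : Op (BoxSite N) n))
      * wt (b (Sum.inl t))ᶜ 0) = ((Ztil n M β lam : ℝ) : ℂ) := by
    intro t ht
    have h := trace_block_embed (n := n) (shiftSite_injective (hgood t ht))
      (shiftSite_nearest (hgood t ht)) β lam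
    rw [trace_eq_Ztil] at h
    exact h
  have hsingle : ∀ x, trace (NormedSpace.exp (-(blockGen nearest β lam (b (Sum.inr x)) : Op (BoxSite N) n))
      * wt (b (Sum.inr x))ᶜ 0) = ((Ztil n 0 β lam : ℝ) : ℂ) := by
    intro x
    have hinj : Function.Injective (fun _ : BoxSite 0 => x) := fun a c _ => Subsingleton.elim a c
    have hadj : ∀ y y' : BoxSite 0, nearest y y' ↔ nearest ((fun _ : BoxSite 0 => x) y) ((fun _ : BoxSite 0 => x) y') := by
      intro y y'
      simp only
      have e : y = y' := Subsingleton.elim y y'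
      subst e
      exact ⟨fun h => absurd h (nearest_irrefl _), fun h => absurd h (nearest_irrefl _)⟩
    have h := trace_block_embed (n := n) hinj hadj β lam
    rw [trace_eq_Ztil] at h
    have himg : imgB (fun _ : BoxSite 0 => x) = {x} := by
      unfold imgB
      rw [Finset.image_const]
      exact ⟨default, Finset.mem_univ _⟩
    rw [himg] at h
    exact h
  rw [Finset.prod_congr rfl hroots, Finset.prod_congr rfl fun x _ => hsingle x, Finset.prod_const,
    Finset.prod_const, hTc, hUcard]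
  rw [← Complex.ofReal_pow, ← Complex.ofReal_pow, ← Complex.ofReal_mul, Complex.ofReal_re]

/-! ### Counting the edges -/

lemma nearest_decomp (a b c a' b' c' : ℤ) :
    (if |a - a'| + |b - b'| + |c - c'| = 1 then (1 : ℝ) else 0)
      = (if |a - a'| = 1 then 1 else 0) * (if b = b' then 1 else 0) * (if c = c' then 1 else 0)
        + (if a = a' then 1 else 0) * (if |b - b'| = 1 then 1 else 0) * (if c = c' then 1 else 0)
        + (if a = a' then 1 else 0) * (if b = b' then 1 else 0) * (if |c - c'| = 1 then 1 else 0) := by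
  have hX := abs_cases (a - a')
  have hY := abs_cases (b - b')
  have hZ := abs_cases (c - c')
  split_ifs <;> first | (exfalso; omega) | norm_num

lemma sum_eq_one_dim (I : Finset ℤ) :
    ∑ s ∈ I, ∑ t ∈ I, (if s = t then (1 : ℝ) else 0) = I.card := by
  have : ∀ s ∈ I, ∑ t ∈ I, (if s = t then (1 : ℝ) else 0) = 1 := by
    intro s hs
    rw [Finset.sum_ite_eq, if_pos hs]
  rw [Finset.sum_congr rfl this]
  simp

lemma sum_adj_one_dim (N : ℕ) :
    ∑ s ∈ Finset.Icc (-(N : ℤ)) N, ∑ t ∈ Finset.Icc (-(N : ℤ)) N,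
        (if |s - t| = 1 then (1 : ℝ) else 0) = 4 * N := by
  set I := Finset.Icc (-(N : ℤ)) N with hI
  have h1 : ∀ s t : ℤ, (if |s - t| = 1 then (1 : ℝ) else 0)
      = (if s + 1 = t then 1 else 0) + (if s - 1 = t then 1 else 0) := by
    intro s t
    have hX := abs_cases (s - t)
    split_ifs <;> first | (exfalso; omega) | norm_num
  simp only [h1, Finset.sum_add_distrib, Finset.sum_ite_eq]
  have c1 : ∑ s ∈ I, (if s + 1 ∈ I then (1 : ℝ) else 0) = 2 * N := by
    rw [← Finset.sum_filter]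
    have : I.filter (fun s => s + 1 ∈ I) = Finset.Icc (-(N : ℤ)) (N - 1) := by
      ext s
      simp only [hI, Finset.mem_filter, Finset.mem_Icc]
      omega
    rw [this]
    simp only [Finset.sum_const, Int.card_Icc, nsmul_eq_mul, mul_one]
    have e : (N : ℤ) - 1 + 1 - -(N : ℤ) = ((2 * N : ℕ) : ℤ) := by
      push_cast
      ring
    rw [e, Int.toNat_natCast]
    push_cast
    ring
  have c2 : ∑ s ∈ I, (if s - 1 ∈ I then (1 : ℝ) else 0) = 2 * N := by
    rw [← Finset.sum_filter]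
    have : I.filter (fun s => s - 1 ∈ I) = Finset.Icc (-(N : ℤ) + 1) N := by
      ext s
      simp only [hI, Finset.mem_filter, Finset.mem_Icc]
      omega
    rw [this]
    simp only [Finset.sum_const, Int.card_Icc, nsmul_eq_mul, mul_one]
    have e : (N : ℤ) + 1 - (-(N : ℤ) + 1) = ((2 * N : ℕ) : ℤ) := by
      push_cast
      ring
    rw [e, Int.toNat_natCast]
    push_cast
    ring
  rw [c1, c2]
  ring

lemma sum_double_triple (I : Finset ℤ) (u v w : ℤ → ℤ → ℝ) :
    ∑ p ∈ I ×ˢ I ×ˢ I, ∑ q ∈ I ×ˢ I ×ˢ I, u p.1 q.1 * v p.2.1 q.2.1 * w p.2.2 q.2.2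
      = (∑ s ∈ I, ∑ t ∈ I, u s t) * (∑ s ∈ I, ∑ t ∈ I, v s t) * (∑ s ∈ I, ∑ t ∈ I, w s t) := by
  simp only [Finset.sum_product]
  have h1 : ∀ p1 p2 p3, ∑ q1 ∈ I, ∑ q2 ∈ I, ∑ q3 ∈ I, u p1 q1 * v p2 q2 * w p3 q3
      = (∑ t ∈ I, u p1 t) * (∑ t ∈ I, v p2 t) * (∑ t ∈ I, w p3 t) :=
    fun p1 p2 p3 => sum_triple_mul I (u p1) (v p2) (w p3)
  simp only [h1]
  exact sum_triple_mul I (fun s => ∑ t ∈ I, u s t) (fun s => ∑ t ∈ I, v s t)
    (fun s => ∑ t ∈ I, w s t)

lemma edgeCount_eq (N : ℕ) : edgeCount N = 6 * (N : ℝ) * (2 * (N : ℝ) + 1) ^ 2 := by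
  unfold edgeCount
  set B := boxFinset N with hB
  have inner : ∀ x : BoxSite N, ∑ y : BoxSite N, (if nearest x y then (1 : ℝ) else 0)
      = ∑ q ∈ B, (if latticeNearest x.1 q then (1 : ℝ) else 0) :=
    fun x => Finset.sum_coe_sort B (fun q => if latticeNearest x.1 q then (1 : ℝ) else 0)
  simp only [inner]
  have outer : ∑ x : BoxSite N, ∑ q ∈ B, (if latticeNearest x.1 q then (1 : ℝ) else 0)
      = ∑ p ∈ B, ∑ q ∈ B, (if latticeNearest p q then (1 : ℝ) else 0) :=
    Finset.sum_coe_sort B (fun p => ∑ q ∈ B, (if latticeNearest p q then (1 : ℝ) else 0))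
  rw [outer]
  set I := Finset.Icc (-(N : ℤ)) N with hI
  have hBI : B = I ×ˢ I ×ˢ I := rfl
  have hcard : (I.card : ℝ) = 2 * (N : ℝ) + 1 := by
    rw [hI, Int.card_Icc]
    have e : (N : ℤ) + 1 - -(N : ℤ) = ((2 * N + 1 : ℕ) : ℤ) := by
      push_cast
      ring
    rw [e, Int.toNat_natCast]
    push_cast
    ring
  have hdec : ∀ p q : ℤ × ℤ × ℤ, (if latticeNearest p q then (1 : ℝ) else 0)
      = (if |p.1 - q.1| = 1 then 1 else 0) * (if p.2.1 = q.2.1 then 1 else 0)
          * (if p.2.2 = q.2.2 then 1 else 0)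
        + (if p.1 = q.1 then 1 else 0) * (if |p.2.1 - q.2.1| = 1 then 1 else 0)
          * (if p.2.2 = q.2.2 then 1 else 0)
        + (if p.1 = q.1 then 1 else 0) * (if p.2.1 = q.2.1 then 1 else 0)
          * (if |p.2.2 - q.2.2| = 1 then 1 else 0) :=
    fun p q => nearest_decomp _ _ _ _ _ _
  simp only [hdec, Finset.sum_add_distrib]
  rw [hBI]
  rw [sum_double_triple I (fun s t => if |s - t| = 1 then (1 : ℝ) else 0)
      (fun s t => if s = t then (1 : ℝ) else 0) (fun s t => if s = t then (1 : ℝ) else 0),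
    sum_double_triple I (fun s t => if s = t then (1 : ℝ) else 0)
      (fun s t => if |s - t| = 1 then (1 : ℝ) else 0) (fun s t => if s = t then (1 : ℝ) else 0),
    sum_double_triple I (fun s t => if s = t then (1 : ℝ) else 0)
      (fun s t => if s = t then (1 : ℝ) else 0) (fun s t => if |s - t| = 1 then (1 : ℝ) else 0)]
  simp only [sum_eq_one_dim, hcard]
  rw [hI, sum_adj_one_dim]
  ring

/-! ### The limit -/

lemma qf_devTotal_vac {X : Type} [Fintype X] [DecidableEq X] {n : ℕ} :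
    qf (totalOp (Finset.univ : Finset X) (devD n) : Op X n) vac = 0 := by
  have h : (totalOp (Finset.univ : Finset X) (devD n) : Op X n) *ᵥ vac = 0 := by
    rw [totalOp_devD]
    funext σ
    rw [Matrix.mulVec_diagonal]
    by_cases hσ : σ = fun _ => 0
    · subst hσ
      simp [devCount]
    · simp [vac, hσ]
  unfold qf
  rw [h]
  simp

lemma Ztil_ge_one (n N : ℕ) (β lam : ℝ) : 1 ≤ Ztil n N β lam := by
  have hH := genZ_hermitian (n := n) N β lam
  have h := sum_exp_qf_le_trace_exp hH (fun _ : Unit => (vac : Cfg (BoxSite N) n → ℂ)) (by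
    intro i j
    have := ip_vac (X := BoxSite N) (n := n)
    unfold ip at this
    rw [this]
    simp)
  simp only [Finset.univ_unique, Finset.sum_singleton] at h
  rw [qf_add, qf_smul, qf_smul, qf_vac nearest nearest_irrefl, qf_devTotal_vac] at h
  simp only [mul_zero, add_zero, neg_zero, Real.exp_zero] at h
  exact h

lemma logZ_nonneg (n N : ℕ) (β lam : ℝ) : 0 ≤ Real.log (Ztil n N β lam) :=
  Real.log_nonneg (Ztil_ge_one n N β lam)

/-- The logarithm of the partition function per site. -/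
def logDensity (n N : ℕ) (β lam : ℝ) : ℝ := Real.log (Ztil n N β lam) / (2 * (N : ℝ) + 1) ^ 3

lemma logDensity_nonneg (n N : ℕ) (β lam : ℝ) : 0 ≤ logDensity n N β lam :=
  div_nonneg (logZ_nonneg n N β lam) (by positivity)

/-- Comparison of the log density in volume `N` with the one in volume `M`. -/
lemma logDensity_le (n N M : ℕ) {β : ℝ} (hβ : 0 ≤ β) (lam : ℝ) :
    logDensity n N β lam
      ≤ (((2 * N + 1) / (2 * M + 1) : ℕ) / (2 * (N : ℝ) + 1)) ^ 3 * Real.log (Ztil n M β lam)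
        + (1 - (((2 * N + 1) / (2 * M + 1) : ℕ) / (2 * (N : ℝ) + 1)) ^ 3 * (2 * (M : ℝ) + 1) ^ 3)
          * Real.log (Ztil n 0 β lam) := by
  set q : ℕ := (2 * N + 1) / (2 * M + 1) with hq
  have hQ0 : (0 : ℝ) < 2 * (N : ℝ) + 1 := by positivity
  have hsub := Ztil_subadd n N M hβ lam
  rw [← hq] at hsub
  have hM := Ztil_pos n M β lam
  have h0 := Ztil_pos n 0 β lam
  have hN := Ztil_pos n N β lam
  unfold logDensity
  generalize Ztil n N β lam = zN at hsub hN ⊢
  generalize Ztil n M β lam = zM at hsub hM ⊢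
  generalize Ztil n 0 β lam = z0 at hsub h0 ⊢
  have hlog := Real.log_le_log hN hsub
  rw [Real.log_mul (pow_ne_zero _ hM.ne') (pow_ne_zero _ h0.ne'), Real.log_pow, Real.log_pow] at hlog
  have hle : q ^ 3 * (2 * M + 1) ^ 3 ≤ (2 * N + 1) ^ 3 := by
    rw [← mul_pow]
    exact Nat.pow_le_pow_left (Nat.div_mul_le_self _ _) 3
  rw [Nat.cast_sub hle] at hlog
  push_cast at hlog
  rw [div_le_iff₀ (by positivity)]
  refine hlog.trans (le_of_eq ?_)
  generalize Real.log zM = a
  generalize Real.log z0 = b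
  clear hlog hsub hle
  generalize (q : ℝ) = r
  generalize (N : ℝ) = x at hQ0 ⊢
  generalize (M : ℝ) = y
  have hQ : 2 * x + 1 ≠ 0 := hQ0.ne'
  field_simp

theorem logDensity_eventually_le (n M : ℕ) {β : ℝ} (hβ : 0 ≤ β) (lam : ℝ) {ε : ℝ} (hε : 0 < ε) :
    ∀ᶠ N in atTop, logDensity n N β lam ≤ logDensity n M β lam + ε := by
  have hu := tendsto_div_density (P := 2 * M + 1) (by omega)
  have hA := (hu.pow 3).mul_const (Real.log (Ztil n M β lam))
  have hB := ((tendsto_const_nhds (x := (1 : ℝ))).sub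
    ((hu.pow 3).mul_const ((2 * (M : ℝ) + 1) ^ 3))).mul_const (Real.log (Ztil n 0 β lam))
  have hR := hA.add hB
  have hlim : (1 / (((2 * M + 1 : ℕ) : ℝ))) ^ 3 * Real.log (Ztil n M β lam)
      + (1 - (1 / (((2 * M + 1 : ℕ) : ℝ))) ^ 3 * (2 * (M : ℝ) + 1) ^ 3) * Real.log (Ztil n 0 β lam)
      = logDensity n M β lam := by
    unfold logDensity
    push_cast
    have hP : (2 * (M : ℝ) + 1) ≠ 0 := by positivity
    field_simp
    ring
  rw [hlim] at hR
  have hev := (tendsto_order.1 hR).2 _ (lt_add_of_pos_right (logDensity n M β lam) hε)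
  filter_upwards [hev] with N hN
  exact (logDensity_le n N M hβ lam).trans hN.le

/-- A sequence bounded below which is eventually below each of its values, up to `ε`, converges. -/
lemma fekete_like (a : ℕ → ℝ) (hlow : ∀ N, 0 ≤ a N)
    (hsub : ∀ M, ∀ ε > 0, ∀ᶠ N in atTop, a N ≤ a M + ε) : ∃ L, Tendsto a atTop (𝓝 L) := by
  have hbdd : BddBelow (Set.range a) := ⟨0, by rintro _ ⟨N, rfl⟩; exact hlow N⟩
  refine ⟨⨅ N, a N, ?_⟩
  rw [tendsto_order]
  constructor
  · intro l hl
    filter_upwards with N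
    exact lt_of_lt_of_le hl (ciInf_le hbdd N)
  · intro u hu
    obtain ⟨M, hM⟩ := exists_lt_of_ciInf_lt hu
    have hε : 0 < (u - a M) / 2 := by linarith
    filter_upwards [hsub M _ hε] with N hN
    linarith

theorem logDensity_tendsto (n : ℕ) {β : ℝ} (hβ : 0 ≤ β) (lam : ℝ) :
    ∃ L, Tendsto (fun N => logDensity n N β lam) atTop (𝓝 L) :=
  fekete_like _ (fun N => logDensity_nonneg n N β lam)
    (fun M _ hε => logDensity_eventually_le n M hβ lam hε)

lemma pressureN_eq_density (n N : ℕ) {β : ℝ} (hβ : 0 < β) (h : ℝ) :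
    pressureN n N β h = ((n : ℝ) / 2) ^ 2 * (6 * (N : ℝ) / (2 * (N : ℝ) + 1)) + h * ((n : ℝ) / 2)
      + (1 / β) * logDensity n N β (β * h) := by
  rw [pressureN_eq, edgeCount_eq, card_boxSite]
  unfold logDensity
  push_cast
  have hQ : (2 * (N : ℝ) + 1) ≠ 0 := by positivity
  have hβ' : β ≠ 0 := hβ.ne'
  field_simp

/-- The thermodynamic limit exists. -/
theorem pressure_limit_exists (n : ℕ) {β : ℝ} (hβ : 0 < β) (h : ℝ) :
    ∃ L, Tendsto (fun N => pressureN n N β h) atTop (𝓝 L) := by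
  obtain ⟨L, hL⟩ := logDensity_tendsto n hβ.le (β * h)
  have h3 : Tendsto (fun N : ℕ => 6 * (N : ℝ) / (2 * (N : ℝ) + 1)) atTop (𝓝 3) := by
    have h0 : Tendsto (fun N : ℕ => 1 / (2 * (N : ℝ) + 1)) atTop (𝓝 0) := by
      refine tendsto_const_nhds.div_atTop ?_
      exact tendsto_atTop_add_const_right _ _
        (Tendsto.const_mul_atTop (by norm_num) tendsto_natCast_atTop_atTop)
    have h1 := (tendsto_const_nhds (x := (3 : ℝ))).sub (h0.const_mul 3)
    have e : (fun N : ℕ => 3 - 3 * (1 / (2 * (N : ℝ) + 1)))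
        = fun N : ℕ => 6 * (N : ℝ) / (2 * (N : ℝ) + 1) := by
      funext N
      have hQ : (2 * (N : ℝ) + 1) ≠ 0 := by positivity
      field_simp
      ring
    rw [e] at h1
    simpa using h1
  have hT := ((h3.const_mul (((n : ℝ) / 2) ^ 2)).add_const (h * ((n : ℝ) / 2))).add
    (hL.const_mul (1 / β))
  refine ⟨_, hT.congr fun N => (pressureN_eq_density n N hβ h).symm⟩

/-- The limit function. -/
theorem exists_pressure_function (n : ℕ) {β : ℝ} (hβ : 0 < β) :
    ∃ p : ℝ → ℝ, ∀ h, Tendsto (fun N => pressureN n N β h) atTop (𝓝 (p h)) := by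
  choose p hp using pressure_limit_exists n hβ
  exact ⟨p, hp⟩

/-- The one-sided Bloch bound for the spontaneous magnetization. -/
theorem bloch_one_sided {n : ℕ} (hn : 1 ≤ n) {β : ℝ} (hβ : 0 < β) (hnβ : 1 ≤ β * n) :
    ∃ p : ℝ → ℝ, (∀ h, Tendsto (fun N => pressureN n N β h) atTop (𝓝 (p h))) ∧
      ConvexOn ℝ Set.univ p ∧ DifferentiableWithinAt ℝ p (Set.Ioi 0) 0 ∧
      derivWithin p (Set.Ioi 0) 0 ≤ (n : ℝ) / 2 - (1 / 50112) * (β * n) ^ (-(3 / 2) : ℝ) := by
  obtain ⟨p, hp⟩ := exists_pressure_function n hβ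
  obtain ⟨h1, h2⟩ := main_bound hn hβ hnβ hp
  exact ⟨p, hp, convexOn_limit hβ hp, h1, h2⟩

end Vale.Agent.P361Lib
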