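import Vale.Agent.Lib.P361.Apriori
import Vale.Agent.Lib.P361.Limit

/-!
# Subadditivity with respect to cubes of arbitrary side
-/

open Matrix Filter Topology

noncomputable section

namespace Vale.Agent.P361Lib

/-- A cube of side `Q`. -/
abbrev CubeS (Q : ℕ) : Type := Fin Q × Fin Q × Fin Q

/-- The integer position of a site of the cube. -/
def cPos {Q : ℕ} (x : CubeS Q) : ℤ × ℤ × ℤ := (((x.1 : ℕ) : ℤ), ((x.2.1 : ℕ) : ℤ), ((x.2.2 : ℕ) : ℤ))

/-- Nearest neighbours in the cube. -/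
def cAdj {Q : ℕ} (x y : CubeS Q) : Prop := latticeNearest (cPos x) (cPos y)

instance cAdj_decidable {Q : ℕ} : DecidableRel (cAdj (Q := Q)) := fun x y =>
  latticeNearest_decidable (cPos x) (cPos y)

lemma cAdj_irrefl {Q : ℕ} (x : CubeS Q) : ¬ cAdj x x := by
  unfold cAdj latticeNearest
  simp

lemma cAdj_symm {Q : ℕ} {x y : CubeS Q} (h : cAdj x y) : cAdj y x := by
  unfold cAdj latticeNearest at *
  rw [abs_sub_comm (cPos y).1, abs_sub_comm (cPos y).2.1, abs_sub_comm (cPos y).2.2]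
  exact h

/-- The grid map of the cube. -/
def cubeG (Q : ℕ) (hQ : 0 < Q) (u v w : ℕ) : CubeS Q :=
  (⟨u % Q, Nat.mod_lt _ hQ⟩, ⟨v % Q, Nat.mod_lt _ hQ⟩, ⟨w % Q, Nat.mod_lt _ hQ⟩)

lemma cubeG_grid (Q : ℕ) (hQ : 0 < Q) : GridOK (cAdj (Q := Q)) Q (cubeG Q hQ) where
  inj := by
    intro a b c a' b' c' ha hb hc ha' hb' hc' e
    simp only [cubeG, Prod.mk.injEq, Fin.mk.injEq] at e
    rw [Nat.mod_eq_of_lt ha, Nat.mod_eq_of_lt hb, Nat.mod_eq_of_lt hc, Nat.mod_eq_of_lt ha',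
      Nat.mod_eq_of_lt hb', Nat.mod_eq_of_lt hc'] at e
    exact e
  adj1 := by
    intro a b c ha hb hc
    unfold cAdj latticeNearest cPos cubeG
    simp only [sub_self, abs_zero, add_zero]
    rw [Nat.mod_eq_of_lt ha, Nat.mod_eq_of_lt (lt_of_le_of_lt (Nat.le_succ a) ha)]
    push_cast
    simp
  adj2 := by
    intro a b c ha hb hc
    unfold cAdj latticeNearest cPos cubeG
    simp only [sub_self, abs_zero, add_zero, zero_add]
    rw [Nat.mod_eq_of_lt hb, Nat.mod_eq_of_lt (lt_of_le_of_lt (Nat.le_succ b) hb)]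
    push_cast
    simp
  adj3 := by
    intro a b c ha hb hc
    unfold cAdj latticeNearest cPos cubeG
    simp only [sub_self, abs_zero, add_zero, zero_add]
    rw [Nat.mod_eq_of_lt hc, Nat.mod_eq_of_lt (lt_of_le_of_lt (Nat.le_succ c) hc)]
    push_cast
    simp

lemma cubeG_surj (Q : ℕ) (hQ : 0 < Q) (x : CubeS Q) :
    ∃ u v w, u < Q ∧ v < Q ∧ w < Q ∧ cubeG Q hQ u v w = x := by
  refine ⟨x.1, x.2.1, x.2.2, x.1.2, x.2.1.2, x.2.2.2, ?_⟩
  unfold cubeG
  refine Prod.ext (Fin.ext ?_) (Prod.ext (Fin.ext ?_) (Fin.ext ?_))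
  · exact Nat.mod_eq_of_lt x.1.2
  · exact Nat.mod_eq_of_lt x.2.1.2
  · exact Nat.mod_eq_of_lt x.2.2.2

lemma card_cube (Q : ℕ) : Fintype.card (CubeS Q) = Q ^ 3 := by
  simp only [Fintype.card_prod, Fintype.card_fin]
  ring

/-- The corner in the box. -/
def cCorner (N Q : ℕ) (t : ℕ × ℕ × ℕ) : ℤ × ℤ × ℤ :=
  (-(N : ℤ) + (t.1 : ℤ) * Q, -(N : ℤ) + (t.2.1 : ℤ) * Q, -(N : ℤ) + (t.2.2 : ℤ) * Q)

lemma cCorner_bound {N Q i j : ℕ} (hi : i < (2 * N + 1) / Q) (hj : j < Q) :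
    0 ≤ (i : ℤ) * Q + j ∧ (i : ℤ) * Q + j ≤ 2 * N := by
  constructor
  · positivity
  have h1 : (i + 1) * Q ≤ (2 * N + 1) / Q * Q := Nat.mul_le_mul_right _ hi
  have h2 : (2 * N + 1) / Q * Q ≤ 2 * N + 1 := Nat.div_mul_le_self _ _
  have h3 : (i + 1) * Q ≤ 2 * N + 1 := h1.trans h2
  have h4 : ((i : ℤ) + 1) * (Q : ℤ) ≤ 2 * (N : ℤ) + 1 := by exact_mod_cast h3
  have e : ((i : ℤ) + 1) * (Q : ℤ) = (i : ℤ) * Q + Q := by ring
  have h5 : (j : ℤ) < Q := by exact_mod_cast hj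
  omega

lemma cCorner_good {N Q : ℕ} {t : ℕ × ℕ × ℕ} (h1 : t.1 < (2 * N + 1) / Q)
    (h2 : t.2.1 < (2 * N + 1) / Q) (h3 : t.2.2 < (2 * N + 1) / Q) (y : CubeS Q) :
    cPos y + cCorner N Q t ∈ boxFinset N := by
  rw [mem_boxFinset]
  obtain ⟨a1, a2⟩ := cCorner_bound h1 y.1.2
  obtain ⟨b1, b2⟩ := cCorner_bound h2 y.2.1.2
  obtain ⟨c1, c2⟩ := cCorner_bound h3 y.2.2.2
  simp only [cCorner, cPos, Prod.fst_add, Prod.snd_add]
  refine ⟨⟨?_, ?_⟩, ⟨?_, ?_⟩, ⟨?_, ?_⟩⟩ <;> omega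

/-- The translation of the cube into the large box. -/
def cShift (N Q : ℕ) (t : ℕ × ℕ × ℕ) (y : CubeS Q) : BoxSite N :=
  if h : cPos y + cCorner N Q t ∈ boxFinset N then ⟨cPos y + cCorner N Q t, h⟩
    else ⟨0, by rw [mem_boxFinset]; simp⟩

lemma cShift_val {N Q : ℕ} {t : ℕ × ℕ × ℕ} (h1 : t.1 < (2 * N + 1) / Q)
    (h2 : t.2.1 < (2 * N + 1) / Q) (h3 : t.2.2 < (2 * N + 1) / Q) (y : CubeS Q) :
    (cShift N Q t y).1 = cPos y + cCorner N Q t := by
  unfold cShift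
  rw [dif_pos (cCorner_good h1 h2 h3 y)]

lemma cPos_injective {Q : ℕ} : Function.Injective (cPos (Q := Q)) := by
  intro x y e
  simp only [cPos, Prod.mk.injEq, Nat.cast_inj] at e
  exact Prod.ext (Fin.ext e.1) (Prod.ext (Fin.ext e.2.1) (Fin.ext e.2.2))

lemma cShift_injective {N Q : ℕ} {t : ℕ × ℕ × ℕ} (h1 : t.1 < (2 * N + 1) / Q)
    (h2 : t.2.1 < (2 * N + 1) / Q) (h3 : t.2.2 < (2 * N + 1) / Q) :
    Function.Injective (cShift N Q t) := by
  intro y y' e
  have := congrArg Subtype.val e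
  rw [cShift_val h1 h2 h3, cShift_val h1 h2 h3] at this
  exact cPos_injective (add_right_cancel this)

lemma cShift_nearest {N Q : ℕ} {t : ℕ × ℕ × ℕ} (h1 : t.1 < (2 * N + 1) / Q)
    (h2 : t.2.1 < (2 * N + 1) / Q) (h3 : t.2.2 < (2 * N + 1) / Q) (y y' : CubeS Q) :
    cAdj y y' ↔ nearest (cShift N Q t y) (cShift N Q t y') := by
  unfold nearest cAdj latticeNearest
  rw [cShift_val h1 h2 h3, cShift_val h1 h2 h3]
  simp only [Prod.fst_add, Prod.snd_add, add_sub_add_right_eq_sub]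

lemma cCorner_sep {N Q i i' j j' : ℕ} (hj : j < Q) (hj' : j' < Q)
    (e : (j : ℤ) + (-(N : ℤ) + (i : ℤ) * Q) = (j' : ℤ) + (-(N : ℤ) + (i' : ℤ) * Q)) : i = i' := by
  have key : ∀ {a b : ℕ}, a < b → (a : ℤ) * Q + Q ≤ (b : ℤ) * Q := by
    intro a b hab
    have h3 : ((a : ℤ) + 1) * (Q : ℤ) ≤ (b : ℤ) * Q :=
      mul_le_mul_of_nonneg_right (by exact_mod_cast hab) (by positivity)
    have e : ((a : ℤ) + 1) * (Q : ℤ) = (a : ℤ) * Q + Q := by ring
    omega
  have h1 : (j : ℤ) < Q := by exact_mod_cast hj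
  have h2 : (j' : ℤ) < Q := by exact_mod_cast hj'
  by_contra hne
  rcases Nat.lt_or_gt_of_ne hne with h | h
  · have := key h
    omega
  · have := key h
    omega

/-- Subadditivity with respect to cubes. -/
theorem Ztil_subadd_cube (n N Q : ℕ) {β : ℝ} (hβ : 0 ≤ β) (lam : ℝ) :
    Ztil n N β lam ≤ (Zgen (cAdj (Q := Q)) n β lam) ^ (((2 * N + 1) / Q) ^ 3)
      * (Ztil n 0 β lam) ^ ((2 * N + 1) ^ 3 - ((2 * N + 1) / Q) ^ 3 * Q ^ 3) := by
  set q : ℕ := (2 * N + 1) / Q with hq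
  set T : Finset (ℕ × ℕ × ℕ) := Finset.range q ×ˢ Finset.range q ×ˢ Finset.range q with hT
  have hTc : T.card = q ^ 3 := by
    rw [hT]
    simp only [Finset.card_product, Finset.card_range]
    ring
  have hTmem : ∀ t ∈ T, t.1 < q ∧ t.2.1 < q ∧ t.2.2 < q := by
    intro t ht
    simpa [hT] using ht
  set root : ℕ × ℕ × ℕ → Finset (BoxSite N) := fun t => imgB (cShift N Q t) with hroot
  have hdisT : ∀ t ∈ T, ∀ t' ∈ T, t ≠ t' → Disjoint (root t) (root t') := by
    intro t ht t' ht' hne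
    rw [Finset.disjoint_left]
    intro x hx hx'
    obtain ⟨y, _, rfl⟩ := Finset.mem_image.mp hx
    obtain ⟨y', _, e⟩ := Finset.mem_image.mp hx'
    have e' := congrArg Subtype.val e
    obtain ⟨a1, a2, a3⟩ := hTmem t ht
    obtain ⟨b1, b2, b3⟩ := hTmem t' ht'
    rw [cShift_val a1 a2 a3, cShift_val b1 b2 b3] at e'
    have e1 := congrArg Prod.fst e'
    have e2 := congrArg (fun p : ℤ × ℤ × ℤ => p.2.1) e'
    have e3 := congrArg (fun p : ℤ × ℤ × ℤ => p.2.2) e'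
    simp only [Prod.fst_add, Prod.snd_add, cCorner, cPos] at e1 e2 e3
    apply hne
    refine Prod.ext ?_ (Prod.ext ?_ ?_)
    · exact cCorner_sep y.1.2 y'.1.2 e1.symm
    · exact cCorner_sep y.2.1.2 y'.2.1.2 e2.symm
    · exact cCorner_sep y.2.2.2 y'.2.2.2 e3.symm
  set R : Finset (BoxSite N) := T.biUnion root with hR
  set U : Finset (BoxSite N) := Finset.univ \ R with hU
  have hcardroot : ∀ t ∈ T, (root t).card = Q ^ 3 := by
    intro t ht
    obtain ⟨a1, a2, a3⟩ := hTmem t ht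
    simp only [hroot, imgB]
    rw [Finset.card_image_of_injective _ (cShift_injective a1 a2 a3), Finset.card_univ, card_cube]
  have hRcard : R.card = q ^ 3 * Q ^ 3 := by
    rw [hR, Finset.card_biUnion hdisT, Finset.sum_congr rfl hcardroot,
      Finset.sum_const, hTc, smul_eq_mul]
  have hUcard : U.card = (2 * N + 1) ^ 3 - q ^ 3 * Q ^ 3 := by
    rw [hU, Finset.card_sdiff_of_subset (Finset.subset_univ R), Finset.card_univ, card_boxSite, hRcard]
  -- the partition into blocks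
  set b : (ℕ × ℕ × ℕ) ⊕ BoxSite N → Finset (BoxSite N) := fun i => Sum.elim root (fun x => {x}) i
    with hb
  have hpart : (T.disjSum U).biUnion b = Finset.univ := by
    ext x
    simp only [Finset.mem_biUnion, Finset.mem_disjSum, Finset.mem_univ, iff_true]
    by_cases hx : x ∈ R
    · obtain ⟨t, ht, hxt⟩ := Finset.mem_biUnion.mp hx
      exact ⟨Sum.inl t, Or.inl ⟨t, ht, rfl⟩, hxt⟩
    · refine ⟨Sum.inr x, Or.inr ⟨x, ?_, rfl⟩, ?_⟩
      · simp [hU, hx]
      · simp [hb]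
  have hdis : ∀ i ∈ T.disjSum U, ∀ j ∈ T.disjSum U, i ≠ j → Disjoint (b i) (b j) := by
    rintro (t | x) hi (t' | x') hj hne
    · rw [Finset.inl_mem_disjSum] at hi hj
      exact hdisT t hi t' hj (fun e => hne (by rw [e]))
    · rw [Finset.inl_mem_disjSum] at hi
      rw [Finset.inr_mem_disjSum] at hj
      simp only [hb, Sum.elim_inl, Sum.elim_inr, Finset.disjoint_singleton_right]
      intro hx
      exact (Finset.mem_sdiff.mp hj).2 (Finset.mem_biUnion.mpr ⟨t, hi, hx⟩)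
    · rw [Finset.inr_mem_disjSum] at hi
      rw [Finset.inl_mem_disjSum] at hj
      simp only [hb, Sum.elim_inl, Sum.elim_inr, Finset.disjoint_singleton_left]
      intro hx
      exact (Finset.mem_sdiff.mp hi).2 (Finset.mem_biUnion.mpr ⟨t', hj, hx⟩)
    · simp only [hb, Sum.elim_inr, Finset.disjoint_singleton]
      exact fun e => hne (by rw [e])
  have hZ := Z_le_prod (X := BoxSite N) (n := n) nearest hβ lam (T.disjSum U) b hpart hdis
  refine hZ.trans (le_of_eq ?_)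
  rw [Finset.prod_disjSum]
  have hroots : ∀ t ∈ T, trace (NormedSpace.exp (-(blockGen nearest β lam (b (Sum.inl t)) : Op (BoxSite N) n))
      * wt (b (Sum.inl t))ᶜ 0) = ((Zgen (cAdj (Q := Q)) n β lam : ℝ) : ℂ) := by
    intro t ht
    obtain ⟨a1, a2, a3⟩ := hTmem t ht
    have h := trace_block_embed (n := n) (cShift_injective a1 a2 a3)
      (cShift_nearest a1 a2 a3) β lam
    refine h.trans ?_
    exact trace_exp_real (blockGen_hermitian cAdj β lam Finset.univ)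
  have hsingle : ∀ x, trace (NormedSpace.exp (-(blockGen nearest β lam (b (Sum.inr x)) : Op (BoxSite N) n))
      * wt (b (Sum.inr x))ᶜ 0) = ((Ztil n 0 β lam : ℝ) : ℂ) := by
    intro x
    have hinj : Function.Injective (fun _ : BoxSite 0 => x) := fun a c _ => Subsingleton.elim a c
    have hadj : ∀ y y' : BoxSite 0, nearest y y' ↔ nearest ((fun _ : BoxSite 0 => x) y) ((fun _ : BoxSite 0 => x) y') := by
      intro y y'
      simp only
      have e : y = y' := Subsingleton.elim y y'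
      subst e
      exact ⟨fun h => absurd h (nearest_irrefl _), fun h => absurd h (nearest_irrefl _)⟩
    have h := trace_block_embed (n := n) hinj hadj β lam
    rw [trace_eq_Ztil] at h
    have himg : imgB (fun _ : BoxSite 0 => x) = {x} := by
      unfold imgB
      rw [Finset.image_const]
      exact ⟨default, Finset.mem_univ _⟩
    rw [himg] at h
    exact h
  rw [Finset.prod_congr rfl hroots, Finset.prod_congr rfl fun x _ => hsingle x, Finset.prod_const,
    Finset.prod_const, hTc, hUcard]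
  rw [← Complex.ofReal_pow, ← Complex.ofReal_pow, ← Complex.ofReal_mul, Complex.ofReal_re]

lemma Zgen_pos' {X : Type} [Fintype X] [DecidableEq X] (adj : X → X → Prop) [DecidableRel adj]
    (n : ℕ) (β lam : ℝ) : 0 < Zgen adj n β lam := by
  unfold Zgen
  obtain ⟨Ψ, _, hs⟩ := trace_exp_eq_sum (blockGen_hermitian (n := n) adj β lam (Finset.univ : Finset X))
  unfold blockGen at hs
  rw [hs]
  refine Finset.sum_pos (fun i _ => Real.exp_pos _) ?_
  exact ⟨fun _ => 0, Finset.mem_univ _⟩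

/-- Comparison of the log density in volume `N` with the one of a cube. -/
lemma logDensity_le_cube (n N Q : ℕ) {β : ℝ} (hβ : 0 ≤ β) (lam : ℝ) :
    logDensity n N β lam
      ≤ (((2 * N + 1) / Q : ℕ) / (2 * (N : ℝ) + 1)) ^ 3 * Real.log (Zgen (cAdj (Q := Q)) n β lam)
        + (1 - (((2 * N + 1) / Q : ℕ) / (2 * (N : ℝ) + 1)) ^ 3 * (Q : ℝ) ^ 3)
          * Real.log (Ztil n 0 β lam) := by
  set q : ℕ := (2 * N + 1) / Q with hq
  have hQ0 : (0 : ℝ) < 2 * (N : ℝ) + 1 := by positivity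
  have hsub := Ztil_subadd_cube n N Q hβ lam
  rw [← hq] at hsub
  have hM := Zgen_pos' (cAdj (Q := Q)) n β lam
  have h0 := Ztil_pos n 0 β lam
  have hN := Ztil_pos n N β lam
  unfold logDensity
  generalize Ztil n N β lam = zN at hsub hN ⊢
  generalize Zgen (cAdj (Q := Q)) n β lam = zM at hsub hM ⊢
  generalize Ztil n 0 β lam = z0 at hsub h0 ⊢
  have hlog := Real.log_le_log hN hsub
  rw [Real.log_mul (pow_ne_zero _ hM.ne') (pow_ne_zero _ h0.ne'), Real.log_pow, Real.log_pow] at hlog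
  have hle : q ^ 3 * Q ^ 3 ≤ (2 * N + 1) ^ 3 := by
    rw [← mul_pow]
    exact Nat.pow_le_pow_left (Nat.div_mul_le_self _ _) 3
  rw [Nat.cast_sub hle] at hlog
  push_cast at hlog
  rw [div_le_iff₀ (by positivity)]
  refine hlog.trans (le_of_eq ?_)
  generalize Real.log zM = a
  generalize Real.log z0 = b
  clear hlog hsub hle
  generalize (q : ℝ) = r
  generalize (N : ℝ) = x at hQ0 ⊢
  generalize (Q : ℝ) = y
  have hQ : 2 * x + 1 ≠ 0 := hQ0.ne'
  field_simp

/-- The pressure density in the limit is below the density of each cube. -/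
theorem logDensity_eventually_le_cube (n Q : ℕ) (hQ : 0 < Q) {β : ℝ} (hβ : 0 ≤ β) (lam : ℝ)
    {ε : ℝ} (hε : 0 < ε) :
    ∀ᶠ N in atTop, logDensity n N β lam
      ≤ Real.log (Zgen (cAdj (Q := Q)) n β lam) / (Q : ℝ) ^ 3 + ε := by
  have hu := tendsto_div_density (P := Q) hQ
  have hA := (hu.pow 3).mul_const (Real.log (Zgen (cAdj (Q := Q)) n β lam))
  have hB := ((tendsto_const_nhds (x := (1 : ℝ))).sub
    ((hu.pow 3).mul_const ((Q : ℝ) ^ 3))).mul_const (Real.log (Ztil n 0 β lam))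
  have hR := hA.add hB
  have hlim : (1 / ((Q : ℝ))) ^ 3 * Real.log (Zgen (cAdj (Q := Q)) n β lam)
      + (1 - (1 / ((Q : ℝ))) ^ 3 * (Q : ℝ) ^ 3) * Real.log (Ztil n 0 β lam)
      = Real.log (Zgen (cAdj (Q := Q)) n β lam) / (Q : ℝ) ^ 3 := by
    have hP : (Q : ℝ) ≠ 0 := by positivity
    field_simp
    ring
  rw [hlim] at hR
  have hev := (tendsto_order.1 hR).2 _ (lt_add_of_pos_right
    (Real.log (Zgen (cAdj (Q := Q)) n β lam) / (Q : ℝ) ^ 3) hε)
  filter_upwards [hev] with N hN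
  exact (logDensity_le_cube n N Q hβ lam).trans hN.le

/-- The limit of the density is at most the density of each cube. -/
theorem limit_le_cube {n : ℕ} {β lam L : ℝ} (hβ : 0 ≤ β)
    (hL : Tendsto (fun N => logDensity n N β lam) atTop (𝓝 L)) (Q : ℕ) (hQ : 0 < Q) :
    L ≤ Real.log (Zgen (cAdj (Q := Q)) n β lam) / (Q : ℝ) ^ 3 := by
  refine le_of_forall_pos_le_add fun ε hε => ?_
  exact le_of_tendsto hL (logDensity_eventually_le_cube n Q hQ hβ lam hε)

end Vale.Agent.P361Lib
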