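import Mathlib

/-!
# The statement-level definitions for the Heisenberg ferromagnet on a box

Site `x` carries `ℂ^(n+1)` (spin `S = n/2`), with basis labelled by the number `i` of spin
deviations, that is `m = n/2 - i`.
-/

open Matrix

noncomputable section

namespace Vale.Agent.P361Lib

/-- Configurations of spins on `X`, each with `n+1` levels. -/
abbrev Cfg (X : Type) (n : ℕ) := X → Fin (n + 1)

/-- Single-site matrices. -/
abbrev SMat (n : ℕ) := Matrix (Fin (n + 1)) (Fin (n + 1)) ℂ

/-- Operators on the full spin system. -/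
abbrev Op (X : Type) (n : ℕ) := Matrix (Cfg X n) (Cfg X n) ℂ

/-- The single-site matrix `a` acting at the site `x` (tensored with the identity elsewhere). -/
def siteOp {X : Type} [Fintype X] [DecidableEq X] {n : ℕ} (x : X) (a : SMat n) : Op X n :=
  Matrix.of fun σ τ => if (∀ y, y ≠ x → σ y = τ y) then a (σ x) (τ x) else 0

/-- Raising matrix of spin `n/2` in the basis indexed by the number `i` of spin deviations
(`m = n/2 - i`): `⟨i| S⁺ |i+1⟩ = √((i+1)(n-i))`. -/
def spinP (n : ℕ) : SMat n :=
  Matrix.of fun i j => if (j : ℕ) = (i : ℕ) + 1 then ((Real.sqrt (((i : ℕ) + 1 : ℝ) * ((n : ℝ) - (i : ℕ))) : ℝ) : ℂ) else 0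

/-- Lowering matrix of spin `n/2`. -/
def spinM (n : ℕ) : SMat n := (spinP n)ᴴ

/-- The matrix `S³` of spin `n/2`: `S³ |i⟩ = (n/2 - i) |i⟩`. -/
def spinZ (n : ℕ) : SMat n := diagonal fun i => ((n : ℂ) / 2 - ((i : ℕ) : ℂ))

/-- The matrix `S¹ = (S⁺ + S⁻)/2`. -/
def spinX (n : ℕ) : SMat n := (1 / 2 : ℂ) • (spinP n + spinM n)

/-- The matrix `S² = (S⁺ - S⁻)/(2i)`. -/
def spinY (n : ℕ) : SMat n := (1 / (2 * Complex.I)) • (spinP n - spinM n)

/-- The box `{-N, …, N}³` as a finite subset of `ℤ³`. -/
def boxFinset (N : ℕ) : Finset (ℤ × ℤ × ℤ) :=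
  Finset.Icc (-(N : ℤ)) N ×ˢ Finset.Icc (-(N : ℤ)) N ×ˢ Finset.Icc (-(N : ℤ)) N

/-- The sites of the box. -/
abbrev BoxSite (N : ℕ) : Type := ↥(boxFinset N)

/-- Nearest neighbours in `ℤ³`: distance one in the `ℓ¹` metric. -/
def latticeNearest (p q : ℤ × ℤ × ℤ) : Prop :=
  |p.1 - q.1| + |p.2.1 - q.2.1| + |p.2.2 - q.2.2| = 1

/-- Nearest neighbours in the box. -/
def nearest {N : ℕ} (x y : BoxSite N) : Prop := latticeNearest x.1 y.1

instance latticeNearest_decidable : DecidableRel latticeNearest :=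
  fun _ _ => Int.decEq _ _

instance nearest_decidable {N : ℕ} : DecidableRel (nearest (N := N)) :=
  fun x y => latticeNearest_decidable x.1 y.1

/-- The scalar product `S_x · S_y` of the spin vectors at two sites. -/
def spinDot {X : Type} [Fintype X] [DecidableEq X] {n : ℕ} (x y : X) : Op X n :=
  siteOp x (spinX n) * siteOp y (spinX n) + siteOp x (spinY n) * siteOp y (spinY n)
    + siteOp x (spinZ n) * siteOp y (spinZ n)

/-- The nearest-neighbour Heisenberg ferromagnet on the box, free boundary conditions: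
the double sum counts every edge twice, hence the factor one half. -/
def hamiltonian (n N : ℕ) : Op (BoxSite N) n :=
  -((1 / 2 : ℂ) • ∑ x, ∑ y, if nearest x y then spinDot x y else 0)

/-- The total magnetization `∑ₓ S³ₓ`. -/
def magnetization (n N : ℕ) : Op (BoxSite N) n := ∑ x, siteOp x (spinZ n)

/-- The pressure at volume `Λ_N`, inverse temperature `β` and field `h`. -/
def pressureN (n N : ℕ) (β h : ℝ) : ℝ :=
  (1 / (β * Fintype.card (BoxSite N))) *
    Real.log (Matrix.trace (NormedSpace.exp ((-β) • (hamiltonian n N - h • magnetization n N)))).re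

end Vale.Agent.P361Lib
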