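import Mathlib

/-!
# The Dirichlet modes of a path
-/

open Finset

noncomputable section

namespace Vale.Agent.P361Lib

/-- The sine profile. -/
def sw (R p t : ℕ) : ℝ := Real.sin (Real.pi * p * t / R)

lemma sw_zero (R p : ℕ) : sw R p 0 = 0 := by
  simp [sw]

lemma sw_last {R : ℕ} (hR : 0 < R) (p : ℕ) : sw R p R = 0 := by
  unfold sw
  have hR' : (R : ℝ) ≠ 0 := by positivity
  have e : Real.pi * p * R / R = p * Real.pi := by
    field_simp
  rw [e, Real.sin_nat_mul_pi]

lemma sw_rec (R p t : ℕ) :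
    sw R p (t + 2) + sw R p t = 2 * Real.cos (Real.pi * p / R) * sw R p (t + 1) := by
  unfold sw
  set θ : ℝ := Real.pi * p / R with hθ
  have e0 : Real.pi * p * ((t + 2 : ℕ) : ℝ) / R = θ * ((t : ℝ) + 1) + θ := by
    rw [hθ]; push_cast; ring
  have e1 : Real.pi * p * ((t + 1 : ℕ) : ℝ) / R = θ * ((t : ℝ) + 1) := by
    rw [hθ]; push_cast; ring
  have e2 : Real.pi * p * ((t : ℕ) : ℝ) / R = θ * ((t : ℝ) + 1) - θ := by
    rw [hθ]; ring
  rw [e0, e1, e2, Real.sin_add, Real.sin_sub]
  ring

lemma sw_abs_le (R p t : ℕ) : |sw R p t| ≤ 1 := Real.abs_sin_le_one _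

lemma sw_succ_sub (R p t : ℕ) : |sw R p (t + 1) - sw R p t| ≤ Real.pi * p / R := by
  unfold sw
  have h := (Real.lipschitzWith_sin.dist_le_mul (Real.pi * p * ((t + 1 : ℕ) : ℝ) / R)
    (Real.pi * p * (t : ℝ) / R))
  simp only [NNReal.coe_one, one_mul, Real.dist_eq] at h
  refine h.trans (le_of_eq ?_)
  have e : Real.pi * p * ((t + 1 : ℕ) : ℝ) / R - Real.pi * p * (t : ℝ) / R = Real.pi * p / R := by
    push_cast
    ring
  rw [e, abs_of_nonneg (by positivity)]

/-- The orthogonality of the sine profiles. -/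
lemma sw_orth {R p p' : ℕ} (hp0 : 0 < p) (hp : p < R) (hp'0 : 0 < p') (hp' : p' < R) (hne : p ≠ p') :
    ∑ t ∈ Finset.range R, sw R p t * sw R p' t = 0 := by
  obtain ⟨R', rfl⟩ : ∃ R', R = R' + 1 := ⟨R - 1, by omega⟩
  have hR : 0 < R' + 1 := by omega
  set R := R' + 1 with hRdef
  set f := sw R p with hf
  set g := sw R p' with hg
  set h : ℕ → ℝ := fun t => f (t + 1) * g t - f t * g (t + 1) with hh
  have hsum := Finset.sum_range_sub h R'
  have hR'1 : R' + 1 = R := rfl
  have h1 : h R' = 0 := by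
    simp only [hh, hR'1]
    rw [hf, hg, sw_last hR, sw_last hR]
    ring
  have h2 : h 0 = 0 := by
    simp only [hh]
    rw [hf, hg, sw_zero, sw_zero]
    ring
  rw [h1, h2, sub_zero] at hsum
  set lamp : ℝ := 2 * Real.cos (Real.pi * p / R) with hlamp
  set lamq : ℝ := 2 * Real.cos (Real.pi * p' / R) with hlamq
  have hterm : ∀ t ∈ Finset.range R', h (t + 1) - h t = (lamp - lamq) * (f (t + 1) * g (t + 1)) := by
    intro t _
    simp only [hh]
    have e1 := sw_rec R p t
    have e2 := sw_rec R p' t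
    rw [← hf, ← hlamp] at e1
    rw [← hg, ← hlamq] at e2
    have e3 : f (t + 1 + 1) = lamp * f (t + 1) - f t := by
      have : t + 1 + 1 = t + 2 := rfl
      rw [this]
      linarith
    have e4 : g (t + 1 + 1) = lamq * g (t + 1) - g t := by
      have : t + 1 + 1 = t + 2 := rfl
      rw [this]
      linarith
    rw [e3, e4]
    ring
  rw [Finset.sum_congr rfl hterm, ← Finset.mul_sum] at hsum
  have hne2 : lamp - lamq ≠ 0 := by
    intro e
    have e1 : Real.cos (Real.pi * p / R) = Real.cos (Real.pi * p' / R) := by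
      simp only [hlamp, hlamq] at e
      linarith
    have hRr : (0 : ℝ) < R := by positivity
    have hpr : (p : ℝ) < R := by exact_mod_cast hp
    have hpr' : (p' : ℝ) < R := by exact_mod_cast hp'
    have hmem : ∀ q : ℕ, (q : ℝ) < R → Real.pi * q / R ∈ Set.Icc 0 Real.pi := by
      intro q hq
      refine ⟨by positivity, ?_⟩
      rw [div_le_iff₀ hRr]
      have := Real.pi_pos
      nlinarith
    have e2 := Real.injOn_cos (hmem p hpr) (hmem p' hpr') e1
    have e3 : Real.pi * p = Real.pi * p' := by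
      field_simp at e2
      nlinarith [Real.pi_pos]
    have e4 : (p : ℝ) = p' := mul_left_cancel₀ Real.pi_ne_zero e3
    exact hne (by exact_mod_cast e4)
  have hz : ∑ t ∈ Finset.range R', f (t + 1) * g (t + 1) = 0 := by
    rcases mul_eq_zero.mp hsum with h3 | h3
    · exact absurd h3 hne2
    · exact h3
  rw [hRdef, Finset.sum_range_succ', hz, zero_add]
  show sw R p 0 * sw R p' 0 = 0
  rw [sw_zero, sw_zero, mul_zero]

/-- The norm of the sine profile. -/
lemma sw_norm {R p : ℕ} (hp0 : 0 < p) (hp : p < R) :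
    ∑ t ∈ Finset.range R, sw R p t * sw R p t = (R : ℝ) / 2 := by
  have hR : 0 < R := by omega
  have hRr : (0 : ℝ) < R := by positivity
  set α : ℝ := Real.pi * p / R with hα
  have hα0 : 0 < α := by positivity
  have hαpi : α < Real.pi := by
    rw [hα, div_lt_iff₀ hRr]
    have : (p : ℝ) < R := by exact_mod_cast hp
    exact mul_lt_mul_of_pos_left this Real.pi_pos
  have hs : 0 < Real.sin α := Real.sin_pos_of_pos_of_lt_pi hα0 hαpi
  have hcos : ∑ t ∈ Finset.range R, Real.cos (2 * α * t) = 0 := by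
    set k : ℕ → ℝ := fun t => Real.sin (α * (2 * (t : ℝ) - 1)) with hk
    have h1 := Finset.sum_range_sub k R
    have hterm : ∀ t ∈ Finset.range R, k (t + 1) - k t = 2 * Real.sin α * Real.cos (2 * α * t) := by
      intro t _
      simp only [hk]
      have e1 : α * (2 * ((t + 1 : ℕ) : ℝ) - 1) = 2 * α * t + α := by
        push_cast
        ring
      have e2 : α * (2 * (t : ℝ) - 1) = 2 * α * t - α := by ring
      rw [e1, e2, Real.sin_add, Real.sin_sub]
      ring
    rw [Finset.sum_congr rfl hterm, ← Finset.mul_sum] at h1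
    have h2 : k R - k 0 = 0 := by
      simp only [hk]
      have e1 : α * (2 * (R : ℝ) - 1) = (p : ℝ) * (2 * Real.pi) - α := by
        rw [hα]
        field_simp
      have e2 : α * (2 * ((0 : ℕ) : ℝ) - 1) = -α := by
        push_cast
        ring
      rw [e1, e2, Real.sin_neg, Real.sin_nat_mul_two_pi_sub]
      ring
    rw [h2] at h1
    rcases mul_eq_zero.mp h1 with h3 | h3
    · exfalso
      linarith
    · exact h3
  have hterm : ∀ t ∈ Finset.range R, sw R p t * sw R p t = 1 / 2 - Real.cos (2 * α * t) / 2 := by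
    intro t _
    unfold sw
    have e1 : Real.pi * p * (t : ℝ) / R = α * t := by
      rw [hα]
      ring
    rw [e1]
    have h1 := Real.sin_sq_add_cos_sq (α * t)
    have h2 := Real.cos_sq (α * t)
    have e2 : 2 * (α * t) = 2 * α * t := by ring
    rw [e2] at h2
    nlinarith
  rw [Finset.sum_congr rfl hterm]
  simp only [Finset.sum_sub_distrib, Finset.sum_const, Finset.card_range, nsmul_eq_mul]
  rw [← Finset.sum_div, hcos]
  ring

/-- The normalised Dirichlet mode on the path with `R + 1` sites. -/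
def fD (R p t : ℕ) : ℝ := Real.sqrt (2 / R) * sw R p t

/-- The eigenvalue of the Dirichlet mode. -/
def lamD (R p : ℕ) : ℝ := 2 * (1 - Real.cos (Real.pi * p / R))

lemma lamD_nonneg (R p : ℕ) : 0 ≤ lamD R p := by
  unfold lamD
  have := Real.cos_le_one (Real.pi * p / R)
  linarith

lemma lamD_le (R p : ℕ) : lamD R p ≤ (Real.pi * p / R) ^ 2 := by
  unfold lamD
  have := Real.one_sub_sq_div_two_le_cos (x := Real.pi * p / R)
  linarith

lemma fD_last {R : ℕ} (hR : 0 < R) (p : ℕ) : fD R p R = 0 := by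
  unfold fD
  rw [sw_last hR, mul_zero]

lemma fD_zero (R p : ℕ) : fD R p 0 = 0 := by
  unfold fD
  rw [sw_zero, mul_zero]

lemma sqrt_two_div_sq (R : ℕ) : Real.sqrt (2 / R) * Real.sqrt (2 / R) = 2 / R :=
  Real.mul_self_sqrt (by positivity)

/-- The orthonormality of the Dirichlet modes. -/
lemma fD_orth {R p p' : ℕ} (hp0 : 0 < p) (hp : p < R) (hp'0 : 0 < p') (hp' : p' < R) :
    ∑ t : Fin (R + 1), fD R p t * fD R p' t = if p = p' then 1 else 0 := by
  have hR : 0 < R := by omega
  have hRr : (0 : ℝ) < R := by positivity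
  rw [Fin.sum_univ_eq_sum_range (fun t => fD R p t * fD R p' t) (R + 1), Finset.sum_range_succ, fD_last hR,
    zero_mul, add_zero]
  have e : ∀ t ∈ Finset.range R, fD R p t * fD R p' t = (2 / R) * (sw R p t * sw R p' t) := by
    intro t _
    unfold fD
    calc Real.sqrt (2 / R) * sw R p t * (Real.sqrt (2 / R) * sw R p' t)
        = (Real.sqrt (2 / R) * Real.sqrt (2 / R)) * (sw R p t * sw R p' t) := by ring
      _ = (2 / R) * (sw R p t * sw R p' t) := by rw [sqrt_two_div_sq]
  rw [Finset.sum_congr rfl e, ← Finset.mul_sum]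
  by_cases h : p = p'
  · subst h
    rw [sw_norm hp0 hp, if_pos rfl]
    field_simp
  · rw [sw_orth hp0 hp hp'0 hp' h, if_neg h, mul_zero]

lemma fD_abs_le (R p t : ℕ) : |fD R p t| ≤ Real.sqrt (2 / R) := by
  unfold fD
  rw [abs_mul, abs_of_nonneg (Real.sqrt_nonneg _)]
  exact mul_le_of_le_one_right (Real.sqrt_nonneg _) (sw_abs_le R p t)

lemma fD_succ_sub (R p t : ℕ) : |fD R p (t + 1) - fD R p t| ≤ Real.sqrt (2 / R) * (Real.pi * p / R) := by
  unfold fD
  rw [← mul_sub, abs_mul, abs_of_nonneg (Real.sqrt_nonneg _)]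
  exact mul_le_mul_of_nonneg_left (sw_succ_sub R p t) (Real.sqrt_nonneg _)

/-- The eigenvalue equation of the Dirichlet mode. -/
lemma fD_rec (R p t : ℕ) :
    (fD R p (t + 1) - fD R p t) + (fD R p (t + 1) - fD R p (t + 2)) = lamD R p * fD R p (t + 1) := by
  unfold fD lamD
  have h := sw_rec R p t
  have e : sw R p (t + 2) = 2 * Real.cos (Real.pi * p / R) * sw R p (t + 1) - sw R p t := by linarith
  rw [e]
  ring

end Vale.Agent.P361Lib
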