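import Vale.Agent.Lib.P361.Factor

/-!
# Embedding a spin system into a larger one
-/

open Matrix
open scoped MatrixOrder ComplexOrder

noncomputable section

namespace Vale.Agent.P361Lib

set_option linter.unusedSectionVars false

variable {X Y : Type} [Fintype X] [DecidableEq X] [Fintype Y] [DecidableEq Y] {n : ℕ}

/-- The image of the embedding as a block. -/
def imgB (j : Y → X) : Finset X := Finset.univ.image j

/-- The embedding of operators. -/
def embedOp (j : Y → X) (A : Op Y n) : Op X n :=
  Matrix.of fun σ τ => if ∀ x, x ∉ imgB j → σ x = τ x then A (σ ∘ j) (τ ∘ j) else 0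

lemma embedOp_apply (j : Y → X) (A : Op Y n) (σ τ : Cfg X n) :
    embedOp j A σ τ = if ∀ x, x ∉ imgB j → σ x = τ x then A (σ ∘ j) (τ ∘ j) else 0 := rfl

/-- Sum over the configurations agreeing with `σ` off the block. -/
lemma sum_glue {j : Y → X} (hj : Function.Injective j) (σ : Cfg X n) (f : Cfg X n → ℂ) :
    ∑ ρ : Cfg X n, (if ∀ x, x ∉ imgB j → σ x = ρ x then f ρ else 0)
      = ∑ ρ' : Cfg Y n, f (Function.extend j ρ' σ) := by
  rw [← Finset.sum_filter]
  refine Finset.sum_bij' (fun ρ _ => ρ ∘ j) (fun ρ' _ => Function.extend j ρ' σ) ?_ ?_ ?_ ?_ ?_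
  · intro ρ _
    exact Finset.mem_univ _
  · intro ρ' _
    simp only [Finset.mem_filter, Finset.mem_univ, true_and]
    intro x hx
    have hx' : ¬ ∃ y, j y = x := by
      rintro ⟨y, rfl⟩
      exact hx (Finset.mem_image_of_mem j (Finset.mem_univ y))
    rw [Function.extend_apply' _ _ _ hx']
  · intro ρ hρ
    simp only [Finset.mem_filter, Finset.mem_univ, true_and] at hρ
    funext x
    by_cases hx : ∃ y, j y = x
    · obtain ⟨y, rfl⟩ := hx
      rw [hj.extend_apply]
      rfl
    · rw [Function.extend_apply' _ _ _ hx]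
      refine hρ x ?_
      intro hm
      obtain ⟨y, _, rfl⟩ := Finset.mem_image.mp hm
      exact hx ⟨y, rfl⟩
  · intro ρ' _
    funext y
    simp only [Function.comp_apply]
    rw [hj.extend_apply]
  · intro ρ hρ
    simp only [Finset.mem_filter, Finset.mem_univ, true_and] at hρ
    congr 1
    funext x
    by_cases hx : ∃ y, j y = x
    · obtain ⟨y, rfl⟩ := hx
      rw [hj.extend_apply]
      rfl
    · rw [Function.extend_apply' _ _ _ hx]
      symm
      refine hρ x ?_
      intro hm
      obtain ⟨y, _, rfl⟩ := Finset.mem_image.mp hm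
      exact hx ⟨y, rfl⟩

lemma embedOp_mul {j : Y → X} (hj : Function.Injective j) (A B : Op Y n) :
    embedOp j (A * B) = embedOp j A * embedOp j B := by
  ext σ τ
  have e : (embedOp j A * embedOp j B) σ τ
      = ∑ ρ : Cfg X n, (if ∀ x, x ∉ imgB j → σ x = ρ x then A (σ ∘ j) (ρ ∘ j) else 0)
          * (if ∀ x, x ∉ imgB j → ρ x = τ x then B (ρ ∘ j) (τ ∘ j) else 0) := by
    rw [Matrix.mul_apply]
    rfl
  rw [embedOp_apply, e]
  by_cases h : ∀ x, x ∉ imgB j → σ x = τ x
  · rw [if_pos h, Matrix.mul_apply]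
    have h1 : ∀ ρ : Cfg X n,
        (if ∀ x, x ∉ imgB j → σ x = ρ x then A (σ ∘ j) (ρ ∘ j) else 0)
          * (if ∀ x, x ∉ imgB j → ρ x = τ x then B (ρ ∘ j) (τ ∘ j) else 0)
        = if ∀ x, x ∉ imgB j → σ x = ρ x then A (σ ∘ j) (ρ ∘ j) * B (ρ ∘ j) (τ ∘ j) else 0 := by
      intro ρ
      by_cases hρ : ∀ x, x ∉ imgB j → σ x = ρ x
      · have hρ' : ∀ x, x ∉ imgB j → ρ x = τ x := fun x hx => (hρ x hx).symm.trans (h x hx)
        rw [if_pos hρ, if_pos hρ', if_pos hρ]
      · rw [if_neg hρ, if_neg hρ, zero_mul]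
    rw [Finset.sum_congr rfl fun ρ _ => h1 ρ, sum_glue hj]
    refine Finset.sum_congr rfl fun ρ' _ => ?_
    have : Function.extend j ρ' σ ∘ j = ρ' := by
      funext y
      simp only [Function.comp_apply]
      rw [hj.extend_apply]
    rw [this]
  · rw [if_neg h]
    symm
    refine Finset.sum_eq_zero fun ρ _ => ?_
    by_cases hρ : ∀ x, x ∉ imgB j → σ x = ρ x
    · have hρ' : ¬ ∀ x, x ∉ imgB j → ρ x = τ x := fun h2 =>
        h fun x hx => (hρ x hx).trans (h2 x hx)
      rw [if_neg hρ', mul_zero]
    · rw [if_neg hρ, zero_mul]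

lemma embedOp_one {j : Y → X} (hj : Function.Injective j) : embedOp j (1 : Op Y n) = 1 := by
  ext σ τ
  rw [embedOp_apply]
  by_cases hst : σ = τ
  · subst hst
    rw [if_pos (fun _ _ => rfl), Matrix.one_apply_eq, Matrix.one_apply_eq]
  · rw [Matrix.one_apply_ne hst]
    by_cases h : ∀ x, x ∉ imgB j → σ x = τ x
    · rw [if_pos h, Matrix.one_apply_ne]
      intro e
      apply hst
      funext x
      by_cases hx : x ∈ imgB j
      · obtain ⟨y, _, rfl⟩ := Finset.mem_image.mp hx
        exact congrFun e y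
      · exact h x hx
    · rw [if_neg h]

lemma embedOp_add (j : Y → X) (A B : Op Y n) : embedOp j (A + B) = embedOp j A + embedOp j B := by
  ext σ τ
  simp only [embedOp_apply, Matrix.add_apply]
  split_ifs <;> simp

lemma embedOp_zero (j : Y → X) : embedOp j (0 : Op Y n) = 0 := by
  ext σ τ
  simp only [embedOp_apply, Matrix.zero_apply]
  split_ifs <;> simp

lemma embedOp_smul (j : Y → X) (c : ℂ) (A : Op Y n) : embedOp j (c • A) = c • embedOp j A := by
  ext σ τ
  simp only [embedOp_apply, Matrix.smul_apply]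
  split_ifs <;> simp

lemma embedOp_real_smul (j : Y → X) (c : ℝ) (A : Op Y n) : embedOp j (c • A) = c • embedOp j A := by
  ext σ τ
  simp only [embedOp_apply, Matrix.smul_apply]
  split_ifs <;> simp

lemma embedOp_neg (j : Y → X) (A : Op Y n) : embedOp j (-A) = -embedOp j A := by
  ext σ τ
  simp only [embedOp_apply, Matrix.neg_apply]
  split_ifs <;> simp

lemma embedOp_sub (j : Y → X) (A B : Op Y n) : embedOp j (A - B) = embedOp j A - embedOp j B := by
  ext σ τ
  simp only [embedOp_apply, Matrix.sub_apply]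
  split_ifs <;> simp

lemma embedOp_sum (j : Y → X) {ι : Type} (s : Finset ι) (f : ι → Op Y n) :
    embedOp j (∑ i ∈ s, f i) = ∑ i ∈ s, embedOp j (f i) := by
  classical
  induction s using Finset.induction_on with
  | empty => simp [embedOp_zero]
  | insert a s ha ih => rw [Finset.sum_insert ha, Finset.sum_insert ha, embedOp_add, ih]

/-- The embedding as a ring homomorphism. -/
def embedHom {j : Y → X} (hj : Function.Injective j) : Op Y n →+* Op X n where
  toFun := embedOp j
  map_one' := embedOp_one hj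
  map_mul' := embedOp_mul hj
  map_zero' := embedOp_zero j
  map_add' := embedOp_add j

lemma embedOp_continuous (j : Y → X) : Continuous (embedOp (n := n) j) := by
  refine continuous_matrix fun σ τ => ?_
  simp only [embedOp_apply]
  split_ifs
  · exact continuous_id.matrix_elem _ _
  · exact continuous_const

lemma embedOp_exp {j : Y → X} (hj : Function.Injective j) (A : Op Y n) :
    embedOp j (NormedSpace.exp A) = NormedSpace.exp (embedOp j A) := by
  open scoped Matrix.Norms.Operator in
  exact NormedSpace.map_exp (embedHom (n := n) hj) (embedOp_continuous j) A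

lemma embedOp_siteOp {j : Y → X} (hj : Function.Injective j) (y : Y) (a : SMat n) :
    embedOp j (siteOp y a) = siteOp (j y) a := by
  ext σ τ
  rw [embedOp_apply, siteOp_apply, siteOp_apply]
  simp only [Function.comp_apply]
  by_cases h : ∀ x, x ≠ j y → σ x = τ x
  · rw [if_pos h]
    have h1 : ∀ x, x ∉ imgB j → σ x = τ x := by
      intro x hx
      refine h x ?_
      rintro rfl
      exact hx (Finset.mem_image_of_mem j (Finset.mem_univ y))
    have h2 : ∀ y', y' ≠ y → σ (j y') = τ (j y') := by
      intro y' hy'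
      exact h _ (fun e => hy' (hj e))
    rw [if_pos h1, if_pos h2]
  · rw [if_neg h]
    by_cases h1 : ∀ x, x ∉ imgB j → σ x = τ x
    · rw [if_pos h1, if_neg]
      intro h2
      apply h
      intro x hx
      by_cases hm : x ∈ imgB j
      · obtain ⟨y', _, rfl⟩ := Finset.mem_image.mp hm
        exact h2 y' (fun e => hx (by rw [e]))
      · exact h1 x hm
    · rw [if_neg h1]

lemma embedOp_hEdge {j : Y → X} (hj : Function.Injective j) (y y' : Y) :
    embedOp j (hEdge y y' : Op Y n) = hEdge (j y) (j y') := by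
  unfold hEdge
  by_cases h : y = y'
  · subst h
    simp [embedOp_zero]
  · rw [if_neg h, if_neg (fun e => h (hj e)), embedOp_sub, embedOp_sub, embedOp_smul, embedOp_smul,
      embedOp_one hj, embedOp_mul hj, embedOp_add, embedOp_mul hj, embedOp_mul hj, embedOp_siteOp hj,
      embedOp_siteOp hj, embedOp_siteOp hj, embedOp_siteOp hj, embedOp_siteOp hj, embedOp_siteOp hj]

lemma sum_imgB {j : Y → X} (hj : Function.Injective j) {M : Type*} [AddCommMonoid M] (f : X → M) :
    ∑ x ∈ imgB j, f x = ∑ y, f (j y) := by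
  unfold imgB
  rw [Finset.sum_image (fun a _ b _ e => hj e)]

lemma embedOp_edgeSum {j : Y → X} (hj : Function.Injective j) {adj : X → X → Prop}
    [DecidableRel adj] {adj' : Y → Y → Prop} [DecidableRel adj']
    (hadj : ∀ y y', adj' y y' ↔ adj (j y) (j y')) :
    embedOp j (edgeSum adj' (Finset.univ : Finset Y) : Op Y n) = edgeSum adj (imgB j) := by
  unfold edgeSum
  rw [embedOp_real_smul, embedOp_sum, sum_imgB hj]
  congr 1
  refine Finset.sum_congr rfl fun y _ => ?_
  rw [embedOp_sum, sum_imgB hj]
  refine Finset.sum_congr rfl fun y' _ => ?_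
  by_cases h : adj' y y'
  · rw [if_pos h, if_pos ((hadj y y').mp h), embedOp_hEdge hj]
  · rw [if_neg h, if_neg (fun h2 => h ((hadj y y').mpr h2)), embedOp_zero]

lemma embedOp_totalOp {j : Y → X} (hj : Function.Injective j) (a : SMat n) :
    embedOp j (totalOp (Finset.univ : Finset Y) a) = totalOp (imgB j) a := by
  unfold totalOp
  rw [embedOp_sum, sum_imgB hj]
  exact Finset.sum_congr rfl fun y _ => embedOp_siteOp hj y a

/-- The trace over the block of an embedded operator. -/
lemma trace_embedOp {j : Y → X} (hj : Function.Injective j) (A : Op Y n) :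
    trace (embedOp j A * wt (imgB j)ᶜ 0) = trace A := by
  rw [trace_mul_wt_zero]
  have h1 : ∀ σ : Cfg X n, (if ∀ x ∈ (imgB j)ᶜ, σ x = 0 then embedOp j A σ σ else 0)
      = if ∀ x, x ∉ imgB j → (fun _ => 0 : Cfg X n) x = σ x then A (σ ∘ j) (σ ∘ j) else 0 := by
    intro σ
    rw [embedOp_apply, if_pos (fun _ _ => rfl)]
    by_cases h : ∀ x ∈ (imgB j)ᶜ, σ x = 0
    · rw [if_pos h, if_pos]
      intro x hx
      exact (h x (by simpa using hx)).symm
    · rw [if_neg h, if_neg]
      intro h2
      apply h
      intro x hx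
      exact (h2 x (by simpa using hx)).symm
  rw [Finset.sum_congr rfl fun σ _ => h1 σ, sum_glue hj]
  unfold Matrix.trace
  refine Finset.sum_congr rfl fun ρ' _ => ?_
  have : Function.extend j ρ' (fun _ => 0) ∘ j = ρ' := by
    funext y
    simp only [Function.comp_apply]
    rw [hj.extend_apply]
  rw [this]
  rfl

end Vale.Agent.P361Lib
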