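import Vale.Agent.Lib.P361.Final

/-!
# Factorization of the trace over disjoint blocks, and embedding of spin systems
-/

open Matrix
open scoped MatrixOrder ComplexOrder

noncomputable section

namespace Vale.Agent.P361Lib

variable {X : Type} [Fintype X] [DecidableEq X] {n : ℕ}

/-- The diagonal of an operator off the block `k` does not depend on the levels in `k`. -/
lemma Off.diag_update {k : Finset X} {F : Op X n} (hF : Off k F) {x : X} (hx : x ∈ k)
    (σ : Cfg X n) (i : Fin (n + 1)) : F (Function.update σ x i) (Function.update σ x i) = F σ σ := by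
  have hc := (hF x hx (Matrix.single (σ x) i (1 : ℂ))).eq
  have h := congrFun (congrFun hc σ) (Function.update σ x i)
  rw [mul_siteOp_apply, siteOp_mul_apply] at h
  simp only [Function.update_self] at h
  rw [Finset.sum_eq_single (σ x), Finset.sum_eq_single i] at h
  · simp only [Matrix.single_apply_same, mul_one, one_mul, Function.update_idem,
      Function.update_eq_self] at h
    exact h.symm
  · intro j _ hj
    simp only [Matrix.single_apply]
    rw [if_neg (fun e => hj e.2.symm), zero_mul]
  · intro h0
    exact absurd (Finset.mem_univ _) h0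
  · intro j _ hj
    simp only [Matrix.single_apply]
    rw [if_neg (fun e => hj e.1.symm), mul_zero]
  · intro h0
    exact absurd (Finset.mem_univ _) h0

/-- The diagonal of an operator off the block `k` depends only on the levels off `k`. -/
lemma Off.diag_congr {k : Finset X} {F : Op X n} (hF : Off k F) {σ τ : Cfg X n}
    (h : ∀ x, x ∉ k → σ x = τ x) : F σ σ = F τ τ := by
  classical
  have key : ∀ (s : Finset X), s ⊆ k → ∀ σ τ : Cfg X n, (∀ x, x ∉ s → σ x = τ x) → F σ σ = F τ τ := by
    intro s
    induction s using Finset.induction_on with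
    | empty =>
      intro _ σ τ h
      have : σ = τ := by
        funext x
        exact h x (by simp)
      rw [this]
    | insert a s ha ih =>
      intro hs σ τ h
      have h1 : F σ σ = F (Function.update σ a (τ a)) (Function.update σ a (τ a)) :=
        (Off.diag_update hF (hs (Finset.mem_insert_self a s)) σ (τ a)).symm
      rw [h1]
      refine ih (fun y hy => hs (Finset.mem_insert_of_mem hy)) _ _ ?_
      intro x hx
      by_cases hxa : x = a
      · subst hxa
        simp
      · rw [Function.update_of_ne hxa]
        refine h x ?_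
        simp [hxa, hx]
  exact key k subset_rfl σ τ h

/-- The trace of a product of an operator off `k` and an operator off the complement of `k`
is computed by the diagonals. -/
lemma trace_mul_eq_diag {k : Finset X} {F G : Op X n} (hF : Off k F) (hG : Off kᶜ G) :
    trace (F * G) = ∑ σ, F σ σ * G σ σ := by
  unfold Matrix.trace
  refine Finset.sum_congr rfl fun σ _ => ?_
  rw [Matrix.diag_apply, Matrix.mul_apply, Finset.sum_eq_single σ]
  · intro τ _ hτ
    by_contra hne
    have h1 : F σ τ ≠ 0 := fun h0 => hne (by rw [h0, zero_mul])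
    have h2 : G τ σ ≠ 0 := fun h0 => hne (by rw [h0, mul_zero])
    apply hτ
    funext x
    by_cases hx : x ∈ k
    · exact (hF.entry h1 x hx).symm
    · exact hG.entry h2 x (by simpa using hx)
  · intro h0
    exact absurd (Finset.mem_univ _) h0

lemma zero_pow_devCount (k : Finset X) (σ : Cfg X n) :
    ((0 : ℝ) ^ (devCount k σ) : ℝ) = if ∀ x ∈ k, σ x = 0 then 1 else 0 := by
  by_cases h : ∀ x ∈ k, σ x = 0
  · rw [if_pos h]
    have : devCount k σ = 0 := by
      unfold devCount
      refine Finset.sum_eq_zero fun x hx => ?_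
      rw [h x hx]
      rfl
    rw [this, pow_zero]
  · rw [if_neg h]
    have : devCount k σ ≠ 0 := by
      intro h0
      apply h
      intro x hx
      unfold devCount at h0
      rw [Finset.sum_eq_zero_iff] at h0
      exact Fin.ext (by simpa using h0 x hx)
    exact zero_pow this

lemma trace_mul_wt_zero (k : Finset X) (F : Op X n) :
    trace (F * wt k 0) = ∑ σ, if ∀ x ∈ k, σ x = 0 then F σ σ else 0 := by
  unfold wt Matrix.trace
  refine Finset.sum_congr rfl fun σ _ => ?_
  rw [Matrix.diag_apply, Matrix.mul_diagonal, zero_pow_devCount]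
  split_ifs <;> simp

/-- A sum over configurations of a product of a function of the levels off `k` and a function of
the levels in `k` factorizes. -/
lemma sum_split (k : Finset X) (D₁ D₂ : Cfg X n → ℂ)
    (h₁ : ∀ σ τ : Cfg X n, (∀ x, x ∉ k → σ x = τ x) → D₁ σ = D₁ τ)
    (h₂ : ∀ σ τ : Cfg X n, (∀ x ∈ k, σ x = τ x) → D₂ σ = D₂ τ) :
    ∑ σ, D₁ σ * D₂ σ
      = (∑ σ, if ∀ x ∈ k, σ x = 0 then D₁ σ else 0)
        * (∑ σ, if ∀ x ∈ kᶜ, σ x = 0 then D₂ σ else 0) := by
  rw [← Finset.sum_filter, ← Finset.sum_filter, Finset.sum_mul_sum, ← Finset.sum_product']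
  refine Finset.sum_nbij'
    (fun σ => ((fun x => if x ∈ k then 0 else σ x), (fun x => if x ∈ k then σ x else 0)))
    (fun p x => if x ∈ k then p.2 x else p.1 x) ?_ ?_ ?_ ?_ ?_
  · intro σ _
    simp only [Finset.mem_product, Finset.mem_filter, Finset.mem_univ, true_and, Finset.mem_compl]
    constructor
    · intro x hx
      simp [hx]
    · intro x hx
      simp [hx]
  · intro p _
    exact Finset.mem_univ _
  · intro σ _
    funext x
    by_cases hx : x ∈ k <;> simp [hx]
  · rintro ⟨a, b⟩ hp
    simp only [Finset.mem_product, Finset.mem_filter, Finset.mem_univ, true_and, Finset.mem_compl] at hp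
    refine Prod.ext ?_ ?_
    · funext x
      by_cases hx : x ∈ k
      · simp [hx, hp.1 x hx]
      · simp [hx]
    · funext x
      by_cases hx : x ∈ k
      · simp [hx]
      · simp [hx, hp.2 x hx]
  · intro σ _
    simp only
    rw [h₁ σ (fun x => if x ∈ k then 0 else σ x), h₂ σ (fun x => if x ∈ k then σ x else 0)]
    · intro x hx
      simp [hx]
    · intro x hx
      simp [hx]

lemma wt_mul_wt_zero {a b : Finset X} (h : Disjoint a b) :
    (wt a 0 * wt b 0 : Op X n) = wt (a ∪ b) 0 := by
  rw [wt_union h]

/-- The factorization of the trace. -/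
theorem trace_factor {k : Finset X} {F G : Op X n} (hF : Off k F) (hG : Off kᶜ G) :
    trace (F * G) = trace (F * wt k 0) * trace (G * wt kᶜ 0) := by
  rw [trace_mul_eq_diag hF hG, trace_mul_wt_zero, trace_mul_wt_zero]
  refine sum_split k (fun σ => F σ σ) (fun σ => G σ σ) ?_ ?_
  · intro σ τ h
    exact hF.diag_congr h
  · intro σ τ h
    refine hG.diag_congr ?_
    intro x hx
    exact h x (by simpa using hx)

/-- Factorization of the partial trace over two disjoint blocks. -/
theorem partial_trace_union {a b : Finset X} (hab : Disjoint a b) {G₁ G₂ : Op X n} (h₁ : Loc a G₁)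
    (h₂ : Loc b G₂) :
    trace (G₁ * G₂ * wt (a ∪ b)ᶜ 0) = trace (G₁ * wt aᶜ 0) * trace (G₂ * wt bᶜ 0) := by
  have hdc : Disjoint a (a ∪ b)ᶜ := by
    rw [Finset.disjoint_left]
    intro x hx hx'
    simp only [Finset.mem_compl, Finset.mem_union, not_or] at hx'
    exact hx'.1 hx
  have hF : Off a (G₂ * wt (a ∪ b)ᶜ 0) :=
    (h₂.off hab.symm).mul (off_wt hdc.symm 0)
  have hG : Off aᶜ G₁ := h₁.off disjoint_compl_right
  have e0 : G₁ * G₂ * wt (a ∪ b)ᶜ 0 = G₁ * (G₂ * wt (a ∪ b)ᶜ 0) := by
    rw [Matrix.mul_assoc]
  rw [e0, Matrix.trace_mul_comm, trace_factor hF hG, mul_comm]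
  congr 1
  rw [Matrix.mul_assoc, wt_mul_wt_zero hdc.symm]
  congr 3
  ext x
  simp only [Finset.mem_union, Finset.mem_compl, not_or]
  constructor
  · rintro (⟨_, h⟩ | h)
    · exact h
    · exact fun hb => Finset.disjoint_left.mp hab h hb
  · intro h
    by_cases hx : x ∈ a
    · exact Or.inr hx
    · exact Or.inl ⟨hx, h⟩

end Vale.Agent.P361Lib
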