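import Vale.Agent.Lib.P361.Convex

/-!
# The magnetization is below saturation, with the spin-wave power
-/

open Matrix Filter Topology
open scoped MatrixOrder ComplexOrder

noncomputable section

namespace Vale.Agent.P361Lib

lemma Ztil_zero (n N : ℕ) (β : ℝ) :
    Ztil n N β 0 = (trace (NormedSpace.exp
      (-(β • (edgeSum nearest (Finset.univ : Finset (BoxSite N)) : Op (BoxSite N) n))))).re := by
  unfold Ztil
  rw [zero_smul, add_zero]

/-- The finite-volume comparison of pressures. -/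
theorem pressure_diff_le {n : ℕ} (hn : 1 ≤ n) {β : ℝ} (hβ : 0 < β) (N m l : ℕ)
    (hm : (4 : ℝ) ^ m ≤ β * n) (hl : 2 ≤ l) {h : ℝ} (hz : Real.exp (-(β * h)) ≤ 1 / 2) :
    pressureN n N β h - pressureN n N β 0
      ≤ h * ((n : ℝ) / 2) + (1 / β) *
        ((((((2 * N + 1) / 2 ^ m : ℕ) : ℝ) / (2 * (N : ℝ) + 1)) ^ 3 * (4 * (9 : ℝ) ^ 8)
            + (1 - (((((2 * N + 1) / 2 ^ m : ℕ) : ℝ) / (2 * (N : ℝ) + 1)) ^ 3 * (8 : ℝ) ^ m)) * 2)
              * Real.exp (-(β * h))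
          - (((((2 * N + 1) / (l + 1) : ℕ) : ℝ) / (2 * (N : ℝ) + 1)) ^ 3
              * Real.log (1 + Real.exp (-(β * (15 * (n : ℝ) / ((l : ℝ) ^ 2 + 1))))))) := by
  set Q : ℝ := 2 * (N : ℝ) + 1 with hQ
  have hQ0 : 0 < Q := by positivity
  set q : ℝ := (((2 * N + 1) / 2 ^ m : ℕ) : ℝ) with hq
  set q' : ℕ := (2 * N + 1) / (l + 1) with hq'
  set Lam : ℝ := Real.log (1 + Real.exp (-(β * (15 * (n : ℝ) / ((l : ℝ) ^ 2 + 1))))) with hLam
  set z : ℝ := Real.exp (-(β * h)) with hzdef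
  have hcard : (Fintype.card (BoxSite N) : ℝ) = Q ^ 3 := by
    rw [card_boxSite, hQ]
    push_cast
    ring
  have hU : Real.log (Ztil n N β (β * h))
      ≤ (q ^ 3 * (4 * (9 : ℝ) ^ 8) + ((Q ^ 3) - q ^ 3 * (8 : ℝ) ^ m) * 2) * z := by
    have hb := upper_box hn hβ.le N m hm (lam := β * h) hz
    have := Real.log_le_log (Ztil_pos n N β (β * h)) hb
    rwa [Real.log_exp] at this
  have hL : ((q' : ℝ) ^ 3) * Lam ≤ Real.log (Ztil n N β (β * 0)) := by
    have hb := lower_box hn hβ.le N hl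
    rw [mul_zero, Ztil_zero]
    have hpos : 0 < (1 + Real.exp (-(β * (15 * (n : ℝ) / ((l : ℝ) ^ 2 + 1))))) ^ (q' ^ 3) := by
      positivity
    have := Real.log_le_log hpos hb
    rw [Real.log_pow] at this
    push_cast at this
    exact this
  rw [pressureN_eq, pressureN_eq, hcard]
  have hβ' : β ≠ 0 := hβ.ne'
  have hQ' : Q ≠ 0 := hQ0.ne'
  have e : 1 / (β * Q ^ 3) * (β * (((n : ℝ) / 2) ^ 2 * edgeCount N + h * ((n : ℝ) / 2 * Q ^ 3))
        + Real.log (Ztil n N β (β * h)))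
      - 1 / (β * Q ^ 3) * (β * (((n : ℝ) / 2) ^ 2 * edgeCount N + 0 * ((n : ℝ) / 2 * Q ^ 3))
        + Real.log (Ztil n N β (β * 0)))
      = h * ((n : ℝ) / 2) + (1 / β) * ((Real.log (Ztil n N β (β * h))
          - Real.log (Ztil n N β (β * 0))) / Q ^ 3) := by
    field_simp
    ring
  rw [e]
  refine add_le_add le_rfl (mul_le_mul_of_nonneg_left ?_ (by positivity))
  rw [div_le_iff₀ (by positivity)]
  have e2 : (((q / Q) ^ 3 * (4 * (9 : ℝ) ^ 8) + (1 - (q / Q) ^ 3 * (8 : ℝ) ^ m) * 2) * z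
        - ((q' : ℝ) / Q) ^ 3 * Lam) * Q ^ 3
      = (q ^ 3 * (4 * (9 : ℝ) ^ 8) + ((Q ^ 3) - q ^ 3 * (8 : ℝ) ^ m) * 2) * z
        - ((q' : ℝ) ^ 3) * Lam := by
    field_simp
  rw [e2]
  linarith

/-- Density of a sublattice. -/
lemma tendsto_div_density {P : ℕ} (hP : 0 < P) :
    Tendsto (fun N : ℕ => (((2 * N + 1) / P : ℕ) : ℝ) / (2 * (N : ℝ) + 1)) atTop
      (𝓝 (1 / (P : ℝ))) := by
  have hP' : (0 : ℝ) < P := by exact_mod_cast hP
  have h0 : Tendsto (fun N : ℕ => 1 / (2 * (N : ℝ) + 1)) atTop (𝓝 0) := by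
    refine tendsto_const_nhds.div_atTop ?_
    exact tendsto_atTop_add_const_right _ _
      (Tendsto.const_mul_atTop (by norm_num) tendsto_natCast_atTop_atTop)
  have hlow : Tendsto (fun N : ℕ => 1 / (P : ℝ) - 1 / (2 * (N : ℝ) + 1)) atTop (𝓝 (1 / (P : ℝ))) := by
    simpa using tendsto_const_nhds.sub h0
  refine tendsto_of_tendsto_of_tendsto_of_le_of_le hlow tendsto_const_nhds ?_ ?_
  · intro N
    have hQ : (0 : ℝ) < 2 * (N : ℝ) + 1 := by positivity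
    show 1 / (P : ℝ) - 1 / (2 * (N : ℝ) + 1) ≤ _ / _
    rw [le_div_iff₀ hQ]
    have h1 := Nat.div_add_mod (2 * N + 1) P
    have h2 := Nat.mod_lt (2 * N + 1) hP
    have h3 : (2 * N + 1) ≤ P * ((2 * N + 1) / P) + P := by omega
    have h4 : (2 * (N : ℝ) + 1) ≤ P * (((2 * N + 1) / P : ℕ) : ℝ) + P := by exact_mod_cast h3
    have e : (1 / (P : ℝ) - 1 / (2 * (N : ℝ) + 1)) * (2 * (N : ℝ) + 1)
        = (2 * (N : ℝ) + 1) / P - 1 := by
      field_simp
    rw [e, sub_le_iff_le_add, div_le_iff₀ hP']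
    linarith
  · intro N
    have hQ : (0 : ℝ) < 2 * (N : ℝ) + 1 := by positivity
    show _ / _ ≤ 1 / (P : ℝ)
    rw [div_le_iff₀ hQ]
    have h1 : (((2 * N + 1) / P : ℕ) : ℝ) ≤ ((2 * N + 1 : ℕ) : ℝ) / P := Nat.cast_div_le
    refine h1.trans (le_of_eq ?_)
    push_cast
    ring

/-- The comparison in the thermodynamic limit. -/
theorem limit_bound {n : ℕ} (hn : 1 ≤ n) {β : ℝ} (hβ : 0 < β) (m l : ℕ)
    (hm : (4 : ℝ) ^ m ≤ β * n) (hl : 2 ≤ l) {h : ℝ} (hz : Real.exp (-(β * h)) ≤ 1 / 2) {p : ℝ → ℝ}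
    (hp : ∀ h, Tendsto (fun N => pressureN n N β h) atTop (𝓝 (p h))) :
    p h - p 0 ≤ h * ((n : ℝ) / 2) + (1 / β) *
        ((1 / 8 : ℝ) ^ m * (4 * (9 : ℝ) ^ 8) * Real.exp (-(β * h))
          - (1 / ((l : ℝ) + 1)) ^ 3
              * Real.log (1 + Real.exp (-(β * (15 * (n : ℝ) / ((l : ℝ) ^ 2 + 1)))))) := by
  have hu := tendsto_div_density (P := 2 ^ m) (by positivity)
  have hv := tendsto_div_density (P := l + 1) (by omega)
  have hA := (hu.pow 3).mul_const (4 * (9 : ℝ) ^ 8)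
  have hB := ((tendsto_const_nhds (x := (1 : ℝ))).sub ((hu.pow 3).mul_const ((8 : ℝ) ^ m))).mul_const 2
  have hC := (hA.add hB).mul_const (Real.exp (-(β * h)))
  have hD := (hv.pow 3).mul_const (Real.log (1 + Real.exp (-(β * (15 * (n : ℝ) / ((l : ℝ) ^ 2 + 1))))))
  have hR := ((hC.sub hD).const_mul (1 / β)).const_add (h * ((n : ℝ) / 2))
  have hL := (hp h).sub (hp 0)
  have key := le_of_tendsto_of_tendsto' hL hR fun N => pressure_diff_le hn hβ N m l hm hl hz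
  refine key.trans (le_of_eq ?_)
  congr 2
  have e1 : (1 / (((2 ^ m : ℕ) : ℝ))) ^ 3 * (8 : ℝ) ^ m = 1 := by
    push_cast
    have : ((2 : ℝ) ^ m) ^ 3 = (8 : ℝ) ^ m := by
      rw [← pow_mul, mul_comm, pow_mul]
      norm_num
    rw [div_pow, this]
    field_simp
  have e2 : (1 / (((2 ^ m : ℕ) : ℝ))) ^ 3 = (1 / 8 : ℝ) ^ m := by
    push_cast
    have : ((2 : ℝ) ^ m) ^ 3 = (8 : ℝ) ^ m := by
      rw [← pow_mul, mul_comm, pow_mul]
      norm_num
    rw [div_pow, this, div_pow]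
    simp
  rw [e1, e2]
  push_cast
  ring

/-- A pointwise limit of the finite-volume pressures is convex. -/
theorem convexOn_limit {n : ℕ} {β : ℝ} (hβ : 0 < β) {p : ℝ → ℝ}
    (hp : ∀ h, Tendsto (fun N => pressureN n N β h) atTop (𝓝 (p h))) :
    ConvexOn ℝ Set.univ p := by
  refine ⟨convex_univ, ?_⟩
  intro x _ y _ a b ha hb hab
  have hL := hp (a • x + b • y)
  have hR := ((hp x).const_smul a).add ((hp y).const_smul b)
  refine le_of_tendsto_of_tendsto' hL hR fun N => ?_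
  exact (convexOn_pressureN n N hβ).2 (Set.mem_univ x) (Set.mem_univ y) ha hb hab

/-- The main estimate, for the limit of the finite-volume pressures. -/
theorem main_bound {n : ℕ} (hn : 1 ≤ n) {β : ℝ} (hβ : 0 < β) (hnβ : 1 ≤ β * n) {p : ℝ → ℝ}
    (hp : ∀ h, Tendsto (fun N => pressureN n N β h) atTop (𝓝 (p h))) :
    DifferentiableWithinAt ℝ p (Set.Ioi 0) 0 ∧
      derivWithin p (Set.Ioi 0) 0 ≤ (n : ℝ) / 2 - (1 / 50112) * (β * n) ^ (-(3 / 2) : ℝ) := by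
  have hconv := convexOn_limit hβ hp
  have hint : (0 : ℝ) ∈ interior (Set.univ : Set ℝ) := by simp
  refine ⟨hconv.differentiableWithinAt_Ioi_of_mem_interior hint, ?_⟩
  set x : ℝ := β * n with hx
  have hx0 : 0 < x := by linarith
  set s : ℝ := Real.sqrt x with hs
  have hs1 : 1 ≤ s := by
    rw [hs, Real.one_le_sqrt]
    exact hnβ
  have hss : s * s = x := Real.mul_self_sqrt hx0.le
  have hs3 : x ^ (-(3 / 2) : ℝ) = 1 / s ^ 3 := by
    rw [Real.rpow_neg hx0.le, one_div]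
    congr 1
    rw [hs, Real.sqrt_eq_rpow, ← Real.rpow_natCast, ← Real.rpow_mul hx0.le]
    norm_num
  rw [hs3]
  -- the dyadic scale
  obtain ⟨m, hm1, hm2⟩ := exists_nat_pow_near hnβ (show (1 : ℝ) < 4 by norm_num)
  have hP : (0 : ℝ) < (2 : ℝ) ^ m := by positivity
  have hm3 : (1 / 8 : ℝ) ^ m ≤ 8 / s ^ 3 := by
    have h4 : (4 : ℝ) ^ (m + 1) = 4 * ((2 : ℝ) ^ m * (2 : ℝ) ^ m) := by
      rw [pow_succ, ← mul_pow]
      norm_num
      ring
    rw [h4] at hm2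
    have h5 : s < 2 * (2 : ℝ) ^ m := by
      by_contra hc
      push Not at hc
      nlinarith
    have h6 : (1 / 8 : ℝ) ^ m = 1 / ((2 : ℝ) ^ m) ^ 3 := by
      rw [← pow_mul, mul_comm, pow_mul, one_div, one_div, inv_pow]
      norm_num
    rw [h6, div_le_div_iff₀ (by positivity) (by positivity)]
    have h7 : s ^ 3 ≤ (2 * (2 : ℝ) ^ m) ^ 3 := pow_le_pow_left₀ (by linarith) h5.le 3
    nlinarith
  -- the scale of the boxes
  set l : ℕ := ⌈Real.sqrt (15 * x)⌉₊ with hl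
  have hsq15 : Real.sqrt (15 * x) ≤ 4 * s := by
    rw [Real.sqrt_le_left (by positivity)]
    nlinarith
  have hl1 : Real.sqrt (15 * x) ≤ l := Nat.le_ceil _
  have hl2 : (l : ℝ) < Real.sqrt (15 * x) + 1 := Nat.ceil_lt_add_one (Real.sqrt_nonneg _)
  have hl3 : 15 * x ≤ (l : ℝ) ^ 2 := by
    have := Real.sq_sqrt (show 0 ≤ 15 * x by positivity)
    nlinarith [Real.sqrt_nonneg (15 * x)]
  have hl4 : 2 ≤ l := by
    by_contra hc
    have : l ≤ 1 := by omega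
    have h2 : (l : ℝ) ≤ 1 := by exact_mod_cast this
    nlinarith [(Nat.cast_nonneg l : (0 : ℝ) ≤ l)]
  have hl5 : (l : ℝ) + 1 ≤ 6 * s := by linarith
  -- the logarithm from the lower bound
  set Lam : ℝ := Real.log (1 + Real.exp (-(β * (15 * (n : ℝ) / ((l : ℝ) ^ 2 + 1))))) with hLam
  have hLam1 : 1 / 4 ≤ Lam := by
    have hE : β * (15 * (n : ℝ) / ((l : ℝ) ^ 2 + 1)) ≤ 1 := by
      have e : β * (15 * (n : ℝ) / ((l : ℝ) ^ 2 + 1)) = 15 * x / ((l : ℝ) ^ 2 + 1) := by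
        rw [hx]
        ring
      rw [e, div_le_one (by positivity)]
      linarith
    have h1 : Real.exp (-1) ≤ Real.exp (-(β * (15 * (n : ℝ) / ((l : ℝ) ^ 2 + 1)))) :=
      Real.exp_le_exp.mpr (by linarith)
    have h2 : (1 / 3 : ℝ) ≤ Real.exp (-1) := by
      rw [Real.exp_neg, one_div]
      exact inv_anti₀ (Real.exp_pos _) (Real.exp_one_lt_d9.le.trans (by norm_num))
    set w := Real.exp (-(β * (15 * (n : ℝ) / ((l : ℝ) ^ 2 + 1)))) with hw
    have h3 : (1 / 3 : ℝ) ≤ w := h2.trans h1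
    have h4 := Real.one_sub_inv_le_log_of_pos (show 0 < 1 + w by linarith)
    refine le_trans ?_ h4
    have h5 : (1 + w)⁻¹ ≤ 3 / 4 := by
      rw [inv_le_comm₀ (by linarith) (by norm_num)]
      norm_num
      linarith
    linarith
  have hLam2 : 1 / (864 * s ^ 3) ≤ (1 / ((l : ℝ) + 1)) ^ 3 * Lam := by
    have h1 : (1 / (6 * s)) ^ 3 ≤ (1 / ((l : ℝ) + 1)) ^ 3 :=
      pow_le_pow_left₀ (by positivity)
        (one_div_le_one_div_of_le (by positivity) hl5) 3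
    have h2 : (1 / (6 * s)) ^ 3 * (1 / 4) ≤ (1 / ((l : ℝ) + 1)) ^ 3 * Lam :=
      mul_le_mul h1 hLam1 (by norm_num) (by positivity)
    refine le_trans (le_of_eq ?_) h2
    field_simp
    norm_num
  -- the field
  set h : ℝ := 29 / β with hh
  have hh0 : 0 < h := by positivity
  have hβh : β * h = 29 := by
    rw [hh]
    field_simp
  have hexp : Real.exp (-(β * h)) = Real.exp (-29) := by rw [hβh]
  have hexp29 : (4 * (9 : ℝ) ^ 8) * 8 * Real.exp (-29) ≤ 1 / 1728 := by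
    have h1 : (2.7 : ℝ) ≤ Real.exp 1 := by
      have := Real.exp_one_gt_d9
      linarith
    have h2 : Real.exp 29 = Real.exp 1 ^ 29 := by
      rw [← Real.exp_nat_mul]
      norm_num
    have h3 : (2.7 : ℝ) ^ 29 ≤ Real.exp 29 := by
      rw [h2]
      exact pow_le_pow_left₀ (by norm_num) h1 29
    have h4 : (4 * (9 : ℝ) ^ 8) * 8 * 1728 ≤ Real.exp 29 := le_trans (by norm_num) h3
    rw [Real.exp_neg]
    have h5 : 0 < Real.exp 29 := Real.exp_pos _
    rw [← div_eq_mul_inv, div_le_div_iff₀ h5 (by norm_num)]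
    linarith
  have hz : Real.exp (-(β * h)) ≤ 1 / 2 := by
    rw [hexp]
    have : (0 : ℝ) < (4 * (9 : ℝ) ^ 8) * 8 := by norm_num
    have h2 : (1 : ℝ) ≤ (4 * (9 : ℝ) ^ 8) * 8 := by norm_num
    have h3 := Real.exp_pos (-29)
    nlinarith
  have hlim := limit_bound hn hβ m l hm1 hl4 hz hp
  rw [← hLam] at hlim
  have hup : (1 / 8 : ℝ) ^ m * (4 * (9 : ℝ) ^ 8) * Real.exp (-(β * h)) ≤ 1 / (1728 * s ^ 3) := by
    rw [hexp]
    have hs3pos : 0 < s ^ 3 := by positivity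
    have h1 : (1 / 8 : ℝ) ^ m * ((4 * (9 : ℝ) ^ 8) * Real.exp (-29))
        ≤ 8 / s ^ 3 * ((4 * (9 : ℝ) ^ 8) * Real.exp (-29)) :=
      mul_le_mul_of_nonneg_right hm3 (by positivity)
    have h2 : 8 / s ^ 3 * ((4 * (9 : ℝ) ^ 8) * Real.exp (-29))
        = (4 * (9 : ℝ) ^ 8) * 8 * Real.exp (-29) / s ^ 3 := by ring
    have h3 : (4 * (9 : ℝ) ^ 8) * 8 * Real.exp (-29) / s ^ 3 ≤ (1 / 1728) / s ^ 3 :=
      div_le_div_of_nonneg_right hexp29 hs3pos.le
    have h4 : (1 / 1728 : ℝ) / s ^ 3 = 1 / (1728 * s ^ 3) := by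
      field_simp
    calc (1 / 8 : ℝ) ^ m * (4 * (9 : ℝ) ^ 8) * Real.exp (-29)
        = (1 / 8 : ℝ) ^ m * ((4 * (9 : ℝ) ^ 8) * Real.exp (-29)) := by ring
      _ ≤ _ := h1
      _ = _ := h2
      _ ≤ _ := h3
      _ = _ := h4
  have hslope := hconv.rightDeriv_le_slope_of_mem_interior hint (Set.mem_univ h) hh0
  refine hslope.trans ?_
  rw [slope_def_field, sub_zero, div_le_iff₀ hh0]
  refine hlim.trans ?_
  have hs3pos : 0 < s ^ 3 := by positivity
  have e3 : (1 / (50112 : ℝ)) * (1 / s ^ 3) * h = (1 / β) * (1 / (1728 * s ^ 3)) := by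
    rw [hh]
    field_simp
    norm_num
  have e4 : 1 / (1728 * s ^ 3) - 1 / (864 * s ^ 3) = -(1 / (1728 * s ^ 3)) := by
    field_simp
    norm_num
  have h1 : (1 / β) * ((1 / 8 : ℝ) ^ m * (4 * (9 : ℝ) ^ 8) * Real.exp (-(β * h))
      - (1 / ((l : ℝ) + 1)) ^ 3 * Lam) ≤ (1 / β) * (-(1 / (1728 * s ^ 3))) := by
    refine mul_le_mul_of_nonneg_left ?_ (by positivity)
    rw [← e4]
    exact sub_le_sub hup hLam2
  have e5 : ((n : ℝ) / 2 - 1 / 50112 * (1 / s ^ 3)) * h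
      = h * ((n : ℝ) / 2) - (1 / (50112 : ℝ)) * (1 / s ^ 3) * h := by ring
  rw [e5, e3]
  linarith

end Vale.Agent.P361Lib
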