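import Vale.Agent.Lib.P361.Modes

/-!
# The fine-scale estimate: block differences against the bond energy
-/

open Matrix Finset
open scoped MatrixOrder ComplexOrder

noncomputable section

namespace Vale.Agent.P361Lib

variable {X : Type} [Fintype X] [DecidableEq X] {n : ℕ}

lemma nrm_apply_sum (v : Cfg X n → ℂ) : nrm v = ∑ σ, Complex.normSq (v σ) := by
  rw [nrm_eq_vnsq]
  rfl

lemma nrm_neg (v : Cfg X n → ℂ) : nrm (-v) = nrm v := by
  simp only [nrm_apply_sum, Pi.neg_apply, Complex.normSq_neg]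

/-- The weighted parallelogram inequality for complex numbers. -/
lemma normSq_add_le (u w : ℂ) {η : ℝ} (hη : 0 < η) :
    Complex.normSq (u + w) ≤ (1 + η) * Complex.normSq u + (1 + 1 / η) * Complex.normSq w := by
  rw [Complex.normSq_add]
  have h1 : (u * (starRingEnd ℂ) w).re ≤ ‖u‖ * ‖w‖ := by
    have := Complex.re_le_norm (u * (starRingEnd ℂ) w)
    rwa [norm_mul, Complex.norm_conj] at this
  have hu : Complex.normSq u = ‖u‖ ^ 2 := Complex.normSq_eq_norm_sq u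
  have hw : Complex.normSq w = ‖w‖ ^ 2 := Complex.normSq_eq_norm_sq w
  rw [hu, hw]
  have h2 : 2 * (‖u‖ * ‖w‖) ≤ η * ‖u‖ ^ 2 + (1 / η) * ‖w‖ ^ 2 := by
    have h3 : 0 ≤ (η * ‖u‖ - ‖w‖) ^ 2 / η := by positivity
    have e : (η * ‖u‖ - ‖w‖) ^ 2 / η = η * ‖u‖ ^ 2 - 2 * (‖u‖ * ‖w‖) + (1 / η) * ‖w‖ ^ 2 := by
      field_simp
      ring
    rw [e] at h3
    linarith
  nlinarith

lemma nrm_add_le (u w : Cfg X n → ℂ) {η : ℝ} (hη : 0 < η) :
    nrm (u + w) ≤ (1 + η) * nrm u + (1 + 1 / η) * nrm w := by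
  simp only [nrm_apply_sum, Finset.mul_sum, ← Finset.sum_add_distrib]
  exact Finset.sum_le_sum fun σ _ => normSq_add_le (u σ) (w σ) hη

/-- A sparse Cauchy-Schwarz inequality. -/
lemma nrm_sum_sparse {τ : Type} [DecidableEq τ] (T : Finset τ) (v : τ → Cfg X n → ℂ) {N : ℝ}
    (hN : ∀ σ, ((T.filter fun t => v t σ ≠ 0).card : ℝ) ≤ N) :
    nrm (∑ t ∈ T, v t) ≤ N * ∑ t ∈ T, nrm (v t) := by
  simp only [nrm_apply_sum]
  rw [Finset.sum_comm, Finset.mul_sum]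
  refine Finset.sum_le_sum fun σ _ => ?_
  rw [Finset.sum_apply]
  set F := T.filter fun t => v t σ ≠ 0 with hF
  have h1 : ∑ t ∈ T, v t σ = ∑ t ∈ F, v t σ := by
    rw [hF, Finset.sum_filter]
    refine Finset.sum_congr rfl fun t _ => ?_
    by_cases h : v t σ = 0 <;> simp [h]
  have h2 : ∑ t ∈ F, Complex.normSq (v t σ) ≤ ∑ t ∈ T, Complex.normSq (v t σ) :=
    Finset.sum_le_sum_of_subset_of_nonneg (Finset.filter_subset _ _) fun _ _ _ =>
      Complex.normSq_nonneg _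
  rw [h1, Complex.normSq_eq_norm_sq]
  have h3 : ‖∑ t ∈ F, v t σ‖ ≤ ∑ t ∈ F, ‖v t σ‖ := norm_sum_le _ _
  have h4 : (∑ t ∈ F, ‖v t σ‖) ^ 2 ≤ (F.card : ℝ) * ∑ t ∈ F, ‖v t σ‖ ^ 2 :=
    sq_sum_le_card_mul_sum_sq
  have h5 : ∑ t ∈ F, ‖v t σ‖ ^ 2 = ∑ t ∈ F, Complex.normSq (v t σ) :=
    Finset.sum_congr rfl fun t _ => (Complex.normSq_eq_norm_sq _).symm
  rw [h5] at h4
  have h6 : ‖∑ t ∈ F, v t σ‖ ^ 2 ≤ (∑ t ∈ F, ‖v t σ‖) ^ 2 :=
    pow_le_pow_left₀ (norm_nonneg _) h3 2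
  have hs : 0 ≤ ∑ t ∈ F, Complex.normSq (v t σ) := Finset.sum_nonneg fun _ _ => Complex.normSq_nonneg _
  have hN0 := hN σ
  calc ‖∑ t ∈ F, v t σ‖ ^ 2 ≤ (F.card : ℝ) * ∑ t ∈ F, Complex.normSq (v t σ) := h6.trans h4
    _ ≤ N * ∑ t ∈ F, Complex.normSq (v t σ) := mul_le_mul_of_nonneg_right hN0 hs
    _ ≤ N * ∑ t ∈ T, Complex.normSq (v t σ) := by
        refine mul_le_mul_of_nonneg_left h2 ?_
        exact le_trans (by positivity) hN0

/-- Block sum along a one dimensional line. -/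
lemma sum_block {E : Type} [AddCommMonoid E] (a M : ℕ) (g : ℕ → E) :
    ∑ c ∈ Finset.range M, ∑ u ∈ Finset.range a, g (a * c + u) = ∑ y ∈ Finset.range (a * M), g y := by
  induction M with
  | zero => simp
  | succ M ih =>
    rw [Finset.sum_range_succ, ih, mul_add, mul_one, Finset.sum_range_add (f := g)]

/-- The overlapping sum along a line. -/
lemma sum_fine (a M : ℕ) (g : ℕ → ℝ) (hg : ∀ p, 0 ≤ g p) :
    ∑ t ∈ Finset.range (M - 1), ∑ s ∈ Finset.range a, ∑ i ∈ Finset.range a, g (a * t + s + i)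
      ≤ (a : ℝ) * ∑ p ∈ Finset.range (a * M - 1), g p := by
  have h1 : ∑ t ∈ Finset.range (M - 1), ∑ s ∈ Finset.range a, ∑ i ∈ Finset.range a, g (a * t + s + i)
      = ∑ s ∈ Finset.range a, ∑ y ∈ Finset.range (a * (M - 1)), g (s + y) := by
    rw [Finset.sum_comm]
    refine Finset.sum_congr rfl fun s _ => ?_
    rw [← sum_block a (M - 1) (fun y => g (s + y))]
    refine Finset.sum_congr rfl fun t _ => Finset.sum_congr rfl fun i _ => ?_
    congr 1
    ring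
  rw [h1]
  have h2 : ∀ s ∈ Finset.range a, ∑ y ∈ Finset.range (a * (M - 1)), g (s + y)
      ≤ ∑ p ∈ Finset.range (a * M - 1), g p := by
    intro s hs
    have hs' := Finset.mem_range.mp hs
    have e : ∑ y ∈ Finset.range (a * (M - 1)), g (s + y)
        = ∑ p ∈ (Finset.range (a * (M - 1))).image (fun y => s + y), g p := by
      rw [Finset.sum_image]
      intro x _ y _ h
      exact Nat.add_left_cancel h
    rw [e]
    refine Finset.sum_le_sum_of_subset_of_nonneg ?_ fun p _ _ => hg p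
    intro p hp
    obtain ⟨y, hy, rfl⟩ := Finset.mem_image.mp hp
    have hy' := Finset.mem_range.mp hy
    refine Finset.mem_range.mpr ?_
    rcases Nat.eq_zero_or_pos M with h0 | h0
    · subst h0
      simp at hy'
    · obtain ⟨d, rfl⟩ : ∃ d, M = d + 1 := ⟨M - 1, by omega⟩
      simp only [Nat.add_sub_cancel] at hy'
      have e2 : a * (d + 1) = a * d + a := by ring
      omega
  refine (Finset.sum_le_card_nsmul _ _ _ h2).trans (le_of_eq ?_)
  rw [Finset.card_range, nsmul_eq_mul]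

/-- The correction term between the block differences and the bond operators. -/
def Xop (x y : X) : Op X n :=
  (siteOp x (bosA n) - siteOp y (bosA n)) * (siteOp x (bosB n) + siteOp y (bosB n))

lemma spinP_sub {x y : X} (hxy : x ≠ y) :
    (siteOp x (spinP n) - siteOp y (spinP n) : Op X n) = -bondA x y + Xop x y := by
  unfold Xop bondA
  rw [← bosA_mul_bosB, ← siteOp_mul_same, ← siteOp_mul_same]
  have hc : (siteOp x (bosB n) : Op X n) * siteOp y (bosA n) = siteOp y (bosA n) * siteOp x (bosB n) :=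
    (siteOp_commute hxy _ _).eq
  simp only [sub_mul, mul_add]
  rw [hc]
  abel

lemma Xop_apply (x y : X) (ψ : Cfg X n → ℂ) (σ : Cfg X n) :
    (Xop x y *ᵥ ψ) σ
      = ((Real.sqrt ((n : ℝ) - (σ x : ℕ)) - Real.sqrt ((n : ℝ) - (σ y : ℕ)) : ℝ) : ℂ)
        * ((siteOp x (bosB n) *ᵥ ψ + siteOp y (bosB n) *ᵥ ψ) σ) := by
  unfold Xop
  rw [← Matrix.mulVec_mulVec, Matrix.add_mulVec]
  unfold bosA
  rw [siteOp_diagonal, siteOp_diagonal, Matrix.sub_mulVec, Pi.sub_apply, Matrix.mulVec_diagonal,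
    Matrix.mulVec_diagonal]
  push_cast
  ring

lemma devCount_update (σ : Cfg X n) (x : X) (i : Fin (n + 1)) :
    devCount (Finset.univ : Finset X) (Function.update σ x i) + (σ x : ℕ)
      = devCount (Finset.univ : Finset X) σ + (i : ℕ) := by
  unfold devCount
  rw [← Finset.add_sum_erase Finset.univ _ (Finset.mem_univ x),
    ← Finset.add_sum_erase Finset.univ (fun y => ((σ y : Fin (n + 1)) : ℕ)) (Finset.mem_univ x)]
  have e : ∑ y ∈ Finset.univ.erase x, ((Function.update σ x i y : Fin (n + 1)) : ℕ)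
      = ∑ y ∈ Finset.univ.erase x, ((σ y : Fin (n + 1)) : ℕ) := by
    refine Finset.sum_congr rfl fun y hy => ?_
    rw [Function.update_of_ne (Finset.ne_of_mem_erase hy)]
  rw [e, Function.update_self]
  omega

/-- Operators that lower the deviation number by one at a site. -/
lemma lowering_site {a : SMat n} (ha : ∀ i j : Fin (n + 1), a i j ≠ 0 → (j : ℕ) = (i : ℕ) + 1) (x : X)
    {K : ℕ} {ψ : Cfg X n → ℂ} (hψ : InSec K ψ) {σ : Cfg X n} (h : (siteOp x a *ᵥ ψ) σ ≠ 0) :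
    devCount (Finset.univ : Finset X) σ + 1 = K := by
  rw [siteOp_mulVec_apply] at h
  obtain ⟨i, _, hi⟩ := Finset.exists_ne_zero_of_sum_ne_zero h
  have h1 : a (σ x) i ≠ 0 := left_ne_zero_of_mul hi
  have h2 : ψ (Function.update σ x i) ≠ 0 := right_ne_zero_of_mul hi
  have h3 := ha _ _ h1
  have h4 : devCount (Finset.univ : Finset X) (Function.update σ x i) = K := by
    by_contra hne
    exact h2 (hψ _ hne)
  have h5 := devCount_update σ x i
  omega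

lemma bosB_lower : ∀ i j : Fin (n + 1), bosB n i j ≠ 0 → (j : ℕ) = (i : ℕ) + 1 := by
  intro i j h
  rw [bosB_apply] at h
  by_contra hne
  exact h (if_neg hne)

lemma spinP_lower : ∀ i j : Fin (n + 1), spinP n i j ≠ 0 → (j : ℕ) = (i : ℕ) + 1 := by
  intro i j h
  rw [spinP_apply] at h
  by_contra hne
  exact h (if_neg hne)

/-- The number of sites carrying a deviation is at most the number of deviations. -/
lemma card_support_le (σ : Cfg X n) :
    ((Finset.univ : Finset X).filter (fun x => σ x ≠ 0)).card ≤ devCount (Finset.univ : Finset X) σ := by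
  unfold devCount
  rw [Finset.card_eq_sum_ones, Finset.sum_filter]
  refine Finset.sum_le_sum fun x _ => ?_
  by_cases h : σ x = 0
  · simp [h]
  · rw [if_pos h]
    have : (σ x : ℕ) ≠ 0 := fun h0 => h (Fin.ext h0)
    omega

lemma bos_diff_sq (i j : Fin (n + 1)) :
    (Real.sqrt ((n : ℝ) - (i : ℕ)) - Real.sqrt ((n : ℝ) - (j : ℕ))) ^ 2 ≤ n := by
  have hi := fin_sub_nonneg i
  have hj := fin_sub_nonneg j
  have h1 := Real.sqrt_nonneg ((n : ℝ) - (i : ℕ))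
  have h2 := Real.sqrt_nonneg ((n : ℝ) - (j : ℕ))
  have h3 := Real.sq_sqrt hi
  have h4 := Real.sq_sqrt hj
  have hi0 : (0 : ℝ) ≤ (i : ℕ) := by positivity
  have hj0 : (0 : ℝ) ≤ (j : ℕ) := by positivity
  nlinarith [mul_nonneg h1 h2]

lemma nrm_Xop_le (x y : X) (ψ : Cfg X n → ℂ) :
    nrm (Xop x y *ᵥ ψ) ≤ 2 * (n : ℝ) * (nrm (siteOp x (bosB n) *ᵥ ψ) + nrm (siteOp y (bosB n) *ᵥ ψ)) := by
  have h1 : nrm (Xop x y *ᵥ ψ) ≤ (n : ℝ) * nrm (siteOp x (bosB n) *ᵥ ψ + siteOp y (bosB n) *ᵥ ψ) := by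
    simp only [nrm_apply_sum, Finset.mul_sum]
    refine Finset.sum_le_sum fun σ _ => ?_
    rw [Xop_apply, Complex.normSq_mul, Complex.normSq_ofReal]
    refine mul_le_mul_of_nonneg_right ?_ (Complex.normSq_nonneg _)
    have := bos_diff_sq (σ x) (σ y)
    nlinarith
  have h2 := nrm_add_le (siteOp x (bosB n) *ᵥ ψ) (siteOp y (bosB n) *ᵥ ψ) (η := 1) (by norm_num)
  have hn : (0 : ℝ) ≤ n := by positivity
  have h3 := mul_le_mul_of_nonneg_left h2 hn
  refine h1.trans (h3.trans (le_of_eq ?_))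
  ring

lemma nrm_bosB (x : X) (ψ : Cfg X n → ℂ) :
    nrm (siteOp x (bosB n) *ᵥ ψ) = qf (siteOp x (devD n)) ψ := by
  rw [nrm_mulVec, siteOp_conjTranspose, siteOp_mul_same, bosBH_mul_bosB]

lemma sum_nrm_bosB {K : ℕ} {ψ : Cfg X n → ℂ} (h : InSec K ψ) :
    ∑ x : X, nrm (siteOp x (bosB n) *ᵥ ψ) = (K : ℝ) * nrm ψ := by
  simp only [nrm_bosB]
  rw [← qf_sum]
  unfold qf
  show (star ψ ⬝ᵥ (totalOp (Finset.univ : Finset X) (devD n)) *ᵥ ψ).re = _
  rw [devTotal_act h, dotProduct_smul, smul_eq_mul, Complex.re_ofReal_mul]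
  rfl

section Dir

/-- The index set of the four internal coordinates. -/
def Tτ (a : ℕ) : Finset (ℕ × ℕ × ℕ × ℕ) :=
  Finset.range a ×ˢ Finset.range a ×ˢ Finset.range a ×ˢ Finset.range a

lemma sum_Tτ {E : Type} [AddCommMonoid E] (a : ℕ) (f : ℕ × ℕ × ℕ × ℕ → E) :
    ∑ τ ∈ Tτ a, f τ = ∑ s ∈ Finset.range a, ∑ i ∈ Finset.range a, ∑ u ∈ Finset.range a,
      ∑ v ∈ Finset.range a, f (s, i, u, v) := by
  unfold Tτ
  simp only [Finset.sum_product]

/-- The left end of the elementary bond attached to the internal coordinates `τ`. -/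
def xτ (G : ℕ → ℕ → ℕ → X) (a t c2 c3 : ℕ) (τ : ℕ × ℕ × ℕ × ℕ) : X :=
  G (a * t + τ.1 + τ.2.1) (a * c2 + τ.2.2.1) (a * c3 + τ.2.2.2)

/-- The right end of the elementary bond attached to the internal coordinates `τ`. -/
def yτ (G : ℕ → ℕ → ℕ → X) (a t c2 c3 : ℕ) (τ : ℕ × ℕ × ℕ × ℕ) : X :=
  G (a * t + τ.1 + τ.2.1 + 1) (a * c2 + τ.2.2.1) (a * c3 + τ.2.2.2)

lemma c_lt {a M c u : ℕ} (hc : c < M) (hu : u < a) : a * c + u < a * M := by
  have h1 : a * (c + 1) ≤ a * M := Nat.mul_le_mul_left a hc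
  have e : a * (c + 1) = a * c + a := by ring
  omega

lemma t_lt {a M t s i : ℕ} (ht : t + 1 < M) (hs : s < a) (hi : i < a) : a * t + s + i + 1 < a * M := by
  have h1 : a * (t + 2) ≤ a * M := Nat.mul_le_mul_left a ht
  have e : a * (t + 2) = a * t + 2 * a := by ring
  omega

variable {G : ℕ → ℕ → ℕ → X} {a M : ℕ}

lemma count_x (hinj : ∀ p y z p' y' z', p < a * M → y < a * M → z < a * M → p' < a * M → y' < a * M →
      z' < a * M → G p y z = G p' y' z' → p = p' ∧ y = y' ∧ z = z')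
    {t c2 c3 : ℕ} (ht : t + 1 < M) (h2 : c2 < M) (h3 : c3 < M) (w : X) :
    ((Tτ a).filter (fun τ => xτ G a t c2 c3 τ = w)).card ≤ a := by
  have : ((Tτ a).filter (fun τ => xτ G a t c2 c3 τ = w)).card ≤ (Finset.range a).card := by
    refine Finset.card_le_card_of_injOn (fun τ => τ.1) ?_ ?_
    · intro τ hτ
      have := (Finset.mem_filter.mp hτ).1
      simp only [Tτ, Finset.mem_product, Finset.mem_range] at this
      simp only [Finset.coe_range, Set.mem_Iio]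
      exact this.1
    · rintro ⟨s, i, u, v⟩ hτ ⟨s', i', u', v'⟩ hτ' e
      simp only [Finset.coe_filter, Tτ, Finset.mem_product, Finset.mem_range, Set.mem_ofPred_eq] at hτ hτ'
      obtain ⟨⟨hs, hi, hu, hv⟩, hw⟩ := hτ
      obtain ⟨⟨hs', hi', hu', hv'⟩, hw'⟩ := hτ'
      simp only at e
      subst e
      have hw2 : G (a * t + s + i) (a * c2 + u) (a * c3 + v) = G (a * t + s + i') (a * c2 + u') (a * c3 + v') :=
        hw.trans hw'.symm
      have hk := hinj _ _ _ _ _ _ (by have := t_lt ht hs hi; omega) (c_lt h2 hu) (c_lt h3 hv)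
        (by have := t_lt ht hs hi'; omega) (c_lt h2 hu') (c_lt h3 hv') hw2
      obtain ⟨k1, k2, k3⟩ := hk
      have e1 : i = i' := by omega
      have e2 : u = u' := by omega
      have e3 : v = v' := by omega
      subst e1 e2 e3
      rfl
  simpa using this

lemma count_y (hinj : ∀ p y z p' y' z', p < a * M → y < a * M → z < a * M → p' < a * M → y' < a * M →
      z' < a * M → G p y z = G p' y' z' → p = p' ∧ y = y' ∧ z = z')
    {t c2 c3 : ℕ} (ht : t + 1 < M) (h2 : c2 < M) (h3 : c3 < M) (w : X) :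
    ((Tτ a).filter (fun τ => yτ G a t c2 c3 τ = w)).card ≤ a := by
  have : ((Tτ a).filter (fun τ => yτ G a t c2 c3 τ = w)).card ≤ (Finset.range a).card := by
    refine Finset.card_le_card_of_injOn (fun τ => τ.1) ?_ ?_
    · intro τ hτ
      have := (Finset.mem_filter.mp hτ).1
      simp only [Tτ, Finset.mem_product, Finset.mem_range] at this
      simp only [Finset.coe_range, Set.mem_Iio]
      exact this.1
    · rintro ⟨s, i, u, v⟩ hτ ⟨s', i', u', v'⟩ hτ' e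
      simp only [Finset.coe_filter, Tτ, Finset.mem_product, Finset.mem_range, Set.mem_ofPred_eq] at hτ hτ'
      obtain ⟨⟨hs, hi, hu, hv⟩, hw⟩ := hτ
      obtain ⟨⟨hs', hi', hu', hv'⟩, hw'⟩ := hτ'
      simp only at e
      subst e
      have hw2 : G (a * t + s + i + 1) (a * c2 + u) (a * c3 + v)
          = G (a * t + s + i' + 1) (a * c2 + u') (a * c3 + v') :=
        hw.trans hw'.symm
      have hk := hinj _ _ _ _ _ _ (t_lt ht hs hi) (c_lt h2 hu) (c_lt h3 hv)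
        (t_lt ht hs hi') (c_lt h2 hu') (c_lt h3 hv') hw2
      obtain ⟨k1, k2, k3⟩ := hk
      have e1 : i = i' := by omega
      have e2 : u = u' := by omega
      have e3 : v = v' := by omega
      subst e1 e2 e3
      rfl
  simpa using this

/-- The sum of the raising operators over a block, applied to a vector. -/
def WW (G : ℕ → ℕ → ℕ → X) (a : ℕ) (ψ : Cfg X n → ℂ) (c1 c2 c3 : ℕ) : Cfg X n → ℂ :=
  ∑ s ∈ Finset.range a, ∑ u ∈ Finset.range a, ∑ v ∈ Finset.range a,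
    siteOp (G (a * c1 + s) (a * c2 + u) (a * c3 + v)) (spinP n) *ᵥ ψ

lemma WW_sub (ψ : Cfg X n → ℂ) (t c2 c3 : ℕ) :
    WW G a ψ t c2 c3 - WW G a ψ (t + 1) c2 c3
      = ∑ τ ∈ Tτ a, (siteOp (xτ G a t c2 c3 τ) (spinP n) - siteOp (yτ G a t c2 c3 τ) (spinP n)) *ᵥ ψ := by
  rw [sum_Tτ]
  unfold WW
  simp only [← Finset.sum_sub_distrib]
  refine Finset.sum_congr rfl fun s _ => ?_
  symm
  rw [Finset.sum_comm]
  refine Finset.sum_congr rfl fun u _ => ?_
  rw [Finset.sum_comm]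
  refine Finset.sum_congr rfl fun v _ => ?_
  simp only [xτ, yτ, Matrix.sub_mulVec]
  have h := Finset.sum_range_sub' (fun i => siteOp (G (a * t + s + i) (a * c2 + u) (a * c3 + v)) (spinP n) *ᵥ ψ) a
  have e : a * (t + 1) + s = a * t + s + a := by ring
  rw [e]
  rw [add_zero] at h
  exact h

/-- The sparsity of the correction terms. -/
lemma Xsparse (hinj : ∀ p y z p' y' z', p < a * M → y < a * M → z < a * M → p' < a * M → y' < a * M →
      z' < a * M → G p y z = G p' y' z' → p = p' ∧ y = y' ∧ z = z')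
    {t c2 c3 : ℕ} (ht : t + 1 < M) (h2 : c2 < M) (h3 : c3 < M) {K : ℕ} {ψ : Cfg X n → ℂ}
    (hψ : InSec K ψ) (σ : Cfg X n) :
    (((Tτ a).filter fun τ => (Xop (xτ G a t c2 c3 τ) (yτ G a t c2 c3 τ) *ᵥ ψ) σ ≠ 0).card : ℝ)
      ≤ 2 * (a : ℝ) * K := by
  set F := (Tτ a).filter fun τ => (Xop (xτ G a t c2 c3 τ) (yτ G a t c2 c3 τ) *ᵥ ψ) σ ≠ 0 with hF
  rcases F.eq_empty_or_nonempty with h0 | ⟨τ₀, hτ₀⟩
  · rw [h0]
    simp only [Finset.card_empty, Nat.cast_zero]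
    positivity
  -- a nonzero term fixes the sector of `σ`
  have hσ : ∀ x y : X, (Xop x y *ᵥ ψ) σ ≠ 0 →
      (σ x ≠ 0 ∨ σ y ≠ 0) ∧ devCount (Finset.univ : Finset X) σ + 1 = K := by
    intro x y h
    rw [Xop_apply] at h
    have h1 := left_ne_zero_of_mul h
    have h2 := right_ne_zero_of_mul h
    constructor
    · by_contra hc
      push Not at hc
      apply h1
      rw [hc.1, hc.2]
      simp
    · rw [Pi.add_apply] at h2
      by_cases hx : (siteOp x (bosB n) *ᵥ ψ) σ = 0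
      · rw [hx, zero_add] at h2
        exact lowering_site bosB_lower y hψ h2
      · exact lowering_site bosB_lower x hψ hx
  have hKσ := (hσ _ _ (Finset.mem_filter.mp hτ₀).2).2
  set S := (Finset.univ : Finset X).filter (fun x => σ x ≠ 0) with hS
  have hsub : F ⊆ S.biUnion fun w => ((Tτ a).filter (fun τ => xτ G a t c2 c3 τ = w))
      ∪ ((Tτ a).filter (fun τ => yτ G a t c2 c3 τ = w)) := by
    intro τ hτ
    obtain ⟨hτT, hτ2⟩ := Finset.mem_filter.mp hτ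
    obtain ⟨h5, _⟩ := hσ _ _ hτ2
    rcases h5 with h5 | h5
    · refine Finset.mem_biUnion.mpr ⟨xτ G a t c2 c3 τ, ?_, ?_⟩
      · simp [hS, h5]
      · exact Finset.mem_union_left _ (Finset.mem_filter.mpr ⟨hτT, rfl⟩)
    · refine Finset.mem_biUnion.mpr ⟨yτ G a t c2 c3 τ, ?_, ?_⟩
      · simp [hS, h5]
      · exact Finset.mem_union_right _ (Finset.mem_filter.mpr ⟨hτT, rfl⟩)
  have hcard : F.card ≤ S.card * (a + a) := by
    refine (Finset.card_le_card hsub).trans (Finset.card_biUnion_le.trans ?_)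
    refine Finset.sum_le_card_nsmul _ _ _ fun w _ => ?_
    exact (Finset.card_union_le _ _).trans
      (add_le_add (count_x hinj ht h2 h3 w) (count_y hinj ht h2 h3 w))
  have hS2 : S.card ≤ K := by
    have h8 : S.card ≤ devCount (Finset.univ : Finset X) σ := card_support_le σ
    omega
  have h6 : F.card ≤ K * (a + a) := hcard.trans (Nat.mul_le_mul_right _ hS2)
  have h7 : (F.card : ℝ) ≤ (K : ℝ) * ((a : ℝ) + a) := by exact_mod_cast h6
  linarith

lemma sum4_comm {A B C D : Type} (SA : Finset A) (SB : Finset B) (SC : Finset C) (SD : Finset D)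
    (h : A → B → C → D → ℝ) :
    ∑ x ∈ SA, ∑ t ∈ SB, ∑ s ∈ SC, ∑ i ∈ SD, h x t s i
      = ∑ t ∈ SB, ∑ s ∈ SC, ∑ i ∈ SD, ∑ x ∈ SA, h x t s i := by
  rw [Finset.sum_comm]
  refine Finset.sum_congr rfl fun t _ => ?_
  rw [Finset.sum_comm]
  refine Finset.sum_congr rfl fun s _ => ?_
  rw [Finset.sum_comm]

/-- Reorganising a sum over the coarse positions and the internal coordinates. -/
lemma sum_all (f : ℕ → ℕ → ℕ → ℝ) (hf : ∀ p y z, 0 ≤ f p y z) :
    ∑ c2 ∈ Finset.range M, ∑ c3 ∈ Finset.range M, ∑ t ∈ Finset.range (M - 1), ∑ τ ∈ Tτ a,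
        f (a * t + τ.1 + τ.2.1) (a * c2 + τ.2.2.1) (a * c3 + τ.2.2.2)
      ≤ (a : ℝ) * ∑ p ∈ Finset.range (a * M - 1), ∑ y ∈ Finset.range (a * M), ∑ z ∈ Finset.range (a * M),
          f p y z := by
  set g : ℕ → ℝ := fun p => ∑ y ∈ Finset.range (a * M), ∑ z ∈ Finset.range (a * M), f p y z with hg
  have hg0 : ∀ p, 0 ≤ g p := fun p =>
    Finset.sum_nonneg fun y _ => Finset.sum_nonneg fun z _ => hf p y z
  have e : ∑ c2 ∈ Finset.range M, ∑ c3 ∈ Finset.range M, ∑ t ∈ Finset.range (M - 1), ∑ τ ∈ Tτ a,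
        f (a * t + τ.1 + τ.2.1) (a * c2 + τ.2.2.1) (a * c3 + τ.2.2.2)
      = ∑ t ∈ Finset.range (M - 1), ∑ s ∈ Finset.range a, ∑ i ∈ Finset.range a, g (a * t + s + i) := by
    simp only [sum_Tτ]
    have step1 : ∀ c2 ∈ Finset.range M, ∑ c3 ∈ Finset.range M, ∑ t ∈ Finset.range (M - 1),
        ∑ s ∈ Finset.range a, ∑ i ∈ Finset.range a, ∑ u ∈ Finset.range a, ∑ v ∈ Finset.range a,
          f (a * t + s + i) (a * c2 + u) (a * c3 + v)
        = ∑ t ∈ Finset.range (M - 1), ∑ s ∈ Finset.range a, ∑ i ∈ Finset.range a,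
          ∑ c3 ∈ Finset.range M, ∑ u ∈ Finset.range a, ∑ v ∈ Finset.range a,
            f (a * t + s + i) (a * c2 + u) (a * c3 + v) := by
      intro c2 _
      exact sum4_comm _ _ _ _ _
    rw [Finset.sum_congr rfl step1, sum4_comm]
    refine Finset.sum_congr rfl fun t _ => Finset.sum_congr rfl fun s _ =>
      Finset.sum_congr rfl fun i _ => ?_
    simp only [hg]
    rw [← sum_block a M (fun y => ∑ z ∈ Finset.range (a * M), f (a * t + s + i) y z)]
    refine Finset.sum_congr rfl fun c2 _ => ?_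
    rw [Finset.sum_comm]
    refine Finset.sum_congr rfl fun u _ => ?_
    rw [← sum_block a M (fun z => f (a * t + s + i) (a * c2 + u) z)]
  rw [e]
  exact sum_fine a M g hg0

omit [Fintype X] in
/-- A sum over an injective parametrisation is at most the full sum. -/
lemma sum_grid_le [Fintype X] (g : ℕ → ℕ → ℕ → X) (A B C : Finset ℕ)
    (hg : ∀ p ∈ A, ∀ y ∈ B, ∀ z ∈ C, ∀ p' ∈ A, ∀ y' ∈ B, ∀ z' ∈ C, g p y z = g p' y' z' →
      p = p' ∧ y = y' ∧ z = z') (f : X → ℝ) (hf : ∀ x, 0 ≤ f x) :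
    ∑ p ∈ A, ∑ y ∈ B, ∑ z ∈ C, f (g p y z) ≤ ∑ x, f x := by
  have e : ∑ p ∈ A, ∑ y ∈ B, ∑ z ∈ C, f (g p y z)
      = ∑ t ∈ A ×ˢ B ×ˢ C, f (g t.1 t.2.1 t.2.2) := by
    simp only [Finset.sum_product]
  rw [e]
  have hinj : Set.InjOn (fun t : ℕ × ℕ × ℕ => g t.1 t.2.1 t.2.2) (A ×ˢ B ×ˢ C : Finset (ℕ × ℕ × ℕ)) := by
    rintro ⟨p, y, z⟩ ht ⟨p', y', z'⟩ ht' h
    simp only [Finset.coe_product, Set.mem_prod, Finset.mem_coe] at ht ht'
    obtain ⟨e1, e2, e3⟩ := hg p ht.1 y ht.2.1 z ht.2.2 p' ht'.1 y' ht'.2.1 z' ht'.2.2 h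
    subst e1 e2 e3
    rfl
  rw [← Finset.sum_image (f := f) hinj]
  exact Finset.sum_le_sum_of_subset_of_nonneg (Finset.subset_univ _) fun x _ _ => hf x

/-- The fine-scale estimate in the first direction. -/
theorem fine_dir1 (hinj : ∀ p y z p' y' z', p < a * M → y < a * M → z < a * M → p' < a * M → y' < a * M →
      z' < a * M → G p y z = G p' y' z' → p = p' ∧ y = y' ∧ z = z')
    {K : ℕ} {ψ : Cfg X n → ℂ} (hψ : InSec K ψ) {η : ℝ} (hη : 0 < η) :
    ∑ c2 ∈ Finset.range M, ∑ c3 ∈ Finset.range M, ∑ t ∈ Finset.range (M - 1),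
        nrm (WW G a ψ t c2 c3 - WW G a ψ (t + 1) c2 c3)
      ≤ (1 + η) * (a : ℝ) ^ 5 * ∑ p ∈ Finset.range (a * M - 1), ∑ y ∈ Finset.range (a * M),
            ∑ z ∈ Finset.range (a * M), nrm (bondA (G p y z) (G (p + 1) y z) *ᵥ ψ)
        + (1 + 1 / η) * (8 * (n : ℝ) * (K : ℝ) ^ 2 * (a : ℝ) ^ 2) * nrm ψ := by
  set fA : ℕ → ℕ → ℕ → ℝ := fun p y z => nrm (bondA (G p y z) (G (p + 1) y z) *ᵥ ψ) with hfA
  set fx : ℕ → ℕ → ℕ → ℝ := fun p y z => nrm (siteOp (G p y z) (bosB n) *ᵥ ψ) with hfx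
  set fy : ℕ → ℕ → ℕ → ℝ := fun p y z => nrm (siteOp (G (p + 1) y z) (bosB n) *ᵥ ψ) with hfy
  have hcT : ((Tτ a).card : ℝ) = (a : ℝ) ^ 4 := by
    unfold Tτ
    simp only [Finset.card_product, Finset.card_range]
    push_cast
    ring
  have hK0 : (0 : ℝ) ≤ K := by positivity
  have ha0 : (0 : ℝ) ≤ a := by positivity
  have hn0 : (0 : ℝ) ≤ n := by positivity
  -- the bound for fixed coarse position
  have hpt : ∀ c2 ∈ Finset.range M, ∀ c3 ∈ Finset.range M, ∀ t ∈ Finset.range (M - 1),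
      nrm (WW G a ψ t c2 c3 - WW G a ψ (t + 1) c2 c3)
        ≤ (1 + η) * ((a : ℝ) ^ 4 * ∑ τ ∈ Tτ a, fA (a * t + τ.1 + τ.2.1) (a * c2 + τ.2.2.1) (a * c3 + τ.2.2.2))
          + (1 + 1 / η) * (2 * (a : ℝ) * K * (2 * (n : ℝ) * (∑ τ ∈ Tτ a, fx (a * t + τ.1 + τ.2.1) (a * c2 + τ.2.2.1) (a * c3 + τ.2.2.2)
              + ∑ τ ∈ Tτ a, fy (a * t + τ.1 + τ.2.1) (a * c2 + τ.2.2.1) (a * c3 + τ.2.2.2)))) := by
    intro c2 hc2 c3 hc3 t ht
    have hc2' := Finset.mem_range.mp hc2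
    have hc3' := Finset.mem_range.mp hc3
    have ht' : t + 1 < M := by
      have := Finset.mem_range.mp ht
      omega
    have hne : ∀ τ ∈ Tτ a, xτ G a t c2 c3 τ ≠ yτ G a t c2 c3 τ := by
      rintro ⟨s, i, u, v⟩ hτ e
      simp only [Tτ, Finset.mem_product, Finset.mem_range] at hτ
      obtain ⟨hs, hi, hu, hv⟩ := hτ
      have e2 : G (a * t + s + i) (a * c2 + u) (a * c3 + v) = G (a * t + s + i + 1) (a * c2 + u) (a * c3 + v) := e
      have := t_lt ht' hs hi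
      obtain ⟨k1, _, _⟩ := hinj _ _ _ _ _ _ (by omega) (c_lt hc2' hu) (c_lt hc3' hv) this (c_lt hc2' hu)
        (c_lt hc3' hv) e2
      omega
    have hsplit : WW G a ψ t c2 c3 - WW G a ψ (t + 1) c2 c3
        = ∑ τ ∈ Tτ a, (-(bondA (xτ G a t c2 c3 τ) (yτ G a t c2 c3 τ) *ᵥ ψ))
          + ∑ τ ∈ Tτ a, (Xop (xτ G a t c2 c3 τ) (yτ G a t c2 c3 τ) *ᵥ ψ) := by
      rw [WW_sub, ← Finset.sum_add_distrib]
      refine Finset.sum_congr rfl fun τ hτ => ?_
      rw [spinP_sub (hne τ hτ), Matrix.add_mulVec, Matrix.neg_mulVec]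
    rw [hsplit]
    refine (nrm_add_le _ _ hη).trans (add_le_add ?_ ?_)
    · refine mul_le_mul_of_nonneg_left ?_ (by positivity)
      have h1 := nrm_sum_sparse (Tτ a)
        (fun τ => -(bondA (xτ G a t c2 c3 τ) (yτ G a t c2 c3 τ) *ᵥ ψ : Cfg X n → ℂ)) (N := (a : ℝ) ^ 4)
        (fun σ => by
          rw [← hcT]
          exact_mod_cast Finset.card_le_card (Finset.filter_subset _ _))
      refine h1.trans (mul_le_mul_of_nonneg_left (le_of_eq ?_) (by positivity))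
      refine Finset.sum_congr rfl fun τ _ => ?_
      rw [nrm_neg]
      rfl
    · refine mul_le_mul_of_nonneg_left ?_ (by positivity)
      have h1 := nrm_sum_sparse (Tτ a)
        (fun τ => (Xop (xτ G a t c2 c3 τ) (yτ G a t c2 c3 τ) *ᵥ ψ : Cfg X n → ℂ))
        (N := 2 * (a : ℝ) * K) (fun σ => Xsparse hinj ht' hc2' hc3' hψ σ)
      refine h1.trans (mul_le_mul_of_nonneg_left ?_ (by positivity))
      rw [← Finset.sum_add_distrib, Finset.mul_sum]
      exact Finset.sum_le_sum fun τ _ => nrm_Xop_le _ _ ψ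
  have hA0 : ∀ p y z, 0 ≤ fA p y z := fun p y z => nrm_nonneg _
  have hx0 : ∀ p y z, 0 ≤ fx p y z := fun p y z => nrm_nonneg _
  have hy0 : ∀ p y z, 0 ≤ fy p y z := fun p y z => nrm_nonneg _
  have hsA := sum_all (a := a) (M := M) fA hA0
  have hsx := sum_all (a := a) (M := M) fx hx0
  have hsy := sum_all (a := a) (M := M) fy hy0
  -- the two site sums
  have hgx : ∑ p ∈ Finset.range (a * M - 1), ∑ y ∈ Finset.range (a * M), ∑ z ∈ Finset.range (a * M), fx p y z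
      ≤ (K : ℝ) * nrm ψ := by
    rw [← sum_nrm_bosB hψ]
    refine sum_grid_le G _ _ _ ?_ (fun x => nrm (siteOp x (bosB n) *ᵥ ψ)) (fun x => nrm_nonneg _)
    intro p hp y hy z hz p' hp' y' hy' z' hz' e
    simp only [Finset.mem_range] at hp hy hz hp' hy' hz'
    exact hinj _ _ _ _ _ _ (by omega) hy hz (by omega) hy' hz' e
  have hgy : ∑ p ∈ Finset.range (a * M - 1), ∑ y ∈ Finset.range (a * M), ∑ z ∈ Finset.range (a * M), fy p y z
      ≤ (K : ℝ) * nrm ψ := by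
    rw [← sum_nrm_bosB hψ]
    refine sum_grid_le (fun p y z => G (p + 1) y z) _ _ _ ?_ (fun x => nrm (siteOp x (bosB n) *ᵥ ψ))
      (fun x => nrm_nonneg _)
    intro p hp y hy z hz p' hp' y' hy' z' hz' e
    simp only [Finset.mem_range] at hp hy hz hp' hy' hz'
    obtain ⟨k1, k2, k3⟩ := hinj _ _ _ _ _ _ (by omega) hy hz (by omega) hy' hz' e
    exact ⟨by omega, k2, k3⟩
  have hmain := Finset.sum_le_sum fun c2 hc2 => Finset.sum_le_sum fun c3 hc3 =>
    Finset.sum_le_sum fun t ht => hpt c2 hc2 c3 hc3 t ht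
  refine hmain.trans ?_
  simp only [Finset.sum_add_distrib, ← Finset.mul_sum]
  set SA := ∑ c2 ∈ Finset.range M, ∑ c3 ∈ Finset.range M, ∑ t ∈ Finset.range (M - 1), ∑ τ ∈ Tτ a,
    fA (a * t + τ.1 + τ.2.1) (a * c2 + τ.2.2.1) (a * c3 + τ.2.2.2) with hSA
  set Sx := ∑ c2 ∈ Finset.range M, ∑ c3 ∈ Finset.range M, ∑ t ∈ Finset.range (M - 1), ∑ τ ∈ Tτ a,
    fx (a * t + τ.1 + τ.2.1) (a * c2 + τ.2.2.1) (a * c3 + τ.2.2.2) with hSx
  set Sy := ∑ c2 ∈ Finset.range M, ∑ c3 ∈ Finset.range M, ∑ t ∈ Finset.range (M - 1), ∑ τ ∈ Tτ a,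
    fy (a * t + τ.1 + τ.2.1) (a * c2 + τ.2.2.1) (a * c3 + τ.2.2.2) with hSy
  have h1 := hsA
  have h2 : Sx ≤ (a : ℝ) * ((K : ℝ) * nrm ψ) := hsx.trans (mul_le_mul_of_nonneg_left hgx ha0)
  have h3 : Sy ≤ (a : ℝ) * ((K : ℝ) * nrm ψ) := hsy.trans (mul_le_mul_of_nonneg_left hgy ha0)
  have h4 : (1 + η) * (a : ℝ) ^ 4 * SA
      ≤ (1 + η) * (a : ℝ) ^ 5 * ∑ p ∈ Finset.range (a * M - 1), ∑ y ∈ Finset.range (a * M),
            ∑ z ∈ Finset.range (a * M), fA p y z := by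
    have := mul_le_mul_of_nonneg_left h1 (show 0 ≤ (1 + η) * (a : ℝ) ^ 4 by positivity)
    refine this.trans (le_of_eq ?_)
    ring
  have h5 : (1 + 1 / η) * (2 * (a : ℝ) * K * (2 * (n : ℝ) * (Sx + Sy)))
      ≤ (1 + 1 / η) * (8 * (n : ℝ) * (K : ℝ) ^ 2 * (a : ℝ) ^ 2) * nrm ψ := by
    have h6 : Sx + Sy ≤ 2 * ((a : ℝ) * ((K : ℝ) * nrm ψ)) := by linarith
    have h7 := mul_le_mul_of_nonneg_left h6
      (show 0 ≤ (1 + 1 / η) * (2 * (a : ℝ) * K * (2 * (n : ℝ))) by positivity)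
    calc (1 + 1 / η) * (2 * (a : ℝ) * K * (2 * (n : ℝ) * (Sx + Sy)))
        = (1 + 1 / η) * (2 * (a : ℝ) * K * (2 * (n : ℝ))) * (Sx + Sy) := by ring
      _ ≤ (1 + 1 / η) * (2 * (a : ℝ) * K * (2 * (n : ℝ))) * (2 * ((a : ℝ) * ((K : ℝ) * nrm ψ))) := h7
      _ = _ := by ring
  have e1 : (1 + η) * ((a : ℝ) ^ 4 * SA) = (1 + η) * (a : ℝ) ^ 4 * SA := by ring
  rw [e1]
  exact add_le_add h4 h5

end Dir

section Forward

lemma nrm_bond_symm {x y : X} (hxy : x ≠ y) (ψ : Cfg X n → ℂ) :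
    nrm ((bondA x y : Op X n) *ᵥ ψ) = nrm ((bondA y x : Op X n) *ᵥ ψ) := by
  have h1 := qf_hEdge hxy ψ
  have h2 := qf_hEdge hxy.symm ψ
  rw [hEdge_comm x y] at h1
  linarith

/-- A family of oriented edges, none of which is the reverse of another, has energy at most the
total edge energy. -/
lemma forward_le {adj : X → X → Prop} [DecidableRel adj] (hirr : ∀ x, ¬ adj x x)
    (hsym : ∀ x y, adj x y → adj y x) {ι : Type} [DecidableEq ι] (s : Finset ι) (f : ι → X × X)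
    (hinj : Set.InjOn f s) (hadj : ∀ i ∈ s, adj (f i).1 (f i).2)
    (hswap : ∀ i ∈ s, ∀ j ∈ s, f i ≠ ((f j).2, (f j).1)) (ψ : Cfg X n → ℂ) :
    (1 / 2) * ∑ i ∈ s, nrm ((bondA (f i).1 (f i).2 : Op X n) *ᵥ ψ)
      ≤ qf (edgeSum adj (Finset.univ : Finset X) : Op X n) ψ := by
  rw [qf_edgeSum_eq adj hirr]
  set Φ : X × X → ℝ := fun p => if adj p.1 p.2 then nrm ((bondA p.1 p.2 : Op X n) *ᵥ ψ) else 0 with hΦ
  have hΦ0 : ∀ p, 0 ≤ Φ p := by
    intro p
    simp only [hΦ]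
    split_ifs
    · exact nrm_nonneg _
    · exact le_rfl
  have e0 : ∑ x, ∑ y, (if adj x y then nrm ((bondA x y : Op X n) *ᵥ ψ) else 0) = ∑ p : X × X, Φ p := by
    rw [Fintype.sum_prod_type]
  rw [e0]
  set swp : X × X → X × X := fun p => (p.2, p.1) with hswp
  set A : Finset (X × X) := s.image f with hA
  set B : Finset (X × X) := A.image swp with hB
  have hdisj : Disjoint A B := by
    rw [Finset.disjoint_left]
    intro p hp hp'
    obtain ⟨i, hi, rfl⟩ := Finset.mem_image.mp hp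
    obtain ⟨q, hq, e⟩ := Finset.mem_image.mp hp'
    obtain ⟨j, hj, rfl⟩ := Finset.mem_image.mp hq
    exact hswap i hi j hj e.symm
  have hA_sum : ∑ p ∈ A, Φ p = ∑ i ∈ s, nrm ((bondA (f i).1 (f i).2 : Op X n) *ᵥ ψ) := by
    rw [hA, Finset.sum_image hinj]
    refine Finset.sum_congr rfl fun i hi => ?_
    simp only [hΦ]
    rw [if_pos (hadj i hi)]
  have hB_sum : ∑ p ∈ B, Φ p = ∑ i ∈ s, nrm ((bondA (f i).1 (f i).2 : Op X n) *ᵥ ψ) := by
    rw [hB, Finset.sum_image, ← hA_sum]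
    · refine Finset.sum_congr rfl fun p hp => ?_
      obtain ⟨i, hi, rfl⟩ := Finset.mem_image.mp hp
      simp only [hΦ, hswp]
      rw [if_pos (hsym _ _ (hadj i hi)), if_pos (hadj i hi)]
      exact (nrm_bond_symm (fun e => hirr _ (e ▸ hadj i hi)) ψ).symm
    · rintro ⟨a, b⟩ _ ⟨c, d⟩ _ e
      simp only [hswp, Prod.mk.injEq] at e
      exact Prod.ext e.2 e.1
  have hle : ∑ p ∈ A ∪ B, Φ p ≤ ∑ p : X × X, Φ p :=
    Finset.sum_le_sum_of_subset_of_nonneg (Finset.subset_univ _) fun p _ _ => hΦ0 p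
  rw [Finset.sum_union hdisj, hA_sum, hB_sum] at hle
  linarith

/-- The oriented edges of a grid in the three directions. -/
def gridEdge (G : ℕ → ℕ → ℕ → X) (t : Fin 3 × ℕ × ℕ × ℕ) : X × X :=
  match t.1 with
  | 0 => (G t.2.1 t.2.2.1 t.2.2.2, G (t.2.1 + 1) t.2.2.1 t.2.2.2)
  | 1 => (G t.2.2.1 t.2.1 t.2.2.2, G t.2.2.1 (t.2.1 + 1) t.2.2.2)
  | 2 => (G t.2.2.1 t.2.2.2 t.2.1, G t.2.2.1 t.2.2.2 (t.2.1 + 1))

/-- The three direction sums of the bond norms are controlled by the edge energy. -/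
theorem grid_forward {adj : X → X → Prop} [DecidableRel adj] (hirr : ∀ x, ¬ adj x x)
    (hsym : ∀ x y, adj x y → adj y x) {Q : ℕ} {G : ℕ → ℕ → ℕ → X} (h : GridOK adj Q G)
    (ψ : Cfg X n → ℂ) :
    (1 / 2) * (∑ p ∈ Finset.range (Q - 1), ∑ y ∈ Finset.range Q, ∑ z ∈ Finset.range Q,
          nrm ((bondA (G p y z) (G (p + 1) y z) : Op X n) *ᵥ ψ)
        + ∑ p ∈ Finset.range (Q - 1), ∑ y ∈ Finset.range Q, ∑ z ∈ Finset.range Q,
          nrm ((bondA (G y p z) (G y (p + 1) z) : Op X n) *ᵥ ψ)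
        + ∑ p ∈ Finset.range (Q - 1), ∑ y ∈ Finset.range Q, ∑ z ∈ Finset.range Q,
          nrm ((bondA (G y z p) (G y z (p + 1)) : Op X n) *ᵥ ψ))
      ≤ qf (edgeSum adj (Finset.univ : Finset X) : Op X n) ψ := by
  set S₀ : Finset (ℕ × ℕ × ℕ) := Finset.range (Q - 1) ×ˢ Finset.range Q ×ˢ Finset.range Q with hS₀
  set s : Finset (Fin 3 × ℕ × ℕ × ℕ) := Finset.univ ×ˢ S₀ with hs
  have hmem : ∀ {d : Fin 3} {p y z : ℕ}, (d, p, y, z) ∈ s → p + 1 < Q ∧ y < Q ∧ z < Q := by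
    intro d p y z ht
    simp only [hs, hS₀, Finset.mem_product, Finset.mem_univ, true_and, Finset.mem_range] at ht
    exact ⟨by omega, ht.2.1, ht.2.2⟩
  have hF := forward_le (n := n) hirr hsym s (gridEdge G) ?_ ?_ ?_ ψ
  · refine le_trans (le_of_eq ?_) hF
    congr 1
    rw [hs, Finset.sum_product, Fin.sum_univ_three]
    simp only [hS₀, Finset.sum_product, gridEdge]
  · rintro ⟨d, p, y, z⟩ ht ⟨d', p', y', z'⟩ ht' e
    obtain ⟨h1, h2, h3⟩ := hmem ht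
    obtain ⟨h1', h2', h3'⟩ := hmem ht'
    fin_cases d <;> fin_cases d' <;> simp only [gridEdge, Prod.mk.injEq, Fin.isValue] at e <;>
      obtain ⟨e1, e2⟩ := e
    all_goals
      first
      | (obtain ⟨k1, k2, k3⟩ := h.inj _ _ _ _ _ _ (by omega) (by omega) (by omega) (by omega) (by omega)
          (by omega) e1
         obtain ⟨k4, k5, k6⟩ := h.inj _ _ _ _ _ _ (by omega) (by omega) (by omega) (by omega) (by omega)
          (by omega) e2
         first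
         | (exfalso; omega)
         | (subst k1 k2 k3; rfl))
  · rintro ⟨d, p, y, z⟩ ht
    obtain ⟨h1, h2, h3⟩ := hmem ht
    fin_cases d
    · exact h.adj1 _ _ _ h1 h2 h3
    · exact h.adj2 _ _ _ h2 h1 h3
    · exact h.adj3 _ _ _ h2 h3 h1
  · rintro ⟨d, p, y, z⟩ ht ⟨d', p', y', z'⟩ ht' e
    obtain ⟨h1, h2, h3⟩ := hmem ht
    obtain ⟨h1', h2', h3'⟩ := hmem ht'
    fin_cases d <;> fin_cases d' <;> simp only [gridEdge, Prod.mk.injEq, Fin.isValue] at e <;>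
      obtain ⟨e1, e2⟩ := e
    all_goals
      obtain ⟨k1, k2, k3⟩ := h.inj _ _ _ _ _ _ (by omega) (by omega) (by omega) (by omega) (by omega)
          (by omega) e1
      obtain ⟨k4, k5, k6⟩ := h.inj _ _ _ _ _ _ (by omega) (by omega) (by omega) (by omega) (by omega)
          (by omega) e2
      omega

lemma WW_perm2 (G : ℕ → ℕ → ℕ → X) (a : ℕ) (ψ : Cfg X n → ℂ) (c1 c2 c3 : ℕ) :
    WW (fun p y z => G y p z) a ψ c1 c2 c3 = WW G a ψ c2 c1 c3 := by
  unfold WW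
  rw [Finset.sum_comm]

lemma WW_perm3 (G : ℕ → ℕ → ℕ → X) (a : ℕ) (ψ : Cfg X n → ℂ) (c1 c2 c3 : ℕ) :
    WW (fun p y z => G y z p) a ψ c1 c2 c3 = WW G a ψ c2 c3 c1 := by
  unfold WW
  rw [Finset.sum_comm]
  refine Finset.sum_congr rfl fun u _ => ?_
  rw [Finset.sum_comm]

/-- The fine-scale estimate. -/
theorem fine_total {adj : X → X → Prop} [DecidableRel adj] (hirr : ∀ x, ¬ adj x x)
    (hsym : ∀ x y, adj x y → adj y x) {a M : ℕ} (ha : 0 < a) {G : ℕ → ℕ → ℕ → X}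
    (h : GridOK adj (a * M) G) {K : ℕ} {ψ : Cfg X n → ℂ} (hψ : InSec K ψ) {η : ℝ} (hη : 0 < η) :
    (1 / (2 * (a : ℝ) ^ 5)) *
        (∑ c2 ∈ Finset.range M, ∑ c3 ∈ Finset.range M, ∑ t ∈ Finset.range (M - 1),
            nrm (WW G a ψ t c2 c3 - WW G a ψ (t + 1) c2 c3)
          + ∑ c1 ∈ Finset.range M, ∑ c3 ∈ Finset.range M, ∑ t ∈ Finset.range (M - 1),
            nrm (WW G a ψ c1 t c3 - WW G a ψ c1 (t + 1) c3)
          + ∑ c1 ∈ Finset.range M, ∑ c2 ∈ Finset.range M, ∑ t ∈ Finset.range (M - 1),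
            nrm (WW G a ψ c1 c2 t - WW G a ψ c1 c2 (t + 1)))
      ≤ (1 + η) * qf (edgeSum adj (Finset.univ : Finset X) : Op X n) ψ
        + (1 + 1 / η) * (12 * (n : ℝ) * (K : ℝ) ^ 2 / (a : ℝ) ^ 3) * nrm ψ := by
  have h1 := fine_dir1 (G := G) (a := a) (M := M) h.inj hψ hη
  have h2 := fine_dir1 (G := fun p y z => G y p z) (a := a) (M := M)
    (by
      intro p y z p' y' z' hp hy hz hp' hy' hz' e
      obtain ⟨k1, k2, k3⟩ := h.inj _ _ _ _ _ _ hy hp hz hy' hp' hz' e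
      exact ⟨k2, k1, k3⟩) hψ hη
  have h3 := fine_dir1 (G := fun p y z => G y z p) (a := a) (M := M)
    (by
      intro p y z p' y' z' hp hy hz hp' hy' hz' e
      obtain ⟨k1, k2, k3⟩ := h.inj _ _ _ _ _ _ hy hz hp hy' hz' hp' e
      exact ⟨k3, k1, k2⟩) hψ hη
  simp only [WW_perm2] at h2
  simp only [WW_perm3] at h3
  have hfor := grid_forward (n := n) hirr hsym h ψ
  set D1 := ∑ c2 ∈ Finset.range M, ∑ c3 ∈ Finset.range M, ∑ t ∈ Finset.range (M - 1),
            nrm (WW G a ψ t c2 c3 - WW G a ψ (t + 1) c2 c3)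
  set D2 := ∑ c1 ∈ Finset.range M, ∑ c3 ∈ Finset.range M, ∑ t ∈ Finset.range (M - 1),
            nrm (WW G a ψ c1 t c3 - WW G a ψ c1 (t + 1) c3)
  set D3 := ∑ c1 ∈ Finset.range M, ∑ c2 ∈ Finset.range M, ∑ t ∈ Finset.range (M - 1),
            nrm (WW G a ψ c1 c2 t - WW G a ψ c1 c2 (t + 1))
  set S1 := ∑ p ∈ Finset.range (a * M - 1), ∑ y ∈ Finset.range (a * M), ∑ z ∈ Finset.range (a * M),
          nrm ((bondA (G p y z) (G (p + 1) y z) : Op X n) *ᵥ ψ)
  set S2 := ∑ p ∈ Finset.range (a * M - 1), ∑ y ∈ Finset.range (a * M), ∑ z ∈ Finset.range (a * M),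
          nrm ((bondA (G y p z) (G y (p + 1) z) : Op X n) *ᵥ ψ)
  set S3 := ∑ p ∈ Finset.range (a * M - 1), ∑ y ∈ Finset.range (a * M), ∑ z ∈ Finset.range (a * M),
          nrm ((bondA (G y z p) (G y z (p + 1)) : Op X n) *ᵥ ψ)
  have ha' : (0 : ℝ) < a := by exact_mod_cast ha
  have hsum : D1 + D2 + D3 ≤ (1 + η) * (a : ℝ) ^ 5 * (S1 + S2 + S3)
      + 3 * ((1 + 1 / η) * (8 * (n : ℝ) * (K : ℝ) ^ 2 * (a : ℝ) ^ 2) * nrm ψ) := by
    linarith
  have hinv : 0 < 1 / (2 * (a : ℝ) ^ 5) := by positivity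
  refine (mul_le_mul_of_nonneg_left hsum hinv.le).trans ?_
  have e : (1 / (2 * (a : ℝ) ^ 5)) * ((1 + η) * (a : ℝ) ^ 5 * (S1 + S2 + S3)
      + 3 * ((1 + 1 / η) * (8 * (n : ℝ) * (K : ℝ) ^ 2 * (a : ℝ) ^ 2) * nrm ψ))
      = (1 + η) * ((1 / 2) * (S1 + S2 + S3))
        + (1 + 1 / η) * (12 * (n : ℝ) * (K : ℝ) ^ 2 / (a : ℝ) ^ 3) * nrm ψ := by
    field_simp
    ring
  rw [e]
  have := mul_le_mul_of_nonneg_left hfor (show 0 ≤ 1 + η by positivity)
  linarith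

end Forward

end Vale.Agent.P361Lib
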