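import Vale.Agent.Lib.P361.Modes

/-!
# The free magnon sum
-/

open Matrix Filter Topology MeasureTheory Set

noncomputable section

namespace Vale.Agent.P361Lib

/-- The one-dimensional sum. -/
def sOne (M : ℕ) (τ : ℝ) (j : ℕ) : ℝ :=
  ∑ p : Fin M, Real.exp (-((j : ℝ) * τ * (1 - Real.cos (Real.pi * (p : ℕ) / M))))

/-- The dispersion of a mode. -/
def disp {M : ℕ} (q : C3 M) : ℝ :=
  (1 - Real.cos (Real.pi * (q.1 : ℕ) / M)) + (1 - Real.cos (Real.pi * (q.2.1 : ℕ) / M))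
    + (1 - Real.cos (Real.pi * (q.2.2 : ℕ) / M))

lemma disp_nonneg {M : ℕ} (q : C3 M) : 0 ≤ disp q := by
  unfold disp
  have h1 := Real.cos_le_one (Real.pi * (q.1 : ℕ) / M)
  have h2 := Real.cos_le_one (Real.pi * (q.2.1 : ℕ) / M)
  have h3 := Real.cos_le_one (Real.pi * (q.2.2 : ℕ) / M)
  linarith

lemma sum_exp_disp (M : ℕ) (τ : ℝ) (j : ℕ) :
    ∑ q : C3 M, Real.exp (-((j : ℝ) * τ * disp q)) = (sOne M τ j) ^ 3 := by
  unfold sOne disp
  rw [Fintype.sum_prod_type]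
  simp only [Fintype.sum_prod_type]
  rw [pow_three, Finset.sum_mul]
  refine Finset.sum_congr rfl fun a _ => ?_
  rw [Finset.sum_mul, Finset.mul_sum]
  refine Finset.sum_congr rfl fun b _ => ?_
  rw [Finset.mul_sum, Finset.mul_sum]
  refine Finset.sum_congr rfl fun c _ => ?_
  rw [← Real.exp_add, ← Real.exp_add]
  congr 1
  ring

/-- The logarithm of the free product as a series. -/
theorem free_hasSum {z τ : ℝ} (hz0 : 0 ≤ z) (hz1 : z < 1) (hτ : 0 ≤ τ) (M : ℕ) :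
    HasSum (fun j : ℕ => z ^ (j + 1) / ((j : ℝ) + 1) * (sOne M τ (j + 1)) ^ 3)
      (∑ q : C3 M, -Real.log (1 - z * Real.exp (-(τ * disp q)))) := by
  have h : ∀ q : C3 M, HasSum (fun j : ℕ => (z * Real.exp (-(τ * disp q))) ^ (j + 1) / ((j : ℝ) + 1))
      (-Real.log (1 - z * Real.exp (-(τ * disp q)))) := by
    intro q
    refine Real.hasSum_pow_div_log_of_abs_lt_one ?_
    have h1 : Real.exp (-(τ * disp q)) ≤ 1 := by
      rw [Real.exp_le_one_iff]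
      have := mul_nonneg hτ (disp_nonneg q)
      linarith
    have h0 := Real.exp_pos (-(τ * disp q))
    rw [abs_of_nonneg (by positivity)]
    nlinarith
  have h2 := hasSum_sum (s := Finset.univ) fun q _ => h q
  convert h2 using 1
  funext j
  rw [← sum_exp_disp, Finset.mul_sum, Finset.sum_congr rfl]
  intro q _
  rw [mul_pow, ← Real.exp_nat_mul]
  have e : ((j + 1 : ℕ) : ℝ) * -(τ * disp q) = -(((j + 1 : ℕ) : ℝ) * τ * disp q) := by ring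
  rw [e]
  ring

/-- Gaussian sums are below the Gaussian integral. -/
lemma gaussian_sum_le {b : ℝ} (hb : 0 < b) (P : ℕ) :
    ∑ p ∈ Finset.range P, Real.exp (-b * ((p : ℝ) + 1) ^ 2) ≤ Real.sqrt (Real.pi / b) / 2 := by
  set f : ℝ → ℝ := fun x => Real.exp (-b * x ^ 2) with hf
  have hanti : AntitoneOn f (Icc (0 : ℝ) (0 + (P : ℕ))) := by
    intro x hx y hy hxy
    simp only [hf]
    refine Real.exp_le_exp.mpr ?_
    have hx0 : 0 ≤ x := hx.1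
    have : x ^ 2 ≤ y ^ 2 := by nlinarith
    nlinarith
  have h1 := hanti.sum_le_integral
  have e1 : ∑ i ∈ Finset.range P, f (0 + ((i + 1 : ℕ) : ℝ))
      = ∑ p ∈ Finset.range P, Real.exp (-b * ((p : ℝ) + 1) ^ 2) := by
    refine Finset.sum_congr rfl fun p _ => ?_
    simp only [hf, zero_add]
    push_cast
    rfl
  rw [e1] at h1
  refine h1.trans ?_
  have hint : IntegrableOn f (Ioi 0) := by
    have := (integrable_exp_neg_mul_sq hb)
    exact this.integrableOn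
  rw [zero_add, intervalIntegral.integral_of_le (by positivity)]
  rw [← integral_gaussian_Ioi b]
  refine setIntegral_mono_set hint ?_ ?_
  · filter_upwards with x
    exact (Real.exp_pos _).le
  · exact Ioc_subset_Ioi_self.eventuallyLE

lemma one_sub_cos_small {u₀ u : ℝ} (h₀ : u₀ ≤ 1) (hu0 : 0 ≤ u) (hu : u ≤ u₀) :
    (1 - 5 / 48 * u₀ ^ 2) * u ^ 2 / 2 ≤ 1 - Real.cos u := by
  have h1 : |u| ≤ 1 := by
    rw [abs_of_nonneg hu0]
    linarith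
  have h2 := Real.cos_bound h1
  rw [abs_of_nonneg hu0] at h2
  have h3 := (abs_le.mp h2).2
  have h4 : u ^ 2 ≤ u₀ ^ 2 := by nlinarith
  have h5 : 0 ≤ u ^ 2 := by positivity
  have h6 : u ^ 4 = u ^ 2 * u ^ 2 := by ring
  nlinarith [mul_le_mul_of_nonneg_left h4 h5]

lemma one_sub_cos_large {u₀ u : ℝ} (h₀ : 0 ≤ u₀) (hu : u₀ ≤ u) (hpi : u ≤ Real.pi) :
    2 / Real.pi ^ 2 * u₀ ^ 2 ≤ 1 - Real.cos u := by
  have h1 : |u| ≤ Real.pi := by
    rw [abs_of_nonneg (h₀.trans hu)]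
    exact hpi
  have h2 := Real.cos_le_one_sub_mul_cos_sq h1
  have h3 : u₀ ^ 2 ≤ u ^ 2 := by nlinarith
  have h4 : 2 / Real.pi ^ 2 * u₀ ^ 2 ≤ 2 / Real.pi ^ 2 * u ^ 2 :=
    mul_le_mul_of_nonneg_left h3 (by positivity)
  linarith

/-- The bound for the one-dimensional sum. -/
lemma sOne_le {M : ℕ} (hM : 0 < M) {τ : ℝ} (hτ : 0 < τ) {j : ℕ} (hj : 0 < j) {u₀ : ℝ} (h0 : 0 < u₀)
    (h1 : u₀ ≤ 1) :
    sOne M τ j ≤ 1 + Real.sqrt (Real.pi / ((j : ℝ) * τ * (1 - 5 / 48 * u₀ ^ 2) * Real.pi ^ 2 / (2 * (M : ℝ) ^ 2))) / 2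
      + (M : ℝ) * Real.exp (-((j : ℝ) * τ * (2 / Real.pi ^ 2 * u₀ ^ 2))) := by
  have hj' : (0 : ℝ) < j := by exact_mod_cast hj
  have hM' : (0 : ℝ) < M := by exact_mod_cast hM
  have hδ : 0 < 1 - 5 / 48 * u₀ ^ 2 := by nlinarith
  have hpi := Real.pi_pos
  set b : ℝ := (j : ℝ) * τ * (1 - 5 / 48 * u₀ ^ 2) * Real.pi ^ 2 / (2 * (M : ℝ) ^ 2) with hb
  have hb0 : 0 < b := by positivity
  set e : ℝ := Real.exp (-((j : ℝ) * τ * (2 / Real.pi ^ 2 * u₀ ^ 2))) with he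
  have he0 : 0 < e := Real.exp_pos _
  obtain ⟨M', rfl⟩ : ∃ M', M = M' + 1 := ⟨M - 1, by omega⟩
  unfold sOne
  rw [Fin.sum_univ_eq_sum_range (fun p : ℕ => Real.exp (-((j : ℝ) * τ * (1 - Real.cos (Real.pi * (p : ℕ) / ((M' + 1 : ℕ) : ℝ))))))
    (M' + 1), Finset.sum_range_succ']
  have h00 : Real.exp (-((j : ℝ) * τ * (1 - Real.cos (Real.pi * ((0 : ℕ) : ℝ) / ((M' + 1 : ℕ) : ℝ))))) = 1 := by
    simp
  rw [h00]
  have hterm : ∀ p ∈ Finset.range M', Real.exp (-((j : ℝ) * τ * (1 - Real.cos (Real.pi * ((p + 1 : ℕ) : ℝ) / ((M' + 1 : ℕ) : ℝ)))))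
      ≤ Real.exp (-b * ((p : ℝ) + 1) ^ 2) + e := by
    intro p hp
    have hp' : p < M' := Finset.mem_range.mp hp
    set u : ℝ := Real.pi * ((p + 1 : ℕ) : ℝ) / ((M' + 1 : ℕ) : ℝ) with hu
    have hu0 : 0 ≤ u := by positivity
    have hupi : u ≤ Real.pi := by
      rw [hu, div_le_iff₀ hM']
      have : ((p + 1 : ℕ) : ℝ) ≤ ((M' + 1 : ℕ) : ℝ) := by exact_mod_cast (by omega : p + 1 ≤ M' + 1)
      exact mul_le_mul_of_nonneg_left this hpi.le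
    have hjt : 0 < (j : ℝ) * τ := by positivity
    by_cases hc : u ≤ u₀
    · have h2 := one_sub_cos_small h1 hu0 hc
      have h3 : b * ((p : ℝ) + 1) ^ 2 = (j : ℝ) * τ * ((1 - 5 / 48 * u₀ ^ 2) * u ^ 2 / 2) := by
        rw [hb, hu]
        push_cast
        field_simp
      have h4 : Real.exp (-((j : ℝ) * τ * (1 - Real.cos u))) ≤ Real.exp (-b * ((p : ℝ) + 1) ^ 2) := by
        refine Real.exp_le_exp.mpr ?_
        have := mul_le_mul_of_nonneg_left h2 hjt.le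
        rw [neg_mul, h3]
        linarith
      linarith
    · push Not at hc
      have h2 := one_sub_cos_large h0.le hc.le hupi
      have h4 : Real.exp (-((j : ℝ) * τ * (1 - Real.cos u))) ≤ e := by
        refine Real.exp_le_exp.mpr ?_
        have := mul_le_mul_of_nonneg_left h2 hjt.le
        linarith
      have := Real.exp_pos (-b * ((p : ℝ) + 1) ^ 2)
      linarith
  have hsum := Finset.sum_le_sum hterm
  rw [Finset.sum_add_distrib, Finset.sum_const, Finset.card_range, nsmul_eq_mul] at hsum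
  have hg := gaussian_sum_le hb0 M'
  have hMe : (M' : ℝ) * e ≤ ((M' + 1 : ℕ) : ℝ) * e := by
    refine mul_le_mul_of_nonneg_right ?_ he0.le
    push_cast
    linarith
  linarith

/-- The inverse square root scale of the `j`-th term: `(4 π S j)^(-1/2)`. -/
def xS (n j : ℕ) : ℝ := (2 * Real.sqrt (Real.pi * ((n : ℝ) / 2) * (j : ℝ)))⁻¹

lemma xS_nonneg (n j : ℕ) : 0 ≤ xS n j := by
  unfold xS
  positivity

lemma xS_le_one {n j : ℕ} (hn : 1 ≤ n) (hj : 1 ≤ j) : xS n j ≤ 1 := by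
  unfold xS
  have hn' : (1 : ℝ) ≤ n := by exact_mod_cast hn
  have hj' : (1 : ℝ) ≤ j := by exact_mod_cast hj
  have h1 : (1 : ℝ) ≤ Real.pi * ((n : ℝ) / 2) * (j : ℝ) := by
    have hpi := Real.pi_gt_three
    have h2 : (1 / 2 : ℝ) ≤ (n : ℝ) / 2 := by linarith
    have h3 : 3 * (1 / 2 : ℝ) ≤ Real.pi * ((n : ℝ) / 2) := by
      apply mul_le_mul hpi.le h2 (by norm_num) (by positivity)
    nlinarith
  have h2 : (1 : ℝ) ≤ Real.sqrt (Real.pi * ((n : ℝ) / 2) * (j : ℝ)) := by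
    rw [Real.one_le_sqrt]
    exact h1
  rw [inv_eq_one_div, div_le_one (by positivity)]
  linarith

/-- The sum `∑ⱼ zʲ/j (4 π S j)^(-3/2)`. -/
def gS (n : ℕ) (z : ℝ) : ℝ := ∑' j : ℕ, z ^ (j + 1) / ((j : ℝ) + 1) * (xS n (j + 1)) ^ 3

lemma gS_summable {n : ℕ} (hn : 1 ≤ n) {z : ℝ} (hz0 : 0 ≤ z) (hz1 : z < 1) :
    Summable fun j : ℕ => z ^ (j + 1) / ((j : ℝ) + 1) * (xS n (j + 1)) ^ 3 := by
  have h := (Real.hasSum_pow_div_log_of_abs_lt_one (x := z) (by rwa [abs_of_nonneg hz0])).summable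
  refine Summable.of_nonneg_of_le (fun j => ?_) (fun j => ?_) h
  · have := xS_nonneg n (j + 1)
    positivity
  · have h1 : (xS n (j + 1)) ^ 3 ≤ 1 :=
      pow_le_one₀ (xS_nonneg _ _) (xS_le_one hn (by omega))
    have h2 : 0 ≤ z ^ (j + 1) / ((j : ℝ) + 1) := by positivity
    calc z ^ (j + 1) / ((j : ℝ) + 1) * (xS n (j + 1)) ^ 3
        ≤ z ^ (j + 1) / ((j : ℝ) + 1) * 1 := mul_le_mul_of_nonneg_left h1 h2
      _ = z ^ (j + 1) / ((j : ℝ) + 1) := mul_one _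

lemma sqrt_term {n j M : ℕ} (hn : 1 ≤ n) (hj : 0 < j) (hM : 0 < M) {τ δ L ρ : ℝ} (hτ : 0 < τ) (hδ : 0 < δ)
    (hL : 0 < L) (hρ : 0 < ρ) (h : τ * δ / (M : ℝ) ^ 2 = (n : ℝ) * ρ / L ^ 2) :
    Real.sqrt (Real.pi / ((j : ℝ) * τ * δ * Real.pi ^ 2 / (2 * (M : ℝ) ^ 2))) / 2
      = L * ((Real.sqrt ρ)⁻¹ * xS n j) := by
  have hn' : (0 : ℝ) < n := by exact_mod_cast hn
  have hj' : (0 : ℝ) < j := by exact_mod_cast hj
  have hM' : (0 : ℝ) < M := by exact_mod_cast hM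
  have hpi := Real.pi_pos
  have e1 : (j : ℝ) * τ * δ * Real.pi ^ 2 / (2 * (M : ℝ) ^ 2)
      = (j : ℝ) * (Real.pi ^ 2 / 2) * (τ * δ / (M : ℝ) ^ 2) := by
    field_simp
  rw [e1, h]
  have e2 : Real.pi / ((j : ℝ) * (Real.pi ^ 2 / 2) * ((n : ℝ) * ρ / L ^ 2))
      = L ^ 2 * (ρ⁻¹ * (Real.pi * ((n : ℝ) / 2) * (j : ℝ))⁻¹) := by
    field_simp
  rw [e2, Real.sqrt_mul (by positivity), Real.sqrt_sq hL.le,
    Real.sqrt_mul (by positivity), Real.sqrt_inv, Real.sqrt_inv]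
  unfold xS
  have h3 : 0 < Real.sqrt (Real.pi * ((n : ℝ) / 2) * (j : ℝ)) := Real.sqrt_pos.mpr (by positivity)
  have h4 : 0 < Real.sqrt ρ := Real.sqrt_pos.mpr hρ
  field_simp

/-- The free sum in normalized form. -/
theorem free_final {n : ℕ} (hn : 1 ≤ n) {z τ : ℝ} (hz0 : 0 ≤ z) (hz1 : z < 1) (hτ : 0 < τ) {M : ℕ}
    (hM : 0 < M) {u₀ L ρ : ℝ} (h0 : 0 < u₀) (h1 : u₀ ≤ 1) (hL : 0 < L) (hρ : 0 < ρ)
    (h : τ * (1 - 5 / 48 * u₀ ^ 2) / (M : ℝ) ^ 2 = (n : ℝ) * ρ / L ^ 2) {κ c : ℝ}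
    (hκ : κ = 1 / L + (M : ℝ) / L * Real.exp (-(τ * (2 / Real.pi ^ 2 * u₀ ^ 2))))
    (hc : c = (Real.sqrt ρ)⁻¹) :
    ∑ q : C3 M, -Real.log (1 - z * Real.exp (-(τ * disp q)))
      ≤ L ^ 3 * (c ^ 3 * gS n z + κ * (3 * c ^ 2 + 3 * c * κ + κ ^ 2) * (-Real.log (1 - z))) := by
  have hS := free_hasSum hz0 hz1 hτ.le M
  have hlog := Real.hasSum_pow_div_log_of_abs_lt_one (x := z) (by rwa [abs_of_nonneg hz0])
  have hg := (gS_summable hn hz0 hz1).hasSum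
  have hc0 : 0 ≤ c := by
    rw [hc]
    positivity
  have hκ0 : 0 ≤ κ := by
    rw [hκ]
    positivity
  have hR := ((hg.mul_left (c ^ 3)).add (hlog.mul_left (κ * (3 * c ^ 2 + 3 * c * κ + κ ^ 2)))).mul_left (L ^ 3)
  refine hasSum_le (fun j => ?_) hS hR
  have hδ : 0 < 1 - 5 / 48 * u₀ ^ 2 := by nlinarith
  have hj : 0 < j + 1 := by omega
  have hj1 : (1 : ℝ) ≤ ((j + 1 : ℕ) : ℝ) := by
    push_cast
    have : (0 : ℝ) ≤ j := by positivity
    linarith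
  have hs := sOne_le hM hτ hj h0 h1
  rw [sqrt_term hn hj hM hτ hδ hL hρ h] at hs
  set x := xS n (j + 1) with hx
  have hx0 : 0 ≤ x := xS_nonneg _ _
  have hx1 : x ≤ 1 := xS_le_one hn (by omega)
  have hexp : Real.exp (-(((j + 1 : ℕ) : ℝ) * τ * (2 / Real.pi ^ 2 * u₀ ^ 2)))
      ≤ Real.exp (-(τ * (2 / Real.pi ^ 2 * u₀ ^ 2))) := by
    refine Real.exp_le_exp.mpr ?_
    have h2 : 0 ≤ τ * (2 / Real.pi ^ 2 * u₀ ^ 2) := by positivity
    have := mul_le_mul_of_nonneg_right hj1 h2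
    nlinarith
  have hs2 : sOne M τ (j + 1) ≤ L * (κ + c * x) := by
    have hM' : (0 : ℝ) < M := by exact_mod_cast hM
    have h3 : (M : ℝ) * Real.exp (-(((j + 1 : ℕ) : ℝ) * τ * (2 / Real.pi ^ 2 * u₀ ^ 2)))
        ≤ (M : ℝ) * Real.exp (-(τ * (2 / Real.pi ^ 2 * u₀ ^ 2))) :=
      mul_le_mul_of_nonneg_left hexp hM'.le
    have e : L * (κ + c * x) = 1 + L * ((Real.sqrt ρ)⁻¹ * x)
        + (M : ℝ) * Real.exp (-(τ * (2 / Real.pi ^ 2 * u₀ ^ 2))) := by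
      rw [hκ, hc]
      field_simp
      ring
    rw [e]
    linarith
  have hs0 : 0 ≤ sOne M τ (j + 1) := by
    unfold sOne
    exact Finset.sum_nonneg fun _ _ => (Real.exp_pos _).le
  have hs3 : (sOne M τ (j + 1)) ^ 3 ≤ L ^ 3 * (c ^ 3 * x ^ 3 + κ * (3 * c ^ 2 + 3 * c * κ + κ ^ 2)) := by
    have h4 := pow_le_pow_left₀ hs0 hs2 3
    refine h4.trans ?_
    rw [mul_pow]
    refine mul_le_mul_of_nonneg_left ?_ (by positivity)
    have hy : c * x ≤ c := by nlinarith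
    have hy0 : 0 ≤ c * x := by positivity
    have h5 : (κ + c * x) ^ 3 = (c * x) ^ 3 + κ * (3 * (c * x) ^ 2 + 3 * (c * x) * κ + κ ^ 2) := by ring
    rw [h5, mul_pow]
    have h6 : (c * x) ^ 2 ≤ c ^ 2 := by nlinarith
    have h7 : 3 * (c * x) * κ ≤ 3 * c * κ := by nlinarith
    have h8 : κ * (3 * (c * x) ^ 2 + 3 * (c * x) * κ + κ ^ 2) ≤ κ * (3 * c ^ 2 + 3 * c * κ + κ ^ 2) :=
      mul_le_mul_of_nonneg_left (by linarith) hκ0
    linarith
  have hw : 0 ≤ z ^ (j + 1) / ((j : ℝ) + 1) := by positivity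
  have h9 := mul_le_mul_of_nonneg_left hs3 hw
  refine h9.trans (le_of_eq ?_)
  ring

end Vale.Agent.P361Lib
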