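import Vale.Agent.Lib.P361.Tree

/-!
# Comparison of the complete-graph energy with the nearest-neighbour energy on a grid block
-/

open Matrix
open scoped MatrixOrder ComplexOrder

noncomputable section

namespace Vale.Agent.P361Lib

variable {X : Type} [Fintype X] [DecidableEq X] {n : ℕ}

/-- The energy of the bonds of the relation `adj` inside the block `k`, each unordered pair counted
once when `adj` is symmetric. -/
def edgeSum (adj : X → X → Prop) [DecidableRel adj] (k : Finset X) : Op X n :=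
  (1 / 2 : ℝ) • ∑ x ∈ k, ∑ y ∈ k, if adj x y then hEdge x y else 0

lemma edgeTerm_nonneg (adj : X → X → Prop) [DecidableRel adj] (x y : X) :
    0 ≤ (if adj x y then hEdge x y else 0 : Op X n) := by
  split_ifs
  · exact hEdge_nonneg x y
  · exact le_rfl

lemma edgeSum_nonneg (adj : X → X → Prop) [DecidableRel adj] (k : Finset X) :
    0 ≤ (edgeSum adj k : Op X n) :=
  smul_nonneg (by norm_num) (Finset.sum_nonneg fun x _ => Finset.sum_nonneg fun y _ =>
    edgeTerm_nonneg adj x y)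

/-- Superadditivity of the edge energy under disjoint unions. -/
lemma edgeSum_union_le (adj : X → X → Prop) [DecidableRel adj] {a b : Finset X} (h : Disjoint a b) :
    (edgeSum adj a + edgeSum adj b : Op X n) ≤ edgeSum adj (a ∪ b) := by
  unfold edgeSum
  rw [← smul_add]
  refine smul_le_smul_of_nonneg_left ?_ (by norm_num)
  rw [Finset.sum_union h]
  refine add_le_add ?_ ?_
  · refine Finset.sum_le_sum fun x _ => ?_
    rw [Finset.sum_union h]
    exact le_add_of_nonneg_right (Finset.sum_nonneg fun y _ => edgeTerm_nonneg adj x y)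
  · refine Finset.sum_le_sum fun x _ => ?_
    rw [Finset.sum_union h]
    exact le_add_of_nonneg_left (Finset.sum_nonneg fun y _ => edgeTerm_nonneg adj x y)

lemma edgeSum_empty (adj : X → X → Prop) [DecidableRel adj] :
    (edgeSum adj (∅ : Finset X) : Op X n) = 0 := by
  unfold edgeSum
  simp

lemma edgeSum_biUnion_le (adj : X → X → Prop) [DecidableRel adj] {ι : Type} [DecidableEq ι]
    (s : Finset ι) (k : ι → Finset X)
    (hdis : ∀ i ∈ s, ∀ j ∈ s, i ≠ j → Disjoint (k i) (k j)) :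
    ∑ i ∈ s, (edgeSum adj (k i) : Op X n) ≤ edgeSum adj (s.biUnion k) := by
  induction s using Finset.induction_on with
  | empty => simp [edgeSum_empty]
  | insert a s ha ih =>
    rw [Finset.biUnion_insert, Finset.sum_insert ha]
    have hdis' : Disjoint (k a) (s.biUnion k) := by
      rw [Finset.disjoint_biUnion_right]
      intro j hj
      refine hdis a (Finset.mem_insert_self a s) j (Finset.mem_insert_of_mem hj) ?_
      rintro rfl
      exact ha hj
    refine le_trans (add_le_add le_rfl (ih fun i hi j hj hij =>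
      hdis i (Finset.mem_insert_of_mem hi) j (Finset.mem_insert_of_mem hj) hij)) ?_
    exact edgeSum_union_le adj hdis'

section Grid

variable (L : ℕ) (G : ℕ → ℕ → ℕ → X)

/-- Sum along a line in direction one. -/
def lineE1 (b c : ℕ) : Op X n :=
  ∑ u ∈ Finset.range L, if u + 1 < L then hEdge (G u b c) (G (u + 1) b c) else 0

/-- Sum along a line in direction two. -/
def lineE2 (a c : ℕ) : Op X n :=
  ∑ u ∈ Finset.range L, if u + 1 < L then hEdge (G a u c) (G a (u + 1) c) else 0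

/-- Sum along a line in direction three. -/
def lineE3 (a b : ℕ) : Op X n :=
  ∑ u ∈ Finset.range L, if u + 1 < L then hEdge (G a b u) (G a b (u + 1)) else 0

end Grid

/-- The basic line estimate. -/
lemma line_bound (hn : 1 ≤ n) (L : ℕ) (g : ℕ → X) {a b : ℕ} (ha : a < L) (hb : b < L) :
    (hEdge (g a) (g b) : Op X n)
      ≤ (L : ℝ) • ∑ u ∈ Finset.range L, if u + 1 < L then hEdge (g u) (g (u + 1)) else 0 := by
  have hnn : ∀ u, 0 ≤ (if u + 1 < L then hEdge (g u) (g (u + 1)) else 0 : Op X n) := by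
    intro u
    split_ifs
    · exact hEdge_nonneg _ _
    · exact le_rfl
  have key : ∀ {a b : ℕ}, a ≤ b → b < L → (hEdge (g a) (g b) : Op X n)
      ≤ (L : ℝ) • ∑ u ∈ Finset.range L, if u + 1 < L then hEdge (g u) (g (u + 1)) else 0 := by
    intro a b hab hbL
    obtain ⟨d, rfl⟩ := Nat.exists_eq_add_of_le hab
    have h1 := hEdge_path (X := X) (n := n) hn g a d
    refine h1.trans ?_
    -- the path sum is a sub-sum
    have h2 : ∑ i ∈ Finset.range d, (hEdge (g (a + i)) (g (a + i + 1)) : Op X n)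
        ≤ ∑ u ∈ Finset.range L, if u + 1 < L then hEdge (g u) (g (u + 1)) else 0 := by
      have himg : ∑ i ∈ Finset.range d, (hEdge (g (a + i)) (g (a + i + 1)) : Op X n)
          = ∑ u ∈ (Finset.range d).image (fun i => a + i),
              if u + 1 < L then hEdge (g u) (g (u + 1)) else 0 := by
        rw [Finset.sum_image (fun x _ y _ h => by simpa using h)]
        refine Finset.sum_congr rfl fun i hi => ?_
        have hi' := Finset.mem_range.mp hi
        rw [if_pos (by omega)]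
      rw [himg]
      refine Finset.sum_le_sum_of_subset_of_nonneg ?_ fun u _ _ => hnn u
      intro u hu
      obtain ⟨i, hi, rfl⟩ := Finset.mem_image.mp hu
      have hi' := Finset.mem_range.mp hi
      exact Finset.mem_range.mpr (by omega)
    have h3 : (d : ℝ) ≤ (L : ℝ) := by
      have : d ≤ L := by omega
      exact_mod_cast this
    calc (d : ℝ) • ∑ i ∈ Finset.range d, (hEdge (g (a + i)) (g (a + i + 1)) : Op X n)
        ≤ (d : ℝ) • ∑ u ∈ Finset.range L, (if u + 1 < L then hEdge (g u) (g (u + 1)) else 0) :=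
          smul_le_smul_of_nonneg_left h2 (Nat.cast_nonneg d)
      _ ≤ (L : ℝ) • ∑ u ∈ Finset.range L, (if u + 1 < L then hEdge (g u) (g (u + 1)) else 0) :=
          smul_le_smul_of_nonneg_right h3 (Finset.sum_nonneg fun u _ => hnn u)
  by_cases hab : a ≤ b
  · exact key hab hb
  · rw [hEdge_comm]
    exact key (by omega) ha

variable (L : ℕ) (G : ℕ → ℕ → ℕ → X)

lemma lineE1_nonneg (b c : ℕ) : 0 ≤ (lineE1 L G b c : Op X n) :=
  Finset.sum_nonneg fun u _ => by
    split_ifs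
    · exact hEdge_nonneg _ _
    · exact le_rfl

lemma lineE2_nonneg (a c : ℕ) : 0 ≤ (lineE2 L G a c : Op X n) :=
  Finset.sum_nonneg fun u _ => by
    split_ifs
    · exact hEdge_nonneg _ _
    · exact le_rfl

lemma lineE3_nonneg (a b : ℕ) : 0 ≤ (lineE3 L G a b : Op X n) :=
  Finset.sum_nonneg fun u _ => by
    split_ifs
    · exact hEdge_nonneg _ _
    · exact le_rfl

/-- The three-step path through a grid block. -/
lemma grid_pair_bound (hn : 1 ≤ n) {a b c a' b' c' : ℕ} (ha : a < L) (hb : b < L) (hc : c < L)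
    (ha' : a' < L) (hb' : b' < L) (hc' : c' < L) :
    (hEdge (G a b c) (G a' b' c') : Op X n)
      ≤ (3 * (L : ℝ)) • (lineE1 L G b c + lineE2 L G a' c + lineE3 L G a' b') := by
  have h1 := line_bound (X := X) (n := n) hn L (fun u => G u b c) ha ha'
  have h2 := line_bound (X := X) (n := n) hn L (fun u => G a' u c) hb hb'
  have h3 := line_bound (X := X) (n := n) hn L (fun u => G a' b' u) hc hc'
  have t1 := hEdge_triangle (X := X) (n := n) hn (G a b c) (G a' b c) (G a' b' c') (t := 2)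
    (by norm_num)
  have t2 := hEdge_triangle (X := X) (n := n) hn (G a' b c) (G a' b' c) (G a' b' c') (t := 1)
    (by norm_num)
  norm_num at t1 t2
  -- assemble: `h ≤ 3 h₁ + (3/2)(2 h₂ + 2 h₃) = 3 (h₁ + h₂ + h₃)`
  have h4 : (hEdge (G a b c) (G a' b' c') : Op X n)
      ≤ (3 : ℝ) • (hEdge (G a b c) (G a' b c) + hEdge (G a' b c) (G a' b' c)
          + hEdge (G a' b' c) (G a' b' c')) := by
    have h5 := smul_le_smul_of_nonneg_left t2 (show (0 : ℝ) ≤ 3 / 2 by norm_num)
    have h6 := add_le_add (le_refl ((3 : ℝ) • (hEdge (G a b c) (G a' b c) : Op X n))) h5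
    have h7 := t1.trans h6
    refine h7.trans (le_of_eq ?_)
    simp only [smul_add, smul_smul]
    norm_num
    abel
  refine h4.trans ?_
  have h8 : (hEdge (G a b c) (G a' b c) + hEdge (G a' b c) (G a' b' c)
        + hEdge (G a' b' c) (G a' b' c') : Op X n)
      ≤ (L : ℝ) • (lineE1 L G b c + lineE2 L G a' c + lineE3 L G a' b') := by
    rw [smul_add, smul_add]
    exact add_le_add (add_le_add h1 h2) h3
  have h9 := smul_le_smul_of_nonneg_left h8 (show (0 : ℝ) ≤ 3 by norm_num)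
  refine h9.trans (le_of_eq ?_)
  rw [smul_smul]

/-- The combined grid energy. -/
def gridE : Op X n :=
  ∑ b ∈ Finset.range L, ∑ c ∈ Finset.range L, lineE1 L G b c
    + ∑ a ∈ Finset.range L, ∑ c ∈ Finset.range L, lineE2 L G a c
    + ∑ a ∈ Finset.range L, ∑ b ∈ Finset.range L, lineE3 L G a b

/-- The sum of the pair energies over a grid block is controlled by `3 L⁵ gridE`. -/
lemma grid_sum_bound (hn : 1 ≤ n) :
    (∑ a ∈ Finset.range L, ∑ b ∈ Finset.range L, ∑ c ∈ Finset.range L,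
      ∑ a' ∈ Finset.range L, ∑ b' ∈ Finset.range L, ∑ c' ∈ Finset.range L,
        (hEdge (G a b c) (G a' b' c') : Op X n))
      ≤ (3 * (L : ℝ) ^ 5) • gridE L G := by
  have hterm : (∑ a ∈ Finset.range L, ∑ b ∈ Finset.range L, ∑ c ∈ Finset.range L,
      ∑ a' ∈ Finset.range L, ∑ b' ∈ Finset.range L, ∑ c' ∈ Finset.range L,
        (hEdge (G a b c) (G a' b' c') : Op X n))
      ≤ (∑ a ∈ Finset.range L, ∑ b ∈ Finset.range L, ∑ c ∈ Finset.range L,
      ∑ a' ∈ Finset.range L, ∑ b' ∈ Finset.range L, ∑ c' ∈ Finset.range L,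
        (3 * (L : ℝ)) • (lineE1 L G b c + lineE2 L G a' c + lineE3 L G a' b' : Op X n)) := by
    refine Finset.sum_le_sum fun a ha => Finset.sum_le_sum fun b hb => Finset.sum_le_sum fun c hc =>
      Finset.sum_le_sum fun a' ha' => Finset.sum_le_sum fun b' hb' => Finset.sum_le_sum fun c' hc' => ?_
    exact grid_pair_bound L G hn (Finset.mem_range.mp ha) (Finset.mem_range.mp hb)
      (Finset.mem_range.mp hc) (Finset.mem_range.mp ha') (Finset.mem_range.mp hb')
      (Finset.mem_range.mp hc')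
  refine hterm.trans (le_of_eq ?_)
  have hc : ∀ F : Op X n, ∑ _u ∈ Finset.range L, F = (L : ℝ) • F := by
    intro F
    rw [Finset.sum_const, Finset.card_range, Nat.cast_smul_eq_nsmul]
  have T1 : ∀ F : ℕ → ℕ → Op X n, (∑ _a ∈ Finset.range L, ∑ b ∈ Finset.range L,
      ∑ c ∈ Finset.range L, ∑ _a' ∈ Finset.range L, ∑ _b' ∈ Finset.range L,
        ∑ _c' ∈ Finset.range L, F b c)
      = ((L : ℝ) ^ 4) • ∑ b ∈ Finset.range L, ∑ c ∈ Finset.range L, F b c := by
    intro F
    simp only [hc, ← Finset.smul_sum, smul_smul]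
    congr 1
    ring
  have T2 : ∀ F : ℕ → ℕ → Op X n, (∑ _a ∈ Finset.range L, ∑ _b ∈ Finset.range L,
      ∑ c ∈ Finset.range L, ∑ a' ∈ Finset.range L, ∑ _b' ∈ Finset.range L,
        ∑ _c' ∈ Finset.range L, F a' c)
      = ((L : ℝ) ^ 4) • ∑ a ∈ Finset.range L, ∑ c ∈ Finset.range L, F a c := by
    intro F
    simp only [hc, ← Finset.smul_sum, smul_smul]
    rw [Finset.sum_comm]
    congr 1
    ring
  have T3 : ∀ F : ℕ → ℕ → Op X n, (∑ _a ∈ Finset.range L, ∑ _b ∈ Finset.range L,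
      ∑ _c ∈ Finset.range L, ∑ a' ∈ Finset.range L, ∑ b' ∈ Finset.range L,
        ∑ _c' ∈ Finset.range L, F a' b')
      = ((L : ℝ) ^ 4) • ∑ a ∈ Finset.range L, ∑ b ∈ Finset.range L, F a b := by
    intro F
    simp only [hc, ← Finset.smul_sum, smul_smul]
    congr 1
    ring
  simp only [← Finset.smul_sum, Finset.sum_add_distrib]
  rw [T1, T2, T3]
  unfold gridE
  simp only [smul_add, smul_smul]
  congr 1
  · congr 1
    · congr 1
      ring
    · congr 1
      ring
  · congr 1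
    ring

/-- A family of distinct adjacent pairs inside `k` contributes at most twice the edge energy. -/
lemma sub_sum_le_edgeSum (adj : X → X → Prop) [DecidableRel adj] (k : Finset X) {ι : Type}
    [DecidableEq ι] (s : Finset ι) (f : ι → X × X) (hinj : Set.InjOn f s)
    (hmem : ∀ i ∈ s, (f i).1 ∈ k ∧ (f i).2 ∈ k) (hadj : ∀ i ∈ s, adj (f i).1 (f i).2) :
    ∑ i ∈ s, (hEdge (f i).1 (f i).2 : Op X n) ≤ (2 : ℝ) • edgeSum adj k := by
  have h1 : ∑ i ∈ s, (hEdge (f i).1 (f i).2 : Op X n)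
      = ∑ p ∈ s.image f, if adj p.1 p.2 then hEdge p.1 p.2 else 0 := by
    rw [Finset.sum_image hinj]
    refine Finset.sum_congr rfl fun i hi => ?_
    rw [if_pos (hadj i hi)]
  rw [h1]
  have h2 : ∑ p ∈ s.image f, (if adj p.1 p.2 then (hEdge p.1 p.2 : Op X n) else 0)
      ≤ ∑ p ∈ k ×ˢ k, if adj p.1 p.2 then hEdge p.1 p.2 else 0 := by
    refine Finset.sum_le_sum_of_subset_of_nonneg ?_ fun p _ _ => edgeTerm_nonneg adj p.1 p.2
    intro p hp
    obtain ⟨i, hi, rfl⟩ := Finset.mem_image.mp hp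
    exact Finset.mem_product.mpr (hmem i hi)
  refine h2.trans (le_of_eq ?_)
  rw [Finset.sum_product]
  unfold edgeSum
  rw [smul_smul]
  norm_num

lemma triple_filter (f : ℕ × ℕ × ℕ → Op X n) (P : ℕ × ℕ × ℕ → Prop) [DecidablePred P] :
    ∑ b ∈ Finset.range L, ∑ c ∈ Finset.range L, ∑ u ∈ Finset.range L,
        (if P (b, c, u) then f (b, c, u) else 0)
      = ∑ p ∈ (Finset.range L ×ˢ Finset.range L ×ˢ Finset.range L).filter P, f p := by
  rw [Finset.sum_filter, Finset.sum_product]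
  refine Finset.sum_congr rfl fun b _ => ?_
  rw [Finset.sum_product]

/-- The grid map on the cube of side `L`. -/
structure GridOK (adj : X → X → Prop) (L : ℕ) (G : ℕ → ℕ → ℕ → X) : Prop where
  inj : ∀ a b c a' b' c', a < L → b < L → c < L → a' < L → b' < L → c' < L →
    G a b c = G a' b' c' → a = a' ∧ b = b' ∧ c = c'
  adj1 : ∀ a b c, a + 1 < L → b < L → c < L → adj (G a b c) (G (a + 1) b c)
  adj2 : ∀ a b c, a < L → b + 1 < L → c < L → adj (G a b c) (G a (b + 1) c)
  adj3 : ∀ a b c, a < L → b < L → c + 1 < L → adj (G a b c) (G a b (c + 1))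

/-- The block of the grid map. -/
def gridBlock (L : ℕ) (G : ℕ → ℕ → ℕ → X) : Finset X :=
  (Finset.range L ×ˢ Finset.range L ×ˢ Finset.range L).image fun t => G t.1 t.2.1 t.2.2

lemma mem_gridBlock {a b c : ℕ} (ha : a < L) (hb : b < L) (hc : c < L) :
    G a b c ∈ gridBlock L G := by
  refine Finset.mem_image.mpr ⟨(a, b, c), ?_, rfl⟩
  simp [ha, hb, hc]

lemma dir_le (adj : X → X → Prop) [DecidableRel adj] (k : Finset X) (g₁ g₂ : ℕ × ℕ × ℕ → X)
    (hinj : ∀ p q : ℕ × ℕ × ℕ, p.1 < L → p.2.1 < L → p.2.2 + 1 < L → q.1 < L → q.2.1 < L →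
      q.2.2 + 1 < L → g₁ p = g₁ q → p = q)
    (hmem : ∀ p : ℕ × ℕ × ℕ, p.1 < L → p.2.1 < L → p.2.2 + 1 < L → g₁ p ∈ k ∧ g₂ p ∈ k)
    (hadj : ∀ p : ℕ × ℕ × ℕ, p.1 < L → p.2.1 < L → p.2.2 + 1 < L → adj (g₁ p) (g₂ p)) :
    ∑ b ∈ Finset.range L, ∑ c ∈ Finset.range L, ∑ u ∈ Finset.range L,
        (if u + 1 < L then (hEdge (g₁ (b, c, u)) (g₂ (b, c, u)) : Op X n) else 0)
      ≤ (2 : ℝ) • edgeSum adj k := by
  have e := triple_filter (X := X) (n := n) L (fun p => hEdge (g₁ p) (g₂ p)) (fun p => p.2.2 + 1 < L)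
  refine (le_of_eq e).trans ?_
  refine sub_sum_le_edgeSum adj k _ (fun p => (g₁ p, g₂ p)) ?_ ?_ ?_
  · rintro ⟨b, c, u⟩ hp ⟨b', c', u'⟩ hp' e
    simp only [Finset.coe_filter, Finset.mem_product, Finset.mem_range, Set.mem_ofPred_eq] at hp hp'
    simp only [Prod.mk.injEq] at e
    exact hinj _ _ hp.1.1 hp.1.2.1 hp.2 hp'.1.1 hp'.1.2.1 hp'.2 e.1
  · rintro ⟨b, c, u⟩ hp
    simp only [Finset.mem_filter, Finset.mem_product, Finset.mem_range] at hp
    exact hmem _ hp.1.1 hp.1.2.1 hp.2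
  · rintro ⟨b, c, u⟩ hp
    simp only [Finset.mem_filter, Finset.mem_product, Finset.mem_range] at hp
    exact hadj _ hp.1.1 hp.1.2.1 hp.2

lemma gridE_le {adj : X → X → Prop} [DecidableRel adj] (h : GridOK adj L G) :
    (gridE L G : Op X n) ≤ (6 : ℝ) • edgeSum adj (gridBlock L G) := by
  have h1 : ∑ b ∈ Finset.range L, ∑ c ∈ Finset.range L, (lineE1 L G b c : Op X n)
      ≤ (2 : ℝ) • edgeSum adj (gridBlock L G) := by
    unfold lineE1
    refine dir_le (n := n) L adj _ (fun p => G p.2.2 p.1 p.2.1) (fun p => G (p.2.2 + 1) p.1 p.2.1)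
      ?_ ?_ ?_
    · rintro ⟨b, c, u⟩ ⟨b', c', u'⟩ (h1 : b < L) (h2 : c < L) (h3 : u + 1 < L) (h1' : b' < L) (h2' : c' < L) (h3' : u' + 1 < L) e
      obtain ⟨e1, e2, e3⟩ := h.inj _ _ _ _ _ _ (show u < L by omega) h1 h2 (show u' < L by omega) h1' h2' e
      subst e1 e2 e3
      rfl
    · rintro ⟨b, c, u⟩ (h1 : b < L) (h2 : c < L) (h3 : u + 1 < L)
      exact ⟨mem_gridBlock L G (show u < L by omega) h1 h2, mem_gridBlock L G h3 h1 h2⟩
    · rintro ⟨b, c, u⟩ (h1 : b < L) (h2 : c < L) (h3 : u + 1 < L)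
      exact h.adj1 _ _ _ h3 h1 h2
  have h2 : ∑ a ∈ Finset.range L, ∑ c ∈ Finset.range L, (lineE2 L G a c : Op X n)
      ≤ (2 : ℝ) • edgeSum adj (gridBlock L G) := by
    unfold lineE2
    refine dir_le (n := n) L adj _ (fun p => G p.1 p.2.2 p.2.1) (fun p => G p.1 (p.2.2 + 1) p.2.1)
      ?_ ?_ ?_
    · rintro ⟨b, c, u⟩ ⟨b', c', u'⟩ (h1 : b < L) (h2 : c < L) (h3 : u + 1 < L) (h1' : b' < L) (h2' : c' < L) (h3' : u' + 1 < L) e
      obtain ⟨e1, e2, e3⟩ := h.inj _ _ _ _ _ _ h1 (show u < L by omega) h2 h1' (show u' < L by omega) h2' e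
      subst e1 e2 e3
      rfl
    · rintro ⟨b, c, u⟩ (h1 : b < L) (h2 : c < L) (h3 : u + 1 < L)
      exact ⟨mem_gridBlock L G h1 (show u < L by omega) h2, mem_gridBlock L G h1 h3 h2⟩
    · rintro ⟨b, c, u⟩ (h1 : b < L) (h2 : c < L) (h3 : u + 1 < L)
      exact h.adj2 _ _ _ h1 h3 h2
  have h3 : ∑ a ∈ Finset.range L, ∑ b ∈ Finset.range L, (lineE3 L G a b : Op X n)
      ≤ (2 : ℝ) • edgeSum adj (gridBlock L G) := by
    unfold lineE3
    refine dir_le (n := n) L adj _ (fun p => G p.1 p.2.1 p.2.2) (fun p => G p.1 p.2.1 (p.2.2 + 1))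
      ?_ ?_ ?_
    · rintro ⟨b, c, u⟩ ⟨b', c', u'⟩ (h1 : b < L) (h2 : c < L) (h3 : u + 1 < L) (h1' : b' < L) (h2' : c' < L) (h3' : u' + 1 < L) e
      obtain ⟨e1, e2, e3⟩ := h.inj _ _ _ _ _ _ h1 h2 (show u < L by omega) h1' h2' (show u' < L by omega) e
      subst e1 e2 e3
      rfl
    · rintro ⟨b, c, u⟩ (h1 : b < L) (h2 : c < L) (h3 : u + 1 < L)
      exact ⟨mem_gridBlock L G h1 h2 (show u < L by omega), mem_gridBlock L G h1 h2 h3⟩
    · rintro ⟨b, c, u⟩ (h1 : b < L) (h2 : c < L) (h3 : u + 1 < L)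
      exact h.adj3 _ _ _ h1 h2 h3
  unfold gridE
  refine (add_le_add (add_le_add h1 h2) h3).trans (le_of_eq ?_)
  rw [← add_smul, ← add_smul]
  norm_num

/-- Comparison of the complete-graph energy of a grid block with its nearest-neighbour energy. -/
theorem casimir_le_edgeSum (hn : 1 ≤ n) {adj : X → X → Prop} [DecidableRel adj]
    (h : GridOK adj L G) :
    (casimir (gridBlock L G) : Op X n) ≤ (9 * (L : ℝ) ^ 5) • edgeSum adj (gridBlock L G) := by
  have hinjOn : Set.InjOn (fun t : ℕ × ℕ × ℕ => G t.1 t.2.1 t.2.2)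
      (Finset.range L ×ˢ Finset.range L ×ˢ Finset.range L : Finset (ℕ × ℕ × ℕ)) := by
    rintro ⟨a, b, c⟩ hp ⟨a', b', c'⟩ hp' e
    simp only [Finset.coe_product, Finset.coe_range, Set.mem_prod, Set.mem_Iio] at hp hp'
    obtain ⟨e1, e2, e3⟩ := h.inj _ _ _ _ _ _ hp.1 hp.2.1 hp.2.2 hp'.1 hp'.2.1 hp'.2.2 e
    subst e1 e2 e3
    rfl
  have hexp : (∑ x ∈ gridBlock L G, ∑ y ∈ gridBlock L G, (hEdge x y : Op X n))
      = ∑ a ∈ Finset.range L, ∑ b ∈ Finset.range L, ∑ c ∈ Finset.range L,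
      ∑ a' ∈ Finset.range L, ∑ b' ∈ Finset.range L, ∑ c' ∈ Finset.range L,
        (hEdge (G a b c) (G a' b' c') : Op X n) := by
    unfold gridBlock
    rw [Finset.sum_image hinjOn]
    simp only [Finset.sum_image hinjOn]
    simp only [Finset.sum_product]
  have hb := grid_sum_bound (n := n) L G hn
  rw [← hexp] at hb
  have hg := gridE_le (n := n) L G h
  have hL : (0 : ℝ) ≤ 3 * (L : ℝ) ^ 5 := by positivity
  have h1 := hb.trans (smul_le_smul_of_nonneg_left hg hL)
  rw [smul_smul] at h1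
  have h2 : (casimir (gridBlock L G) : Op X n)
      = (1 / 2 : ℝ) • ∑ x ∈ gridBlock L G, ∑ y ∈ gridBlock L G, (hEdge x y : Op X n) := by
    unfold casimir
    rw [show (1 / 2 : ℂ) = ((1 / 2 : ℝ) : ℂ) by push_cast; rfl, Complex.coe_smul]
  rw [h2]
  have h3 := smul_le_smul_of_nonneg_left h1 (show (0 : ℝ) ≤ 1 / 2 by norm_num)
  refine h3.trans (le_of_eq ?_)
  rw [smul_smul]
  congr 1
  ring

end Vale.Agent.P361Lib
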