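import Vale.Agent.Lib.P361.LBHam
import Vale.Agent.Lib.P361.Limit

/-!
# The family of trial states on one box
-/

open Matrix Finset
open scoped MatrixOrder ComplexOrder

noncomputable section

namespace Vale.Agent.P361Lib

variable {X : Type} [Fintype X] [DecidableEq X] {n : ℕ}
variable {Q : Type} [Fintype Q] [DecidableEq Q]

lemma chi_pol {u : Q → X → ℝ} {F : Finset X} (hU : ∀ q, ∀ z ∈ F, u q z = 0) (m : Q → ℕ) {z : X}
    (hz : z ∈ F) : Pol z (chi u m : Cfg X n → ℂ) := by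
  revert m
  refine occ_induction ?_ ?_
  · rw [chi_zero]
    exact pol_vac z
  · intro m r h
    rw [chi_inc]
    exact h.magnon (hU r z hz)

/-- The occupation numbers of a bounded index. -/
def occOf {K₁ : ℕ} (j : Q → Fin (K₁ + 1)) : Q → ℕ := fun q => (j q : ℕ)

lemma occOf_injective {K₁ : ℕ} : Function.Injective (occOf (Q := Q) (K₁ := K₁)) := by
  intro i j h
  funext q
  exact Fin.ext (congrFun h q)

lemma tot_occOf_le {K₁ : ℕ} (j : Q → Fin (K₁ + 1)) : tot (occOf j) ≤ Fintype.card Q * K₁ := by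
  unfold tot occOf
  calc ∑ q, (j q : ℕ) ≤ ∑ _q : Q, K₁ := Finset.sum_le_sum fun q _ => Nat.le_of_lt_succ (j q).2
    _ = Fintype.card Q * K₁ := by
      rw [Finset.sum_const, Finset.card_univ, smul_eq_mul]

/-- The normalised trial vector. -/
def vOf {K₁ : ℕ} (u : Q → X → ℝ) (j : Q → Fin (K₁ + 1)) : Cfg X n → ℂ :=
  (((Real.sqrt (mfac (occOf j)))⁻¹ : ℝ) : ℂ) • chi u (occOf j)

lemma mfac_one_le (m : Q → ℕ) : 1 ≤ mfac m := by
  unfold mfac
  refine Finset.one_le_prod fun q _ => ?_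
  exact_mod_cast Nat.succ_le_of_lt (Nat.factorial_pos _)

lemma inv_sqrt_mfac_le (m : Q → ℕ) : (Real.sqrt (mfac m))⁻¹ ≤ 1 := by
  have h1 : 1 ≤ Real.sqrt (mfac m) := by
    rw [Real.one_le_sqrt]
    exact mfac_one_le m
  exact inv_le_one_of_one_le₀ h1

/-- The Gram matrix of the normalised vectors. -/
lemma vOf_gram {K₁ : ℕ} (u : Q → X → ℝ) (i j : Q → Fin (K₁ + 1)) :
    ‖star (vOf u i : Cfg X n → ℂ) ⬝ᵥ vOf u j - (if i = j then 1 else 0)‖
      ≤ ‖GG (n := n) u (occOf i) (occOf j)‖ := by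
  have hi := mfac_pos (occOf i)
  have hj := mfac_pos (occOf j)
  set a : ℝ := (Real.sqrt (mfac (occOf i)))⁻¹ with ha
  set b : ℝ := (Real.sqrt (mfac (occOf j)))⁻¹ with hb
  have ha0 : 0 ≤ a := by positivity
  have hb0 : 0 ≤ b := by positivity
  have ha1 : a ≤ 1 := inv_sqrt_mfac_le _
  have hb1 : b ≤ 1 := inv_sqrt_mfac_le _
  have e0 : star (vOf u i : Cfg X n → ℂ) ⬝ᵥ vOf u j
      = ((a * b : ℝ) : ℂ) * ip (chi u (occOf i) : Cfg X n → ℂ) (chi u (occOf j)) := by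
    unfold vOf ip
    rw [star_smul, smul_dotProduct, dotProduct_smul, smul_eq_mul, smul_eq_mul, Complex.star_def,
      Complex.conj_ofReal, ← ha, ← hb]
    push_cast
    ring
  have e1 : star (vOf u i : Cfg X n → ℂ) ⬝ᵥ vOf u j - (if i = j then 1 else 0)
      = ((a * b : ℝ) : ℂ) * GG (n := n) u (occOf i) (occOf j) := by
    rw [e0]
    unfold GG
    by_cases h : i = j
    · subst h
      rw [if_pos rfl, if_pos rfl]
      have e2 : a * b * mfac (occOf i) = 1 := by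
        rw [ha, hb, ← mul_inv, Real.mul_self_sqrt hi.le]
        exact inv_mul_cancel₀ hi.ne'
      have e3 : ((a * b : ℝ) : ℂ) * ((mfac (occOf i) : ℝ) : ℂ) = 1 := by
        rw [← Complex.ofReal_mul, e2, Complex.ofReal_one]
      linear_combination e3
    · rw [if_neg h, if_neg (fun e => h (occOf_injective e))]
      ring
  rw [e1, norm_mul, Complex.norm_real, Real.norm_eq_abs, abs_of_nonneg (by positivity)]
  have : a * b ≤ 1 := by nlinarith
  exact mul_le_of_le_one_left (norm_nonneg _) this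

/-- The sum of the Gram constants. -/
def Ag (Kt : ℕ) : ℝ := ∑ k ∈ Finset.range (Kt + 1), Agram Kt k

lemma Agram_le_Ag {Kt k : ℕ} (hk : k ≤ Kt) : Agram Kt k ≤ Ag Kt :=
  Finset.single_le_sum (f := fun k => Agram Kt k) (fun i _ => Agram_nonneg Kt i)
    (Finset.mem_range.mpr (Nat.lt_succ_of_le hk))

lemma Ag_nonneg (Kt : ℕ) : 0 ≤ Ag Kt := Finset.sum_nonneg fun i _ => Agram_nonneg Kt i

/-- The family of trial states on one box. -/
theorem box_family (hn : 1 ≤ n) {adj : X → X → Prop} [DecidableRel adj] (hirr : ∀ x, ¬ adj x x)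
    (hsym : ∀ x y, adj x y ↔ adj y x) {d : ℕ}
    (hdeg : ∀ y, ((Finset.univ : Finset X).filter fun x => adj x y).card ≤ d) {u : Q → X → ℝ}
    (hO : ∀ q r, ∑ z, u q z * u r z = if q = r then 1 else 0) {M : ℝ} (hM0 : 0 < M)
    (hM : ∀ q r z, |u q z * u r z| ≤ M) {F : Finset X} (hU : ∀ q, ∀ z ∈ F, u q z = 0) {Λ : Q → ℝ}
    (hΛ : ∀ q, 0 ≤ Λ q) (hLap : ∀ q x, x ∉ F → lapG adj (u q) x = Λ q * u q x) {g : ℝ} (hg0 : 0 < g)
    (hg : ∀ q x y, adj x y → |u q x - u q y| ≤ g) {β lam : ℝ} (hβ : 0 < β) (hlam : 0 ≤ lam) (K₁ : ℕ)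
    {Kt : ℕ} (hKt : Kt = Fintype.card Q * K₁) {a e Emax : ℝ} (ha : a = 2 / n * M * Ag Kt)
    (he : e = β * g * (1 + Cxi n d Kt))
    (hEmax : Emax = ∑ q, (β * ((n : ℝ) / 2 * Λ q) + lam) * (K₁ : ℝ))
    (hsmall : a * (Fintype.card (Q → Fin (K₁ + 1)) : ℝ) < 1) :
    ∃ Ψ : (Q → Fin (K₁ + 1)) → Cfg X n → ℂ, (∀ i j, star (Ψ i) ⬝ᵥ Ψ j = if i = j then 1 else 0) ∧
      (∀ i, ∀ z ∈ F, Pol z (Ψ i)) ∧
      ∑ j : Q → Fin (K₁ + 1), Real.exp (-((Eo (fun q => β * ((n : ℝ) / 2 * Λ q) + lam) (occOf j)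
          + (Emax * a * (Fintype.card (Q → Fin (K₁ + 1)) : ℝ)
            + e * (1 / 2 + (Fintype.card (Q → Fin (K₁ + 1)) : ℝ))))
          / (1 - a * (Fintype.card (Q → Fin (K₁ + 1)) : ℝ))))
        ≤ ∑ i, Real.exp (-qf (blockGen adj β lam (Finset.univ : Finset X) : Op X n) (Ψ i)) := by
  have hn' : (0 : ℝ) < n := by exact_mod_cast hn
  have hN : ∀ q, ∑ z, u q z ^ 2 = 1 := by
    intro q
    have := hO q q
    rw [if_pos rfl] at this
    rw [← this]
    exact Finset.sum_congr rfl fun z _ => sq _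
  set ω : Q → ℝ := fun q => (n : ℝ) / 2 * Λ q with hω
  have hω0 : ∀ q, 0 ≤ ω q := fun q => mul_nonneg (by positivity) (hΛ q)
  set W : Q → ℝ := fun q => β * ω q + lam with hW
  have hW0 : ∀ q, 0 ≤ W q := fun q => add_nonneg (mul_nonneg hβ.le (hω0 q)) hlam
  set E : (Q → Fin (K₁ + 1)) → ℝ := fun j => Eo W (occOf j) with hE
  have ha0 : 0 ≤ a := by
    rw [ha]
    have := Ag_nonneg Kt
    positivity
  have he0 : 0 < e := by
    rw [he]
    have := Cxi_nonneg n d Kt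
    positivity
  have hEmax0 : 0 ≤ Emax := by
    rw [hEmax]
    exact Finset.sum_nonneg fun q _ => mul_nonneg (hW0 q) (by positivity)
  have hE0 : ∀ j, 0 ≤ E j := fun j => Finset.sum_nonneg fun q _ => mul_nonneg (hW0 q) (by positivity)
  have hE1 : ∀ j, E j ≤ Emax := by
    intro j
    rw [hEmax]
    refine Finset.sum_le_sum fun q _ => mul_le_mul_of_nonneg_left ?_ (hW0 q)
    show (((j q : Fin (K₁ + 1)) : ℕ) : ℝ) ≤ K₁
    exact_mod_cast Nat.le_of_lt_succ (j q).2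
  have hG : ∀ i j : Q → Fin (K₁ + 1), ‖star (vOf u i : Cfg X n → ℂ) ⬝ᵥ vOf u j - (if i = j then 1 else 0)‖ ≤ a := by
    intro i j
    refine (vOf_gram u i j).trans ?_
    have hi := tot_occOf_le i
    have hj := tot_occOf_le j
    rw [← hKt] at hi hj
    have h1 := GG_le (n := n) hn hO hM0 hM (occOf i) (occOf j) hi hj
    refine h1.trans ?_
    rw [ha]
    exact mul_le_mul_of_nonneg_left (Agram_le_Ag hi) (by positivity)
  -- the action of the generator
  have hact : ∀ j : Q → Fin (K₁ + 1), ∃ b ξ : Cfg X n → ℂ,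
      (blockGen adj β lam Finset.univ : Op X n) *ᵥ vOf u j = ((E j : ℝ) : ℂ) • vOf u j + b + ξ ∧
        Fx F b ∧ vnsq ξ ≤ e ^ 2 := by
    intro j
    obtain ⟨b, ξ, h1, h2, h3, h4⟩ := edgeSum_chi (n := n) hn hirr hsym hdeg hN hU hLap hg (occOf j)
    set c : ℝ := (Real.sqrt (mfac (occOf j)))⁻¹ with hc
    have hc0 : 0 ≤ c := by positivity
    have hc1 : c ≤ 1 := inv_sqrt_mfac_le _
    refine ⟨((c * β : ℝ) : ℂ) • b, ((c * β : ℝ) : ℂ) • ξ, ?_, h2.smul _, ?_⟩
    · unfold blockGen vOf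
      rw [← hc, Matrix.mulVec_smul, Matrix.add_mulVec, Matrix.smul_mulVec, Matrix.smul_mulVec, h1,
        devTotal_act (chi_inSec u (occOf j))]
      have hE2 : E j = β * Eo ω (occOf j) + lam * (tot (occOf j) : ℝ) := by
        simp only [hE, hW]
        unfold Eo tot
        push_cast
        rw [Finset.mul_sum, Finset.mul_sum, ← Finset.sum_add_distrib]
        refine Finset.sum_congr rfl fun q _ => ?_
        ring
      rw [hE2]
      ext σ
      simp only [Pi.smul_apply, Pi.add_apply, Complex.real_smul, smul_eq_mul]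
      push_cast
      ring
    · rw [← nrm_eq_vnsq, nrm_smul]
      have h5 : Cxi n d (tot (occOf j)) ≤ Cxi n d Kt := Cxi_mono n d (by rw [hKt]; exact tot_occOf_le j)
      have hC := Cxi_nonneg n d Kt
      have h6 : nrm ξ ≤ (1 + Cxi n d Kt) ^ 2 * g ^ 2 := by
        refine h4.trans (mul_le_mul_of_nonneg_right ?_ (by positivity))
        nlinarith [Cxi_nonneg n d (tot (occOf j))]
      have h7 : (c * β) ^ 2 ≤ β ^ 2 := by
        have : c * β ≤ β := by nlinarith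
        exact pow_le_pow_left₀ (by positivity) this 2
      rw [he]
      calc (c * β) ^ 2 * nrm ξ ≤ β ^ 2 * ((1 + Cxi n d Kt) ^ 2 * g ^ 2) :=
            mul_le_mul h7 h6 (nrm_nonneg' ξ) (by positivity)
        _ = (β * g * (1 + Cxi n d Kt)) ^ 2 := by ring
  choose b ξ h1 h2 h3 using hact
  have hpolS : ∀ c : (Q → Fin (K₁ + 1)) → ℂ, ∀ z ∈ F, Pol z (trialS (vOf u) *ᵥ c : Cfg X n → ℂ) := by
    intro c z hz
    rw [trialS_mulVec]
    refine Pol.sum _ fun j _ => ?_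
    unfold vOf
    exact ((chi_pol hU _ hz).smul _).smul _
  obtain ⟨Ψ, hΨ1, hΨ2, hΨ3⟩ := trial_family (blockGen_hermitian adj β lam Finset.univ) (vOf u) ha0 he0 hEmax0 hG hE0 hE1
    b ξ h1 (fun j c => dot_fx (hpolS c) (h2 j)) h3 hsmall
  refine ⟨Ψ, hΨ1, ?_, hΨ3⟩
  intro i z hz
  obtain ⟨c, hc⟩ := hΨ2 i
  rw [hc]
  exact hpolS c z hz

end Vale.Agent.P361Lib
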