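import Vale.Agent.Lib.P361.LBOps

/-!
# The commutator of the Hamiltonian with the magnon operators
-/

open Matrix Finset
open scoped MatrixOrder ComplexOrder

noncomputable section

namespace Vale.Agent.P361Lib

variable {X : Type} [Fintype X] [DecidableEq X] {n : ℕ}

lemma spinZ_comm_M : spinZ n * spinM n - spinM n * spinZ n = -spinM n := by
  rw [spinZ_eq_half_sub_D]
  have h := devD_comm_M (n := n)
  have e : (((n : ℂ) / 2) • (1 : SMat n) - devD n) * spinM n - spinM n * (((n : ℂ) / 2) • (1 : SMat n) - devD n)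
      = -(devD n * spinM n - spinM n * devD n) := by
    simp only [sub_mul, mul_sub, smul_mul_assoc, mul_smul_comm, one_mul, mul_one]
    abel
  rw [e, h]

lemma hEdge_comm_left {x y : X} (hxy : x ≠ y) :
    (hEdge x y : Op X n) * siteOp x (spinM n) - siteOp x (spinM n) * hEdge x y
      = siteOp x (spinM n) * siteOp y (spinZ n) - siteOp x (spinZ n) * siteOp y (spinM n) := by
  unfold hEdge
  rw [if_neg hxy]
  set Mx : Op X n := siteOp x (spinM n) with hMx
  set My : Op X n := siteOp y (spinM n) with hMy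
  set Zx : Op X n := siteOp x (spinZ n) with hZx
  set Zy : Op X n := siteOp y (spinZ n) with hZy
  set Px : Op X n := siteOp x (spinP n) with hPx
  set Py : Op X n := siteOp y (spinP n) with hPy
  have c1 : Zy * Mx = Mx * Zy := (siteOp_commute hxy.symm _ _).eq
  have c2 : Py * Mx = Mx * Py := (siteOp_commute hxy.symm _ _).eq
  have c3 : My * Mx = Mx * My := (siteOp_commute hxy.symm _ _).eq
  have r1 : Zx * Mx - Mx * Zx = -Mx := by
    rw [hZx, hMx, siteOp_mul_same, siteOp_mul_same, ← siteOp_sub, spinZ_comm_M, siteOp_neg]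
  have r2 : Px * Mx - Mx * Px = (2 : ℂ) • Zx := by
    rw [hPx, hMx, siteOp_mul_same, siteOp_mul_same, ← siteOp_sub, spin_comm_PM, siteOp_smul]
  have e1 : Zx * Zy * Mx = Zx * Mx * Zy := by
    rw [mul_assoc, c1, mul_assoc]
  have e2 : Mx * (Zx * Zy) = Mx * Zx * Zy := (mul_assoc _ _ _).symm
  have e3 : Px * My * Mx = Px * Mx * My := by
    rw [mul_assoc, c3, mul_assoc]
  have e4 : Mx * (Px * My) = Mx * Px * My := (mul_assoc _ _ _).symm
  have e5 : Mx * Py * Mx = Mx * (Mx * Py) := by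
    rw [mul_assoc, c2]
  have r1' : Zx * Mx = Mx * Zx - Mx := by
    rw [sub_eq_add_neg, ← r1]
    abel
  have r2' : Px * Mx = Mx * Px + (2 : ℂ) • Zx := by
    rw [← r2]
    abel
  simp only [sub_mul, mul_sub, mul_add, add_mul, smul_mul_assoc, mul_smul_comm, one_mul, mul_one]
  rw [e1, e2, e3, e4, e5, r1', r2']
  simp only [sub_mul, add_mul, smul_mul_assoc, smul_add]
  rw [smul_smul]
  norm_num
  abel

lemma hEdge_comm_right {x y : X} (hxy : x ≠ y) :
    (hEdge x y : Op X n) * siteOp y (spinM n) - siteOp y (spinM n) * hEdge x y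
      = siteOp x (spinZ n) * siteOp y (spinM n) - siteOp x (spinM n) * siteOp y (spinZ n) := by
  rw [hEdge_comm x y, hEdge_comm_left hxy.symm,
    (siteOp_commute hxy.symm (spinM n) (spinZ n)).eq, (siteOp_commute hxy.symm (spinZ n) (spinM n)).eq]

lemma hEdge_comm_other {x y z : X} (hzx : z ≠ x) (hzy : z ≠ y) (a : SMat n) :
    Commute (hEdge x y : Op X n) (siteOp z a) := by
  unfold hEdge
  split_ifs
  · exact Commute.zero_left _
  · have h1 : ∀ p q : SMat n, Commute (siteOp x p * siteOp y q : Op X n) (siteOp z a) := fun p q =>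
      Commute.mul_left (siteOp_commute hzx.symm _ _) (siteOp_commute hzy.symm _ _)
    refine Commute.sub_left (Commute.sub_left ?_ (h1 _ _)) ?_
    · exact (Commute.one_left _).smul_left _
    · exact (Commute.add_left (h1 _ _) (h1 _ _)).smul_left _

/-- The commutator of the pair energy with a magnon operator. -/
lemma hEdge_comm_magnon {x y : X} (hxy : x ≠ y) (u : X → ℝ) :
    (hEdge x y : Op X n) * magnon u - magnon u * hEdge x y
      = (((u x - u y) / Real.sqrt n : ℝ) : ℂ)
        • (siteOp x (spinM n) * siteOp y (spinZ n) - siteOp x (spinZ n) * siteOp y (spinM n)) := by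
  unfold magnon
  rw [Finset.mul_sum, Finset.sum_mul, ← Finset.sum_sub_distrib]
  rw [Finset.sum_eq_add x y hxy]
  · simp only [mul_smul_comm, smul_mul_assoc]
    rw [← smul_sub, ← smul_sub, hEdge_comm_left hxy, hEdge_comm_right hxy]
    rw [← neg_sub (siteOp x (spinM n) * siteOp y (spinZ n) : Op X n), smul_neg, ← sub_eq_add_neg, ← sub_smul]
    congr 1
    push_cast
    ring
  · intro z _ hz
    have h := (hEdge_comm_other hz.1 hz.2 (spinM n) (x := x) (y := y)).eq
    simp only [mul_smul_comm, smul_mul_assoc]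
    rw [h, sub_self]
  · intro h
    exact absurd (Finset.mem_univ x) h
  · intro h
    exact absurd (Finset.mem_univ y) h

/-- The graph Laplacian. -/
def lapG (adj : X → X → Prop) [DecidableRel adj] (u : X → ℝ) (x : X) : ℝ :=
  ∑ y, if adj x y then u x - u y else 0

/-- The non-linear part of the commutator. -/
def Yop (adj : X → X → Prop) [DecidableRel adj] (u : X → ℝ) : Op X n :=
  ∑ x, ∑ y, if adj x y then ((-((u x - u y) / Real.sqrt n) : ℝ) : ℂ) • (siteOp x (spinM n) * siteOp y (devD n))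
    else 0

/-- The commutator of the Hamiltonian with a magnon operator. -/
theorem edgeSum_comm_magnon {adj : X → X → Prop} [DecidableRel adj] (hirr : ∀ x, ¬ adj x x)
    (hsym : ∀ x y, adj x y ↔ adj y x) (u : X → ℝ) :
    (edgeSum adj (Finset.univ : Finset X) : Op X n) * magnon u - magnon u * edgeSum adj Finset.univ
      = ((n : ℂ) / 2) • magnon (lapG adj u) + Yop adj u := by
  set c : X → X → ℂ := fun x y => (((u x - u y) / Real.sqrt n : ℝ) : ℂ) with hc
  set T1 : Op X n := ∑ x, ∑ y, if adj x y then c x y • (siteOp x (spinM n) * siteOp y (spinZ n)) else 0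
    with hT1
  set T2 : Op X n := ∑ x, ∑ y, if adj x y then c x y • (siteOp x (spinZ n) * siteOp y (spinM n)) else 0
    with hT2
  have hne : ∀ {x y : X}, adj x y → x ≠ y := fun {x y} h e => hirr x (e ▸ h)
  have step1 : (edgeSum adj (Finset.univ : Finset X) : Op X n) * magnon u - magnon u * edgeSum adj Finset.univ
      = (1 / 2 : ℝ) • (T1 - T2) := by
    unfold edgeSum
    rw [smul_mul_assoc, mul_smul_comm, ← smul_sub]
    congr 1
    rw [Finset.sum_mul, Finset.mul_sum, ← Finset.sum_sub_distrib, hT1, hT2, ← Finset.sum_sub_distrib]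
    refine Finset.sum_congr rfl fun x _ => ?_
    rw [Finset.sum_mul, Finset.mul_sum, ← Finset.sum_sub_distrib, ← Finset.sum_sub_distrib]
    refine Finset.sum_congr rfl fun y _ => ?_
    by_cases h : adj x y
    · simp only [if_pos h]
      rw [hEdge_comm_magnon (hne h) u, smul_sub]
    · simp [if_neg h]
  have step2 : T2 = -T1 := by
    rw [hT2, hT1, ← Finset.sum_neg_distrib]
    rw [Finset.sum_comm]
    refine Finset.sum_congr rfl fun x _ => ?_
    rw [← Finset.sum_neg_distrib]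
    refine Finset.sum_congr rfl fun y _ => ?_
    by_cases h : adj x y
    · have h' : adj y x := (hsym x y).mp h
      rw [if_pos h, if_pos h', (siteOp_commute (hne h).symm (spinZ n) (spinM n)).eq, ← neg_smul]
      congr 1
      simp only [hc]
      push_cast
      ring
    · have h' : ¬ adj y x := fun h2 => h ((hsym y x).mp h2)
      rw [if_neg h, if_neg h', neg_zero]
  rw [step1, step2, sub_neg_eq_add]
  have step3 : (1 / 2 : ℝ) • (T1 + T1) = T1 := by
    rw [← two_smul ℝ T1, smul_smul]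
    norm_num
  rw [step3, hT1]
  unfold magnon lapG Yop
  rw [Finset.smul_sum, ← Finset.sum_add_distrib]
  refine Finset.sum_congr rfl fun x _ => ?_
  rw [Finset.sum_div, Complex.ofReal_sum, Finset.sum_smul, Finset.smul_sum, ← Finset.sum_add_distrib]
  refine Finset.sum_congr rfl fun y _ => ?_
  by_cases h : adj x y
  · simp only [if_pos h]
    rw [spinZ_eq_half_sub_D, siteOp_sub, siteOp_smul, siteOp_one, mul_sub, mul_smul_comm, mul_one,
      smul_sub, smul_smul, smul_smul, sub_eq_add_neg, ← neg_smul]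
    congr 2
    · simp only [hc]
      ring
    · simp only [hc]
      push_cast
      ring
  · simp [if_neg h]

/-- The norm of the lowering operator at a site. -/
lemma nrm_site_spinM (x : X) (φ : Cfg X n → ℂ) :
    nrm (siteOp x (spinM n) *ᵥ φ) ≤ ((n : ℝ) + 1) ^ 2 * nrm φ := by
  rw [nrm_mulVec, siteOp_conjTranspose, siteOp_mul_same]
  have e : (spinM n)ᴴ = spinP n := by
    unfold spinM
    rw [Matrix.conjTranspose_conjTranspose]
  rw [e, spinP_mul_spinM, siteOp_diagonal]
  have e2 : (diagonal fun σ : Cfg X n => (((σ x : ℕ) : ℂ) + 1) * ((n : ℂ) - ((σ x : ℕ) : ℂ)))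
      = rdiag fun σ : Cfg X n => (((σ x : ℕ) : ℝ) + 1) * ((n : ℝ) - ((σ x : ℕ) : ℝ)) := by
    unfold rdiag
    congr 1
    funext σ
    push_cast
    ring
  rw [e2, qf_rdiag, nrm_apply_sum]
  unfold wnsq
  rw [Finset.mul_sum]
  refine Finset.sum_le_sum fun σ _ => mul_le_mul_of_nonneg_right ?_ (Complex.normSq_nonneg _)
  have h1 : ((σ x : ℕ) : ℝ) ≤ n := by
    have := (σ x).2
    exact_mod_cast (by omega : (σ x : ℕ) ≤ n)
  have h0 : (0 : ℝ) ≤ ((σ x : ℕ) : ℝ) := by positivity
  have hn0 : (0 : ℝ) ≤ n := by positivity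
  nlinarith

lemma nrm_site_devD (y : X) (ψ : Cfg X n → ℂ) :
    nrm (siteOp y (devD n) *ᵥ ψ) ≤ (n : ℝ) * nrm (siteOp y (bosB n) *ᵥ ψ) := by
  rw [nrm_bosB]
  have e2 : (siteOp y (devD n) : Op X n) = rdiag fun σ : Cfg X n => ((σ y : ℕ) : ℝ) := by
    unfold devD rdiag
    rw [siteOp_diagonal]
    congr 1
  rw [e2, qf_rdiag]
  unfold wnsq rdiag
  rw [nrm_apply_sum, Finset.mul_sum]
  refine Finset.sum_le_sum fun σ _ => ?_
  rw [Matrix.mulVec_diagonal, Complex.normSq_mul, Complex.normSq_ofReal]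
  have h1 : ((σ y : ℕ) : ℝ) ≤ n := by
    have := (σ y).2
    exact_mod_cast (by omega : (σ y : ℕ) ≤ n)
  have h0 : (0 : ℝ) ≤ ((σ y : ℕ) : ℝ) := by positivity
  have h2 := Complex.normSq_nonneg (ψ σ)
  have h3 : ((σ y : ℕ) : ℝ) * ((σ y : ℕ) : ℝ) ≤ (n : ℝ) * ((σ y : ℕ) : ℝ) :=
    mul_le_mul_of_nonneg_right h1 h0
  have h4 := mul_le_mul_of_nonneg_right h3 h2
  linarith

lemma spinM_first_row (j : Fin (n + 1)) : spinM n 0 j = 0 := by
  by_contra h
  have := spinM_raise 0 j h
  simp at this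

/-- The vector entering the sparse estimate vanishes unless the two sites carry deviations. -/
lemma MD_apply_ne_zero {x y : X} (hxy : x ≠ y) (ψ : Cfg X n → ℂ) {σ : Cfg X n}
    (h : (siteOp x (spinM n) *ᵥ (siteOp y (devD n) *ᵥ ψ)) σ ≠ 0) : σ x ≠ 0 ∧ σ y ≠ 0 := by
  rw [siteOp_mulVec_apply] at h
  obtain ⟨i, _, hi⟩ := Finset.exists_ne_zero_of_sum_ne_zero h
  have h1 : spinM n (σ x) i ≠ 0 := left_ne_zero_of_mul hi
  have h2 : (siteOp y (devD n) *ᵥ ψ) (Function.update σ x i) ≠ 0 := right_ne_zero_of_mul hi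
  constructor
  · intro h0
    rw [h0] at h1
    exact h1 (spinM_first_row i)
  · intro h0
    apply h2
    unfold devD
    rw [siteOp_diagonal, Matrix.mulVec_diagonal, Function.update_of_ne hxy.symm, h0]
    simp

lemma devD_lowerS : ∀ i j : Fin (n + 1), devD n i j ≠ 0 → (i : ℕ) ≤ (j : ℕ) := by
  intro i j h
  unfold devD at h
  by_cases hij : i = j
  · rw [hij]
  · exact absurd (Matrix.diagonal_apply_ne _ hij) h

/-- The sector of the non-linear term. -/
lemma Yop_secLE (adj : X → X → Prop) [DecidableRel adj] (u : X → ℝ) {K : ℕ} {ψ : Cfg X n → ℂ}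
    (h : SecLE K ψ) : SecLE (K + 1) ((Yop adj u : Op X n) *ᵥ ψ) := by
  unfold Yop
  rw [Matrix.sum_mulVec]
  refine SecLE.sum _ fun x _ => ?_
  rw [Matrix.sum_mulVec]
  refine SecLE.sum _ fun y _ => ?_
  split_ifs
  · rw [Matrix.smul_mulVec, ← Matrix.mulVec_mulVec]
    refine SecLE.smul ?_ _
    exact site_raiseS (fun i j hij => (spinM_raise i j hij).le) x (site_lowerS devD_lowerS y h)
  · rw [Matrix.zero_mulVec]
    exact secLE_zero _

/-- The bound on the non-linear term of the commutator. -/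
theorem nrm_Yop_le (hn : 1 ≤ n) {adj : X → X → Prop} [DecidableRel adj] (hirr : ∀ x, ¬ adj x x) {d : ℕ}
    (hdeg : ∀ y, ((Finset.univ : Finset X).filter fun x => adj x y).card ≤ d) {u : X → ℝ} {g : ℝ}
    (hg : ∀ x y, adj x y → |u x - u y| ≤ g) {K : ℕ} {ψ : Cfg X n → ℂ} (h : SecLE K ψ) :
    nrm ((Yop adj u : Op X n) *ᵥ ψ)
      ≤ (((K : ℝ) + 1) ^ 2 * (((n : ℝ) + 1) ^ 2 * ((d : ℝ) * (K : ℝ) * g ^ 2))) * nrm ψ := by
  have hn' : (0 : ℝ) < n := by exact_mod_cast hn
  have hne : ∀ {x y : X}, adj x y → x ≠ y := fun {x y} h e => hirr x (e ▸ h)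
  set T : Finset (X × X) := (Finset.univ : Finset (X × X)).filter fun t => adj t.1 t.2 with hT
  set v : X × X → Cfg X n → ℂ := fun t => ((-((u t.1 - u t.2) / Real.sqrt n) : ℝ) : ℂ)
    • (siteOp t.1 (spinM n) *ᵥ (siteOp t.2 (devD n) *ᵥ ψ)) with hv
  have e : (Yop adj u : Op X n) *ᵥ ψ = ∑ t ∈ T, v t := by
    unfold Yop
    rw [hT, Finset.sum_filter, ← Finset.univ_product_univ, Finset.sum_product, Matrix.sum_mulVec]
    refine Finset.sum_congr rfl fun x _ => ?_
    rw [Matrix.sum_mulVec]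
    refine Finset.sum_congr rfl fun y _ => ?_
    by_cases hxy : adj x y
    · simp only [if_pos hxy, hv]
      rw [Matrix.smul_mulVec, ← Matrix.mulVec_mulVec]
    · simp [if_neg hxy]
  have hsparse : ∀ σ : Cfg X n, ((T.filter fun t => v t σ ≠ 0).card : ℝ) ≤ ((K : ℝ) + 1) ^ 2 := by
    intro σ
    by_cases hσ : K + 1 < devCount (Finset.univ : Finset X) σ
    · have hempty : T.filter (fun t => v t σ ≠ 0) = ∅ := by
        rw [Finset.filter_eq_empty_iff]
        intro t _
        simp only [not_not, hv, Pi.smul_apply, smul_eq_mul]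
        rw [site_raiseS (fun i j hij => (spinM_raise i j hij).le) t.1 (site_lowerS devD_lowerS t.2 h) σ hσ,
          mul_zero]
      rw [hempty]
      simp only [Finset.card_empty, Nat.cast_zero]
      positivity
    · push Not at hσ
      set S := (Finset.univ : Finset X).filter (fun x => σ x ≠ 0) with hS
      have hsub : T.filter (fun t => v t σ ≠ 0) ⊆ S ×ˢ S := by
        intro t ht
        obtain ⟨ht1, ht2⟩ := Finset.mem_filter.mp ht
        have hadj : adj t.1 t.2 := (Finset.mem_filter.mp ht1).2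
        simp only [hv, Pi.smul_apply, smul_eq_mul] at ht2
        obtain ⟨h1, h2⟩ := MD_apply_ne_zero (hne hadj) ψ (right_ne_zero_of_mul ht2)
        simp [hS, h1, h2]
      have hcard := Finset.card_le_card hsub
      rw [Finset.card_product] at hcard
      have hS2 : S.card ≤ K + 1 := (card_support_le σ).trans hσ
      have h3 : S.card * S.card ≤ (K + 1) * (K + 1) := Nat.mul_le_mul hS2 hS2
      have h4 := hcard.trans h3
      have h5 : ((T.filter fun t => v t σ ≠ 0).card : ℝ) ≤ (((K + 1) * (K + 1) : ℕ) : ℝ) := by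
        exact_mod_cast h4
      refine h5.trans (le_of_eq ?_)
      push_cast
      ring
  rw [e]
  refine (nrm_sum_sparse T v hsparse).trans ?_
  rw [mul_assoc]
  refine mul_le_mul_of_nonneg_left ?_ (by positivity)
  -- the sum of the norms
  have hterm : ∀ t ∈ T, nrm (v t) ≤ ((n : ℝ) + 1) ^ 2 * g ^ 2 * nrm (siteOp t.2 (bosB n) *ᵥ ψ) := by
    intro t ht
    have hadj : adj t.1 t.2 := (Finset.mem_filter.mp ht).2
    simp only [hv]
    rw [nrm_smul]
    have h1 := nrm_site_spinM t.1 (siteOp t.2 (devD n) *ᵥ ψ)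
    have h2 := nrm_site_devD t.2 ψ
    have h3 : (-((u t.1 - u t.2) / Real.sqrt n)) ^ 2 = (u t.1 - u t.2) ^ 2 / n := by
      rw [neg_sq, div_pow, Real.sq_sqrt hn'.le]
    have h4 : (u t.1 - u t.2) ^ 2 ≤ g ^ 2 := by
      have := hg _ _ hadj
      exact sq_le_sq' (neg_le_of_abs_le this) (le_of_abs_le this)
    rw [h3]
    have h5 := nrm_nonneg' (siteOp t.2 (bosB n) *ᵥ ψ)
    have h6 : nrm (siteOp t.1 (spinM n) *ᵥ (siteOp t.2 (devD n) *ᵥ ψ))
        ≤ ((n : ℝ) + 1) ^ 2 * ((n : ℝ) * nrm (siteOp t.2 (bosB n) *ᵥ ψ)) :=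
      h1.trans (mul_le_mul_of_nonneg_left h2 (by positivity))
    have h7 := nrm_nonneg' (siteOp t.1 (spinM n) *ᵥ (siteOp t.2 (devD n) *ᵥ ψ))
    calc (u t.1 - u t.2) ^ 2 / (n : ℝ) * nrm (siteOp t.1 (spinM n) *ᵥ (siteOp t.2 (devD n) *ᵥ ψ))
        ≤ g ^ 2 / (n : ℝ) * (((n : ℝ) + 1) ^ 2 * ((n : ℝ) * nrm (siteOp t.2 (bosB n) *ᵥ ψ))) :=
          mul_le_mul (div_le_div_of_nonneg_right h4 hn'.le) h6 h7 (by positivity)
      _ = ((n : ℝ) + 1) ^ 2 * g ^ 2 * nrm (siteOp t.2 (bosB n) *ᵥ ψ) := by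
          field_simp
  refine (Finset.sum_le_sum hterm).trans ?_
  rw [← Finset.mul_sum]
  have hsum : ∑ t ∈ T, nrm (siteOp t.2 (bosB n) *ᵥ ψ) ≤ (d : ℝ) * ((K : ℝ) * nrm ψ) := by
    have h1 : ∑ t ∈ T, nrm (siteOp t.2 (bosB n) *ᵥ ψ)
        = ∑ y, ((Finset.univ.filter fun x => adj x y).card : ℝ) * nrm (siteOp y (bosB n) *ᵥ ψ) := by
      rw [hT, Finset.sum_filter, ← Finset.univ_product_univ, Finset.sum_product_right]
      refine Finset.sum_congr rfl fun y _ => ?_
      simp only
      rw [← Finset.sum_filter, Finset.sum_const, nsmul_eq_mul]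
    rw [h1]
    have h2 : ∀ y ∈ (Finset.univ : Finset X), ((Finset.univ.filter fun x => adj x y).card : ℝ)
        * nrm (siteOp y (bosB n) *ᵥ ψ) ≤ (d : ℝ) * nrm (siteOp y (bosB n) *ᵥ ψ) := by
      intro y _
      refine mul_le_mul_of_nonneg_right ?_ (nrm_nonneg' _)
      exact_mod_cast hdeg y
    refine (Finset.sum_le_sum h2).trans ?_
    rw [← Finset.mul_sum]
    exact mul_le_mul_of_nonneg_left (sum_nrm_bosB_le h) (by positivity)
  have h8 := mul_le_mul_of_nonneg_left hsum (show 0 ≤ ((n : ℝ) + 1) ^ 2 * g ^ 2 by positivity)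
  refine h8.trans (le_of_eq ?_)
  ring

end Vale.Agent.P361Lib
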