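import Vale.Agent.Lib.P361.LBModes

/-!
# Specialisation of the gluing to cubes in the large box
-/

open Matrix Filter Topology

noncomputable section

namespace Vale.Agent.P361Lib

lemma nearest_symm' {N : ℕ} {x y : BoxSite N} (h : nearest x y) : nearest y x := by
  unfold nearest latticeNearest at *
  rw [abs_sub_comm y.1.1, abs_sub_comm y.1.2.1, abs_sub_comm y.1.2.2]
  exact h

lemma int_fin_of {R : ℕ} (y : Fin (R + 1)) (c z : ℤ) (h : 0 < (y : ℕ) ∧ (y : ℕ) < R)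
    (hb : |((y : ℕ) : ℤ) + c - z| ≤ 1) : ∃ a : Fin (R + 1), ((a : ℕ) : ℤ) + c = z := by
  have hX := abs_cases (((y : ℕ) : ℤ) + c - z)
  have h0 : 0 ≤ z - c := by omega
  have h1 : (z - c).toNat < R + 1 := by omega
  refine ⟨⟨(z - c).toNat, h1⟩, ?_⟩
  simp only
  omega

lemma cube_hint {N R : ℕ} {t : ℕ × ℕ × ℕ} (h1 : t.1 < (2 * N + 1) / (R + 1))
    (h2 : t.2.1 < (2 * N + 1) / (R + 1)) (h3 : t.2.2 < (2 * N + 1) / (R + 1)) {y : CubeS (R + 1)}
    (hy : y ∉ cubeFrame R) (z : BoxSite N) (hz : nearest (cShift N (R + 1) t y) z) :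
    z ∈ imgB (cShift N (R + 1) t) := by
  rw [mem_cubeFrame, not_not] at hy
  obtain ⟨i1, i2, i3⟩ := hy
  unfold nearest latticeNearest at hz
  rw [cShift_val h1 h2 h3] at hz
  simp only [Prod.fst_add, Prod.snd_add, cPos] at hz
  have a1 := abs_nonneg (((y.1 : ℕ) : ℤ) + (cCorner N (R + 1) t).1 - z.1.1)
  have a2 := abs_nonneg (((y.2.1 : ℕ) : ℤ) + (cCorner N (R + 1) t).2.1 - z.1.2.1)
  have a3 := abs_nonneg (((y.2.2 : ℕ) : ℤ) + (cCorner N (R + 1) t).2.2 - z.1.2.2)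
  obtain ⟨b1, e1⟩ := int_fin_of y.1 (cCorner N (R + 1) t).1 z.1.1 i1 (by omega)
  obtain ⟨b2, e2⟩ := int_fin_of y.2.1 (cCorner N (R + 1) t).2.1 z.1.2.1 i2 (by omega)
  obtain ⟨b3, e3⟩ := int_fin_of y.2.2 (cCorner N (R + 1) t).2.2 z.1.2.2 i3 (by omega)
  refine Finset.mem_image.mpr ⟨(b1, b2, b3), Finset.mem_univ _, Subtype.ext ?_⟩
  rw [cShift_val h1 h2 h3]
  exact Prod.ext e1 (Prod.ext e2 e3)

/-- The trace in the large box dominates the power of the sum in a cube. -/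
theorem cube_glue {n R : ℕ} {κ : Type} [Fintype κ] [DecidableEq κ] (Φ : κ → Cfg (CubeS (R + 1)) n → ℂ)
    (hΦ : ∀ b b', star (Φ b) ⬝ᵥ Φ b' = if b = b' then 1 else 0)
    (hΦF : ∀ b, ∀ y ∈ cubeFrame R, Pol y (Φ b)) {β lam : ℝ} (hβ : 0 ≤ β) (hlam : 0 ≤ lam) (N : ℕ) :
    (∑ b, Real.exp (-qf (blockGen cAdj β lam Finset.univ : Op (CubeS (R + 1)) n) (Φ b)))
        ^ (((2 * N + 1) / (R + 1)) ^ 3)
      ≤ Ztil n N β lam := by
  set q : ℕ := (2 * N + 1) / (R + 1) with hq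
  set T : Finset (ℕ × ℕ × ℕ) := Finset.range q ×ˢ Finset.range q ×ˢ Finset.range q with hT
  have hTc : T.card = q ^ 3 := by
    rw [hT]
    simp only [Finset.card_product, Finset.card_range]
    ring
  have hTmem : ∀ t ∈ T, t.1 < q ∧ t.2.1 < q ∧ t.2.2 < q := by
    intro t ht
    simpa [hT] using ht
  have hdisT : ∀ t ∈ T, ∀ t' ∈ T, t ≠ t' → Disjoint (imgB (cShift N (R + 1) t)) (imgB (cShift N (R + 1) t')) := by
    intro t ht t' ht' hne
    rw [Finset.disjoint_left]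
    intro x hx hx'
    obtain ⟨y, _, rfl⟩ := Finset.mem_image.mp hx
    obtain ⟨y', _, e⟩ := Finset.mem_image.mp hx'
    have e' := congrArg Subtype.val e
    obtain ⟨a1, a2, a3⟩ := hTmem t ht
    obtain ⟨b1, b2, b3⟩ := hTmem t' ht'
    rw [cShift_val a1 a2 a3, cShift_val b1 b2 b3] at e'
    have e1 := congrArg Prod.fst e'
    have e2 := congrArg (fun p : ℤ × ℤ × ℤ => p.2.1) e'
    have e3 := congrArg (fun p : ℤ × ℤ × ℤ => p.2.2) e'
    simp only [Prod.fst_add, Prod.snd_add, cCorner, cPos] at e1 e2 e3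
    apply hne
    refine Prod.ext ?_ (Prod.ext ?_ ?_)
    · exact cCorner_sep y.1.2 y'.1.2 e1.symm
    · exact cCorner_sep y.2.1.2 y'.2.1.2 e2.symm
    · exact cCorner_sep y.2.2.2 y'.2.2.2 e3.symm
  have key := glue_trace (n := n) (adj := nearest (N := N)) (adj' := cAdj (Q := R + 1)) (nearest_irrefl)
    (fun x y h => nearest_symm' h) T (cShift N (R + 1))
    (fun t ht => by
      obtain ⟨a1, a2, a3⟩ := hTmem t ht
      exact cShift_injective a1 a2 a3)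
    (fun t ht y y' => by
      obtain ⟨a1, a2, a3⟩ := hTmem t ht
      exact cShift_nearest a1 a2 a3 y y')
    hdisT (cubeFrame R) Φ hΦ hΦF hβ hlam
    (fun t ht y hy z hz => by
      obtain ⟨a1, a2, a3⟩ := hTmem t ht
      exact cube_hint a1 a2 a3 hy z hz)
  rw [hTc, trace_eq_Ztil, Complex.ofReal_re] at key
  exact key

/-- A lower bound for the limit through a lower bound of a power. -/
theorem limit_ge_cube {n : ℕ} {β lam L S : ℝ} (hS : 0 < S) (Q : ℕ) (hQ : 0 < Q)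
    (h : ∀ N : ℕ, S ^ (((2 * N + 1) / Q) ^ 3) ≤ Ztil n N β lam)
    (hL : Tendsto (fun N => logDensity n N β lam) atTop (𝓝 L)) :
    Real.log S / (Q : ℝ) ^ 3 ≤ L := by
  have hu := tendsto_div_density (P := Q) hQ
  have hA := (hu.pow 3).mul_const (Real.log S)
  have hlim : (1 / (Q : ℝ)) ^ 3 * Real.log S = Real.log S / (Q : ℝ) ^ 3 := by
    field_simp
  rw [hlim] at hA
  refine le_of_tendsto_of_tendsto' hA hL fun N => ?_
  have hN := Ztil_pos n N β lam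
  have hlog := Real.log_le_log (pow_pos hS _) (h N)
  rw [Real.log_pow] at hlog
  unfold logDensity
  generalize (2 * N + 1) / Q = q at hlog ⊢
  generalize Real.log (Ztil n N β lam) = y at hlog ⊢
  generalize Real.log S = x at hlog ⊢
  have hQ0 : (0 : ℝ) < 2 * (N : ℝ) + 1 := by positivity
  generalize 2 * (N : ℝ) + 1 = r at hQ0 ⊢
  push_cast at hlog
  rw [le_div_iff₀ (pow_pos hQ0 3)]
  refine le_trans (le_of_eq ?_) hlog
  field_simp

lemma log_sum_exp_occ {Q : Type} [Fintype Q] [DecidableEq Q] (W : Q → ℝ) (D G : ℝ) (K₁ : ℕ) :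
    Real.log (∑ j : Q → Fin (K₁ + 1), Real.exp (-((Eo W (occOf j) + D) / G)))
      = -(D / G) + ∑ q, Real.log (∑ k : Fin (K₁ + 1), Real.exp (-(W q * (k : ℕ) / G))) := by
  have h1 : ∀ j : Q → Fin (K₁ + 1), Real.exp (-((Eo W (occOf j) + D) / G))
      = Real.exp (-(D / G)) * ∏ q, Real.exp (-(W q * (j q : ℕ) / G)) := by
    intro j
    rw [← Real.exp_sum, ← Real.exp_add]
    congr 1
    unfold Eo occOf
    rw [add_div, Finset.sum_div, neg_add, ← Finset.sum_neg_distrib]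
    ring
  have hprod : ∑ j : Q → Fin (K₁ + 1), ∏ q, Real.exp (-(W q * (j q : ℕ) / G))
      = ∏ q, ∑ k : Fin (K₁ + 1), Real.exp (-(W q * (k : ℕ) / G)) := by
    rw [Finset.prod_univ_sum, Fintype.piFinset_univ]
  have hpos : ∀ q ∈ (Finset.univ : Finset Q), ∑ k : Fin (K₁ + 1), Real.exp (-(W q * (k : ℕ) / G)) ≠ 0 :=
    fun q _ => (Finset.sum_pos (fun k _ => Real.exp_pos _) ⟨0, Finset.mem_univ _⟩).ne'
  rw [Finset.sum_congr rfl fun j _ => h1 j, ← Finset.mul_sum, hprod,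
    Real.log_mul (Real.exp_pos _).ne' (Finset.prod_ne_zero_iff.mpr hpos), Real.log_exp,
    Real.log_prod hpos]

/-- The finite volume lower bound. -/
theorem lb_finite {n R Q₀ K₁ : ℕ} (hn : 1 ≤ n) (hQ₀ : 0 < Q₀) (hR : Q₀ < R) {β lam Lβ : ℝ}
    (hβ : 0 < β) (hlam : 0 ≤ lam) {a g e Emax c : ℝ} {W : C3 Q₀ → ℝ}
    (hW : W = fun q => β * ((n : ℝ) / 2 * LamD R q) + lam)
    (ha : a = 2 / n * (2 / (R : ℝ)) ^ 3 * Ag (Fintype.card (C3 Q₀) * K₁))
    (hg : g = Real.sqrt (2 / R) ^ 3 * (Real.pi * Q₀ / R))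
    (he : e = β * g * (1 + Cxi n 6 (Fintype.card (C3 Q₀) * K₁)))
    (hEmax : Emax = ∑ q, W q * (K₁ : ℝ))
    (hc : c = (Fintype.card (C3 Q₀ → Fin (K₁ + 1)) : ℝ))
    (hsmall : a * c < 1)
    (hL : Tendsto (fun N => logDensity n N β lam) atTop (𝓝 Lβ)) :
    (-((Emax * a * c + e * (1 / 2 + c)) / (1 - a * c))
        + ∑ q, Real.log (∑ k : Fin (K₁ + 1), Real.exp (-(W q * (k : ℕ) / (1 - a * c)))))
      / ((R + 1 : ℕ) : ℝ) ^ 3 ≤ Lβ := by
  have hR0 : (0 : ℝ) < R := by exact_mod_cast (lt_trans hQ₀ hR)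
  have hg0 : 0 < g := by
    rw [hg]
    have h1 : 0 < Real.sqrt (2 / (R : ℝ)) := Real.sqrt_pos.mpr (by positivity)
    have h2 : (0 : ℝ) < Q₀ := by exact_mod_cast hQ₀
    have h3 := Real.pi_pos
    positivity
  have hM0 : (0 : ℝ) < (2 / (R : ℝ)) ^ 3 := by positivity
  obtain ⟨Ψ, hO, hP, hS⟩ := box_family (Q := C3 Q₀) (X := CubeS (R + 1)) (n := n) hn (adj := cAdj)
    cAdj_irrefl (fun x y => ⟨cAdj_symm, cAdj_symm⟩) (d := 6) cAdj_deg (u := uD R) (uD_orth hR)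
    hM0 uD_sup (F := cubeFrame R) (fun q z hz => uD_frame (lt_trans hQ₀ hR) q hz) (Λ := LamD R)
    (LamD_nonneg R) (fun q x hx => uD_lap R q hx) hg0
    (fun q x y h => by
      rw [hg]
      exact uD_grad hQ₀ q h) hβ hlam K₁ rfl (a := a) (e := e) (Emax := Emax) ha he
      (by rw [hEmax, hW]) (by rw [← hc]; exact hsmall)
  rw [← hc, ← hW] at hS
  set S : ℝ := ∑ j : C3 Q₀ → Fin (K₁ + 1), Real.exp (-((Eo W (occOf j)
      + (Emax * a * c + e * (1 / 2 + c))) / (1 - a * c))) with hSdef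
  have hSpos : 0 < S := by
    apply Finset.sum_pos (fun k _ => Real.exp_pos _)
    exact ⟨fun _ => 0, Finset.mem_univ _⟩
  have hpow : ∀ N : ℕ, S ^ (((2 * N + 1) / (R + 1)) ^ 3) ≤ Ztil n N β lam := fun N =>
    (pow_le_pow_left₀ hSpos.le hS _).trans (cube_glue Ψ hO hP hβ.le hlam N)
  have key := limit_ge_cube hSpos (R + 1) (Nat.succ_pos R) hpow hL
  rw [hSdef, log_sum_exp_occ] at key
  exact key


end Vale.Agent.P361Lib
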