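import Vale.Agent.Lib.P361.LBBox

/-!
# Gluing states on disjoint blocks
-/

open Matrix Finset
open scoped MatrixOrder ComplexOrder

noncomputable section

namespace Vale.Agent.P361Lib

set_option linter.unusedSectionVars false

variable {X Y : Type} [Fintype X] [DecidableEq X] [Fintype Y] [DecidableEq Y] {n : ℕ}

lemma embedOp_conjTranspose (j : Y → X) (A : Op Y n) : (embedOp j A)ᴴ = embedOp j Aᴴ := by
  ext σ τ
  rw [Matrix.conjTranspose_apply, embedOp_apply, embedOp_apply, Matrix.conjTranspose_apply]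
  by_cases h : ∀ x, x ∉ imgB j → σ x = τ x
  · have h' : ∀ x, x ∉ imgB j → τ x = σ x := fun x hx => (h x hx).symm
    rw [if_pos h, if_pos h']
  · have h' : ¬ ∀ x, x ∉ imgB j → τ x = σ x := fun h2 => h fun x hx => (h2 x hx).symm
    rw [if_neg h, if_neg h', star_zero]

/-- The operator creating the state `Φ` from the polarised state. -/
def creOp (Φ : Cfg Y n → ℂ) : Op Y n := vecMulVec Φ (star vac)

/-- The projection on the polarised state. -/
def Pvac : Op Y n := vecMulVec vac (star vac)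

lemma creOp_sandwich (Φ Φ' : Cfg Y n → ℂ) (C : Op Y n) :
    (creOp Φ)ᴴ * C * creOp Φ' = (star Φ ⬝ᵥ C *ᵥ Φ') • (Pvac : Op Y n) := by
  unfold creOp Pvac
  rw [Matrix.conjTranspose_vecMulVec, star_star, Matrix.mul_vecMulVec, ← Matrix.mulVec_mulVec,
    Matrix.vecMulVec_mulVec]
  ext σ τ
  simp only [Matrix.vecMulVec_apply, Matrix.smul_apply, Pi.smul_apply, MulOpposite.smul_eq_mul_unop,
    MulOpposite.unop_op, smul_eq_mul]
  ring

/-- The embedded projection acts trivially on states polarised on the block. -/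
lemma embed_Pvac {j : Y → X} (hj : Function.Injective j) {Ψ : Cfg X n → ℂ}
    (hΨ : ∀ y, Pol (j y) Ψ) : embedOp j (Pvac : Op Y n) *ᵥ Ψ = Ψ := by
  funext σ
  have h1 : (embedOp j (Pvac : Op Y n) *ᵥ Ψ) σ
      = ∑ ρ : Cfg X n, if ∀ x, x ∉ imgB j → σ x = ρ x then (Pvac : Op Y n) (σ ∘ j) (ρ ∘ j) * Ψ ρ else 0 := by
    simp only [Matrix.mulVec, dotProduct, embedOp_apply]
    refine Finset.sum_congr rfl fun ρ _ => ?_
    split_ifs <;> simp
  rw [h1, sum_glue hj]
  have h2 : ∀ ρ' : Cfg Y n, (Function.extend j ρ' σ) ∘ j = ρ' := by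
    intro ρ'
    funext y
    simp only [Function.comp_apply]
    rw [hj.extend_apply]
  simp only [h2]
  rw [Finset.sum_eq_single (fun _ => 0 : Cfg Y n)]
  · unfold Pvac
    rw [Matrix.vecMulVec_apply]
    by_cases hσ : σ ∘ j = fun _ => 0
    · have h3 : Function.extend j (fun _ => 0 : Cfg Y n) σ = σ := by
        funext x
        by_cases hx : ∃ y, j y = x
        · obtain ⟨y, rfl⟩ := hx
          rw [hj.extend_apply]
          exact (congrFun hσ y).symm
        · rw [Function.extend_apply' _ _ _ hx]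
      rw [h3, hσ]
      simp [vac]
    · obtain ⟨y, hy⟩ : ∃ y, σ (j y) ≠ 0 := by
        by_contra hne
        push Not at hne
        exact hσ (funext hne)
      rw [hΨ y σ hy]
      have : (vac : Cfg Y n → ℂ) (σ ∘ j) = 0 := by
        unfold vac
        rw [if_neg hσ]
      rw [this]
      simp
  · intro ρ' _ hρ'
    unfold Pvac
    rw [Matrix.vecMulVec_apply]
    have : star (vac : Cfg Y n → ℂ) ρ' = 0 := by
      simp only [Pi.star_apply]
      unfold vac
      rw [if_neg hρ', star_zero]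
    rw [this]
    simp
  · intro h
    exact absurd (Finset.mem_univ _) h

/-- Sites off the block are not touched. -/
lemma embed_pol_off {j : Y → X} {z : X} (hz : z ∉ imgB j) (A : Op Y n) {Ψ : Cfg X n → ℂ} (hΨ : Pol z Ψ) :
    Pol z (embedOp j A *ᵥ Ψ) := by
  intro σ hσ
  simp only [Matrix.mulVec, dotProduct, embedOp_apply]
  refine Finset.sum_eq_zero fun τ _ => ?_
  by_cases h : ∀ x, x ∉ imgB j → σ x = τ x
  · have : τ z ≠ 0 := by
      rw [← h z hz]
      exact hσ
    rw [hΨ τ this, mul_zero]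
  · rw [if_neg h, zero_mul]

/-- The created state is polarised where `Φ` is. -/
lemma embed_pol_cre {j : Y → X} {y : Y} {Φ : Cfg Y n → ℂ} (hΦ : Pol y Φ) (Ψ : Cfg X n → ℂ) :
    Pol (j y) (embedOp j (creOp Φ) *ᵥ Ψ) := by
  intro σ hσ
  simp only [Matrix.mulVec, dotProduct, embedOp_apply]
  refine Finset.sum_eq_zero fun τ _ => ?_
  by_cases h : ∀ x, x ∉ imgB j → σ x = τ x
  · rw [if_pos h]
    unfold creOp
    rw [Matrix.vecMulVec_apply, hΦ (σ ∘ j) (by simpa using hσ)]
    simp
  · rw [if_neg h, zero_mul]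

/-- Embedded operators commute with site operators off the block. -/
lemma embedOp_comm_site {j : Y → X} {z : X} (hz : z ∉ imgB j) (A : Op Y n) (a : SMat n) :
    Commute (embedOp j A) (siteOp z a) := by
  have hcomp : ∀ (σ : Cfg X n) (i : Fin (n + 1)), (Function.update σ z i) ∘ j = σ ∘ j := by
    intro σ i
    funext y
    simp only [Function.comp_apply]
    rw [Function.update_of_ne]
    rintro rfl
    exact hz (Finset.mem_image_of_mem j (Finset.mem_univ y))
  show embedOp j A * siteOp z a = siteOp z a * embedOp j A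
  ext σ τ
  rw [siteOp_mul_apply, mul_siteOp_apply]
  simp only [embedOp_apply, hcomp]
  rw [Finset.sum_eq_single (σ z), Finset.sum_eq_single (τ z)]
  · by_cases h1 : ∀ x, x ∉ imgB j → x ≠ z → σ x = τ x
    · have h2 : ∀ x, x ∉ imgB j → σ x = Function.update τ z (σ z) x := by
        intro x hx
        by_cases hxz : x = z
        · subst hxz
          simp
        · rw [Function.update_of_ne hxz]
          exact h1 x hx hxz
      have h3 : ∀ x, x ∉ imgB j → Function.update σ z (τ z) x = τ x := by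
        intro x hx
        by_cases hxz : x = z
        · subst hxz
          simp
        · rw [Function.update_of_ne hxz]
          exact h1 x hx hxz
      rw [if_pos h2, if_pos h3]
      ring
    · have h2 : ¬ ∀ x, x ∉ imgB j → σ x = Function.update τ z (σ z) x := by
        intro h
        apply h1
        intro x hx hxz
        have := h x hx
        rwa [Function.update_of_ne hxz] at this
      have h3 : ¬ ∀ x, x ∉ imgB j → Function.update σ z (τ z) x = τ x := by
        intro h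
        apply h1
        intro x hx hxz
        have := h x hx
        rwa [Function.update_of_ne hxz] at this
      rw [if_neg h2, if_neg h3]
      ring
  · intro i _ hi
    rw [if_neg, mul_zero]
    intro h
    apply hi
    have := h z hz
    simpa using this
  · intro h
    exact absurd (Finset.mem_univ _) h
  · intro i _ hi
    rw [if_neg, zero_mul]
    intro h
    apply hi
    have := h z hz
    simpa using this.symm
  · intro h
    exact absurd (Finset.mem_univ _) h

lemma star_mulVec_dot (A : Op X n) (u w : Cfg X n → ℂ) :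
    star (A *ᵥ u) ⬝ᵥ w = star u ⬝ᵥ (Aᴴ *ᵥ w) := by
  rw [Matrix.star_mulVec, Matrix.dotProduct_mulVec]

/-- The matrix elements between glued states. -/
lemma glue_form {j : Y → X} (hj : Function.Injective j) (Φ Φ' : Cfg Y n → ℂ) (C : Op Y n)
    (Ψ : Cfg X n → ℂ) {Ψ' : Cfg X n → ℂ} (hΨ' : ∀ y, Pol (j y) Ψ') :
    star (embedOp j (creOp Φ) *ᵥ Ψ) ⬝ᵥ (embedOp j C *ᵥ (embedOp j (creOp Φ') *ᵥ Ψ'))
      = (star Φ ⬝ᵥ C *ᵥ Φ') * (star Ψ ⬝ᵥ Ψ') := by
  rw [star_mulVec_dot, Matrix.mulVec_mulVec, Matrix.mulVec_mulVec, embedOp_conjTranspose,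
    ← embedOp_mul hj, ← embedOp_mul hj, creOp_sandwich, embedOp_smul, Matrix.smul_mulVec,
    embed_Pvac hj hΨ', dotProduct_smul, smul_eq_mul]

lemma Pvac_herm : (Pvac : Op Y n)ᴴ = Pvac := by
  unfold Pvac
  rw [Matrix.conjTranspose_vecMulVec, star_star]

/-- Operators commuting with the creation operator do not see the created state. -/
lemma glue_commute_form {j : Y → X} (hj : Function.Injective j) {Φ : Cfg Y n → ℂ} (hΦ : star Φ ⬝ᵥ Φ = 1)
    {G : Op X n} (hG : Commute G (embedOp j (creOp Φ))) {Ψ : Cfg X n → ℂ} (hΨ : ∀ y, Pol (j y) Ψ) :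
    star (embedOp j (creOp Φ) *ᵥ Ψ) ⬝ᵥ (G *ᵥ (embedOp j (creOp Φ) *ᵥ Ψ)) = star Ψ ⬝ᵥ (G *ᵥ Ψ) := by
  have h1 : G *ᵥ (embedOp j (creOp Φ) *ᵥ Ψ) = embedOp j (creOp Φ) *ᵥ (G *ᵥ Ψ) := by
    rw [Matrix.mulVec_mulVec, hG.eq, ← Matrix.mulVec_mulVec]
  have e : (creOp Φ)ᴴ * creOp Φ = (Pvac : Op Y n) := by
    have := creOp_sandwich Φ Φ (1 : Op Y n)
    rw [Matrix.mul_one, Matrix.one_mulVec, hΦ, one_smul] at this
    exact this
  rw [h1, star_mulVec_dot, Matrix.mulVec_mulVec, embedOp_conjTranspose, ← embedOp_mul hj, e]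
  have h2 := star_mulVec_dot (embedOp j (Pvac : Op Y n)) Ψ (G *ᵥ Ψ)
  rw [embed_Pvac hj hΨ, embedOp_conjTranspose, Pvac_herm] at h2
  exact h2.symm

/-- The induction gluing the states of one box into the blocks. -/
theorem glue_family {ι : Type} [DecidableEq ι] {adj : X → X → Prop} [DecidableRel adj]
    {adj' : Y → Y → Prop} [DecidableRel adj'] (T : Finset ι) (J : ι → Y → X)
    (hJ : ∀ t ∈ T, Function.Injective (J t)) (hadj : ∀ t ∈ T, ∀ y y', adj' y y' ↔ adj (J t y) (J t y'))
    (hdis : ∀ t ∈ T, ∀ t' ∈ T, t ≠ t' → Disjoint (imgB (J t)) (imgB (J t'))) (F : Finset Y)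
    {κ : Type} [Fintype κ] [DecidableEq κ] (Φ : κ → Cfg Y n → ℂ)
    (hΦ : ∀ b b', star (Φ b) ⬝ᵥ Φ b' = if b = b' then 1 else 0) (hΦF : ∀ b, ∀ y ∈ F, Pol y (Φ b))
    (β lam : ℝ) (T₀ : Finset ι) (hT₀ : T₀ ⊆ T) :
    ∃ (κ' : Type) (_ : Fintype κ') (_ : DecidableEq κ') (Ψ : κ' → Cfg X n → ℂ),
      (∀ a a', star (Ψ a) ⬝ᵥ Ψ a' = if a = a' then 1 else 0) ∧
      (∀ a z, (∀ t ∈ T₀, ∀ y, y ∉ F → z ≠ J t y) → Pol z (Ψ a)) ∧
      (∑ b, Real.exp (-qf (blockGen adj' β lam Finset.univ : Op Y n) (Φ b))) ^ T₀.card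
        ≤ ∑ a, Real.exp (-∑ t ∈ T₀, qf (blockGen adj β lam (imgB (J t)) : Op X n) (Ψ a)) := by
  induction T₀ using Finset.induction_on with
  | empty =>
    refine ⟨Unit, inferInstance, inferInstance, fun _ => vac, ?_, ?_, ?_⟩
    · intro a b
      have := ip_vac (X := X) (n := n)
      unfold ip at this
      rw [this]
      simp
    · intro _ z _
      exact pol_vac z
    · simp
  | insert t T₀ ht ih =>
    obtain ⟨κ', iF, iD, Ψ, hO, hP, hS⟩ := ih (fun i hi => hT₀ (Finset.mem_insert_of_mem hi))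
    have htT : t ∈ T := hT₀ (Finset.mem_insert_self t T₀)
    have hj := hJ t htT
    have hPt : ∀ a y, Pol (J t y) (Ψ a) := by
      intro a y
      refine hP a _ fun t' ht' y' _ e => ?_
      have htt' : t ≠ t' := fun e2 => ht (e2 ▸ ht')
      have := hdis t htT t' (hT₀ (Finset.mem_insert_of_mem ht')) htt'
      refine Finset.disjoint_left.mp this (Finset.mem_image_of_mem (J t) (Finset.mem_univ y)) ?_
      rw [e]
      exact Finset.mem_image_of_mem (J t') (Finset.mem_univ y')
    set Ê : κ → Op X n := fun b => embedOp (J t) (creOp (Φ b)) with hÊ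
    refine ⟨κ' × κ, inferInstance, inferInstance, fun p => Ê p.2 *ᵥ Ψ p.1, ?_, ?_, ?_⟩
    · rintro ⟨a, b⟩ ⟨a', b'⟩
      have h1 := glue_form hj (Φ b) (Φ b') (1 : Op Y n) (Ψ a) (hPt a')
      rw [embedOp_one hj, Matrix.one_mulVec, Matrix.one_mulVec, hΦ, hO] at h1
      simp only [hÊ, Prod.mk.injEq]
      rw [h1]
      by_cases h2 : a = a' <;> by_cases h3 : b = b' <;> simp [h2, h3]
    · rintro ⟨a, b⟩ z hz
      by_cases hzt : z ∈ imgB (J t)
      · obtain ⟨y, _, rfl⟩ := Finset.mem_image.mp hzt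
        have hy : y ∈ F := by
          by_contra hy
          exact hz t (Finset.mem_insert_self t T₀) y hy rfl
        exact embed_pol_cre (hΦF b y hy) _
      · refine embed_pol_off hzt _ (hP a z fun t' ht' y hy => ?_)
        exact hz t' (Finset.mem_insert_of_mem ht') y hy
    · -- the energies
      have hE : ∀ (a : κ') (b : κ), ∑ t' ∈ insert t T₀, qf (blockGen adj β lam (imgB (J t')) : Op X n) (Ê b *ᵥ Ψ a)
          = ∑ t' ∈ T₀, qf (blockGen adj β lam (imgB (J t')) : Op X n) (Ψ a)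
            + qf (blockGen adj' β lam Finset.univ : Op Y n) (Φ b) := by
        intro a b
        rw [Finset.sum_insert ht, add_comm]
        congr 1
        · refine Finset.sum_congr rfl fun t' ht' => ?_
          have htt' : t ≠ t' := fun e2 => ht (e2 ▸ ht')
          have hd := hdis t htT t' (hT₀ (Finset.mem_insert_of_mem ht')) htt'
          have hoff : Off (imgB (J t')) (Ê b) := fun x hx c =>
            embedOp_comm_site (fun hxt => Finset.disjoint_left.mp hd hxt hx) _ c
          have hcomm : Commute (blockGen adj β lam (imgB (J t')) : Op X n) (Ê b) :=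
            loc_blockGen adj β lam (imgB (J t')) _ hoff
          have hnorm : star (Φ b) ⬝ᵥ Φ b = 1 := by
            rw [hΦ, if_pos rfl]
          unfold qf
          rw [glue_commute_form hj hnorm hcomm (hPt a)]
        · rw [← embedOp_blockGen hj (hadj t htT)]
          unfold qf
          have h1 := glue_form hj (Φ b) (Φ b) (blockGen adj' β lam Finset.univ : Op Y n) (Ψ a) (hPt a)
          rw [hO, if_pos rfl, mul_one] at h1
          simp only [hÊ]
          rw [h1]
      have hS0 : 0 ≤ ∑ b, Real.exp (-qf (blockGen adj' β lam Finset.univ : Op Y n) (Φ b)) :=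
        Finset.sum_nonneg fun b _ => (Real.exp_pos _).le
      rw [Finset.card_insert_of_notMem ht, pow_succ]
      refine (mul_le_mul_of_nonneg_right hS hS0).trans (le_of_eq ?_)
      rw [Finset.sum_mul_sum, Fintype.sum_prod_type]
      refine Finset.sum_congr rfl fun a _ => Finset.sum_congr rfl fun b _ => ?_
      rw [← Real.exp_add]
      simp only
      rw [hE]
      congr 1
      ring

/-- The form of the edge energy on a block. -/
lemma qf_edgeSum_block (adj : X → X → Prop) [DecidableRel adj] (hirr : ∀ x, ¬ adj x x) (k : Finset X)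
    (ψ : Cfg X n → ℂ) :
    qf (edgeSum adj k : Op X n) ψ
      = (1 / 4) * ∑ x ∈ k, ∑ y ∈ k, if adj x y then nrm ((bondA x y : Op X n) *ᵥ ψ) else 0 := by
  unfold edgeSum
  rw [qf_smul, qf_sum]
  have : ∀ x, qf (∑ y ∈ k, if adj x y then (hEdge x y : Op X n) else 0) ψ
      = (1 / 2) * ∑ y ∈ k, if adj x y then nrm ((bondA x y : Op X n) *ᵥ ψ) else 0 := by
    intro x
    rw [qf_sum, Finset.mul_sum]
    refine Finset.sum_congr rfl fun y _ => ?_
    by_cases ha : adj x y
    · rw [if_pos ha, if_pos ha, qf_hEdge]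
      rintro rfl
      exact hirr x ha
    · rw [if_neg ha, if_neg ha, qf_zero, mul_zero]
  rw [Finset.sum_congr rfl fun x _ => this x, ← Finset.mul_sum, ← mul_assoc]
  norm_num

/-- A double sum of non-negative terms is dominated by the block sums. -/
lemma sum_le_blocks {ι : Type} (T : Finset ι) (k : ι → Finset X) (f : X → X → ℝ) (hf : ∀ x y, 0 ≤ f x y)
    (hcov : ∀ x y, f x y ≠ 0 → ∃ t ∈ T, x ∈ k t ∧ y ∈ k t) :
    ∑ x, ∑ y, f x y ≤ ∑ t ∈ T, ∑ x ∈ k t, ∑ y ∈ k t, f x y := by
  have h1 : ∀ t, ∑ x ∈ k t, ∑ y ∈ k t, f x y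
      = ∑ x, ∑ y, if x ∈ k t ∧ y ∈ k t then f x y else 0 := by
    intro t
    have e1 : ∀ x, ∑ y, (if x ∈ k t ∧ y ∈ k t then f x y else 0)
        = if x ∈ k t then ∑ y ∈ k t, f x y else 0 := by
      intro x
      by_cases hx : x ∈ k t
      · simp [hx]
      · simp [hx]
    simp only [e1]
    simp
  simp only [h1]
  have h3 : ∑ t ∈ T, ∑ x, ∑ y, (if x ∈ k t ∧ y ∈ k t then f x y else 0)
      = ∑ x, ∑ y, ∑ t ∈ T, (if x ∈ k t ∧ y ∈ k t then f x y else 0) := by
    rw [Finset.sum_comm]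
    refine Finset.sum_congr rfl fun x _ => ?_
    rw [Finset.sum_comm]
  rw [h3]
  refine Finset.sum_le_sum fun x _ => Finset.sum_le_sum fun y _ => ?_
  by_cases h0 : f x y = 0
  · rw [h0]
    refine Finset.sum_nonneg fun t _ => ?_
    split_ifs <;> simp
  · obtain ⟨t, ht, hx, hy⟩ := hcov x y h0
    have h2 := Finset.single_le_sum (f := fun t => if x ∈ k t ∧ y ∈ k t then f x y else 0)
      (fun t' _ => by
        show 0 ≤ if x ∈ k t' ∧ y ∈ k t' then f x y else 0
        split_ifs
        · exact hf x y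
        · exact le_rfl) ht
    simp only [if_pos (And.intro hx hy)] at h2
    exact h2

lemma sum_le_blocks1 {ι : Type} (T : Finset ι) (k : ι → Finset X) (g : X → ℝ) (hg : ∀ x, 0 ≤ g x)
    (hcov : ∀ x, g x ≠ 0 → ∃ t ∈ T, x ∈ k t) :
    ∑ x, g x ≤ ∑ t ∈ T, ∑ x ∈ k t, g x := by
  have h1 : ∀ t, ∑ x ∈ k t, g x = ∑ x, if x ∈ k t then g x else 0 := by
    intro t
    simp
  simp only [h1]
  rw [Finset.sum_comm]
  refine Finset.sum_le_sum fun x _ => ?_
  by_cases h0 : g x = 0
  · rw [h0]
    refine Finset.sum_nonneg fun t _ => ?_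
    split_ifs <;> simp
  · obtain ⟨t, ht, hx⟩ := hcov x h0
    have h2 := Finset.single_le_sum (f := fun t => if x ∈ k t then g x else 0)
      (fun t' _ => by
        show 0 ≤ if x ∈ k t' then g x else 0
        split_ifs
        · exact hg x
        · exact le_rfl) ht
    simp only [if_pos hx] at h2
    exact h2

lemma qf_blockGen (adj : X → X → Prop) [DecidableRel adj] (β lam : ℝ) (k : Finset X) (ψ : Cfg X n → ℂ) :
    qf (blockGen adj β lam k : Op X n) ψ
      = β * qf (edgeSum adj k : Op X n) ψ + lam * qf (totalOp k (devD n) : Op X n) ψ := by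
  unfold blockGen
  rw [qf_add, qf_smul, qf_smul]

/-- The energy of a state polarised off the interiors of the blocks. -/
lemma qf_le_blocks {ι : Type} {adj : X → X → Prop} [DecidableRel adj] (hirr : ∀ x, ¬ adj x x)
    (hsym : ∀ x y, adj x y → adj y x) (T : Finset ι) (k : ι → Finset X) (Int : ι → Finset X)
    (hI : ∀ t ∈ T, Int t ⊆ k t) (hint : ∀ t ∈ T, ∀ x ∈ Int t, ∀ z, adj x z → z ∈ k t)
    {β lam : ℝ} (hβ : 0 ≤ β) (hlam : 0 ≤ lam) {Ψ : Cfg X n → ℂ}
    (hP : ∀ z, (∀ t ∈ T, z ∉ Int t) → Pol z Ψ) :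
    qf (blockGen adj β lam (Finset.univ : Finset X) : Op X n) Ψ
      ≤ ∑ t ∈ T, qf (blockGen adj β lam (k t) : Op X n) Ψ := by
  have hnp : ∀ z, ¬ Pol z Ψ → ∃ t ∈ T, z ∈ Int t := by
    intro z hz
    by_contra hne
    push Not at hne
    exact hz (hP z hne)
  simp only [qf_blockGen]
  rw [Finset.sum_add_distrib, ← Finset.mul_sum, ← Finset.mul_sum]
  refine add_le_add (mul_le_mul_of_nonneg_left ?_ hβ) (mul_le_mul_of_nonneg_left ?_ hlam)
  · simp only [qf_edgeSum_block adj hirr]
    rw [← Finset.mul_sum]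
    refine mul_le_mul_of_nonneg_left ?_ (by norm_num)
    refine sum_le_blocks T k _ ?_ ?_
    · intro x y
      split_ifs
      · exact nrm_nonneg' _
      · exact le_rfl
    · intro x y hne
      have hadj : adj x y := by
        by_contra h
        exact hne (if_neg h)
      have hxy : x ≠ y := fun e => hirr x (e ▸ hadj)
      by_cases hx : Pol x Ψ
      · by_cases hy : Pol y Ψ
        · exfalso
          apply hne
          rw [if_pos hadj, bond_pol hx hy hxy, nrm_zero]
        · obtain ⟨t, ht, hyt⟩ := hnp y hy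
          exact ⟨t, ht, hint t ht y hyt x (hsym _ _ hadj), hI t ht hyt⟩
      · obtain ⟨t, ht, hxt⟩ := hnp x hx
        exact ⟨t, ht, hI t ht hxt, hint t ht x hxt y hadj⟩
  · unfold totalOp
    simp only [qf_sum]
    refine sum_le_blocks1 T k _ (fun x => qf_site_devD_nonneg x Ψ) ?_
    intro x hne
    have hx : ¬ Pol x Ψ := by
      intro hx
      apply hne
      rw [← nrm_bosB, bosB_act hx, nrm_zero]
    obtain ⟨t, ht, hxt⟩ := hnp x hx
    exact ⟨t, ht, hI t ht hxt⟩

/-- The partition function on the large system is bounded below by the product over the blocks. -/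
theorem glue_trace {ι : Type} [DecidableEq ι] {adj : X → X → Prop} [DecidableRel adj]
    {adj' : Y → Y → Prop} [DecidableRel adj'] (hirr : ∀ x, ¬ adj x x)
    (hsym : ∀ x y, adj x y → adj y x) (T : Finset ι) (J : ι → Y → X)
    (hJ : ∀ t ∈ T, Function.Injective (J t)) (hadj : ∀ t ∈ T, ∀ y y', adj' y y' ↔ adj (J t y) (J t y'))
    (hdis : ∀ t ∈ T, ∀ t' ∈ T, t ≠ t' → Disjoint (imgB (J t)) (imgB (J t'))) (F : Finset Y)
    {κ : Type} [Fintype κ] [DecidableEq κ] (Φ : κ → Cfg Y n → ℂ)
    (hΦ : ∀ b b', star (Φ b) ⬝ᵥ Φ b' = if b = b' then 1 else 0) (hΦF : ∀ b, ∀ y ∈ F, Pol y (Φ b))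
    {β lam : ℝ} (hβ : 0 ≤ β) (hlam : 0 ≤ lam)
    (hint : ∀ t ∈ T, ∀ y, y ∉ F → ∀ z, adj (J t y) z → z ∈ imgB (J t)) :
    (∑ b, Real.exp (-qf (blockGen adj' β lam Finset.univ : Op Y n) (Φ b))) ^ T.card
      ≤ (trace (NormedSpace.exp (-(blockGen adj β lam Finset.univ : Op X n)))).re := by
  obtain ⟨κ', iF, iD, Ψ, hO, hP, hS⟩ := glue_family (adj := adj) (adj' := adj') T J hJ hadj hdis F Φ hΦ hΦF β lam T
    subset_rfl
  refine hS.trans ?_
  refine le_trans ?_ (sum_exp_qf_le_trace_exp (blockGen_hermitian adj β lam Finset.univ) Ψ hO)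
  refine Finset.sum_le_sum fun a _ => Real.exp_le_exp.mpr (neg_le_neg ?_)
  set Int : ι → Finset X := fun t => (Finset.univ.filter fun y => y ∉ F).image (J t) with hInt
  refine qf_le_blocks hirr hsym T (fun t => imgB (J t)) Int ?_ ?_ hβ hlam ?_
  · intro t _ x hx
    obtain ⟨y, _, rfl⟩ := Finset.mem_image.mp hx
    exact Finset.mem_image_of_mem _ (Finset.mem_univ y)
  · intro t ht x hx z hz
    obtain ⟨y, hy, rfl⟩ := Finset.mem_image.mp hx
    exact hint t ht y (Finset.mem_filter.mp hy).2 z hz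
  · intro z hz
    refine hP a z fun t ht y hy e => ?_
    refine hz t ht ?_
    rw [e]
    exact Finset.mem_image_of_mem _ (Finset.mem_filter.mpr ⟨Finset.mem_univ y, hy⟩)

end Vale.Agent.P361Lib
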