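import Vale.Agent.Lib.P361.LBRec

/-!
# The Hamiltonian on the trial vectors
-/

open Matrix Finset
open scoped MatrixOrder ComplexOrder

noncomputable section

namespace Vale.Agent.P361Lib

variable {X : Type} [Fintype X] [DecidableEq X] {n : ℕ}
variable {Q : Type} [Fintype Q] [DecidableEq Q]

/-- Vectors that vanish on configurations which are polarised on the frame. -/
def Fx (F : Finset X) (b : Cfg X n → ℂ) : Prop := ∀ σ : Cfg X n, (∀ z ∈ F, σ z = 0) → b σ = 0

lemma Fx.add {F : Finset X} {a b : Cfg X n → ℂ} (ha : Fx F a) (hb : Fx F b) : Fx F (a + b) := by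
  intro σ hσ
  simp [ha σ hσ, hb σ hσ]

lemma Fx.smul {F : Finset X} {a : Cfg X n → ℂ} (ha : Fx F a) (c : ℂ) : Fx F (c • a) := by
  intro σ hσ
  simp [ha σ hσ]

lemma fx_zero (F : Finset X) : Fx F (0 : Cfg X n → ℂ) := fun _ _ => rfl

lemma Fx.magnon {F : Finset X} {u : X → ℝ} (hu : ∀ z ∈ F, u z = 0) {b : Cfg X n → ℂ} (hb : Fx F b) :
    Fx F ((magnon u : Op X n) *ᵥ b) := by
  intro σ hσ
  rw [magnon_mulVec, Finset.sum_apply]
  refine Finset.sum_eq_zero fun z _ => ?_
  simp only [Pi.smul_apply, smul_eq_mul]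
  by_cases hz : z ∈ F
  · rw [hu z hz]
    simp
  · rw [siteOp_mulVec_apply, Finset.sum_eq_zero, mul_zero]
    intro i _
    rw [hb, mul_zero]
    intro w hw
    rw [Function.update_of_ne (fun e : w = z => hz (e ▸ hw))]
    exact hσ w hw

lemma fx_magnon_frame {F : Finset X} {f : X → ℝ} (hf : ∀ z, z ∉ F → f z = 0) (ψ : Cfg X n → ℂ) :
    Fx F ((magnon f : Op X n) *ᵥ ψ) := by
  intro σ hσ
  rw [magnon_mulVec, Finset.sum_apply]
  refine Finset.sum_eq_zero fun z _ => ?_
  simp only [Pi.smul_apply, smul_eq_mul]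
  by_cases hz : z ∈ F
  · rw [siteOp_mulVec_apply, hσ z hz, Finset.sum_eq_zero, mul_zero]
    intro i _
    rw [spinM_first_row, zero_mul]
  · rw [hf z hz]
    simp

lemma dot_fx {F : Finset X} {ψ b : Cfg X n → ℂ} (hψ : ∀ z ∈ F, Pol z ψ) (hb : Fx F b) :
    star ψ ⬝ᵥ b = 0 := by
  unfold dotProduct
  refine Finset.sum_eq_zero fun σ _ => ?_
  by_cases hσ : ∀ z ∈ F, σ z = 0
  · rw [hb σ hσ, mul_zero]
  · push Not at hσ
    obtain ⟨z, hz, hz2⟩ := hσ
    simp only [Pi.star_apply]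
    rw [hψ z hz σ hz2, star_zero, zero_mul]

lemma magnon_lin (c : ℝ) (φ f : X → ℝ) :
    (magnon (fun x => c * φ x + f x) : Op X n) = (c : ℂ) • magnon φ + magnon f := by
  unfold Vale.Agent.P361Lib.magnon
  rw [Finset.smul_sum, ← Finset.sum_add_distrib]
  refine Finset.sum_congr rfl fun z _ => ?_
  rw [smul_smul, ← add_smul]
  congr 1
  push_cast
  ring

lemma edgeSum_vac (adj : X → X → Prop) [DecidableRel adj] :
    (edgeSum adj (Finset.univ : Finset X) : Op X n) *ᵥ vac = 0 := by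
  unfold edgeSum
  rw [Matrix.smul_mulVec, Matrix.sum_mulVec]
  refine (smul_eq_zero_of_right _ ?_)
  refine Finset.sum_eq_zero fun x _ => ?_
  rw [Matrix.sum_mulVec]
  refine Finset.sum_eq_zero fun y _ => ?_
  split_ifs
  · by_cases hxy : x = y
    · subst hxy
      rw [hEdge_self, Matrix.zero_mulVec]
    · rw [hEdge_eq_half_bond hxy, Matrix.smul_mulVec, ← Matrix.mulVec_mulVec,
        bond_pol (pol_vac x) (pol_vac y) hxy, Matrix.mulVec_zero, smul_zero]
  · rw [Matrix.zero_mulVec]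

/-- The energy of the occupation numbers. -/
def Eo (ω : Q → ℝ) (m : Q → ℕ) : ℝ := ∑ q, ω q * (m q : ℝ)

lemma Eo_zero (ω : Q → ℝ) : Eo ω 0 = 0 := by
  simp [Eo]

lemma Eo_inc (ω : Q → ℝ) (m : Q → ℕ) (r : Q) : Eo ω (inc m r) = Eo ω m + ω r := by
  unfold Eo
  rw [← Finset.add_sum_erase Finset.univ _ (Finset.mem_univ r),
    ← Finset.add_sum_erase Finset.univ (fun q => ω q * (m q : ℝ)) (Finset.mem_univ r)]
  have e : ∑ q ∈ Finset.univ.erase r, ω q * (inc m r q : ℝ) = ∑ q ∈ Finset.univ.erase r, ω q * (m q : ℝ) :=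
    Finset.sum_congr rfl fun q hq => by rw [inc_ne _ (Finset.ne_of_mem_erase hq)]
  rw [e, inc_same]
  push_cast
  ring

/-- The constant in the bound on the non-linear term. -/
def CY (n d k : ℕ) : ℝ := (((k : ℝ) + 1) ^ 2 * (((n : ℝ) + 1) ^ 2 * ((d : ℝ) * (k : ℝ))))

lemma CY_nonneg (n d k : ℕ) : 0 ≤ CY n d k := by
  unfold CY
  positivity

/-- The constants of the error term. -/
def Cxi (n d : ℕ) : ℕ → ℝ
  | 0 => 0
  | k + 1 => 2 * ((k : ℝ) + 1) * Cxi n d k + 2 * (CY n d k * (k.factorial : ℝ))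

lemma Cxi_nonneg (n d k : ℕ) : 0 ≤ Cxi n d k := by
  induction k with
  | zero => exact le_rfl
  | succ k ih =>
    unfold Cxi
    have := CY_nonneg n d k
    positivity

lemma Cxi_mono (n d : ℕ) : Monotone (Cxi n d) := by
  refine monotone_nat_of_le_succ fun k => ?_
  have h := Cxi_nonneg n d k
  show Cxi n d k ≤ 2 * ((k : ℝ) + 1) * Cxi n d k + 2 * (CY n d k * (k.factorial : ℝ))
  have h1 : (0 : ℝ) ≤ k := by positivity
  have h2 : (0 : ℝ) ≤ 2 * (CY n d k * (k.factorial : ℝ)) := by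
    have := CY_nonneg n d k
    positivity
  nlinarith

/-- The action of the Hamiltonian on the trial vectors. -/
theorem edgeSum_chi (hn : 1 ≤ n) {adj : X → X → Prop} [DecidableRel adj] (hirr : ∀ x, ¬ adj x x)
    (hsym : ∀ x y, adj x y ↔ adj y x) {d : ℕ}
    (hdeg : ∀ y, ((Finset.univ : Finset X).filter fun x => adj x y).card ≤ d) {u : Q → X → ℝ}
    (hN : ∀ q, ∑ z, u q z ^ 2 = 1) {F : Finset X} (hU : ∀ q, ∀ z ∈ F, u q z = 0) {Λ : Q → ℝ}
    (hLap : ∀ q x, x ∉ F → lapG adj (u q) x = Λ q * u q x) {g : ℝ}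
    (hg : ∀ q x y, adj x y → |u q x - u q y| ≤ g) (m : Q → ℕ) :
    ∃ b ξ : Cfg X n → ℂ,
      (edgeSum adj (Finset.univ : Finset X) : Op X n) *ᵥ chi u m
        = ((Eo (fun q => (n : ℝ) / 2 * Λ q) m : ℝ) : ℂ) • chi u m + b + ξ ∧
      Fx F b ∧ SecLE (tot m) ξ ∧ nrm ξ ≤ Cxi n d (tot m) * g ^ 2 := by
  revert m
  refine occ_induction ?_ ?_
  · refine ⟨0, 0, ?_, fx_zero F, secLE_zero _, ?_⟩
    · rw [chi_zero, Eo_zero, edgeSum_vac]
      simp
    · rw [nrm_zero, tot_zero]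
      unfold Cxi
      simp
  · rintro m r ⟨b, ξ, h1, h2, h3, h4⟩
    set L : Op X n := magnon (u r) with hL
    set f : X → ℝ := fun x => lapG adj (u r) x - Λ r * u r x with hf
    have hf0 : ∀ z, z ∉ F → f z = 0 := fun z hz => by
      simp only [hf]
      rw [hLap r z hz, sub_self]
    have hlap : (magnon (lapG adj (u r)) : Op X n) = ((Λ r : ℝ) : ℂ) • L + magnon f := by
      rw [hL, ← magnon_lin]
      congr 1
      funext x
      simp only [hf]
      ring
    have hcomm := edgeSum_comm_magnon (n := n) hirr hsym (u r)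
    rw [hlap, ← hL] at hcomm
    have hcomm' : (edgeSum adj (Finset.univ : Finset X) : Op X n) * L
        = L * edgeSum adj Finset.univ + ((n : ℂ) / 2) • (((Λ r : ℝ) : ℂ) • L + magnon f) + Yop adj (u r) := by
      rw [add_assoc, ← hcomm]
      abel
    refine ⟨L *ᵥ b + ((n : ℂ) / 2) • ((magnon f : Op X n) *ᵥ chi u m),
      L *ᵥ ξ + (Yop adj (u r) : Op X n) *ᵥ chi u m, ?_, ?_, ?_, ?_⟩
    · rw [chi_inc, ← hL, Eo_inc, Matrix.mulVec_mulVec, hcomm', Matrix.add_mulVec, Matrix.add_mulVec,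
        ← Matrix.mulVec_mulVec, h1, Matrix.mulVec_add, Matrix.mulVec_add, Matrix.mulVec_smul,
        Matrix.smul_mulVec, Matrix.add_mulVec, Matrix.smul_mulVec]
      push_cast
      module
    · exact ((h2.magnon (hU r)).add ((fx_magnon_frame hf0 _).smul _))
    · rw [tot_inc]
      exact (magnon_secLE _ h3).add (Yop_secLE adj _ (chi_inSec u m).secLE)
    · rw [tot_inc]
      refine (nrm_add_le' _ _).trans ?_
      have h5 := nrm_magnon_le hn (u r) h3
      rw [hN, one_mul, ← hL] at h5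
      have h6 := nrm_Yop_le (n := n) hn hirr hdeg (fun x y hxy => hg r x y hxy) (chi_inSec u m).secLE
      have h7 := nrm_chi_le (n := n) hn hN m
      set k := tot m with hk
      have hk0 : (0 : ℝ) ≤ k := by positivity
      have h8 : nrm (L *ᵥ ξ) ≤ ((k : ℝ) + 1) * (Cxi n d k * g ^ 2) :=
        h5.trans (mul_le_mul_of_nonneg_left h4 (by positivity))
      have h9 : nrm ((Yop adj (u r) : Op X n) *ᵥ chi u m) ≤ CY n d k * g ^ 2 * (k.factorial : ℝ) := by
        have hCY := CY_nonneg n d k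
        refine h6.trans ?_
        have e : ((k : ℝ) + 1) ^ 2 * (((n : ℝ) + 1) ^ 2 * ((d : ℝ) * (k : ℝ) * g ^ 2)) = CY n d k * g ^ 2 := by
          unfold CY
          ring
        rw [e]
        exact mul_le_mul_of_nonneg_left h7 (by positivity)
      have e6 : Cxi n d (k + 1) * g ^ 2
          = 2 * (((k : ℝ) + 1) * (Cxi n d k * g ^ 2)) + 2 * (CY n d k * g ^ 2 * (k.factorial : ℝ)) := by
        show (2 * ((k : ℝ) + 1) * Cxi n d k + 2 * (CY n d k * (k.factorial : ℝ))) * g ^ 2 = _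
        ring
      rw [e6]
      linarith

end Vale.Agent.P361Lib
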