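import Vale.Agent.Lib.P361.LBGlue
import Vale.Agent.Lib.P361.Dirichlet
import Vale.Agent.Lib.P361.Cube

/-!
# The Dirichlet modes of a cube
-/

open Matrix Finset

noncomputable section

namespace Vale.Agent.P361Lib

variable {R Q₀ : ℕ}

/-- The Dirichlet mode on the cube of side `R + 1`. -/
def uD (R : ℕ) (q : C3 Q₀) (x : CubeS (R + 1)) : ℝ :=
  fD R ((q.1 : ℕ) + 1) x.1 * fD R ((q.2.1 : ℕ) + 1) x.2.1 * fD R ((q.2.2 : ℕ) + 1) x.2.2

/-- The eigenvalue of the Dirichlet mode. -/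
def LamD (R : ℕ) (q : C3 Q₀) : ℝ :=
  lamD R ((q.1 : ℕ) + 1) + lamD R ((q.2.1 : ℕ) + 1) + lamD R ((q.2.2 : ℕ) + 1)

lemma LamD_nonneg (R : ℕ) (q : C3 Q₀) : 0 ≤ LamD R q := by
  unfold LamD
  have h1 := lamD_nonneg R ((q.1 : ℕ) + 1)
  have h2 := lamD_nonneg R ((q.2.1 : ℕ) + 1)
  have h3 := lamD_nonneg R ((q.2.2 : ℕ) + 1)
  linarith

/-- The sites in the interior of the cube. -/
def cubeInt (R : ℕ) (x : CubeS (R + 1)) : Prop :=
  (0 < (x.1 : ℕ) ∧ (x.1 : ℕ) < R) ∧ (0 < (x.2.1 : ℕ) ∧ (x.2.1 : ℕ) < R) ∧ (0 < (x.2.2 : ℕ) ∧ (x.2.2 : ℕ) < R)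

instance cubeInt_decidable (R : ℕ) : DecidablePred (cubeInt R) := fun _ => by
  unfold cubeInt
  infer_instance

/-- The frame of the cube. -/
def cubeFrame (R : ℕ) : Finset (CubeS (R + 1)) := Finset.univ.filter fun x => ¬ cubeInt R x

lemma mem_cubeFrame {R : ℕ} {x : CubeS (R + 1)} : x ∈ cubeFrame R ↔ ¬ cubeInt R x := by
  simp [cubeFrame]

lemma fD_bdry (hR : 0 < R) (p : ℕ) (t : Fin (R + 1)) (h : ¬ (0 < (t : ℕ) ∧ (t : ℕ) < R)) :
    fD R p t = 0 := by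
  have h2 : (t : ℕ) = 0 ∨ (t : ℕ) = R := by
    have := t.2
    omega
  rcases h2 with h2 | h2
  · rw [h2, fD_zero]
  · rw [h2, fD_last hR]

lemma uD_frame (hR : 0 < R) (q : C3 Q₀) {x : CubeS (R + 1)} (hx : x ∈ cubeFrame R) : uD R q x = 0 := by
  rw [mem_cubeFrame] at hx
  unfold cubeInt at hx
  unfold uD
  by_cases h1 : 0 < (x.1 : ℕ) ∧ (x.1 : ℕ) < R
  · by_cases h2 : 0 < (x.2.1 : ℕ) ∧ (x.2.1 : ℕ) < R
    · have h3 : ¬ (0 < (x.2.2 : ℕ) ∧ (x.2.2 : ℕ) < R) := fun h3 => hx ⟨h1, h2, h3⟩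
      rw [fD_bdry hR _ x.2.2 h3, mul_zero]
    · rw [fD_bdry hR _ x.2.1 h2, mul_zero, zero_mul]
  · rw [fD_bdry hR _ x.1 h1, zero_mul, zero_mul]

/-- The orthonormality of the modes. -/
lemma uD_orth (hQ : Q₀ < R) (q r : C3 Q₀) :
    ∑ x : CubeS (R + 1), uD R q x * uD R r x = if q = r then 1 else 0 := by
  have hp : ∀ i : Fin Q₀, (i : ℕ) + 1 < R := fun i => by
    have := i.2
    omega
  have key : ∑ x : CubeS (R + 1), uD R q x * uD R r x
      = (∑ a : Fin (R + 1), fD R ((q.1 : ℕ) + 1) a * fD R ((r.1 : ℕ) + 1) a)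
        * ((∑ b : Fin (R + 1), fD R ((q.2.1 : ℕ) + 1) b * fD R ((r.2.1 : ℕ) + 1) b)
          * (∑ c : Fin (R + 1), fD R ((q.2.2 : ℕ) + 1) c * fD R ((r.2.2 : ℕ) + 1) c)) := by
    rw [Fintype.sum_prod_type, Finset.sum_mul]
    refine Finset.sum_congr rfl fun a _ => ?_
    rw [Fintype.sum_prod_type, Finset.sum_mul, Finset.mul_sum]
    refine Finset.sum_congr rfl fun b _ => ?_
    rw [Finset.mul_sum, Finset.mul_sum]
    refine Finset.sum_congr rfl fun c _ => ?_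
    unfold uD
    ring
  rw [key, fD_orth (by omega) (hp _) (by omega) (hp _), fD_orth (by omega) (hp _) (by omega) (hp _),
    fD_orth (by omega) (hp _) (by omega) (hp _)]
  have e1 : ∀ i j : Fin Q₀, ((i : ℕ) + 1 = (j : ℕ) + 1) ↔ i = j := fun i j => by
    constructor
    · intro h
      exact Fin.ext (by omega)
    · rintro rfl
      rfl
  simp only [e1]
  by_cases h1 : q.1 = r.1
  · by_cases h2 : q.2.1 = r.2.1
    · by_cases h3 : q.2.2 = r.2.2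
      · have : q = r := Prod.ext h1 (Prod.ext h2 h3)
        simp [h1, h2, h3, this]
      · have : q ≠ r := fun e => h3 (by rw [e])
        simp [h3, this]
    · have : q ≠ r := fun e => h2 (by rw [e])
      simp [h2, this]
  · have : q ≠ r := fun e => h1 (by rw [e])
    simp [h1, this]

lemma uD_abs_le (q : C3 Q₀) (x : CubeS (R + 1)) : |uD R q x| ≤ Real.sqrt (2 / R) ^ 3 := by
  unfold uD
  rw [abs_mul, abs_mul, pow_three]
  have h1 := fD_abs_le R ((q.1 : ℕ) + 1) x.1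
  have h2 := fD_abs_le R ((q.2.1 : ℕ) + 1) x.2.1
  have h3 := fD_abs_le R ((q.2.2 : ℕ) + 1) x.2.2
  have h0 := Real.sqrt_nonneg (2 / (R : ℝ))
  calc _ ≤ Real.sqrt (2 / R) * Real.sqrt (2 / R) * Real.sqrt (2 / R) :=
        mul_le_mul (mul_le_mul h1 h2 (abs_nonneg _) h0) h3 (abs_nonneg _) (by positivity)
    _ = _ := by ring

lemma uD_sup (q r : C3 Q₀) (x : CubeS (R + 1)) : |uD R q x * uD R r x| ≤ (2 / (R : ℝ)) ^ 3 := by
  rw [abs_mul]
  have h1 := uD_abs_le q x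
  have h2 := uD_abs_le r x
  have h0 : 0 ≤ Real.sqrt (2 / (R : ℝ)) ^ 3 := by positivity
  calc _ ≤ Real.sqrt (2 / (R : ℝ)) ^ 3 * Real.sqrt (2 / (R : ℝ)) ^ 3 :=
        mul_le_mul h1 h2 (abs_nonneg _) h0
    _ = (Real.sqrt (2 / (R : ℝ)) * Real.sqrt (2 / (R : ℝ))) ^ 3 := by ring
    _ = _ := by rw [sqrt_two_div_sq]

/-! ### The one dimensional Laplacian -/

/-- The Laplacian on a path. -/
def pathLap {Q : ℕ} (f : Fin Q → ℝ) (t : Fin Q) : ℝ :=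
  ∑ a : Fin Q, (if |((t : ℕ) : ℤ) - ((a : ℕ) : ℤ)| = 1 then (1 : ℝ) else 0) * (f t - f a)

lemma lap_product {Q : ℕ} (A B C : Fin Q → ℝ) (x : CubeS Q) :
    lapG cAdj (fun y : CubeS Q => A y.1 * B y.2.1 * C y.2.2) x
      = pathLap A x.1 * B x.2.1 * C x.2.2 + A x.1 * pathLap B x.2.1 * C x.2.2
        + A x.1 * B x.2.1 * pathLap C x.2.2 := by
  unfold lapG pathLap
  have h1 : ∀ y : CubeS Q, (if cAdj x y then A x.1 * B x.2.1 * C x.2.2 - A y.1 * B y.2.1 * C y.2.2 else 0)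
      = (if |((x.1 : ℕ) : ℤ) - ((y.1 : ℕ) : ℤ)| = 1 then (1 : ℝ) else 0) * (if x.2.1 = y.2.1 then 1 else 0)
            * (if x.2.2 = y.2.2 then 1 else 0) * (A x.1 - A y.1) * B x.2.1 * C x.2.2
        + (if x.1 = y.1 then 1 else 0) * (if |((x.2.1 : ℕ) : ℤ) - ((y.2.1 : ℕ) : ℤ)| = 1 then (1 : ℝ) else 0)
            * (if x.2.2 = y.2.2 then 1 else 0) * A x.1 * (B x.2.1 - B y.2.1) * C x.2.2
        + (if x.1 = y.1 then 1 else 0) * (if x.2.1 = y.2.1 then 1 else 0)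
            * (if |((x.2.2 : ℕ) : ℤ) - ((y.2.2 : ℕ) : ℤ)| = 1 then (1 : ℝ) else 0) * A x.1 * B x.2.1 * (C x.2.2 - C y.2.2) := by
    intro y
    have key := nearest_decomp ((x.1 : ℕ) : ℤ) ((x.2.1 : ℕ) : ℤ) ((x.2.2 : ℕ) : ℤ)
      ((y.1 : ℕ) : ℤ) ((y.2.1 : ℕ) : ℤ) ((y.2.2 : ℕ) : ℤ)
    have e : ∀ s t : Fin Q, (((s : ℕ) : ℤ) = ((t : ℕ) : ℤ)) ↔ s = t := fun s t => by
      rw [Nat.cast_inj, Fin.val_inj]
    simp only [e] at key
    have hadj : (if cAdj x y then A x.1 * B x.2.1 * C x.2.2 - A y.1 * B y.2.1 * C y.2.2 else 0)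
        = (if |((x.1 : ℕ) : ℤ) - ((y.1 : ℕ) : ℤ)| + |((x.2.1 : ℕ) : ℤ) - ((y.2.1 : ℕ) : ℤ)|
            + |((x.2.2 : ℕ) : ℤ) - ((y.2.2 : ℕ) : ℤ)| = 1 then (1 : ℝ) else 0)
          * (A x.1 * B x.2.1 * C x.2.2 - A y.1 * B y.2.1 * C y.2.2) := by
      have hiff : cAdj x y ↔ |((x.1 : ℕ) : ℤ) - ((y.1 : ℕ) : ℤ)| + |((x.2.1 : ℕ) : ℤ) - ((y.2.1 : ℕ) : ℤ)|
            + |((x.2.2 : ℕ) : ℤ) - ((y.2.2 : ℕ) : ℤ)| = 1 := Iff.rfl
      by_cases h : cAdj x y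
      · rw [if_pos h, if_pos (hiff.1 h), one_mul]
      · rw [if_neg h, if_neg (fun h' => h (hiff.2 h')), zero_mul]
    rw [hadj, key]
    rcases x with ⟨x1, x2, x3⟩
    rcases y with ⟨y1, y2, y3⟩
    simp only []
    by_cases h1 : x1 = y1 <;> by_cases h2 : x2 = y2 <;> by_cases h3 : x3 = y3 <;>
      simp only [h1, h2, h3, if_true, if_false, eq_self_iff_true] <;> ring
  rw [Finset.sum_congr rfl fun y _ => h1 y, Finset.sum_add_distrib, Finset.sum_add_distrib]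
  congr 1
  · congr 1
    · rw [Fintype.sum_prod_type, Finset.sum_mul, Finset.sum_mul]
      refine Finset.sum_congr rfl fun a _ => ?_
      rw [Fintype.sum_prod_type, Finset.sum_eq_single x.2.1]
      · rw [Finset.sum_eq_single x.2.2]
        · simp only [if_true]
          ring
        · intro c _ hc
          simp [Ne.symm hc]
        · simp
      · intro b _ hb
        refine Finset.sum_eq_zero fun c _ => ?_
        simp [Ne.symm hb]
      · simp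
    · rw [Fintype.sum_prod_type, Finset.sum_eq_single x.1]
      · rw [Fintype.sum_prod_type, Finset.mul_sum, Finset.sum_mul]
        refine Finset.sum_congr rfl fun b _ => ?_
        rw [Finset.sum_eq_single x.2.2]
        · simp only [if_true]
          ring
        · intro c _ hc
          simp [Ne.symm hc]
        · simp
      · intro a _ ha
        refine Finset.sum_eq_zero fun p _ => ?_
        simp [Ne.symm ha]
      · simp
  · rw [Fintype.sum_prod_type, Finset.sum_eq_single x.1]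
    · rw [Fintype.sum_prod_type, Finset.sum_eq_single x.2.1]
      · rw [Finset.mul_sum]
        refine Finset.sum_congr rfl fun c _ => ?_
        simp only [if_true]
        ring
      · intro b _ hb
        refine Finset.sum_eq_zero fun c _ => ?_
        simp [Ne.symm hb]
      · simp
    · intro a _ ha
      refine Finset.sum_eq_zero fun p _ => ?_
      simp [Ne.symm ha]
    · simp


lemma pathLap_fD (R p : ℕ) (t : Fin (R + 1)) (h : 0 < (t : ℕ) ∧ (t : ℕ) < R) :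
    pathLap (fun a : Fin (R + 1) => fD R p a) t = lamD R p * fD R p t := by
  obtain ⟨s, hs⟩ : ∃ s : ℕ, (t : ℕ) = s + 1 := ⟨(t : ℕ) - 1, by omega⟩
  have hs1 : s < R + 1 := by omega
  have hs2 : s + 2 < R + 1 := by omega
  unfold pathLap
  rw [Finset.sum_eq_add (⟨s, hs1⟩ : Fin (R + 1)) (⟨s + 2, hs2⟩ : Fin (R + 1))]
  · have e1 : |((t : ℕ) : ℤ) - (((⟨s, hs1⟩ : Fin (R + 1)) : ℕ) : ℤ)| = 1 := by
      simp only [hs]
      push_cast
      have : ((s : ℤ) + 1 - s) = 1 := by ring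
      rw [this]
      rfl
    have e2 : |((t : ℕ) : ℤ) - (((⟨s + 2, hs2⟩ : Fin (R + 1)) : ℕ) : ℤ)| = 1 := by
      simp only [hs]
      push_cast
      have : ((s : ℤ) + 1 - (s + 2)) = -1 := by ring
      rw [this]
      rfl
    rw [if_pos e1, if_pos e2]
    have := fD_rec R p s
    show 1 * (fD R p t - fD R p s) + 1 * (fD R p t - fD R p (s + 2)) = lamD R p * fD R p t
    rw [hs]
    linarith
  · simp [Fin.ext_iff]
  · intro c _ hc
    rw [if_neg, zero_mul]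
    intro hne
    exfalso
    have hX := abs_cases (((t : ℕ) : ℤ) - ((c : ℕ) : ℤ))
    have h1 : (c : ℕ) ≠ s := fun e => hc.1 (Fin.ext e)
    have h2 : (c : ℕ) ≠ s + 2 := fun e => hc.2 (Fin.ext e)
    omega
  · simp
  · simp


lemma uD_eq (R : ℕ) (q : C3 Q₀) :
    uD R q = fun y : CubeS (R + 1) => (fun a : Fin (R + 1) => fD R ((q.1 : ℕ) + 1) a) y.1
      * (fun a : Fin (R + 1) => fD R ((q.2.1 : ℕ) + 1) a) y.2.1
      * (fun a : Fin (R + 1) => fD R ((q.2.2 : ℕ) + 1) a) y.2.2 := rfl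

lemma uD_lap (R : ℕ) (q : C3 Q₀) {x : CubeS (R + 1)} (hx : x ∉ cubeFrame R) :
    lapG cAdj (uD R q) x = LamD R q * uD R q x := by
  rw [mem_cubeFrame, not_not] at hx
  have h := lap_product (Q := R + 1) (fun a => fD R ((q.1 : ℕ) + 1) a)
    (fun a => fD R ((q.2.1 : ℕ) + 1) a) (fun a => fD R ((q.2.2 : ℕ) + 1) a) x
  rw [pathLap_fD R _ x.1 hx.1, pathLap_fD R _ x.2.1 hx.2.1, pathLap_fD R _ x.2.2 hx.2.2] at h
  refine Eq.trans h ?_
  unfold LamD uD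
  ring

lemma fD_step (R p : ℕ) (a b : Fin (R + 1)) (h : |((a : ℕ) : ℤ) - ((b : ℕ) : ℤ)| = 1) :
    |fD R p a - fD R p b| ≤ Real.sqrt (2 / R) * (Real.pi * p / R) := by
  have hX := abs_cases (((a : ℕ) : ℤ) - ((b : ℕ) : ℤ))
  rcases (by omega : (a : ℕ) = (b : ℕ) + 1 ∨ (b : ℕ) = (a : ℕ) + 1) with h1 | h1
  · rw [h1]
    exact fD_succ_sub R p b
  · rw [h1, abs_sub_comm]
    exact fD_succ_sub R p a

lemma cAdj_cases {Q : ℕ} {x y : CubeS Q} (h : cAdj x y) :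
    (|((x.1 : ℕ) : ℤ) - ((y.1 : ℕ) : ℤ)| = 1 ∧ x.2.1 = y.2.1 ∧ x.2.2 = y.2.2)
    ∨ (x.1 = y.1 ∧ |((x.2.1 : ℕ) : ℤ) - ((y.2.1 : ℕ) : ℤ)| = 1 ∧ x.2.2 = y.2.2)
    ∨ (x.1 = y.1 ∧ x.2.1 = y.2.1 ∧ |((x.2.2 : ℕ) : ℤ) - ((y.2.2 : ℕ) : ℤ)| = 1) := by
  have h' : |((x.1 : ℕ) : ℤ) - ((y.1 : ℕ) : ℤ)| + |((x.2.1 : ℕ) : ℤ) - ((y.2.1 : ℕ) : ℤ)|
      + |((x.2.2 : ℕ) : ℤ) - ((y.2.2 : ℕ) : ℤ)| = 1 := h
  have hX := abs_cases (((x.1 : ℕ) : ℤ) - ((y.1 : ℕ) : ℤ))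
  have hY := abs_cases (((x.2.1 : ℕ) : ℤ) - ((y.2.1 : ℕ) : ℤ))
  have hZ := abs_cases (((x.2.2 : ℕ) : ℤ) - ((y.2.2 : ℕ) : ℤ))
  simp only [Fin.ext_iff]
  omega

lemma uD_grad (hQ : 0 < Q₀) (q : C3 Q₀) {x y : CubeS (R + 1)} (h : cAdj x y) :
    |uD R q x - uD R q y| ≤ Real.sqrt (2 / R) ^ 3 * (Real.pi * Q₀ / R) := by
  have h0 := Real.sqrt_nonneg (2 / (R : ℝ))
  have hp : ∀ i : Fin Q₀, Real.pi * (((i : ℕ) + 1 : ℕ) : ℝ) / R ≤ Real.pi * Q₀ / R := fun i => by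
    apply div_le_div_of_nonneg_right _ (Nat.cast_nonneg _)
    apply mul_le_mul_of_nonneg_left _ Real.pi_pos.le
    exact_mod_cast i.2
  have hstep : ∀ (i : Fin Q₀) (a b : Fin (R + 1)), |((a : ℕ) : ℤ) - ((b : ℕ) : ℤ)| = 1 →
      |fD R ((i : ℕ) + 1) a - fD R ((i : ℕ) + 1) b| ≤ Real.sqrt (2 / R) * (Real.pi * Q₀ / R) :=
    fun i a b hab => (fD_step R _ a b hab).trans (mul_le_mul_of_nonneg_left (hp i) h0)
  have hb : ∀ (i : Fin Q₀) (a : Fin (R + 1)), |fD R ((i : ℕ) + 1) a| ≤ Real.sqrt (2 / R) :=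
    fun i a => fD_abs_le _ _ _
  have hg : 0 ≤ Real.pi * Q₀ / R := by positivity
  rcases x with ⟨x1, x2, x3⟩
  rcases y with ⟨y1, y2, y3⟩
  rcases cAdj_cases h with ⟨h1, h2, h3⟩ | ⟨h1, h2, h3⟩ | ⟨h1, h2, h3⟩
  · simp only at h1 h2 h3
    subst h2 h3
    unfold uD
    simp only
    have : fD R ((q.1 : ℕ) + 1) x1 * fD R ((q.2.1 : ℕ) + 1) x2 * fD R ((q.2.2 : ℕ) + 1) x3
        - fD R ((q.1 : ℕ) + 1) y1 * fD R ((q.2.1 : ℕ) + 1) x2 * fD R ((q.2.2 : ℕ) + 1) x3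
        = (fD R ((q.1 : ℕ) + 1) x1 - fD R ((q.1 : ℕ) + 1) y1) * fD R ((q.2.1 : ℕ) + 1) x2
          * fD R ((q.2.2 : ℕ) + 1) x3 := by ring
    rw [this, abs_mul, abs_mul]
    calc _ ≤ (Real.sqrt (2 / R) * (Real.pi * Q₀ / R)) * Real.sqrt (2 / R) * Real.sqrt (2 / R) :=
          mul_le_mul (mul_le_mul (hstep _ _ _ h1) (hb _ _) (abs_nonneg _) (by positivity)) (hb _ _)
            (abs_nonneg _) (by positivity)
      _ = _ := by ring
  · simp only at h1 h2 h3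
    subst h1 h3
    unfold uD
    simp only
    have : fD R ((q.1 : ℕ) + 1) x1 * fD R ((q.2.1 : ℕ) + 1) x2 * fD R ((q.2.2 : ℕ) + 1) x3
        - fD R ((q.1 : ℕ) + 1) x1 * fD R ((q.2.1 : ℕ) + 1) y2 * fD R ((q.2.2 : ℕ) + 1) x3
        = fD R ((q.1 : ℕ) + 1) x1 * (fD R ((q.2.1 : ℕ) + 1) x2 - fD R ((q.2.1 : ℕ) + 1) y2)
          * fD R ((q.2.2 : ℕ) + 1) x3 := by ring
    rw [this, abs_mul, abs_mul]
    calc _ ≤ Real.sqrt (2 / R) * (Real.sqrt (2 / R) * (Real.pi * Q₀ / R)) * Real.sqrt (2 / R) :=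
          mul_le_mul (mul_le_mul (hb _ _) (hstep _ _ _ h2) (abs_nonneg _) (by positivity)) (hb _ _)
            (abs_nonneg _) (by positivity)
      _ = _ := by ring
  · simp only at h1 h2 h3
    subst h1 h2
    unfold uD
    simp only
    have : fD R ((q.1 : ℕ) + 1) x1 * fD R ((q.2.1 : ℕ) + 1) x2 * fD R ((q.2.2 : ℕ) + 1) x3
        - fD R ((q.1 : ℕ) + 1) x1 * fD R ((q.2.1 : ℕ) + 1) x2 * fD R ((q.2.2 : ℕ) + 1) y3
        = fD R ((q.1 : ℕ) + 1) x1 * fD R ((q.2.1 : ℕ) + 1) x2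
          * (fD R ((q.2.2 : ℕ) + 1) x3 - fD R ((q.2.2 : ℕ) + 1) y3) := by ring
    rw [this, abs_mul, abs_mul]
    calc _ ≤ Real.sqrt (2 / R) * Real.sqrt (2 / R) * (Real.sqrt (2 / R) * (Real.pi * Q₀ / R)) :=
          mul_le_mul (mul_le_mul (hb _ _) (hb _ _) (abs_nonneg _) (by positivity)) (hstep _ _ _ h3)
            (abs_nonneg _) (by positivity)
      _ = _ := by ring

/-- The number of neighbours on a path. -/
lemma path_deg {Q : ℕ} (t : Fin Q) :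
    (Finset.univ.filter fun a : Fin Q => |((a : ℕ) : ℤ) - ((t : ℕ) : ℤ)| = 1).card ≤ 2 := by
  have hsub : (Finset.univ.filter fun a : Fin Q => |((a : ℕ) : ℤ) - ((t : ℕ) : ℤ)| = 1).image
      (fun a : Fin Q => ((a : ℕ) : ℤ)) ⊆ {((t : ℕ) : ℤ) - 1, ((t : ℕ) : ℤ) + 1} := by
    intro z hz
    rw [Finset.mem_image] at hz
    obtain ⟨a, ha, rfl⟩ := hz
    rw [Finset.mem_filter] at ha
    have hX := abs_cases (((a : ℕ) : ℤ) - ((t : ℕ) : ℤ))
    rw [Finset.mem_insert, Finset.mem_singleton]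
    omega
  have h1 := Finset.card_le_card hsub
  rw [Finset.card_image_of_injective _ (fun a b hab => Fin.ext (by exact_mod_cast hab))] at h1
  exact h1.trans Finset.card_le_two

lemma cAdj_deg {Q : ℕ} (y : CubeS Q) : (Finset.univ.filter fun x : CubeS Q => cAdj x y).card ≤ 6 := by
  have hsub : (Finset.univ.filter fun x : CubeS Q => cAdj x y)
      ⊆ ((Finset.univ.filter fun a : Fin Q => |((a : ℕ) : ℤ) - ((y.1 : ℕ) : ℤ)| = 1).image
            fun a => (a, y.2.1, y.2.2))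
        ∪ ((Finset.univ.filter fun a : Fin Q => |((a : ℕ) : ℤ) - ((y.2.1 : ℕ) : ℤ)| = 1).image
            fun a => (y.1, a, y.2.2))
        ∪ ((Finset.univ.filter fun a : Fin Q => |((a : ℕ) : ℤ) - ((y.2.2 : ℕ) : ℤ)| = 1).image
            fun a => (y.1, y.2.1, a)) := by
    intro x hx
    rw [Finset.mem_filter] at hx
    rw [Finset.mem_union, Finset.mem_union, Finset.mem_image, Finset.mem_image, Finset.mem_image]
    rcases cAdj_cases hx.2 with ⟨h1, h2, h3⟩ | ⟨h1, h2, h3⟩ | ⟨h1, h2, h3⟩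
    · left; left
      exact ⟨x.1, by simp [h1], Prod.ext rfl (Prod.ext h2.symm h3.symm)⟩
    · left; right
      exact ⟨x.2.1, by simp [h2], Prod.ext h1.symm (Prod.ext rfl h3.symm)⟩
    · right
      exact ⟨x.2.2, by simp [h3], Prod.ext h1.symm (Prod.ext h2.symm rfl)⟩
  refine (Finset.card_le_card hsub).trans ?_
  refine (Finset.card_union_le _ _).trans ?_
  have h1 := (Finset.card_image_le (s := Finset.univ.filter fun a : Fin Q => |((a : ℕ) : ℤ) - ((y.1 : ℕ) : ℤ)| = 1)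
    (f := fun a => ((a, y.2.1, y.2.2) : CubeS Q))).trans (path_deg y.1)
  have h2 := (Finset.card_image_le (s := Finset.univ.filter fun a : Fin Q => |((a : ℕ) : ℤ) - ((y.2.1 : ℕ) : ℤ)| = 1)
    (f := fun a => ((y.1, a, y.2.2) : CubeS Q))).trans (path_deg y.2.1)
  have h3 := (Finset.card_image_le (s := Finset.univ.filter fun a : Fin Q => |((a : ℕ) : ℤ) - ((y.2.2 : ℕ) : ℤ)| = 1)
    (f := fun a => ((y.1, y.2.1, a) : CubeS Q))).trans (path_deg y.2.2)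
  have h4 := Finset.card_union_le
    ((Finset.univ.filter fun a : Fin Q => |((a : ℕ) : ℤ) - ((y.1 : ℕ) : ℤ)| = 1).image
            fun a => ((a, y.2.1, y.2.2) : CubeS Q))
    ((Finset.univ.filter fun a : Fin Q => |((a : ℕ) : ℤ) - ((y.2.1 : ℕ) : ℤ)| = 1).image
            fun a => ((y.1, a, y.2.2) : CubeS Q))
  omega


end Vale.Agent.P361Lib
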