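import Vale.Agent.Lib.P361.Fine

/-!
# The magnon operators: commutators and norm bounds
-/

open Matrix Finset
open scoped MatrixOrder ComplexOrder

noncomputable section

namespace Vale.Agent.P361Lib

variable {X : Type} [Fintype X] [DecidableEq X] {n : ℕ}

lemma siteM_comm (x y : X) : Commute (siteOp x (spinM n) : Op X n) (siteOp y (spinM n)) := by
  by_cases h : x = y
  · subst h
    exact Commute.refl _
  · exact siteOp_commute h _ _

lemma magnon_commute (u v : X → ℝ) : Commute (magnon u : Op X n) (magnon v) := by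
  unfold magnon
  exact Commute.sum_left _ _ _ fun x _ => Commute.sum_right _ _ _ fun y _ =>
    ((siteM_comm x y).smul_left _).smul_right _

/-- The correction to the canonical commutation relations. -/
def Wop (u v : X → ℝ) : Op X n := ∑ z, ((2 / n * (u z * v z) : ℝ) : ℂ) • siteOp z (devD n)

lemma site_comm_PM (z : X) :
    (siteOp z (spinP n) : Op X n) * siteOp z (spinM n) - siteOp z (spinM n) * siteOp z (spinP n)
      = (n : ℂ) • (1 : Op X n) - (2 : ℂ) • siteOp z (devD n) := by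
  rw [siteOp_mul_same, siteOp_mul_same, ← siteOp_sub, spin_comm_PM, spinZ_eq_half_sub_D, siteOp_smul,
    siteOp_sub, siteOp_smul, siteOp_one, smul_sub, smul_smul]
  congr 2
  ring

lemma sum_comm_expand {R : Type} [Ring R] (A B : X → R) :
    (∑ z, A z) * (∑ w, B w) - (∑ w, B w) * (∑ z, A z) = ∑ z, ∑ w, (A z * B w - B w * A z) := by
  simp only [Finset.sum_mul, Finset.mul_sum, Finset.sum_sub_distrib]
  rw [Finset.sum_comm (f := fun x y => A y * B x)]

/-- The commutator of a magnon annihilation and creation operator. -/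
theorem magnon_adj_comm (hn : 1 ≤ n) (u v : X → ℝ) :
    (magnon u : Op X n)ᴴ * magnon v - magnon v * (magnon u)ᴴ
      = ((∑ z, u z * v z : ℝ) : ℂ) • (1 : Op X n) - Wop u v := by
  have hn' : (n : ℝ) ≠ 0 := by
    have : (1 : ℝ) ≤ n := by exact_mod_cast hn
    linarith
  have hs : Real.sqrt n * Real.sqrt n = n := Real.mul_self_sqrt (by positivity)
  have hs0 : Real.sqrt n ≠ 0 := by
    intro h
    rw [h] at hs
    simp at hs
    exact hn' hs.symm
  rw [magnon_conjTranspose]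
  unfold magnon Wop
  rw [sum_comm_expand]
  have key : ∀ z : X, ∑ w, (((u z / Real.sqrt n : ℝ) : ℂ) • (siteOp z (spinP n) : Op X n)
        * (((v w / Real.sqrt n : ℝ) : ℂ) • (siteOp w (spinM n) : Op X n))
        - ((v w / Real.sqrt n : ℝ) : ℂ) • (siteOp w (spinM n) : Op X n)
          * (((u z / Real.sqrt n : ℝ) : ℂ) • (siteOp z (spinP n) : Op X n)))
      = ((u z * v z : ℝ) : ℂ) • (1 : Op X n) - ((2 / n * (u z * v z) : ℝ) : ℂ) • siteOp z (devD n) := by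
    intro z
    rw [Finset.sum_eq_single z]
    · simp only [smul_mul_assoc, mul_smul_comm]
      rw [smul_comm ((v z / Real.sqrt n : ℝ) : ℂ), ← smul_sub, ← smul_sub, site_comm_PM, smul_sub,
        smul_sub, smul_smul, smul_smul, smul_smul, smul_smul]
      have e1 : ((u z / Real.sqrt n : ℝ) : ℂ) * ((v z / Real.sqrt n : ℝ) : ℂ) * (n : ℂ)
          = ((u z * v z : ℝ) : ℂ) := by
        rw [← Complex.ofReal_natCast, ← Complex.ofReal_mul, ← Complex.ofReal_mul]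
        congr 1
        field_simp
        rw [Real.sq_sqrt (by positivity)]
        ring
      have e2 : ((u z / Real.sqrt n : ℝ) : ℂ) * ((v z / Real.sqrt n : ℝ) : ℂ) * 2
          = ((2 / n * (u z * v z) : ℝ) : ℂ) := by
        have : ((2 : ℝ) : ℂ) = 2 := by norm_num
        rw [← this, ← Complex.ofReal_mul, ← Complex.ofReal_mul]
        congr 1
        field_simp
        rw [Real.sq_sqrt (by positivity)]
        ring
      rw [e1, e2]
    · intro w _ hw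
      have hc : (siteOp z (spinP n) : Op X n) * siteOp w (spinM n) = siteOp w (spinM n) * siteOp z (spinP n) :=
        (siteOp_commute (Ne.symm hw) _ _).eq
      simp only [smul_mul_assoc, mul_smul_comm]
      rw [hc, smul_comm ((v w / Real.sqrt n : ℝ) : ℂ), sub_self]
    · intro h
      exact absurd (Finset.mem_univ z) h
  rw [Finset.sum_congr rfl fun z _ => key z, Finset.sum_sub_distrib, ← Finset.sum_smul]
  push_cast
  rfl

/-! ### Sectors -/

/-- Vectors with at most `K` deviations. -/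
def SecLE (K : ℕ) (ψ : Cfg X n → ℂ) : Prop :=
  ∀ σ : Cfg X n, K < devCount (Finset.univ : Finset X) σ → ψ σ = 0

lemma InSec.secLE {K : ℕ} {ψ : Cfg X n → ℂ} (h : InSec K ψ) : SecLE K ψ := fun σ hσ => h σ hσ.ne'

lemma SecLE.mono {K K' : ℕ} {ψ : Cfg X n → ℂ} (h : SecLE K ψ) (hK : K ≤ K') : SecLE K' ψ :=
  fun σ hσ => h σ (lt_of_le_of_lt hK hσ)

lemma SecLE.add {K : ℕ} {ψ χ : Cfg X n → ℂ} (h : SecLE K ψ) (h' : SecLE K χ) : SecLE K (ψ + χ) := by
  intro σ hσ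
  simp [h σ hσ, h' σ hσ]

lemma SecLE.sub {K : ℕ} {ψ χ : Cfg X n → ℂ} (h : SecLE K ψ) (h' : SecLE K χ) : SecLE K (ψ - χ) := by
  intro σ hσ
  simp [h σ hσ, h' σ hσ]

lemma SecLE.smul {K : ℕ} {ψ : Cfg X n → ℂ} (h : SecLE K ψ) (c : ℂ) : SecLE K (c • ψ) := by
  intro σ hσ
  simp [h σ hσ]

lemma secLE_zero (K : ℕ) : SecLE K (0 : Cfg X n → ℂ) := fun _ _ => rfl

lemma SecLE.sum {K : ℕ} {ι : Type} (s : Finset ι) {f : ι → Cfg X n → ℂ} (h : ∀ i ∈ s, SecLE K (f i)) :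
    SecLE K (∑ i ∈ s, f i) := by
  intro σ hσ
  rw [Finset.sum_apply]
  exact Finset.sum_eq_zero fun i hi => h i hi σ hσ

lemma InSec.add {K : ℕ} {ψ χ : Cfg X n → ℂ} (h : InSec K ψ) (h' : InSec K χ) : InSec K (ψ + χ) := by
  intro σ hσ
  simp [h σ hσ, h' σ hσ]

lemma InSec.smul {K : ℕ} {ψ : Cfg X n → ℂ} (h : InSec K ψ) (c : ℂ) : InSec K (c • ψ) := by
  intro σ hσ
  simp [h σ hσ]

lemma inSec_zero (K : ℕ) : InSec K (0 : Cfg X n → ℂ) := fun _ _ => rfl

lemma InSec.sum {K : ℕ} {ι : Type} (s : Finset ι) {f : ι → Cfg X n → ℂ} (h : ∀ i ∈ s, InSec K (f i)) :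
    InSec K (∑ i ∈ s, f i) := by
  intro σ hσ
  rw [Finset.sum_apply]
  exact Finset.sum_eq_zero fun i hi => h i hi σ hσ

lemma spinM_raise : ∀ i j : Fin (n + 1), spinM n i j ≠ 0 → (i : ℕ) = (j : ℕ) + 1 := by
  intro i j h
  unfold spinM at h
  rw [Matrix.conjTranspose_apply, spinP_apply] at h
  by_contra hne
  apply h
  rw [if_neg hne, star_zero]

lemma site_raise {a : SMat n} (ha : ∀ i j : Fin (n + 1), a i j ≠ 0 → (i : ℕ) = (j : ℕ) + 1) (x : X)
    {K : ℕ} {ψ : Cfg X n → ℂ} (h : InSec K ψ) : InSec (K + 1) (siteOp x a *ᵥ ψ) := by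
  intro σ hσ
  rw [siteOp_mulVec_apply]
  refine Finset.sum_eq_zero fun i _ => ?_
  by_cases hi : a (σ x) i = 0
  · rw [hi, zero_mul]
  · have h1 := ha _ _ hi
    have h2 := devCount_update σ x i
    rw [h _ (by omega), mul_zero]

lemma site_lowerS {a : SMat n} (ha : ∀ i j : Fin (n + 1), a i j ≠ 0 → (i : ℕ) ≤ (j : ℕ)) (x : X)
    {K : ℕ} {ψ : Cfg X n → ℂ} (h : SecLE K ψ) : SecLE K (siteOp x a *ᵥ ψ) := by
  intro σ hσ
  rw [siteOp_mulVec_apply]
  refine Finset.sum_eq_zero fun i _ => ?_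
  by_cases hi : a (σ x) i = 0
  · rw [hi, zero_mul]
  · have h1 := ha _ _ hi
    have h2 := devCount_update σ x i
    rw [h _ (by omega), mul_zero]

lemma site_raiseS {a : SMat n} (ha : ∀ i j : Fin (n + 1), a i j ≠ 0 → (i : ℕ) ≤ (j : ℕ) + 1) (x : X)
    {K : ℕ} {ψ : Cfg X n → ℂ} (h : SecLE K ψ) : SecLE (K + 1) (siteOp x a *ᵥ ψ) := by
  intro σ hσ
  rw [siteOp_mulVec_apply]
  refine Finset.sum_eq_zero fun i _ => ?_
  by_cases hi : a (σ x) i = 0
  · rw [hi, zero_mul]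
  · have h1 := ha _ _ hi
    have h2 := devCount_update σ x i
    rw [h _ (by omega), mul_zero]

lemma magnon_mulVec (u : X → ℝ) (ψ : Cfg X n → ℂ) :
    (magnon u : Op X n) *ᵥ ψ = ∑ z, ((u z / Real.sqrt n : ℝ) : ℂ) • (siteOp z (spinM n) *ᵥ ψ) := by
  unfold magnon
  rw [Matrix.sum_mulVec]
  simp only [Matrix.smul_mulVec]

lemma magnon_inSec (u : X → ℝ) {K : ℕ} {ψ : Cfg X n → ℂ} (h : InSec K ψ) :
    InSec (K + 1) ((magnon u : Op X n) *ᵥ ψ) := by
  rw [magnon_mulVec]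
  exact InSec.sum _ fun z _ => (site_raise spinM_raise z h).smul _

lemma magnon_secLE (u : X → ℝ) {K : ℕ} {ψ : Cfg X n → ℂ} (h : SecLE K ψ) :
    SecLE (K + 1) ((magnon u : Op X n) *ᵥ ψ) := by
  rw [magnon_mulVec]
  exact SecLE.sum _ fun z _ => (site_raiseS (fun i j hij => (spinM_raise i j hij).le) z h).smul _

lemma magnonH_mulVec (u : X → ℝ) (ψ : Cfg X n → ℂ) :
    (magnon u : Op X n)ᴴ *ᵥ ψ = ∑ z, ((u z / Real.sqrt n : ℝ) : ℂ) • (siteOp z (spinP n) *ᵥ ψ) := by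
  rw [magnon_conjTranspose, Matrix.sum_mulVec]
  simp only [Matrix.smul_mulVec]

lemma magnonH_secLE (u : X → ℝ) {K : ℕ} {ψ : Cfg X n → ℂ} (h : SecLE K ψ) :
    SecLE K ((magnon u : Op X n)ᴴ *ᵥ ψ) := by
  rw [magnonH_mulVec]
  refine SecLE.sum _ fun z _ => (site_lowerS (fun i j hij => ?_) z h).smul _
  have := spinP_lower i j hij
  omega

/-! ### Norm bounds -/

/-- Cauchy-Schwarz for a linear combination of vectors. -/
lemma nrm_sum_smul_le {ι : Type} (s : Finset ι) (α : ι → ℝ) (w : ι → Cfg X n → ℂ) :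
    nrm (∑ i ∈ s, ((α i : ℝ) : ℂ) • w i) ≤ (∑ i ∈ s, α i ^ 2) * ∑ i ∈ s, nrm (w i) := by
  simp only [nrm_apply_sum]
  rw [Finset.sum_comm, Finset.mul_sum]
  refine Finset.sum_le_sum fun σ _ => ?_
  rw [Finset.sum_apply]
  simp only [Pi.smul_apply, smul_eq_mul]
  have h1 : ‖∑ i ∈ s, ((α i : ℝ) : ℂ) * w i σ‖ ≤ ∑ i ∈ s, |α i| * ‖w i σ‖ := by
    refine (norm_sum_le _ _).trans (le_of_eq ?_)
    refine Finset.sum_congr rfl fun i _ => ?_
    rw [norm_mul, Complex.norm_real, Real.norm_eq_abs]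
  have h2 := Finset.sum_mul_sq_le_sq_mul_sq s (fun i => |α i|) (fun i => ‖w i σ‖)
  simp only [sq_abs] at h2
  rw [Complex.normSq_eq_norm_sq]
  have h3 : ‖∑ i ∈ s, ((α i : ℝ) : ℂ) * w i σ‖ ^ 2 ≤ (∑ i ∈ s, |α i| * ‖w i σ‖) ^ 2 :=
    pow_le_pow_left₀ (norm_nonneg _) h1 2
  refine h3.trans (h2.trans (le_of_eq ?_))
  congr 1
  refine Finset.sum_congr rfl fun i _ => ?_
  rw [Complex.normSq_eq_norm_sq]

lemma qf_devTotal_le {K : ℕ} {ψ : Cfg X n → ℂ} (h : SecLE K ψ) :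
    qf (totalOp (Finset.univ : Finset X) (devD n) : Op X n) ψ ≤ (K : ℝ) * nrm ψ := by
  rw [totalOp_devD_rdiag, qf_rdiag, nrm_apply_sum]
  unfold wnsq
  rw [Finset.mul_sum]
  refine Finset.sum_le_sum fun σ _ => ?_
  by_cases hσ : K < devCount (Finset.univ : Finset X) σ
  · rw [h σ hσ]
    simp
  · push Not at hσ
    refine mul_le_mul_of_nonneg_right ?_ (Complex.normSq_nonneg _)
    show ((devCount (Finset.univ : Finset X) σ : ℕ) : ℝ) ≤ K
    exact_mod_cast hσ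

lemma sum_nrm_bosB_le {K : ℕ} {ψ : Cfg X n → ℂ} (h : SecLE K ψ) :
    ∑ x : X, nrm (siteOp x (bosB n) *ᵥ ψ) ≤ (K : ℝ) * nrm ψ := by
  simp only [nrm_bosB]
  rw [← qf_sum]
  exact qf_devTotal_le h

lemma nrm_site_bosA (x : X) (φ : Cfg X n → ℂ) :
    nrm (siteOp x (bosA n) *ᵥ φ) ≤ (n : ℝ) * nrm φ := by
  unfold bosA
  rw [siteOp_diagonal]
  simp only [nrm_apply_sum, Finset.mul_sum]
  refine Finset.sum_le_sum fun σ _ => ?_
  rw [Matrix.mulVec_diagonal, Complex.normSq_mul, Complex.normSq_ofReal]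
  refine mul_le_mul_of_nonneg_right ?_ (Complex.normSq_nonneg _)
  have h1 := fin_sub_nonneg (σ x)
  rw [Real.mul_self_sqrt h1]
  have : (0 : ℝ) ≤ (σ x : ℕ) := by positivity
  linarith

lemma nrm_site_spinP (x : X) (φ : Cfg X n → ℂ) :
    nrm (siteOp x (spinP n) *ᵥ φ) ≤ (n : ℝ) * nrm (siteOp x (bosB n) *ᵥ φ) := by
  rw [← bosA_mul_bosB, ← siteOp_mul_same, ← Matrix.mulVec_mulVec]
  exact nrm_site_bosA x _

/-- The annihilation operator on a sector. -/
theorem nrm_magnonH_le (hn : 1 ≤ n) (u : X → ℝ) {K : ℕ} {ψ : Cfg X n → ℂ} (h : SecLE K ψ) :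
    nrm ((magnon u : Op X n)ᴴ *ᵥ ψ) ≤ (∑ z, u z ^ 2) * ((K : ℝ) * nrm ψ) := by
  have hn' : (0 : ℝ) < n := by exact_mod_cast hn
  rw [magnonH_mulVec]
  refine (nrm_sum_smul_le _ _ _).trans ?_
  have e : ∑ z, (u z / Real.sqrt n) ^ 2 = (∑ z, u z ^ 2) / n := by
    rw [Finset.sum_div]
    refine Finset.sum_congr rfl fun z _ => ?_
    rw [div_pow, Real.sq_sqrt hn'.le]
  rw [e]
  have h1 : ∑ z, nrm (siteOp z (spinP n) *ᵥ ψ) ≤ (n : ℝ) * ((K : ℝ) * nrm ψ) := by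
    have h2 : ∑ z, nrm (siteOp z (spinP n) *ᵥ ψ) ≤ ∑ z, (n : ℝ) * nrm (siteOp z (bosB n) *ᵥ ψ) :=
      Finset.sum_le_sum fun z _ => nrm_site_spinP z ψ
    rw [← Finset.mul_sum] at h2
    exact h2.trans (mul_le_mul_of_nonneg_left (sum_nrm_bosB_le h) hn'.le)
  have h3 : 0 ≤ (∑ z, u z ^ 2) / (n : ℝ) := by positivity
  refine (mul_le_mul_of_nonneg_left h1 h3).trans (le_of_eq ?_)
  field_simp

lemma qf_site_devD_nonneg (z : X) (ψ : Cfg X n → ℂ) : 0 ≤ qf (siteOp z (devD n) : Op X n) ψ := by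
  rw [← nrm_bosB, nrm_eq_vnsq]
  exact vnsq_nonneg _

lemma qf_Wop_self_nonneg (hn : 1 ≤ n) (u : X → ℝ) (ψ : Cfg X n → ℂ) :
    0 ≤ qf (Wop u u : Op X n) ψ := by
  unfold Wop
  rw [qf_sum]
  refine Finset.sum_nonneg fun z _ => ?_
  rw [qf_csmul]
  have hn' : (0 : ℝ) < n := by exact_mod_cast hn
  have : 0 ≤ 2 / (n : ℝ) * (u z * u z) := mul_nonneg (by positivity) (mul_self_nonneg _)
  exact mul_nonneg this (qf_site_devD_nonneg z ψ)

lemma nrm_nonneg' (ψ : Cfg X n → ℂ) : 0 ≤ nrm ψ := by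
  rw [nrm_eq_vnsq]
  exact vnsq_nonneg _

/-- The creation operator on a sector. -/
theorem nrm_magnon_le (hn : 1 ≤ n) (u : X → ℝ) {K : ℕ} {ψ : Cfg X n → ℂ} (h : SecLE K ψ) :
    nrm ((magnon u : Op X n) *ᵥ ψ) ≤ (∑ z, u z ^ 2) * (((K : ℝ) + 1) * nrm ψ) := by
  have hc := magnon_adj_comm hn u u
  have e : (magnon u : Op X n)ᴴ * magnon u = magnon u * (magnon u)ᴴ
      + ((∑ z, u z * u z : ℝ) : ℂ) • (1 : Op X n) - Wop u u := by
    rw [add_sub_assoc, ← hc]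
    abel
  rw [nrm_mulVec, e, qf_sub, qf_add, qf_smul_one]
  have h1 : qf ((magnon u : Op X n) * (magnon u)ᴴ) ψ = nrm ((magnon u : Op X n)ᴴ *ᵥ ψ) := by
    rw [nrm_mulVec, Matrix.conjTranspose_conjTranspose]
  rw [h1]
  have h2 := nrm_magnonH_le hn u h
  have h3 := qf_Wop_self_nonneg hn u ψ
  have e2 : ∑ z, u z * u z = ∑ z, u z ^ 2 := Finset.sum_congr rfl fun z _ => (sq (u z)).symm
  rw [e2, ← nrm_eq_vnsq]
  nlinarith

/-- The action of the correction term. -/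
lemma Wop_apply (u v : X → ℝ) (ψ : Cfg X n → ℂ) (σ : Cfg X n) :
    ((Wop u v : Op X n) *ᵥ ψ) σ = ((∑ z, 2 / n * (u z * v z) * ((σ z : ℕ) : ℝ) : ℝ) : ℂ) * ψ σ := by
  unfold Wop
  rw [Matrix.sum_mulVec, Finset.sum_apply]
  push_cast
  rw [Finset.sum_mul]
  refine Finset.sum_congr rfl fun z _ => ?_
  rw [Matrix.smul_mulVec, Pi.smul_apply, smul_eq_mul]
  unfold devD
  rw [siteOp_diagonal, Matrix.mulVec_diagonal]
  push_cast
  ring

/-- The bound for the correction term. -/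
theorem nrm_Wop_le (hn : 1 ≤ n) {u v : X → ℝ} {M : ℝ} (hM0 : 0 ≤ M) (hM : ∀ z, |u z * v z| ≤ M) {K : ℕ}
    {ψ : Cfg X n → ℂ} (h : SecLE K ψ) :
    nrm ((Wop u v : Op X n) *ᵥ ψ) ≤ (2 / n * M * K) ^ 2 * nrm ψ := by
  have hn' : (0 : ℝ) < n := by exact_mod_cast hn
  simp only [nrm_apply_sum, Finset.mul_sum]
  refine Finset.sum_le_sum fun σ _ => ?_
  rw [Wop_apply, Complex.normSq_mul, Complex.normSq_ofReal]
  by_cases hσ : K < devCount (Finset.univ : Finset X) σ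
  · rw [h σ hσ]
    simp
  · push Not at hσ
    refine mul_le_mul_of_nonneg_right ?_ (Complex.normSq_nonneg _)
    have h1 : |∑ z, 2 / n * (u z * v z) * ((σ z : ℕ) : ℝ)| ≤ 2 / n * M * K := by
      refine (Finset.abs_sum_le_sum_abs _ _).trans ?_
      have h2 : ∀ z ∈ (Finset.univ : Finset X), |2 / (n : ℝ) * (u z * v z) * ((σ z : ℕ) : ℝ)|
          ≤ 2 / n * M * ((σ z : ℕ) : ℝ) := by
        intro z _
        rw [abs_mul, abs_mul, abs_of_pos (show (0 : ℝ) < 2 / n by positivity),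
          abs_of_nonneg (show (0 : ℝ) ≤ ((σ z : ℕ) : ℝ) by positivity)]
        refine mul_le_mul_of_nonneg_right ?_ (by positivity)
        exact mul_le_mul_of_nonneg_left (hM z) (by positivity)
      refine (Finset.sum_le_sum h2).trans ?_
      rw [← Finset.mul_sum]
      have h3 : ∑ z, ((σ z : ℕ) : ℝ) ≤ K := by
        have : ((devCount (Finset.univ : Finset X) σ : ℕ) : ℝ) ≤ K := by exact_mod_cast hσ
        unfold devCount at this
        push_cast at this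
        exact this
      exact mul_le_mul_of_nonneg_left h3 (mul_nonneg (by positivity) hM0)
    have h4 := sq_le_sq' (neg_le_of_abs_le h1) (le_of_abs_le h1)
    nlinarith

end Vale.Agent.P361Lib
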