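import Vale.Agent.Lib.P361.TraceMap

/-!
# A family of almost orthonormal approximate eigenvectors gives a lower bound on the trace
-/

open Matrix
open scoped MatrixOrder ComplexOrder

noncomputable section

namespace Vale.Agent.P361Lib

variable {Ω J : Type} [Fintype Ω] [DecidableEq Ω] [Fintype J] [DecidableEq J]

omit [DecidableEq Ω] in
lemma normSq_dot_le (u w : Ω → ℂ) : Complex.normSq (star u ⬝ᵥ w) ≤ vnsq u * vnsq w := by
  unfold vnsq dotProduct
  rw [Complex.normSq_eq_norm_sq]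
  have h1 : ‖∑ i, (star u) i * w i‖ ≤ ∑ i, ‖u i‖ * ‖w i‖ := by
    refine (norm_sum_le _ _).trans (le_of_eq ?_)
    refine Finset.sum_congr rfl fun i _ => ?_
    rw [norm_mul, Pi.star_apply, norm_star]
  have h2 := Finset.sum_mul_sq_le_sq_mul_sq Finset.univ (fun i => ‖u i‖) (fun i => ‖w i‖)
  have h3 : ‖∑ i, (star u) i * w i‖ ^ 2 ≤ (∑ i, ‖u i‖ * ‖w i‖) ^ 2 :=
    pow_le_pow_left₀ (norm_nonneg _) h1 2
  refine h3.trans (h2.trans (le_of_eq ?_))
  congr 1
  · exact Finset.sum_congr rfl fun i _ => (Complex.normSq_eq_norm_sq _).symm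
  · exact Finset.sum_congr rfl fun i _ => (Complex.normSq_eq_norm_sq _).symm

/-- The matrix whose columns are the trial vectors. -/
def trialS (v : J → Ω → ℂ) : Matrix Ω J ℂ := Matrix.of fun ω j => v j ω

omit [DecidableEq Ω] [DecidableEq J] in
lemma trialS_mulVec (v : J → Ω → ℂ) (c : J → ℂ) : trialS v *ᵥ c = ∑ j, c j • v j := by
  funext ω
  simp only [Matrix.mulVec, dotProduct, trialS, Matrix.of_apply, Finset.sum_apply, Pi.smul_apply, smul_eq_mul]
  exact Finset.sum_congr rfl fun j _ => mul_comm _ _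

omit [DecidableEq Ω] [DecidableEq J] in
lemma dot_trial (v : J → Ω → ℂ) (c : J → ℂ) (w : Ω → ℂ) :
    star (trialS v *ᵥ c) ⬝ᵥ w = ∑ i, star (c i) * (star (v i) ⬝ᵥ w) := by
  rw [trialS_mulVec, star_sum, sum_dotProduct]
  refine Finset.sum_congr rfl fun i _ => ?_
  rw [star_smul, smul_dotProduct, smul_eq_mul]

omit [DecidableEq J] in
lemma sum_norm_sq_le (c : J → ℂ) : (∑ j, ‖c j‖) ^ 2 ≤ (Fintype.card J : ℝ) * vnsq c := by
  have h := sq_sum_le_card_mul_sum_sq (s := (Finset.univ : Finset J)) (f := fun j => ‖c j‖)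
  refine h.trans (le_of_eq ?_)
  unfold vnsq
  rw [Finset.card_univ]
  congr 1
  exact Finset.sum_congr rfl fun i _ => (Complex.normSq_eq_norm_sq _).symm

/-- The quadratic form of a weighted Gram matrix. -/
lemma gram_form (v : J → Ω → ℂ) {a : ℝ} (ha : 0 ≤ a)
    (hG : ∀ i j, ‖star (v i) ⬝ᵥ v j - (if i = j then 1 else 0)‖ ≤ a) (c : J → ℂ) {E : J → ℝ} {Emax : ℝ}
    (hE0 : ∀ j, 0 ≤ E j) (hE1 : ∀ j, E j ≤ Emax) (hEmax : 0 ≤ Emax) :
    |(∑ j, ((E j : ℝ) : ℂ) * (c j * (star (trialS v *ᵥ c) ⬝ᵥ v j))).re - ∑ j, E j * Complex.normSq (c j)|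
      ≤ Emax * a * ((Fintype.card J : ℝ) * vnsq c) := by
  set A : J → J → ℂ := fun i j => star (v i) ⬝ᵥ v j - (if i = j then 1 else 0) with hA
  have e : (∑ j, ((E j : ℝ) : ℂ) * (c j * (star (trialS v *ᵥ c) ⬝ᵥ v j)))
      = ((∑ j, E j * Complex.normSq (c j) : ℝ) : ℂ)
        + ∑ j, ∑ i, ((E j : ℝ) : ℂ) * (c j * (star (c i) * A i j)) := by
    push_cast
    rw [← Finset.sum_add_distrib]
    refine Finset.sum_congr rfl fun j _ => ?_
    rw [dot_trial]
    have e1 : ∑ i, star (c i) * (star (v i) ⬝ᵥ v j)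
        = star (c j) + ∑ i, star (c i) * A i j := by
      have e2 : ∀ i, star (c i) * (star (v i) ⬝ᵥ v j)
          = star (c i) * (if i = j then 1 else 0) + star (c i) * A i j := by
        intro i
        simp only [hA]
        ring
      rw [Finset.sum_congr rfl fun i _ => e2 i, Finset.sum_add_distrib]
      congr 1
      simp
    rw [e1, mul_add, mul_add, Finset.mul_sum, Finset.mul_sum]
    congr 1
    rw [Complex.normSq_eq_conj_mul_self]
    simp only [RCLike.star_def, Complex.star_def]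
    ring
  rw [e, Complex.add_re, Complex.ofReal_re, add_sub_cancel_left]
  refine (Complex.abs_re_le_norm _).trans ?_
  have hb : ‖∑ j, ∑ i, ((E j : ℝ) : ℂ) * (c j * (star (c i) * A i j))‖
      ≤ ∑ j, ∑ i, Emax * a * (‖c j‖ * ‖c i‖) := by
    refine (norm_sum_le _ _).trans (Finset.sum_le_sum fun j _ => ?_)
    refine (norm_sum_le _ _).trans (Finset.sum_le_sum fun i _ => ?_)
    rw [norm_mul, norm_mul, norm_mul, norm_star, Complex.norm_real, Real.norm_eq_abs, abs_of_nonneg (hE0 j)]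
    have h1 : ‖A i j‖ ≤ a := hG i j
    have h2 : E j * (‖c j‖ * (‖c i‖ * ‖A i j‖)) ≤ Emax * (‖c j‖ * (‖c i‖ * a)) := by
      refine mul_le_mul (hE1 j) ?_ (by positivity) hEmax
      exact mul_le_mul_of_nonneg_left (mul_le_mul_of_nonneg_left h1 (norm_nonneg _)) (norm_nonneg _)
    refine h2.trans (le_of_eq ?_)
    ring
  refine hb.trans ?_
  have e3 : ∑ j, ∑ i, Emax * a * (‖c j‖ * ‖c i‖) = Emax * a * (∑ j, ‖c j‖) ^ 2 := by
    rw [sq, Finset.sum_mul_sum, Finset.mul_sum]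
    refine Finset.sum_congr rfl fun j _ => ?_
    rw [Finset.mul_sum]
  rw [e3]
  exact mul_le_mul_of_nonneg_left (sum_norm_sq_le c) (by positivity)

/-- The norm of a linear combination of almost orthonormal vectors. -/
lemma vnsq_trial (v : J → Ω → ℂ) {a : ℝ} (ha : 0 ≤ a)
    (hG : ∀ i j, ‖star (v i) ⬝ᵥ v j - (if i = j then 1 else 0)‖ ≤ a) (c : J → ℂ) :
    |vnsq (trialS v *ᵥ c) - vnsq c| ≤ a * ((Fintype.card J : ℝ) * vnsq c) := by
  have h := gram_form v ha hG c (E := fun _ => 1) (Emax := 1) (fun _ => zero_le_one) (fun _ => le_rfl)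
    zero_le_one
  simp only [Complex.ofReal_one, one_mul] at h
  have e : (∑ j, c j * (star (trialS v *ᵥ c) ⬝ᵥ v j)) = ((vnsq (trialS v *ᵥ c) : ℝ) : ℂ) := by
    rw [← vnsq_eq]
    conv_rhs => rw [trialS_mulVec v c]
    rw [dotProduct_sum]
    refine Finset.sum_congr rfl fun j _ => ?_
    rw [dotProduct_smul, smul_eq_mul]
    congr 2
    rw [trialS_mulVec]
  rw [e, Complex.ofReal_re] at h
  exact h

/-- The form bound for the compressed matrix. -/
lemma trial_form {B : Matrix Ω Ω ℂ} (v : J → Ω → ℂ) {a e Emax : ℝ} (ha : 0 ≤ a) (he : 0 < e)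
    (hEmax : 0 ≤ Emax) (hG : ∀ i j, ‖star (v i) ⬝ᵥ v j - (if i = j then 1 else 0)‖ ≤ a) {E : J → ℝ}
    (hE0 : ∀ j, 0 ≤ E j) (hE1 : ∀ j, E j ≤ Emax) (b ξ : J → Ω → ℂ)
    (hact : ∀ j, B *ᵥ v j = ((E j : ℝ) : ℂ) • v j + b j + ξ j)
    (hb : ∀ j c, star (trialS v *ᵥ c) ⬝ᵥ b j = 0)
    (hξ : ∀ j, vnsq (ξ j) ≤ e ^ 2) (hg : a * (Fintype.card J : ℝ) ≤ 1) (c : J → ℂ) :
    qf B (trialS v *ᵥ c)
      ≤ ∑ j, (E j + (Emax * a * (Fintype.card J : ℝ) + e * (1 / 2 + (Fintype.card J : ℝ))))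
          * Complex.normSq (c j) := by
  set ψ := trialS v *ᵥ c with hψ
  have hexp : star ψ ⬝ᵥ (B *ᵥ ψ)
      = (∑ j, ((E j : ℝ) : ℂ) * (c j * (star ψ ⬝ᵥ v j))) + ∑ j, c j * (star ψ ⬝ᵥ ξ j) := by
    rw [← Finset.sum_add_distrib]
    have hBψ : B *ᵥ ψ = ∑ j, c j • (B *ᵥ v j) := by
      rw [hψ, trialS_mulVec, Matrix.mulVec_sum]
      simp only [Matrix.mulVec_smul]
    rw [hBψ, dotProduct_sum]
    refine Finset.sum_congr rfl fun j _ => ?_
    rw [dotProduct_smul, smul_eq_mul, hact, dotProduct_add, dotProduct_add,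
      dotProduct_smul, smul_eq_mul, hb, add_zero]
    ring
  unfold qf
  rw [hexp, Complex.add_re]
  have h1 := gram_form v ha hG c hE0 hE1 hEmax
  rw [← hψ] at h1
  have h2 := (abs_le.mp h1).2
  have hcard : (0 : ℝ) ≤ (Fintype.card J : ℝ) := by positivity
  have hvc : 0 ≤ vnsq c := vnsq_nonneg c
  have hvψ : vnsq ψ ≤ 2 * vnsq c := by
    have h3 := (abs_le.mp (vnsq_trial v ha hG c)).2
    rw [← hψ] at h3
    have h4 : a * ((Fintype.card J : ℝ) * vnsq c) ≤ 1 * vnsq c := by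
      rw [← mul_assoc]
      exact mul_le_mul_of_nonneg_right hg hvc
    linarith
  have hterm : ∀ j, (c j * (star ψ ⬝ᵥ ξ j)).re ≤ e / 2 * (Complex.normSq (c j) + vnsq ψ) := by
    intro j
    refine (Complex.re_le_norm _).trans ?_
    rw [norm_mul]
    set w := star ψ ⬝ᵥ ξ j with hw
    have h5 : ‖w‖ ^ 2 ≤ vnsq ψ * e ^ 2 := by
      rw [← Complex.normSq_eq_norm_sq]
      exact (normSq_dot_le ψ (ξ j)).trans (mul_le_mul_of_nonneg_left (hξ j) (vnsq_nonneg ψ))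
    have h6 : Complex.normSq (c j) = ‖c j‖ ^ 2 := Complex.normSq_eq_norm_sq _
    rw [h6]
    have h7 : 0 ≤ (e * ‖c j‖ - ‖w‖) ^ 2 := sq_nonneg _
    have h8 : ‖c j‖ * ‖w‖ ≤ e / 2 * ‖c j‖ ^ 2 + ‖w‖ ^ 2 / (2 * e) := by
      rw [← sub_nonneg]
      have e9 : e / 2 * ‖c j‖ ^ 2 + ‖w‖ ^ 2 / (2 * e) - ‖c j‖ * ‖w‖ = (e * ‖c j‖ - ‖w‖) ^ 2 / (2 * e) := by
        field_simp
        ring
      rw [e9]
      positivity
    have h9 : ‖w‖ ^ 2 / (2 * e) ≤ e / 2 * vnsq ψ := by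
      rw [div_le_iff₀ (by positivity)]
      nlinarith
    nlinarith
  have hsum : (∑ j, c j * (star ψ ⬝ᵥ ξ j)).re ≤ e * (1 / 2 + (Fintype.card J : ℝ)) * vnsq c := by
    rw [Complex.re_sum]
    refine (Finset.sum_le_sum fun j _ => hterm j).trans ?_
    rw [← Finset.mul_sum, Finset.sum_add_distrib, Finset.sum_const, Finset.card_univ, nsmul_eq_mul]
    have e1 : ∑ j, Complex.normSq (c j) = vnsq c := rfl
    rw [e1]
    have h10 : (Fintype.card J : ℝ) * vnsq ψ ≤ (Fintype.card J : ℝ) * (2 * vnsq c) :=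
      mul_le_mul_of_nonneg_left hvψ hcard
    have h11 : e / 2 * (vnsq c + (Fintype.card J : ℝ) * vnsq ψ)
        ≤ e / 2 * (vnsq c + (Fintype.card J : ℝ) * (2 * vnsq c)) :=
      mul_le_mul_of_nonneg_left (by linarith) (by positivity)
    refine h11.trans (le_of_eq ?_)
    ring
  have hfinal : ∑ j, (E j + (Emax * a * (Fintype.card J : ℝ) + e * (1 / 2 + (Fintype.card J : ℝ))))
        * Complex.normSq (c j)
      = ∑ j, E j * Complex.normSq (c j)
        + (Emax * a * (Fintype.card J : ℝ) + e * (1 / 2 + (Fintype.card J : ℝ))) * vnsq c := by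
    unfold vnsq
    rw [Finset.mul_sum, ← Finset.sum_add_distrib]
    refine Finset.sum_congr rfl fun j _ => ?_
    ring
  rw [hfinal]
  have e2 : Emax * a * ((Fintype.card J : ℝ) * vnsq c) = Emax * a * (Fintype.card J : ℝ) * vnsq c := by ring
  rw [e2] at h2
  nlinarith

/-- The lower bound on the trace from a family of almost orthonormal approximate eigenvectors. -/
theorem trial_family {B : Matrix Ω Ω ℂ} (hB : B.IsHermitian) (v : J → Ω → ℂ) {a e Emax : ℝ} (ha : 0 ≤ a)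
    (he : 0 < e) (hEmax : 0 ≤ Emax) (hG : ∀ i j, ‖star (v i) ⬝ᵥ v j - (if i = j then 1 else 0)‖ ≤ a)
    {E : J → ℝ} (hE0 : ∀ j, 0 ≤ E j) (hE1 : ∀ j, E j ≤ Emax) (b ξ : J → Ω → ℂ)
    (hact : ∀ j, B *ᵥ v j = ((E j : ℝ) : ℂ) • v j + b j + ξ j)
    (hb : ∀ j c, star (trialS v *ᵥ c) ⬝ᵥ b j = 0)
    (hξ : ∀ j, vnsq (ξ j) ≤ e ^ 2) (hg : a * (Fintype.card J : ℝ) < 1) :
    ∃ Ψ : J → Ω → ℂ, (∀ i j, star (Ψ i) ⬝ᵥ Ψ j = if i = j then 1 else 0) ∧
      (∀ i, ∃ c : J → ℂ, Ψ i = trialS v *ᵥ c) ∧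
      ∑ j, Real.exp (-((E j + (Emax * a * (Fintype.card J : ℝ) + e * (1 / 2 + (Fintype.card J : ℝ))))
          / (1 - a * (Fintype.card J : ℝ))))
        ≤ ∑ i, Real.exp (-qf B (Ψ i)) := by
  set S := trialS v with hS
  set g : ℝ := 1 - a * (Fintype.card J : ℝ) with hgdef
  have hg0 : 0 < g := by linarith
  set δ : ℝ := Emax * a * (Fintype.card J : ℝ) + e * (1 / 2 + (Fintype.card J : ℝ)) with hδ
  have hδ0 : 0 ≤ δ := by positivity
  have hGram : (g : ℂ) • (1 : Matrix J J ℂ) ≤ Sᴴ * S := by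
    refine le_of_qf_le ?_ (Matrix.isHermitian_conjTranspose_mul_self S) fun c => ?_
    · unfold Matrix.IsHermitian
      rw [Matrix.conjTranspose_smul, Matrix.conjTranspose_one, Complex.star_def, Complex.conj_ofReal]
    · rw [qf_smul_one]
      have e1 : Sᴴ * S = Sᴴ * (1 : Matrix Ω Ω ℂ) * S := by rw [Matrix.mul_one]
      rw [e1, qf_conj, qf_one]
      have h3 := (abs_le.mp (vnsq_trial v ha hG c)).1
      rw [← hS] at h3
      rw [hgdef]
      nlinarith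
  have hForm : Sᴴ * B * S ≤ rdiag fun j => E j + δ := by
    refine le_of_qf_le ?_ (rdiag_herm _) fun c => ?_
    · exact Matrix.isHermitian_conjTranspose_mul_mul S hB
    · rw [qf_conj, qf_rdiag]
      exact trial_form v ha he hEmax hG hE0 hE1 b ξ hact hb hξ hg.le c
  obtain ⟨Ψ, h1, h2, h3⟩ := peierls_family hB S hg0 hGram (d := fun j => E j + δ)
    (fun j => add_nonneg (hE0 j) hδ0) hForm
  exact ⟨Ψ, h1, h2, h3⟩

end Vale.Agent.P361Lib
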