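import Vale.Agent.Lib.P361.LBComm
import Vale.Agent.Lib.P361.LBTrial

/-!
# The recursion for the trial vectors
-/

open Matrix Finset
open scoped MatrixOrder ComplexOrder

noncomputable section

namespace Vale.Agent.P361Lib

variable {X : Type} [Fintype X] [DecidableEq X] {n : ℕ}
variable {Q : Type} [Fintype Q] [DecidableEq Q]

/-- The total occupation number. -/
def tot (m : Q → ℕ) : ℕ := ∑ q, m q

lemma tot_inc (m : Q → ℕ) (q : Q) : tot (inc m q) = tot m + 1 := sum_inc m q

lemma tot_zero : tot (0 : Q → ℕ) = 0 := by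
  simp [tot]

lemma le_tot (m : Q → ℕ) (q : Q) : m q ≤ tot m :=
  Finset.single_le_sum (f := m) (fun _ _ => Nat.zero_le _) (Finset.mem_univ q)

/-- Induction on occupation numbers. -/
lemma occ_induction {P : (Q → ℕ) → Prop} (h0 : P 0) (hs : ∀ m r, P m → P (inc m r)) : ∀ m, P m := by
  have key : ∀ k, ∀ m : Q → ℕ, tot m = k → P m := by
    intro k
    induction k with
    | zero =>
      intro m hm
      have : m = 0 := by
        funext q
        have := le_tot m q
        simp only [Pi.zero_apply]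
        omega
      rw [this]
      exact h0
    | succ k ih =>
      intro m hm
      have : ∃ r, m r ≠ 0 := by
        by_contra hne
        push Not at hne
        have : tot m = 0 := Finset.sum_eq_zero fun q _ => hne q
        omega
      obtain ⟨r, hr⟩ := this
      rw [← inc_dcr m hr]
      refine hs _ _ (ih _ ?_)
      have e := tot_inc (dcr m r) r
      rw [inc_dcr m hr] at e
      omega
  exact fun m => key _ m rfl

/-- The creation operators commute with the monomials. -/
lemma mono_comm (F : Q → Op X n) (hc : ∀ p q, Commute (F p) (F q)) (m : Q → ℕ) (r : Q) :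
    Commute (F r) (mono F hc m) := by
  unfold mono
  exact Finset.noncommProd_commute _ _ _ _ fun q _ => (hc r q).pow_right _

/-- The trial vector with occupation numbers `m`. -/
def chi (u : Q → X → ℝ) (m : Q → ℕ) : Cfg X n → ℂ :=
  mono (fun q => (magnon (u q) : Op X n)) (fun _ _ => magnon_commute _ _) m *ᵥ vac

lemma chi_zero (u : Q → X → ℝ) : (chi u 0 : Cfg X n → ℂ) = vac := by
  unfold chi
  rw [mono_zero, Matrix.one_mulVec]

lemma chi_inc (u : Q → X → ℝ) (m : Q → ℕ) (r : Q) :
    (chi u (inc m r) : Cfg X n → ℂ) = (magnon (u r) : Op X n) *ᵥ chi u m := by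
  unfold chi
  rw [mono_succ, Matrix.mulVec_mulVec]
  congr 1
  exact (mono_comm (fun q => (magnon (u q) : Op X n)) (fun _ _ => magnon_commute _ _) m r).eq.symm

lemma vac_inSec : InSec 0 (vac : Cfg X n → ℂ) := by
  intro σ hσ
  unfold vac
  rw [if_neg]
  intro h
  apply hσ
  rw [h]
  simp [devCount]

lemma chi_inSec (u : Q → X → ℝ) (m : Q → ℕ) : InSec (tot m) (chi u m : Cfg X n → ℂ) := by
  revert m
  refine occ_induction ?_ ?_
  · rw [chi_zero, tot_zero]
    exact vac_inSec
  · intro m r h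
    rw [chi_inc, tot_inc]
    exact magnon_inSec _ h

lemma nrm_vac : nrm (vac : Cfg X n → ℂ) = 1 := by
  unfold nrm
  rw [ip_vac]
  rfl

lemma nrm_chi_le (hn : 1 ≤ n) {u : Q → X → ℝ} (hN : ∀ q, ∑ z, u q z ^ 2 = 1) (m : Q → ℕ) :
    nrm (chi u m : Cfg X n → ℂ) ≤ ((tot m).factorial : ℝ) := by
  revert m
  refine occ_induction ?_ ?_
  · rw [chi_zero, tot_zero, nrm_vac]
    simp
  · intro m r h
    rw [chi_inc, tot_inc]
    have h1 := nrm_magnon_le hn (u r) (chi_inSec u m (n := n)).secLE
    rw [hN, one_mul] at h1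
    refine h1.trans ?_
    rw [Nat.factorial_succ]
    push_cast
    exact mul_le_mul_of_nonneg_left h (by positivity)

/-- The defect of the canonical commutation relations on a trial vector. -/
def rho (u : Q → X → ℝ) (q : Q) (m : Q → ℕ) : Cfg X n → ℂ :=
  (magnon (u q) : Op X n)ᴴ *ᵥ chi u m - ((m q : ℝ) : ℂ) • chi u (dcr m q)

lemma rho_zero (u : Q → X → ℝ) (q : Q) : (rho u q 0 : Cfg X n → ℂ) = 0 := by
  unfold rho
  rw [chi_zero, magnonH_act (fun z _ => pol_vac z)]
  simp

lemma dcr_inc_ne (m : Q → ℕ) {q r : Q} (h : r ≠ q) : dcr (inc m r) q = inc (dcr m q) r := by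
  funext p
  by_cases hp : p = q
  · subst hp
    rw [dcr_same, inc_ne _ h.symm, inc_ne _ h.symm, dcr_same]
  · rw [dcr_ne _ hp]
    by_cases hp2 : p = r
    · subst hp2
      rw [inc_same, inc_same, dcr_ne _ hp]
    · rw [inc_ne _ hp2, inc_ne _ hp2, dcr_ne _ hp]

/-- The recursion for the defect. -/
lemma rho_inc (hn : 1 ≤ n) {u : Q → X → ℝ} (hO : ∀ q r, ∑ z, u q z * u r z = if q = r then 1 else 0)
    (q r : Q) (m : Q → ℕ) :
    (rho u q (inc m r) : Cfg X n → ℂ)
      = (magnon (u r) : Op X n) *ᵥ rho u q m - (Wop (u q) (u r) : Op X n) *ᵥ chi u m := by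
  have hcomm := magnon_adj_comm (n := n) hn (u q) (u r)
  rw [hO] at hcomm
  have h1 : (magnon (u q) : Op X n)ᴴ *ᵥ ((magnon (u r) : Op X n) *ᵥ chi u m)
      = (magnon (u r) : Op X n) *ᵥ ((magnon (u q) : Op X n)ᴴ *ᵥ chi u m)
        + ((if q = r then (1 : ℝ) else 0 : ℝ) : ℂ) • chi u m - (Wop (u q) (u r) : Op X n) *ᵥ chi u m := by
    rw [Matrix.mulVec_mulVec, Matrix.mulVec_mulVec]
    have e : (magnon (u q) : Op X n)ᴴ * magnon (u r) = magnon (u r) * (magnon (u q))ᴴ
        + ((if q = r then (1 : ℝ) else 0 : ℝ) : ℂ) • (1 : Op X n) - Wop (u q) (u r) := by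
      rw [add_sub_assoc, ← hcomm]
      abel
    rw [e, Matrix.sub_mulVec, Matrix.add_mulVec, Matrix.smul_mulVec, Matrix.one_mulVec]
  have h2 : (magnon (u q) : Op X n)ᴴ *ᵥ chi u m = rho u q m + ((m q : ℝ) : ℂ) • chi u (dcr m q) := by
    unfold rho
    abel
  have e0 : (rho u q (inc m r) : Cfg X n → ℂ) = (magnon (u q) : Op X n)ᴴ *ᵥ chi u (inc m r)
      - ((inc m r q : ℝ) : ℂ) • chi u (dcr (inc m r) q) := rfl
  rw [e0, chi_inc, h1, h2, Matrix.mulVec_add, Matrix.mulVec_smul, ← chi_inc]
  by_cases hqr : q = r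
  · subst hqr
    rw [if_pos rfl, inc_same, dcr_inc]
    by_cases hm : m q = 0
    · simp only [hm, Nat.cast_zero, Complex.ofReal_zero, zero_smul, add_zero, Complex.ofReal_one, one_smul]
      push_cast
      simp
      abel
    · rw [inc_dcr m hm]
      push_cast
      module
  · rw [if_neg hqr, inc_ne _ hqr, dcr_inc_ne m (Ne.symm hqr)]
    push_cast
    module

lemma nrm_sub_le (a b : Cfg X n → ℂ) : nrm (a - b) ≤ 2 * nrm a + 2 * nrm b := by
  have h := nrm_add_le a (-b) (η := 1) (by norm_num)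
  rw [nrm_neg, ← sub_eq_add_neg] at h
  norm_num at h
  exact h

lemma nrm_add_le' (a b : Cfg X n → ℂ) : nrm (a + b) ≤ 2 * nrm a + 2 * nrm b := by
  have h := nrm_add_le a b (η := 1) (by norm_num)
  norm_num at h
  exact h

/-- The constants of the defect. -/
def Crho : ℕ → ℝ
  | 0 => 0
  | k + 1 => 2 * ((k : ℝ) + 1) * Crho k + 2 * (k : ℝ) ^ 2 * (k.factorial : ℝ)

lemma Crho_nonneg (k : ℕ) : 0 ≤ Crho k := by
  induction k with
  | zero => exact le_rfl
  | succ k ih =>
    unfold Crho
    positivity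

lemma Crho_mono : Monotone Crho := by
  refine monotone_nat_of_le_succ fun k => ?_
  have h := Crho_nonneg k
  show Crho k ≤ 2 * ((k : ℝ) + 1) * Crho k + 2 * (k : ℝ) ^ 2 * (k.factorial : ℝ)
  have h1 : (0 : ℝ) ≤ k := by positivity
  have h2 : (0 : ℝ) ≤ 2 * (k : ℝ) ^ 2 * (k.factorial : ℝ) := by positivity
  nlinarith

lemma rho_secLE (u : Q → X → ℝ) (q : Q) (m : Q → ℕ) : SecLE (tot m) (rho u q m : Cfg X n → ℂ) := by
  unfold rho
  refine SecLE.sub (magnonH_secLE _ (chi_inSec u m).secLE) ?_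
  by_cases hm : m q = 0
  · simp only [hm, Nat.cast_zero, Complex.ofReal_zero, zero_smul]
    exact secLE_zero _
  · refine SecLE.smul ?_ _
    have h1 := chi_inSec (n := n) u (dcr m q)
    have h2 := tot_inc (dcr m q) q
    rw [inc_dcr m hm] at h2
    exact h1.secLE.mono (by omega)

/-- The size of the defect. -/
theorem nrm_rho_le (hn : 1 ≤ n) {u : Q → X → ℝ} (hO : ∀ q r, ∑ z, u q z * u r z = if q = r then 1 else 0)
    {M : ℝ} (hM0 : 0 ≤ M) (hM : ∀ q r z, |u q z * u r z| ≤ M) (q : Q) (m : Q → ℕ) :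
    nrm (rho u q m : Cfg X n → ℂ) ≤ (2 / n * M) ^ 2 * Crho (tot m) := by
  have hN : ∀ q, ∑ z, u q z ^ 2 = 1 := by
    intro q
    have := hO q q
    rw [if_pos rfl] at this
    rw [← this]
    exact Finset.sum_congr rfl fun z _ => sq _
  revert m
  refine occ_induction ?_ ?_
  · rw [rho_zero, nrm_zero, tot_zero]
    unfold Crho
    simp
  · intro m r h
    rw [rho_inc hn hO, tot_inc]
    refine (nrm_sub_le _ _).trans ?_
    have h1 := nrm_magnon_le hn (u r) (rho_secLE (n := n) u q m)
    rw [hN, one_mul] at h1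
    have h2 := nrm_Wop_le (n := n) hn hM0 (fun z => hM q r z) (chi_inSec u m).secLE
    have h3 := nrm_chi_le (n := n) hn hN m
    set e := 2 / (n : ℝ) * M with he
    set k := tot m with hk
    have hk0 : (0 : ℝ) ≤ k := by positivity
    have h4 : nrm ((magnon (u r) : Op X n) *ᵥ rho u q m) ≤ ((k : ℝ) + 1) * (e ^ 2 * Crho k) :=
      h1.trans (mul_le_mul_of_nonneg_left h (by positivity))
    have h5 : nrm ((Wop (u q) (u r) : Op X n) *ᵥ chi u m) ≤ (e * k) ^ 2 * (k.factorial : ℝ) :=
      h2.trans (mul_le_mul_of_nonneg_left h3 (by positivity))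
    have e6 : e ^ 2 * Crho (k + 1) = 2 * (((k : ℝ) + 1) * (e ^ 2 * Crho k)) + 2 * ((e * k) ^ 2 * (k.factorial : ℝ)) := by
      show e ^ 2 * (2 * ((k : ℝ) + 1) * Crho k + 2 * (k : ℝ) ^ 2 * (k.factorial : ℝ)) = _
      ring
    rw [e6]
    linarith

/-- The ip bound through the weighted inequality. -/
lemma ip_le_weighted {a b : Cfg X n → ℂ} {e : ℝ} (he : 0 < e) :
    ‖ip a b‖ ≤ (e * nrm a + nrm b / e) / 2 := by
  have h1 : Complex.normSq (ip a b) ≤ nrm a * nrm b := by
    unfold ip
    rw [nrm_eq_vnsq, nrm_eq_vnsq]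
    exact normSq_dot_le a b
  rw [Complex.normSq_eq_norm_sq] at h1
  have ha := nrm_nonneg' a
  have hb := nrm_nonneg' b
  have h2 : 0 ≤ (e * nrm a + nrm b / e) / 2 := by positivity
  refine abs_le_of_sq_le_sq' ?_ h2 |>.2
  have h3 : nrm a * nrm b ≤ ((e * nrm a + nrm b / e) / 2) ^ 2 := by
    have h4 : 0 ≤ (e * nrm a - nrm b / e) ^ 2 := sq_nonneg _
    have e5 : (e * nrm a) * (nrm b / e) = nrm a * nrm b := by
      field_simp
    nlinarith
  linarith

/-- The deviation of the Gram matrix from its limit. -/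
def GG (u : Q → X → ℝ) (m' m : Q → ℕ) : ℂ :=
  ip (chi u m' : Cfg X n → ℂ) (chi u m) - (if m' = m then ((mfac m : ℝ) : ℂ) else 0)

/-- The recursion constants of the Gram matrix. -/
def Agram (Kt : ℕ) : ℕ → ℝ
  | 0 => 0
  | k + 1 => (Kt : ℝ) * Agram Kt k + ((Kt.factorial : ℝ) + Crho Kt) / 2

lemma Agram_nonneg (Kt k : ℕ) : 0 ≤ Agram Kt k := by
  induction k with
  | zero => exact le_rfl
  | succ k ih =>
    unfold Agram
    have := Crho_nonneg Kt
    positivity

lemma GG_zero (u : Q → X → ℝ) (m : Q → ℕ) : GG (n := n) u 0 m = 0 := by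
  unfold GG
  rw [chi_zero]
  by_cases hm : (0 : Q → ℕ) = m
  · subst hm
    rw [if_pos rfl, chi_zero, ip_vac]
    simp [mfac]
  · rw [if_neg hm, sub_zero]
    unfold ip dotProduct
    refine Finset.sum_eq_zero fun σ _ => ?_
    by_cases hσ : devCount (Finset.univ : Finset X) σ = 0
    · have h1 : tot m ≠ 0 := by
        intro h0
        apply hm
        funext q
        have := le_tot m q
        simp only [Pi.zero_apply]
        omega
      rw [chi_inSec u m σ (by omega), mul_zero]
    · have : star (vac : Cfg X n → ℂ) σ = 0 := by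
        simp only [Pi.star_apply]
        rw [vac_inSec σ hσ, star_zero]
      rw [this, zero_mul]

/-- The recursion of the Gram matrix. -/
lemma GG_inc (u : Q → X → ℝ) (m' m : Q → ℕ) (q : Q) :
    GG (n := n) u (inc m' q) m
      = ip (chi u m' : Cfg X n → ℂ) (rho u q m) + ((m q : ℝ) : ℂ) * GG (n := n) u m' (dcr m q) := by
  unfold GG
  have h1 : ip (chi u (inc m' q) : Cfg X n → ℂ) (chi u m)
      = ip (chi u m' : Cfg X n → ℂ) (rho u q m) + ((m q : ℝ) : ℂ) * ip (chi u m' : Cfg X n → ℂ) (chi u (dcr m q)) := by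
    rw [chi_inc, ip_adj]
    have h2 : (magnon (u q) : Op X n)ᴴ *ᵥ chi u m = rho u q m + ((m q : ℝ) : ℂ) • chi u (dcr m q) := by
      unfold rho
      abel
    rw [h2]
    unfold ip
    rw [dotProduct_add, dotProduct_smul, smul_eq_mul]
  rw [h1]
  by_cases hm : m q = 0
  · have hne : inc m' q ≠ m := by
      intro e
      have := congrFun e q
      rw [inc_same, hm] at this
      omega
    rw [if_neg hne, hm]
    simp
  · have hiff : inc m' q = m ↔ m' = dcr m q := by
      constructor
      · intro e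
        rw [← e, dcr_inc]
      · intro e
        rw [e, inc_dcr m hm]
    by_cases he : m' = dcr m q
    · rw [if_pos (hiff.mpr he), if_pos he]
      have e2 : mfac m = (m q : ℝ) * mfac (dcr m q) := by
        have := mfac_succ (dcr m q) q
        rw [inc_dcr m hm, dcr_same] at this
        rw [this]
        congr 1
        have h3 : (m q - 1) + 1 = m q := by omega
        exact_mod_cast h3
      rw [e2]
      push_cast
      ring
    · rw [if_neg (fun e => he (hiff.mp e)), if_neg he]
      ring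

/-- The Gram matrix is close to the canonical one. -/
theorem GG_le (hn : 1 ≤ n) {u : Q → X → ℝ} (hO : ∀ q r, ∑ z, u q z * u r z = if q = r then 1 else 0)
    {M : ℝ} (hM0 : 0 < M) (hM : ∀ q r z, |u q z * u r z| ≤ M) {Kt : ℕ} (m' : Q → ℕ) :
    ∀ m : Q → ℕ, tot m' ≤ Kt → tot m ≤ Kt → ‖GG (n := n) u m' m‖ ≤ (2 / n * M) * Agram Kt (tot m') := by
  have hn' : (0 : ℝ) < n := by exact_mod_cast hn
  have hN : ∀ q, ∑ z, u q z ^ 2 = 1 := by
    intro q
    have := hO q q
    rw [if_pos rfl] at this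
    rw [← this]
    exact Finset.sum_congr rfl fun z _ => sq _
  revert m'
  refine occ_induction ?_ ?_
  · intro m _ _
    rw [GG_zero, norm_zero, tot_zero]
    unfold Agram
    simp
  · intro m' q ih m hm' hm
    rw [tot_inc] at hm' ⊢
    rw [GG_inc]
    set e : ℝ := 2 / n * M with he
    have he0 : 0 < e := by positivity
    refine (norm_add_le _ _).trans ?_
    rw [norm_mul, Complex.norm_real, Real.norm_eq_abs, abs_of_nonneg (by positivity)]
    have h1 := ip_le_weighted (n := n) (a := chi u m') (b := rho u q m) he0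
    have h2 := nrm_chi_le (n := n) hn hN m'
    have h3 := nrm_rho_le (n := n) hn hO hM0.le hM q m
    rw [← he] at h3
    have h4 : ((tot m').factorial : ℝ) ≤ (Kt.factorial : ℝ) := by
      exact_mod_cast Nat.factorial_le (by omega)
    have h5 : Crho (tot m) ≤ Crho Kt := Crho_mono hm
    have h6 : nrm (rho u q m : Cfg X n → ℂ) / e ≤ e * Crho Kt := by
      rw [div_le_iff₀ he0]
      have : e ^ 2 * Crho (tot m) ≤ e ^ 2 * Crho Kt := mul_le_mul_of_nonneg_left h5 (by positivity)
      nlinarith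
    have h7 : e * nrm (chi u m' : Cfg X n → ℂ) ≤ e * (Kt.factorial : ℝ) :=
      mul_le_mul_of_nonneg_left (h2.trans h4) he0.le
    have hdcr : tot (dcr m q) ≤ Kt := by
      by_cases hq : m q = 0
      · have e2 : dcr m q = m := by
          funext p
          by_cases hp : p = q
          · subst hp
            simp [hq]
          · rw [dcr_ne _ hp]
        rw [e2]
        exact hm
      · have := tot_inc (dcr m q) q
        rw [inc_dcr m hq] at this
        omega
    have h8 := ih (dcr m q) (by omega) hdcr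
    have h9 : ((m q : ℝ)) ≤ Kt := by exact_mod_cast (le_tot m q).trans hm
    have h10 : (m q : ℝ) * ‖GG (n := n) u m' (dcr m q)‖ ≤ (Kt : ℝ) * (e * Agram Kt (tot m')) :=
      mul_le_mul h9 h8 (norm_nonneg _) (by positivity)
    show _ ≤ e * ((Kt : ℝ) * Agram Kt (tot m') + ((Kt.factorial : ℝ) + Crho Kt) / 2)
    nlinarith

end Vale.Agent.P361Lib
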