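import Vale.Agent.Lib.P361.LBCube

/-!
# The lower bound at large `β` with fixed auxiliary parameters
-/

open Matrix Filter Topology

noncomputable section

namespace Vale.Agent.P361Lib

variable {Q₀ : ℕ}

/-- The limiting energy of a mode. -/
def Wb (n : ℕ) (Ell lam : ℝ) (q : C3 Q₀) : ℝ :=
  (n : ℝ) / 2 * (Real.pi / Ell) ^ 2
      * ((((q.1 : ℕ) + 1 : ℕ) : ℝ) ^ 2 + (((q.2.1 : ℕ) + 1 : ℕ) : ℝ) ^ 2 + (((q.2.2 : ℕ) + 1 : ℕ) : ℝ) ^ 2)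
    + lam

lemma Wb_nonneg (n : ℕ) {Ell lam : ℝ} (hlam : 0 ≤ lam) (q : C3 Q₀) : 0 ≤ Wb n Ell lam q := by
  unfold Wb
  positivity

lemma beta_lamD_le {Ell β : ℝ} (hEll : 0 < Ell) (hβ : 0 < β) {R : ℕ}
    (hR : Ell * Real.sqrt β ≤ R) (p : ℕ) :
    β * lamD R p ≤ (Real.pi / Ell) ^ 2 * (p : ℝ) ^ 2 := by
  have hs : 0 < Real.sqrt β := Real.sqrt_pos.mpr hβ
  have hR0 : (0 : ℝ) < R := lt_of_lt_of_le (mul_pos hEll hs) hR
  have h1 := lamD_le R p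
  have h2 : β * (Ell ^ 2) ≤ (R : ℝ) ^ 2 := by
    have h3 : (Ell * Real.sqrt β) ^ 2 ≤ (R : ℝ) ^ 2 := pow_le_pow_left₀ (mul_pos hEll hs).le hR 2
    rw [mul_pow, Real.sq_sqrt hβ.le] at h3
    linarith
  calc β * lamD R p ≤ β * (Real.pi * p / R) ^ 2 := mul_le_mul_of_nonneg_left h1 hβ.le
    _ = (Real.pi * p) ^ 2 * (β / (R : ℝ) ^ 2) := by
        field_simp
    _ ≤ (Real.pi * p) ^ 2 * (1 / Ell ^ 2) := by
        apply mul_le_mul_of_nonneg_left _ (sq_nonneg _)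
        rw [div_le_div_iff₀ (by positivity) (by positivity)]
        linarith
    _ = _ := by
        field_simp

lemma W_le_Wb {n : ℕ} {Ell β lam : ℝ} (hEll : 0 < Ell) (hβ : 0 < β) {R : ℕ}
    (hR : Ell * Real.sqrt β ≤ R) (q : C3 Q₀) :
    β * ((n : ℝ) / 2 * LamD R q) + lam ≤ Wb n Ell lam q := by
  unfold Wb LamD
  have h1 := beta_lamD_le hEll hβ hR ((q.1 : ℕ) + 1)
  have h2 := beta_lamD_le hEll hβ hR ((q.2.1 : ℕ) + 1)
  have h3 := beta_lamD_le hEll hβ hR ((q.2.2 : ℕ) + 1)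
  have h4 : (0 : ℝ) ≤ (n : ℝ) / 2 := by positivity
  have := mul_le_mul_of_nonneg_left (add_le_add (add_le_add h1 h2) h3) h4
  nlinarith [this]

lemma beta_g_le {Ell β : ℝ} (hEll : 0 < Ell) (hβ : 0 < β) {R : ℕ}
    (hR : Ell * Real.sqrt β ≤ R) (Q₀ : ℕ) :
    β * (Real.sqrt (2 / R) ^ 3 * (Real.pi * Q₀ / R)) ≤ 2 / Ell ^ 2 * Real.sqrt (2 / R) * (Real.pi * Q₀) := by
  have hs : 0 < Real.sqrt β := Real.sqrt_pos.mpr hβ
  have hR0 : (0 : ℝ) < R := lt_of_lt_of_le (mul_pos hEll hs) hR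
  have h2 : β * (Ell ^ 2) ≤ (R : ℝ) ^ 2 := by
    have h3 : (Ell * Real.sqrt β) ^ 2 ≤ (R : ℝ) ^ 2 := pow_le_pow_left₀ (mul_pos hEll hs).le hR 2
    rw [mul_pow, Real.sq_sqrt hβ.le] at h3
    linarith
  have hβ' : β ≤ (R : ℝ) ^ 2 / Ell ^ 2 := by
    rw [le_div_iff₀ (by positivity)]
    exact h2
  have e1 : Real.sqrt (2 / (R : ℝ)) ^ 3 = (2 / (R : ℝ)) * Real.sqrt (2 / (R : ℝ)) := by
    rw [pow_succ, pow_two, sqrt_two_div_sq]
  have h0 : 0 ≤ Real.sqrt (2 / (R : ℝ)) ^ 3 * (Real.pi * Q₀ / R) := by positivity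
  calc β * (Real.sqrt (2 / R) ^ 3 * (Real.pi * Q₀ / R))
      ≤ (R : ℝ) ^ 2 / Ell ^ 2 * (Real.sqrt (2 / R) ^ 3 * (Real.pi * Q₀ / R)) :=
        mul_le_mul_of_nonneg_right hβ' h0
    _ = _ := by
        rw [e1]
        field_simp

/-- The bounds for the volume factor. -/
lemma cube_factor {Ell β : ℝ} (hEll : 0 < Ell) (hβ : 0 < β) {R : ℕ}
    (hR : Ell * Real.sqrt β ≤ R) (hR' : (R : ℝ) ≤ Ell * Real.sqrt β + 1) :
    (1 / (Ell + 2 / Real.sqrt β)) ^ 3 ≤ β * Real.sqrt β / ((R + 1 : ℕ) : ℝ) ^ 3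
      ∧ β * Real.sqrt β / ((R + 1 : ℕ) : ℝ) ^ 3 ≤ (1 / Ell) ^ 3 := by
  have hs : 0 < Real.sqrt β := Real.sqrt_pos.mpr hβ
  have hR0 : (0 : ℝ) < R := lt_of_lt_of_le (mul_pos hEll hs) hR
  have e : β * Real.sqrt β / ((R + 1 : ℕ) : ℝ) ^ 3 = (Real.sqrt β / ((R + 1 : ℕ) : ℝ)) ^ 3 := by
    rw [div_pow]
    congr 1
    nth_rewrite 1 [← Real.sq_sqrt hβ.le]
    ring
  rw [e]
  have hRc : ((R + 1 : ℕ) : ℝ) = (R : ℝ) + 1 := by push_cast; ring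
  have hR1 : (0 : ℝ) < (R : ℝ) + 1 := by linarith
  rw [hRc]
  constructor
  · apply pow_le_pow_left₀ (by positivity)
    rw [div_le_div_iff₀ (by positivity) hR1]
    have : Real.sqrt β * (Ell + 2 / Real.sqrt β) = Ell * Real.sqrt β + 2 := by
      field_simp
    rw [this]
    linarith
  · apply pow_le_pow_left₀ (by positivity)
    rw [div_le_div_iff₀ hR1 hEll]
    nlinarith

lemma tendsto_two_div_nat : Tendsto (fun R : ℕ => 2 / (R : ℝ)) atTop (𝓝 0) :=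
  tendsto_const_div_atTop_nhds_zero_nat 2

lemma tendsto_sqrt_two_div_nat : Tendsto (fun R : ℕ => Real.sqrt (2 / (R : ℝ))) atTop (𝓝 0) := by
  have h := (Real.continuous_sqrt.tendsto 0).comp tendsto_two_div_nat
  rwa [Real.sqrt_zero] at h

/-- The choice of the side of the cube. -/
lemma exists_R0 {nn A c Eb Ce Q₀' Ell θ : ℝ} (Q₀ : ℕ) (hθ : 0 < θ) (hEll : 0 < Ell) :
    ∃ R₀ : ℕ, ∀ R : ℕ, R₀ ≤ R → Q₀ < R
      ∧ 2 / nn * (2 / (R : ℝ)) ^ 3 * A * c ≤ θ / (1 + θ)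
      ∧ (Eb * (2 / nn * (2 / (R : ℝ)) ^ 3 * A) * c
          + (2 / Ell ^ 2 * Real.sqrt (2 / (R : ℝ)) * Q₀') * Ce * (1 / 2 + c))
          / (1 - 2 / nn * (2 / (R : ℝ)) ^ 3 * A * c) ≤ θ * Ell ^ 3 := by
  have h1 : Tendsto (fun R : ℕ => 2 / nn * (2 / (R : ℝ)) ^ 3 * A) atTop (𝓝 0) := by
    have := ((tendsto_two_div_nat.pow 3).const_mul (2 / nn)).mul_const A
    simpa using this
  have h2 : Tendsto (fun R : ℕ => 2 / nn * (2 / (R : ℝ)) ^ 3 * A * c) atTop (𝓝 0) := by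
    simpa using h1.mul_const c
  have h3 : Tendsto (fun R : ℕ => (2 / Ell ^ 2 * Real.sqrt (2 / (R : ℝ)) * Q₀') * Ce * (1 / 2 + c))
      atTop (𝓝 0) := by
    have := (((tendsto_sqrt_two_div_nat.const_mul (2 / Ell ^ 2)).mul_const Q₀').mul_const Ce).mul_const (1 / 2 + c)
    simpa using this
  have h4 : Tendsto (fun R : ℕ => Eb * (2 / nn * (2 / (R : ℝ)) ^ 3 * A) * c) atTop (𝓝 0) := by
    have := (h1.const_mul Eb).mul_const c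
    simpa using this
  have h5 : Tendsto (fun R : ℕ => 1 - 2 / nn * (2 / (R : ℝ)) ^ 3 * A * c) atTop (𝓝 1) := by
    simpa using (tendsto_const_nhds (x := (1 : ℝ))).sub h2
  have h6 := (h4.add h3).div h5 one_ne_zero
  rw [add_zero, zero_div] at h6
  have e1 := h2.eventually (ge_mem_nhds (show (0 : ℝ) < θ / (1 + θ) by positivity))
  have e2 := h6.eventually (ge_mem_nhds (show (0 : ℝ) < θ * Ell ^ 3 by positivity))
  have e3 : ∀ᶠ R : ℕ in atTop, Q₀ < R := eventually_gt_atTop Q₀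
  obtain ⟨R₀, hR₀⟩ := eventually_atTop.mp (e3.and (e1.and e2))
  exact ⟨R₀, fun R hR => ⟨(hR₀ R hR).1, (hR₀ R hR).2.1, (hR₀ R hR).2.2⟩⟩

/-- The choice of `β₀` for the volume factor and the side of the cube. -/
lemma exists_beta0 {Ell θ : ℝ} (hθ : 0 < θ) (hEll : 0 < Ell) (R₀ : ℕ) :
    ∃ β₀ : ℝ, 0 < β₀ ∧ ∀ β, β₀ ≤ β → (R₀ : ℝ) ≤ Ell * Real.sqrt β
      ∧ (1 - θ) * (1 / Ell) ^ 3 ≤ (1 / (Ell + 2 / Real.sqrt β)) ^ 3 := by
  have hs : Tendsto (fun β : ℝ => Real.sqrt β) atTop atTop := Real.tendsto_sqrt_atTop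
  have h1 : Tendsto (fun β : ℝ => Ell * Real.sqrt β) atTop atTop := hs.const_mul_atTop hEll
  have h2 : Tendsto (fun β : ℝ => 2 / Real.sqrt β) atTop (𝓝 0) := hs.const_div_atTop 2
  have h3 : Tendsto (fun β : ℝ => (1 / (Ell + 2 / Real.sqrt β)) ^ 3) atTop (𝓝 ((1 / (Ell + 0)) ^ 3)) := by
    refine Tendsto.pow (Tendsto.div tendsto_const_nhds (tendsto_const_nhds.add h2) ?_) 3
    rw [add_zero]
    exact hEll.ne'
  rw [add_zero] at h3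
  have hlt : (1 - θ) * (1 / Ell) ^ 3 < (1 / Ell) ^ 3 := by
    have : 0 < (1 / Ell) ^ 3 := by positivity
    nlinarith
  have e1 := h1.eventually (eventually_ge_atTop (R₀ : ℝ))
  have e2 := h3.eventually (lt_mem_nhds hlt)
  obtain ⟨b, hb⟩ := eventually_atTop.mp (e1.and e2)
  refine ⟨max b 1, lt_of_lt_of_le one_pos (le_max_right _ _), fun β hβ => ?_⟩
  have := hb β (le_trans (le_max_left _ _) hβ)
  exact ⟨this.1, this.2.le⟩

lemma stepA_combine {x E Ell D Db G Xi Xi0 Lb y3 Rc θ : ℝ} (hRc : 0 < Rc) (hx : x = y3 / Rc)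
    (hkey : (-(D / G) + Xi) / Rc ≤ Lb) (hE : E = (1 / Ell) ^ 3) (hEll : 0 < Ell) (hθ : 0 < θ) (hθ1 : θ < 1)
    (hx1 : (1 - θ) * E ≤ x) (hx2 : x ≤ E) (hXi : Xi0 ≤ Xi) (hXi0 : 0 ≤ Xi0) (hG : 0 < G) (hD : D ≤ Db)
    (hDb0 : 0 ≤ Db) (hDb : Db / G ≤ θ * Ell ^ 3) (hy3 : 0 ≤ y3) :
    (1 - θ) * E * Xi0 - θ ≤ y3 * Lb := by
  have hE0 : 0 < E := by
    rw [hE]
    positivity
  have hx0 : 0 ≤ x := le_trans (mul_nonneg (by linarith) hE0.le) hx1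
  have h1 : y3 * ((-(D / G) + Xi) / Rc) ≤ y3 * Lb := mul_le_mul_of_nonneg_left hkey hy3
  have h2 : y3 * ((-(D / G) + Xi) / Rc) = x * Xi - x * (D / G) := by
    rw [hx]
    field_simp
    ring
  have h3 : (1 - θ) * E * Xi0 ≤ x * Xi :=
    mul_le_mul hx1 hXi hXi0 hx0
  have h4 : D / G ≤ Db / G := div_le_div_of_nonneg_right hD hG.le
  have h5 : 0 ≤ Db / G := div_nonneg hDb0 hG.le
  have h6 : x * (D / G) ≤ E * (θ * Ell ^ 3) :=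
    (mul_le_mul_of_nonneg_left h4 hx0).trans (mul_le_mul hx2 hDb h5 hE0.le)
  have h7 : E * (θ * Ell ^ 3) = θ := by
    rw [hE]
    field_simp
  rw [h2] at h1
  linarith


/-- The sum over modes of the limiting logarithms. -/
def XiZ (n : ℕ) (Ell lam θ : ℝ) (Q₀ K₁ : ℕ) : ℝ :=
  ∑ q : C3 Q₀, Real.log (∑ k : Fin (K₁ + 1), Real.exp (-((1 + θ) * Wb n Ell lam q * (k : ℕ))))

lemma one_le_sum_exp (K₁ : ℕ) (f : Fin (K₁ + 1) → ℝ) (h0 : f 0 = 0) :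
    1 ≤ ∑ k : Fin (K₁ + 1), Real.exp (f k) := by
  have := Finset.single_le_sum (f := fun k : Fin (K₁ + 1) => Real.exp (f k))
    (fun k _ => (Real.exp_pos _).le) (Finset.mem_univ (0 : Fin (K₁ + 1)))
  simpa [h0] using this

lemma XiZ_nonneg (n : ℕ) (Ell lam θ : ℝ) (Q₀ K₁ : ℕ) : 0 ≤ XiZ n Ell lam θ Q₀ K₁ := by
  refine Finset.sum_nonneg fun q _ => Real.log_nonneg ?_
  exact one_le_sum_exp K₁ _ (by simp)

lemma exp_term_le {W Wb' G θ : ℝ} {k : ℕ} (hW : W ≤ Wb') (hWb : 0 ≤ Wb') (hG : 0 < G) (hθ : 0 < θ)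
    (hG' : 1 / (1 + θ) ≤ G) :
    Real.exp (-((1 + θ) * Wb' * (k : ℝ))) ≤ Real.exp (-(W * (k : ℝ) / G)) := by
  apply Real.exp_le_exp.mpr
  apply neg_le_neg
  have hk : (0 : ℝ) ≤ k := Nat.cast_nonneg k
  have h1 : 1 ≤ (1 + θ) * G := by
    have := mul_le_mul_of_nonneg_left hG' (by positivity : (0 : ℝ) ≤ 1 + θ)
    rwa [mul_one_div_cancel (by positivity)] at this
  rw [div_le_iff₀ hG]
  have h2 : W * k ≤ Wb' * k := mul_le_mul_of_nonneg_right hW hk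
  have h3 : Wb' * k ≤ Wb' * k * ((1 + θ) * G) := le_mul_of_one_le_right (by positivity) h1
  calc W * k ≤ Wb' * k * ((1 + θ) * G) := h2.trans h3
    _ = _ := by ring


/-- The lower bound for fixed auxiliary parameters. -/
theorem lb_stepA {n Q₀ : ℕ} (hn : 1 ≤ n) (hQ₀ : 0 < Q₀) (K₁ : ℕ) {lam Ell θ : ℝ} (hlam : 0 ≤ lam)
    (hEll : 0 < Ell) (hθ : 0 < θ) (hθ1 : θ < 1) :
    ∃ β₀ : ℝ, 0 < β₀ ∧ ∀ β, β₀ ≤ β → ∀ Lβ : ℝ, Tendsto (fun N => logDensity n N β lam) atTop (𝓝 Lβ) →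
      (1 - θ) * (1 / Ell) ^ 3 * XiZ n Ell lam θ Q₀ K₁ - θ ≤ β * Real.sqrt β * Lβ := by
  set Kt : ℕ := Fintype.card (C3 Q₀) * K₁ with hKt
  set A : ℝ := Ag Kt with hA
  have hA0 : 0 ≤ A := Ag_nonneg Kt
  set c : ℝ := (Fintype.card (C3 Q₀ → Fin (K₁ + 1)) : ℝ) with hc
  have hc0 : 0 ≤ c := Nat.cast_nonneg _
  set Ce : ℝ := 1 + Cxi n 6 Kt with hCe
  have hCe0 : 0 ≤ Ce := add_nonneg zero_le_one (Cxi_nonneg n 6 Kt)
  set Eb : ℝ := ∑ q : C3 Q₀, Wb n Ell lam q * (K₁ : ℝ) with hEb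
  have hEb0 : 0 ≤ Eb := Finset.sum_nonneg fun q _ => mul_nonneg (Wb_nonneg n hlam q) (Nat.cast_nonneg _)
  obtain ⟨R₀, hR₀⟩ := exists_R0 (nn := (n : ℝ)) (A := A) (c := c) (Eb := Eb) (Ce := Ce)
    (Q₀' := Real.pi * Q₀) (Ell := Ell) Q₀ hθ hEll
  obtain ⟨β₀, hβ₀, hb⟩ := exists_beta0 hθ hEll R₀
  refine ⟨β₀, hβ₀, fun β hβ Lβ hL => ?_⟩
  have hβ0 : 0 < β := lt_of_lt_of_le hβ₀ hβ
  obtain ⟨h1, h2⟩ := hb β hβ
  have hs : 0 < Real.sqrt β := Real.sqrt_pos.mpr hβ0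
  set R : ℕ := ⌈Ell * Real.sqrt β⌉₊ with hR
  have hRle : Ell * Real.sqrt β ≤ R := Nat.le_ceil _
  have hRge : (R : ℝ) ≤ Ell * Real.sqrt β + 1 := (Nat.ceil_lt_add_one (mul_pos hEll hs).le).le
  have hRR₀ : R₀ ≤ R := by exact_mod_cast h1.trans hRle
  obtain ⟨q1, q2, q3⟩ := hR₀ R hRR₀
  set a : ℝ := 2 / (n : ℝ) * (2 / (R : ℝ)) ^ 3 * A with ha
  have ha0 : 0 ≤ a := by positivity
  have hac : a * c ≤ θ / (1 + θ) := q2
  have hac1 : θ / (1 + θ) < 1 := by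
    rw [div_lt_one (by positivity)]
    linarith
  have hsmall : a * c < 1 := lt_of_le_of_lt hac hac1
  have hG0 : 0 < 1 - a * c := by linarith
  have hG : 1 / (1 + θ) ≤ 1 - a * c := by
    have e : 1 / (1 + θ) = 1 - θ / (1 + θ) := by
      field_simp
      ring
    rw [e]
    linarith
  set W : C3 Q₀ → ℝ := fun q => β * ((n : ℝ) / 2 * LamD R q) + lam with hW
  have hWle : ∀ q, W q ≤ Wb n Ell lam q := fun q => W_le_Wb hEll hβ0 hRle q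
  have key := lb_finite hn hQ₀ q1 hβ0 hlam (W := W) (a := a) (c := c) rfl rfl rfl rfl rfl rfl hsmall hL
  set e : ℝ := β * (Real.sqrt (2 / (R : ℝ)) ^ 3 * (Real.pi * Q₀ / R)) * Ce with he
  set eb : ℝ := (2 / Ell ^ 2 * Real.sqrt (2 / (R : ℝ)) * (Real.pi * Q₀)) * Ce with heb
  have hele : e ≤ eb := mul_le_mul_of_nonneg_right (beta_g_le hEll hβ0 hRle Q₀) hCe0
  have heb0 : 0 ≤ eb := by positivity
  have hEmax : ∑ q, W q * (K₁ : ℝ) ≤ Eb :=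
    Finset.sum_le_sum fun q _ => mul_le_mul_of_nonneg_right (hWle q) (Nat.cast_nonneg _)
  have hfac := cube_factor hEll hβ0 hRle hRge
  refine stepA_combine (x := β * Real.sqrt β / ((R + 1 : ℕ) : ℝ) ^ 3) (Rc := ((R + 1 : ℕ) : ℝ) ^ 3)
    (E := (1 / Ell) ^ 3) (Ell := Ell) (Db := Eb * a * c + eb * (1 / 2 + c)) (G := 1 - a * c)
    (by positivity) rfl key rfl hEll hθ hθ1 (h2.trans hfac.1) hfac.2 ?_ (XiZ_nonneg _ _ _ _ _ _) hG0 ?_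
    (by positivity) q3 (by positivity)
  · refine Finset.sum_le_sum fun q _ => Real.log_le_log ?_ ?_
    · exact Finset.sum_pos (fun k _ => Real.exp_pos _) ⟨0, Finset.mem_univ _⟩
    · exact Finset.sum_le_sum fun k _ => exp_term_le (hWle q) (Wb_nonneg n hlam q) hG0 hθ hG
  · have hac0 : 0 ≤ a * c := mul_nonneg ha0 hc0
    have s1 : (∑ q, W q * (K₁ : ℝ)) * a * c ≤ Eb * a * c := by
      have hthis := mul_le_mul_of_nonneg_right hEmax hac0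
      calc (∑ q, W q * (K₁ : ℝ)) * a * c = (∑ q, W q * (K₁ : ℝ)) * (a * c) := mul_assoc _ _ _
        _ ≤ Eb * (a * c) := hthis
        _ = Eb * a * c := (mul_assoc _ _ _).symm
    have s2 : e * (1 / 2 + c) ≤ eb * (1 / 2 + c) := mul_le_mul_of_nonneg_right hele (by positivity)
    exact add_le_add s1 s2


end Vale.Agent.P361Lib
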