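import Vale.Agent.Lib.P361.Cube
import Vale.Agent.Lib.P361.Free

/-!
# The upper bound on the pressure at scaled positive field
-/

open Matrix Filter Topology

noncomputable section

namespace Vale.Agent.P361Lib

lemma epsQ_disp (n a : ℕ) {M : ℕ} (ha : 0 < a) (q : C3 M) :
    epsQ n a q = ((n : ℝ) / (a : ℝ) ^ 2) * disp q := by
  unfold epsQ lam3 lamN disp
  have ha' : (a : ℝ) ≠ 0 := by positivity
  field_simp

lemma log_add_le_of_one_le {A B : ℝ} (hA : 1 ≤ A) (hB : 0 ≤ B) :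
    Real.log (A + B) ≤ Real.log A + B := by
  have hA0 : 0 < A := by linarith
  have e : A + B = A * (1 + B / A) := by
    field_simp
  rw [e, Real.log_mul hA0.ne' (by positivity)]
  have h1 : Real.log (1 + B / A) ≤ (1 + B / A) - 1 := Real.log_le_sub_one_of_pos (by positivity)
  have h2 : B / A ≤ B := div_le_self hB hA
  linarith

/-- The bound on the logarithm of the partition function of a cube. -/
theorem log_Zgen_cube {n a M K₀ : ℕ} (hn : 1 ≤ n) (ha : 0 < a) (hM : 0 < M)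
    (hKv : (K₀ : ℝ) ^ 2 ≤ (n : ℝ) * (a : ℝ) ^ 3) {η : ℝ} (hη : 0 < η)
    {β E₀ : ℝ} (hβ : 0 < β) (hE₀ : 0 ≤ E₀)
    (hg : 0 < (1 - (K₀ : ℝ) ^ 2 / ((n : ℝ) * (a : ℝ) ^ 3)) - (18 * (K₀ : ℝ) * (a : ℝ) ^ 2 / n) * E₀)
    {lam lam₁ : ℝ} (hlam₁ : lam₁ ≤ lam) (hlam : 0 < lam) :
    Real.log (Zgen (cAdj (Q := a * M)) n β lam)
      ≤ β * ((1 + 1 / η) * (12 * (n : ℝ) * (K₀ : ℝ) ^ 2 / (a : ℝ) ^ 3)) / (1 + η)
        + ∑ q : C3 M, -Real.log (1 - Real.exp (-lam) * Real.exp (-((β * ((1 - (K₀ : ℝ) ^ 2 / ((n : ℝ) * (a : ℝ) ^ 3))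
              - (18 * (K₀ : ℝ) * (a : ℝ) ^ 2 / n) * E₀) / (1 + η) * ((n : ℝ) / (a : ℝ) ^ 2)) * disp q)))
        + (((K₀ : ℝ) + 1) * (Real.exp 1 * (((a : ℝ) * (M : ℝ)) ^ 3 + 1) ^ K₀ * Real.exp (-(β * E₀)))
          + (Real.exp (-lam) / Real.exp (-lam₁)) ^ (K₀ + 1) * Zgen (cAdj (Q := a * M)) n β lam₁) := by
  have hQ : 0 < a * M := Nat.mul_pos ha hM
  have hmain := Zgen_main (adj := cAdj (Q := a * M)) (n := n) (M := M) hn ha cAdj_irrefl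
    (fun _ _ h => cAdj_symm h) (cubeG_grid (a * M) hQ) (cubeG_surj (a * M) hQ) hKv hη hβ hE₀ hg hlam₁ hlam
  rw [card_cube] at hmain
  push_cast at hmain
  set g : ℝ := (1 - (K₀ : ℝ) ^ 2 / ((n : ℝ) * (a : ℝ) ^ 3)) - (18 * (K₀ : ℝ) * (a : ℝ) ^ 2 / n) * E₀ with hgdef
  set E1 : ℝ := β * ((1 + 1 / η) * (12 * (n : ℝ) * (K₀ : ℝ) ^ 2 / (a : ℝ) ^ 3)) / (1 + η) with hE1
  have hE10 : 0 ≤ E1 := by positivity
  set z : ℝ := Real.exp (-lam) with hz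
  have hz0 : 0 < z := Real.exp_pos _
  have hz1 : z < 1 := by
    rw [hz, Real.exp_lt_one_iff]
    linarith
  set τ : ℝ := β * g / (1 + η) * ((n : ℝ) / (a : ℝ) ^ 2) with hτ
  have hτ0 : 0 ≤ τ := by positivity
  have hterm : ∀ q : C3 M, Real.exp (-(β * g / (1 + η) * epsQ n a q)) = Real.exp (-(τ * disp q)) := by
    intro q
    rw [epsQ_disp n a ha q, hτ, mul_assoc]
  simp only [hterm] at hmain
  have hx0 : ∀ q : C3 M, 0 < z * Real.exp (-(τ * disp q)) := fun q => mul_pos hz0 (Real.exp_pos _)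
  have hx1 : ∀ q : C3 M, z * Real.exp (-(τ * disp q)) < 1 := by
    intro q
    have h1 : Real.exp (-(τ * disp q)) ≤ 1 := by
      rw [Real.exp_le_one_iff]
      have := mul_nonneg hτ0 (disp_nonneg q)
      linarith
    nlinarith [Real.exp_pos (-(τ * disp q))]
  set P : ℝ := ∏ q : C3 M, (1 - z * Real.exp (-(τ * disp q)))⁻¹ with hP
  have hP1 : 1 ≤ P := by
    refine Finset.one_le_prod ?_
    intro q _
    rw [one_le_inv₀ (by linarith [hx1 q])]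
    linarith [hx0 q]
  have hA1 : 1 ≤ Real.exp E1 * P := by
    have := Real.one_le_exp hE10
    nlinarith
  have hB0 : 0 ≤ ((K₀ : ℝ) + 1) * (Real.exp 1 * (((a : ℝ) * (M : ℝ)) ^ 3 + 1) ^ K₀ * Real.exp (-(β * E₀))) := by
    positivity
  have hC0 : 0 ≤ (z / Real.exp (-lam₁)) ^ (K₀ + 1) * Zgen (cAdj (Q := a * M)) n β lam₁ :=
    mul_nonneg (by positivity) (Zgen_pos' _ _ _ _).le
  have hZpos := Zgen_pos' (cAdj (Q := a * M)) n β lam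
  have hlog := Real.log_le_log hZpos hmain
  rw [add_assoc] at hlog
  refine hlog.trans ((log_add_le_of_one_le hA1 (add_nonneg hB0 hC0)).trans ?_)
  rw [Real.log_mul (Real.exp_pos _).ne' (by linarith), Real.log_exp, hP, Real.log_prod]
  · simp only [Real.log_inv]
    exact le_refl _
  · intro q _
    have := hx1 q
    exact (inv_pos.mpr (by linarith)).ne'

/-- The a priori bound for the partition function of a dyadic cube. -/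
lemma Zgen_cube_apriori {n a M q m : ℕ} (hn : 1 ≤ n) (hq : a * M = q * 2 ^ m) (hQ : 0 < a * M) {β lam : ℝ}
    (hβ : 0 ≤ β) (hm : (4 : ℝ) ^ m ≤ β * n) (hlam : 0 < lam) :
    Zgen (cAdj (Q := a * M)) n β lam
      ≤ Real.exp ((1 - Real.exp (-lam))⁻¹ * (((q : ℝ) ^ 3 * (4 * (9 : ℝ) ^ 8)) * Real.exp (-lam))) := by
  have h := upper_general (X := CubeS (a * M)) (n := n) hn (cubeG_grid (a * M) hQ) hβ m hm hlam
  have hdiv : (a * M) / 2 ^ m = q := by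
    rw [hq]
    exact Nat.mul_div_cancel _ (by positivity)
  rw [hdiv, card_cube, hq] at h
  unfold Zgen
  have e : (((q * 2 ^ m) ^ 3 : ℕ) : ℝ) - (q : ℝ) ^ 3 * (8 : ℝ) ^ m = 0 := by
    push_cast
    have : (8 : ℝ) ^ m = ((2 : ℝ) ^ m) ^ 3 := by
      rw [← pow_mul, mul_comm, pow_mul]
      norm_num
    rw [this]
    ring
  rw [e, add_zero] at h
  convert h using 3
  all_goals try rw [hq]

section RealBounds

variable {n q K₀ β A X θ Y : ℝ}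

lemma rb_sqrt (hn : 1 ≤ n) (hβ : 0 < β) (hA0 : 0 < A) (hX0 : 0 < X)
    (h2 : β * n ≤ (A * X) ^ 2 * 4) : Real.sqrt β ≤ 2 * (A * X) := by
  refine Real.sqrt_le_iff.mpr ⟨by positivity, ?_⟩
  have : β ≤ β * n := le_mul_of_one_le_right hβ.le hn
  nlinarith

lemma rb_A3 (hX1 : 1 ≤ X) (hA4 : X ^ 4 ≤ A) (hYX : Y = X ^ 2) : Y ≤ A ^ 3 := by
  have h3 : X ^ 2 ≤ X ^ 4 := pow_le_pow_right₀ hX1 (by norm_num)
  have hA1 : 1 ≤ A := le_trans (one_le_pow₀ hX1) hA4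
  have h5 : A ^ 1 ≤ A ^ 3 := pow_le_pow_right₀ hA1 (by norm_num)
  rw [pow_one] at h5
  rw [hYX]
  linarith

lemma rb_K (hn : 1 ≤ n) (hθ : 0 < θ) (hθ1 : θ ≤ 1) (hA0 : 0 < A) (hA3 : Y ≤ A ^ 3)
    (hK : K₀ ^ 2 ≤ θ * Y) : K₀ ^ 2 / (n * A ^ 3) ≤ θ ∧ K₀ ^ 2 ≤ n * A ^ 3 := by
  have hA3' : 0 < A ^ 3 := by positivity
  have h1 : A ^ 3 ≤ n * A ^ 3 := le_mul_of_one_le_left hA3'.le hn
  have h2 : θ * Y ≤ θ * (n * A ^ 3) := mul_le_mul_of_nonneg_left (hA3.trans h1) hθ.le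
  have h3 : θ * (n * A ^ 3) ≤ n * A ^ 3 := by
    have := mul_le_mul_of_nonneg_right hθ1 (show 0 ≤ n * A ^ 3 by positivity)
    linarith
  constructor
  · rw [div_le_iff₀ (by positivity)]
    linarith
  · linarith

lemma rb_E1 (hn : 1 ≤ n) (hβ : 0 < β) (hθ : 0 < θ) (hX0 : 0 < X) (hA4 : X ^ 4 ≤ A) (hYX : Y = X ^ 2)
    (h2 : β * n ≤ (A * X) ^ 2 * 4) :
    β * ((1 + 1 / θ) * (12 * n * K₀ ^ 2 / A ^ 3)) / (1 + θ) ≤ 48 * (1 + 1 / θ) * K₀ ^ 2 / Y := by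
  have hA0 : 0 < A := lt_of_lt_of_le (by positivity) hA4
  have hn0 : 0 < n := by linarith
  set D : ℝ := (1 + 1 / θ) * (12 * K₀ ^ 2) with hD
  have hD0 : 0 ≤ D := by positivity
  have e1 : β * ((1 + 1 / θ) * (12 * n * K₀ ^ 2 / A ^ 3)) / (1 + θ)
      = (β * n) * (D / A ^ 3) / (1 + θ) := by
    rw [hD]
    field_simp
  have e2 : 48 * (1 + 1 / θ) * K₀ ^ 2 / Y = 4 * D / X ^ 2 := by
    rw [hD, hYX]
    field_simp
    ring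
  rw [e1, e2, div_le_iff₀ (by positivity)]
  have h3 : (β * n) * (D / A ^ 3) ≤ (A * X) ^ 2 * 4 * (D / A ^ 3) :=
    mul_le_mul_of_nonneg_right h2 (by positivity)
  have e3 : (A * X) ^ 2 * 4 * (D / A ^ 3) = 4 * D * X ^ 2 / A := by
    field_simp
  have h4 : 4 * D * X ^ 2 / A ≤ 4 * D / X ^ 2 := by
    rw [div_le_div_iff₀ hA0 (by positivity)]
    have : X ^ 4 * (4 * D) ≤ A * (4 * D) := mul_le_mul_of_nonneg_right hA4 (by positivity)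
    nlinarith
  have h5 : 4 * D / X ^ 2 ≤ 4 * D / X ^ 2 * (1 + θ) := le_mul_of_one_le_right (by positivity) (by linarith)
  linarith

lemma rb_Q (hq : 1 ≤ q) (hX1 : 1 ≤ X) (hA4 : X ^ 4 ≤ A) (hAX' : A * X ≤ 16 * X ^ 5) (hYX : Y = X ^ 2)
    (k : ℕ) : (((A * (q * X)) ^ 3 + 1) ^ k) ≤ (8192 * q ^ 3) ^ k * Y ^ (15 * k) := by
  have hX0 : 0 < X := by linarith
  have hA1 : 1 ≤ A := le_trans (one_le_pow₀ hX1) hA4
  have hA0 : 0 < A := by linarith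
  have hq0 : 0 < q := by linarith
  have h1 : 1 ≤ A * (q * X) := by
    have : 1 ≤ q * X := one_le_mul_of_one_le_of_one_le hq hX1
    exact one_le_mul_of_one_le_of_one_le hA1 this
  have h2 : 1 ≤ (A * (q * X)) ^ 3 := one_le_pow₀ h1
  have h3 : A * (q * X) ≤ q * (16 * X ^ 5) := by
    have := mul_le_mul_of_nonneg_left hAX' hq0.le
    nlinarith
  have h4 : (A * (q * X)) ^ 3 ≤ (q * (16 * X ^ 5)) ^ 3 :=
    pow_le_pow_left₀ (by positivity) h3 3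
  have h5 : (q * (16 * X ^ 5)) ^ 3 = 4096 * q ^ 3 * X ^ 15 := by ring
  have hXY : X ≤ Y := by
    rw [hYX]
    nlinarith
  have h6 : X ^ 15 ≤ Y ^ 15 := pow_le_pow_left₀ hX0.le hXY 15
  have h7 : (A * (q * X)) ^ 3 + 1 ≤ 8192 * q ^ 3 * Y ^ 15 := by
    have h8 : (0 : ℝ) < q ^ 3 := by positivity
    have h9 : 4096 * q ^ 3 * X ^ 15 ≤ 4096 * q ^ 3 * Y ^ 15 :=
      mul_le_mul_of_nonneg_left h6 (by positivity)
    have h10 : 1 ≤ 4096 * q ^ 3 * X ^ 15 := by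
      rw [← h5]
      linarith
    linarith
  have h11 : ((A * (q * X)) ^ 3 + 1) ^ k ≤ (8192 * q ^ 3 * Y ^ 15) ^ k :=
    pow_le_pow_left₀ (by positivity) h7 k
  refine h11.trans (le_of_eq ?_)
  rw [mul_pow, ← pow_mul]

lemma rb_r (hβ : 0 < β) (hn : 1 ≤ n) (hq : 1 ≤ q) (hA0 : 0 < A) (hX0 : 0 < X)
    (h2 : β * n ≤ (A * X) ^ 2 * 4) :
    β * Real.sqrt β / (A * (q * X)) ^ 3 ≤ 8 / q ^ 3 := by
  have hq0 : 0 < q := by linarith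
  have hsq := rb_sqrt hn hβ hA0 hX0 h2
  have h3 : β ≤ (A * X) ^ 2 * 4 := (le_mul_of_one_le_right hβ.le hn).trans h2
  have h4 : β * Real.sqrt β ≤ (A * X) ^ 2 * 4 * (2 * (A * X)) :=
    mul_le_mul h3 hsq (Real.sqrt_nonneg _) (by positivity)
  rw [div_le_div_iff₀ (by positivity) (by positivity)]
  have h5 : β * Real.sqrt β * q ^ 3 ≤ (A * X) ^ 2 * 4 * (2 * (A * X)) * q ^ 3 :=
    mul_le_mul_of_nonneg_right h4 (by positivity)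
  refine h5.trans (le_of_eq ?_)
  ring

lemma rb_one_L (hβ : 0 < β) (hn : 1 ≤ n) (hq : 1 ≤ q) (hA0 : 0 < A) (hX0 : 0 < X)
    (h2 : β * n ≤ (A * X) ^ 2 * 4) :
    1 / (A * (q * X) / Real.sqrt β) ≤ 2 / q := by
  have hq0 : 0 < q := by linarith
  have hsq := rb_sqrt hn hβ hA0 hX0 h2
  have hs0 : 0 < Real.sqrt β := Real.sqrt_pos.mpr hβ
  rw [one_div_div, div_le_div_iff₀ (by positivity) hq0]
  have := mul_le_mul_of_nonneg_right hsq hq0.le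
  refine this.trans (le_of_eq ?_)
  ring

lemma rb_M_L (hβ : 0 < β) (hn : 1 ≤ n) (hq : 1 ≤ q) (hA0 : 0 < A) (hX1 : 1 ≤ X) (hYX : Y = X ^ 2)
    (h2 : β * n ≤ (A * X) ^ 2 * 4) :
    (q * X) / (A * (q * X) / Real.sqrt β) ≤ 2 * Y := by
  have hq0 : 0 < q := by linarith
  have hX0 : 0 < X := by linarith
  have hsq := rb_sqrt hn hβ hA0 hX0 h2
  have hs0 : 0 < Real.sqrt β := Real.sqrt_pos.mpr hβ
  have e : (q * X) / (A * (q * X) / Real.sqrt β) = Real.sqrt β / A := by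
    field_simp
  rw [e, div_le_iff₀ hA0, hYX]
  have hXX : X ≤ X ^ 2 := by nlinarith
  have : 2 * (A * X) ≤ 2 * X ^ 2 * A := by nlinarith
  linarith

lemma rb_tau (hβ : 0 < β) (hn : 1 ≤ n) (hA0 : 0 < A) (hX0 : 0 < X) (hYX : Y = X ^ 2)
    (h1 : (A * X) ^ 2 ≤ β * n) {g : ℝ} (hθ : 0 < θ) (hθ' : θ ≤ 1 / 8) (hg : 1 - 2 * θ ≤ g) :
    Y / 4 ≤ β * g / (1 + θ) * (n / A ^ 2) := by
  have hg0 : 3 / 4 ≤ g := by linarith
  have e : β * g / (1 + θ) * (n / A ^ 2) = (β * n) / A ^ 2 * (g / (1 + θ)) := by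
    field_simp
  rw [e, hYX]
  have h3 : X ^ 2 ≤ (β * n) / A ^ 2 := by
    rw [le_div_iff₀ (by positivity)]
    nlinarith
  have h4 : (1 : ℝ) / 4 ≤ g / (1 + θ) := by
    rw [div_le_div_iff₀ (by norm_num) (by linarith)]
    nlinarith
  have h5 : X ^ 2 * (1 / 4) ≤ (β * n) / A ^ 2 * (g / (1 + θ)) :=
    mul_le_mul h3 h4 (by norm_num) (by positivity)
  linarith

lemma rb_rel (hβ : 0 < β) (hn : 1 ≤ n) (hA0 : 0 < A) {g δ Mr : ℝ} (hg0 : 0 < g) (hθ : 0 < θ)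
    (hδ : 0 < δ) (hMr : 0 < Mr) :
    (β * g / (1 + θ) * (n / A ^ 2)) * δ / Mr ^ 2
      = n * (g * δ / (1 + θ)) / (A * Mr / Real.sqrt β) ^ 2 := by
  have hs0 : 0 < Real.sqrt β := Real.sqrt_pos.mpr hβ
  rw [div_pow, Real.sq_sqrt hβ.le]
  field_simp

lemma rb_rho (hθ : 0 < θ) (hθ' : θ ≤ 1 / 8) {g : ℝ} (hg : 1 - 2 * θ ≤ g) :
    1 - 4 * θ ≤ g * (1 - 5 / 48 * θ ^ 2) / (1 + θ) := by
  rw [le_div_iff₀ (by linarith)]
  have h1 : 1 - θ ≤ 1 - 5 / 48 * θ ^ 2 := by nlinarith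
  have h2 : (1 - 2 * θ) * (1 - θ) ≤ g * (1 - 5 / 48 * θ ^ 2) :=
    mul_le_mul hg h1 (by linarith) (by linarith)
  nlinarith

end RealBounds

lemma gS_nonneg (n : ℕ) {z : ℝ} (hz0 : 0 ≤ z) : 0 ≤ gS n z := by
  unfold gS
  refine tsum_nonneg fun j => ?_
  have := xS_nonneg n (j + 1)
  positivity

lemma ub_free_part {n a M q : ℕ} (hn : 1 ≤ n) (ha : 0 < a) (hM0 : 0 < M) (hq1 : (1 : ℝ) ≤ q) {β X Y θ g z κb c₀ : ℝ}
    (hβ : 0 < β) (hX1 : 1 ≤ X) (hMr : (M : ℝ) = q * X) (hYX : Y = X ^ 2)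
    (h1 : ((a : ℝ) * X) ^ 2 ≤ β * n) (h2 : β * n ≤ ((a : ℝ) * X) ^ 2 * 4) (hθ : 0 < θ) (hθ' : θ ≤ 1 / 8)
    (hg : 1 - 2 * θ ≤ g) (hz0 : 0 < z) (hz1 : z < 1)
    (hκb : κb = 2 / (q : ℝ) + 2 * Y * Real.exp (-(2 / Real.pi ^ 2 * θ ^ 2 / 4 * Y)))
    (hc₀ : c₀ = (Real.sqrt (1 - 4 * θ))⁻¹) :
    β * Real.sqrt β / ((a : ℝ) * (q * X)) ^ 3
        * ∑ q' : C3 M, -Real.log (1 - z * Real.exp (-((β * g / (1 + θ) * ((n : ℝ) / (a : ℝ) ^ 2)) * disp q')))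
      ≤ c₀ ^ 3 * gS n z + κb * (3 * c₀ ^ 2 + 3 * c₀ * κb + κb ^ 2) * (-Real.log (1 - z)) := by
  have hn1 : (1 : ℝ) ≤ n := by exact_mod_cast hn
  have hA0 : (0 : ℝ) < a := by exact_mod_cast ha
  have hX0 : 0 < X := by linarith
  have hq0 : (0 : ℝ) < q := by linarith
  have hs0 : 0 < Real.sqrt β := Real.sqrt_pos.mpr hβ
  have hM0' : (0 : ℝ) < M := by exact_mod_cast hM0
  have hg0 : 0 < g := by linarith
  have hδ : 0 < 1 - 5 / 48 * θ ^ 2 := by nlinarith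
  have hθ1 : θ ≤ 1 := by linarith
  set τ : ℝ := β * g / (1 + θ) * ((n : ℝ) / (a : ℝ) ^ 2) with hτ
  have hτ0 : 0 < τ := by positivity
  set L : ℝ := (a : ℝ) * (q * X) / Real.sqrt β with hL
  have hL0 : 0 < L := by positivity
  set ρ : ℝ := g * (1 - 5 / 48 * θ ^ 2) / (1 + θ) with hρ
  have hρ0 : 1 - 4 * θ ≤ ρ := rb_rho hθ hθ' hg
  have hρ1 : 0 < 1 - 4 * θ := by linarith
  have hρpos : 0 < ρ := by linarith
  have hrel : τ * (1 - 5 / 48 * θ ^ 2) / (M : ℝ) ^ 2 = (n : ℝ) * ρ / L ^ 2 := by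
    have := rb_rel (A := (a : ℝ)) (n := (n : ℝ)) (θ := θ) hβ hn1 hA0 hg0 hθ hδ hM0'
    rw [hτ, this, hL, hMr]
  set κ : ℝ := 1 / L + (M : ℝ) / L * Real.exp (-(τ * (2 / Real.pi ^ 2 * θ ^ 2))) with hκ
  set c : ℝ := (Real.sqrt ρ)⁻¹ with hc
  have hfree := free_final (z := z) (τ := τ) (u₀ := θ) (L := L) (ρ := ρ) hn hz0.le hz1 hτ0 hM0 hθ hθ1 hL0 hρpos
    hrel hκ hc
  -- the prefactor
  have hrL : β * Real.sqrt β / ((a : ℝ) * (q * X)) ^ 3 * L ^ 3 = 1 := by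
    have : Real.sqrt β ^ 3 = β * Real.sqrt β := by
      rw [pow_three, Real.mul_self_sqrt hβ.le, mul_comm]
    rw [hL, div_pow, this]
    have hD : β * Real.sqrt β ≠ 0 := by positivity
    have hQ : ((a : ℝ) * (q * X)) ^ 3 ≠ 0 := by positivity
    rw [div_mul_div_comm, mul_comm, div_self]
    exact mul_ne_zero hQ hD
  have hr0 : 0 ≤ β * Real.sqrt β / ((a : ℝ) * (q * X)) ^ 3 := by positivity
  have hlog0 : 0 ≤ -Real.log (1 - z) := by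
    have := Real.log_nonpos (show 0 ≤ 1 - z by linarith) (by linarith)
    linarith
  have hG0 := gS_nonneg n hz0.le
  have hc0 : 0 ≤ c := by
    rw [hc]
    positivity
  have hcc : c ≤ c₀ := by
    rw [hc, hc₀]
    exact inv_anti₀ (Real.sqrt_pos.mpr hρ1) (Real.sqrt_le_sqrt hρ0)
  have hκ0 : 0 ≤ κ := by
    rw [hκ]
    positivity
  have hκκ : κ ≤ κb := by
    rw [hκ, hκb]
    have e1 := rb_one_L (q := (q : ℝ)) hβ hn1 hq1 hA0 hX0 h2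
    have e2 := rb_M_L (q := (q : ℝ)) hβ hn1 hq1 hA0 hX1 hYX h2
    rw [← hL] at e1
    rw [← hL, ← hMr] at e2
    have e3 : Real.exp (-(τ * (2 / Real.pi ^ 2 * θ ^ 2))) ≤ Real.exp (-(2 / Real.pi ^ 2 * θ ^ 2 / 4 * Y)) := by
      refine Real.exp_le_exp.mpr ?_
      have h4 := rb_tau (n := (n : ℝ)) hβ hn1 hA0 hX0 hYX h1 hθ hθ' hg
      rw [← hτ] at h4
      have h5 : 0 ≤ 2 / Real.pi ^ 2 * θ ^ 2 := by positivity
      have h6 := mul_le_mul_of_nonneg_right h4 h5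
      have e : 2 / Real.pi ^ 2 * θ ^ 2 / 4 * Y = Y / 4 * (2 / Real.pi ^ 2 * θ ^ 2) := by ring
      rw [e]
      linarith
    have e4 := mul_le_mul e2 e3 (Real.exp_pos _).le (by
      have : (0 : ℝ) ≤ Y := by rw [hYX]; positivity
      linarith)
    linarith
  have hmono : c ^ 3 * gS n z + κ * (3 * c ^ 2 + 3 * c * κ + κ ^ 2) * (-Real.log (1 - z))
      ≤ c₀ ^ 3 * gS n z + κb * (3 * c₀ ^ 2 + 3 * c₀ * κb + κb ^ 2) * (-Real.log (1 - z)) := by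
    have h3 : c ^ 3 ≤ c₀ ^ 3 := pow_le_pow_left₀ hc0 hcc 3
    have h4 : c ^ 2 ≤ c₀ ^ 2 := pow_le_pow_left₀ hc0 hcc 2
    have h5 : κ ^ 2 ≤ κb ^ 2 := pow_le_pow_left₀ hκ0 hκκ 2
    have h6 : c * κ ≤ c₀ * κb := mul_le_mul hcc hκκ hκ0 (hc0.trans hcc)
    have h7 : 3 * c ^ 2 + 3 * c * κ + κ ^ 2 ≤ 3 * c₀ ^ 2 + 3 * c₀ * κb + κb ^ 2 := by linarith
    have h8 : κ * (3 * c ^ 2 + 3 * c * κ + κ ^ 2) ≤ κb * (3 * c₀ ^ 2 + 3 * c₀ * κb + κb ^ 2) :=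
      mul_le_mul hκκ h7 (by positivity) (hκ0.trans hκκ)
    have h9 := mul_le_mul_of_nonneg_right h3 hG0
    have h10 := mul_le_mul_of_nonneg_right h8 hlog0
    linarith
  refine le_trans ?_ hmono
  have h11 := mul_le_mul_of_nonneg_left hfree hr0
  refine h11.trans (le_of_eq ?_)
  rw [← mul_assoc, hrL, one_mul]

/-- The finite bound behind the upper bound on the pressure, with real parameters. -/
theorem ub_step_real {n : ℕ} (hn : 1 ≤ n) {β lam : ℝ} (hβ : 0 < β) (hlam : 0 < lam) {m a M q K₀ : ℕ}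
    (ha : 0 < a) (hM0 : 0 < M) (haM : a * M = q * 2 ^ m) (hq1 : (1 : ℝ) ≤ q) (hK₀ : 1 ≤ K₀) {X Y : ℝ}
    (hX1 : 1 ≤ X) (hMr : (M : ℝ) = q * X) (hA4 : X ^ 4 ≤ (a : ℝ)) (hAX' : (a : ℝ) * X ≤ 16 * X ^ 5) (hYX : Y = X ^ 2)
    (h1 : ((a : ℝ) * X) ^ 2 ≤ β * n) (h2 : β * n ≤ ((a : ℝ) * X) ^ 2 * 4) (hm : (4 : ℝ) ^ m ≤ β * n)
    {θ : ℝ} (hθ : 0 < θ) (hθ' : θ ≤ 1 / 8)
    (hK : (K₀ : ℝ) ^ 2 ≤ θ * Y) {Lβ : ℝ}
    (hL : Tendsto (fun N => logDensity n N β lam) atTop (𝓝 Lβ)) {κb c₀ z z₁ : ℝ}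
    (hκb : κb = 2 / (q : ℝ) + 2 * Y * Real.exp (-(2 / Real.pi ^ 2 * θ ^ 2 / 4 * Y)))
    (hc₀ : c₀ = (Real.sqrt (1 - 4 * θ))⁻¹) (hz : z = Real.exp (-lam)) (hz₁ : z₁ = Real.exp (-(lam / 2))) :
    β * Real.sqrt β * Lβ
      ≤ 8 / (q : ℝ) ^ 3 * (48 * (1 + 1 / θ) * (K₀ : ℝ) ^ 2 / Y
          + ((K₀ : ℝ) + 1) * Real.exp 1 * (8192 * (q : ℝ) ^ 3) ^ K₀ * Y ^ (15 * K₀)
              * Real.exp (-(θ / (18 * (K₀ : ℝ)) * Y))
          + (z / z₁) ^ (K₀ + 1) * Real.exp ((1 - z₁)⁻¹ * (((q : ℝ) ^ 3 * (4 * (9 : ℝ) ^ 8)) * z₁)))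
        + c₀ ^ 3 * gS n z + κb * (3 * c₀ ^ 2 + 3 * c₀ * κb + κb ^ 2) * (-Real.log (1 - z)) := by
  have hn1 : (1 : ℝ) ≤ n := by exact_mod_cast hn
  have hK1 : (1 : ℝ) ≤ K₀ := by exact_mod_cast hK₀
  have hA0 : (0 : ℝ) < a := by exact_mod_cast ha
  have hX0 : 0 < X := by linarith
  have hq0 : (0 : ℝ) < q := by linarith
  have hθ1 : θ ≤ 1 := by linarith
  have hY0 : 0 < Y := by rw [hYX]; positivity
  have hQ0 : 0 < a * M := Nat.mul_pos ha hM0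
  have hA3 := rb_A3 hX1 hA4 hYX
  obtain ⟨hK2, hKv⟩ := rb_K hn1 hθ hθ1 hA0 hA3 hK
  set E₀ : ℝ := θ * n / (18 * (K₀ : ℝ) * (a : ℝ) ^ 2) with hE₀
  have hE₀0 : 0 ≤ E₀ := by positivity
  have hE₀e : (18 * (K₀ : ℝ) * (a : ℝ) ^ 2 / n) * E₀ = θ := by
    rw [hE₀]
    field_simp
  set g : ℝ := (1 - (K₀ : ℝ) ^ 2 / ((n : ℝ) * (a : ℝ) ^ 3)) - (18 * (K₀ : ℝ) * (a : ℝ) ^ 2 / n) * E₀ with hg
  have hg1 : 1 - 2 * θ ≤ g := by
    rw [hg, hE₀e]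
    linarith
  have hg0 : 0 < g := by linarith
  have hlam₁ : lam / 2 ≤ lam := by linarith
  have hmain := log_Zgen_cube (a := a) (M := M) (K₀ := K₀) hn ha hM0 hKv hθ hβ hE₀0 hg0 hlam₁ hlam
  rw [← hg, ← hz, ← hz₁, hMr] at hmain
  have hz0 : 0 < z := by rw [hz]; exact Real.exp_pos _
  have hz1 : z < 1 := by
    rw [hz, Real.exp_lt_one_iff]
    linarith
  have hz₁0 : 0 < z₁ := by rw [hz₁]; exact Real.exp_pos _
  have hfree := ub_free_part (g := g) (z := z) hn ha hM0 hq1 hβ hX1 hMr hYX h1 h2 hθ hθ' hg1 hz0 hz1 hκb hc₀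
  have hlim := limit_le_cube hβ.le hL (a * M) hQ0
  have hcast : ((a * M : ℕ) : ℝ) = (a : ℝ) * (q * X) := by
    push_cast
    rw [hMr]
  rw [hcast] at hlim
  set Qr : ℝ := (a : ℝ) * (q * X) with hQr
  have hQr0 : 0 < Qr := by positivity
  set r : ℝ := β * Real.sqrt β / Qr ^ 3 with hr
  have hs0 : 0 < Real.sqrt β := Real.sqrt_pos.mpr hβ
  have hr0 : 0 ≤ r := by positivity
  have hr8 : r ≤ 8 / (q : ℝ) ^ 3 := rb_r hβ hn1 hq1 hA0 hX0 h2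
  set F : ℝ := ∑ q' : C3 M, -Real.log (1 - z * Real.exp (-((β * g / (1 + θ) * ((n : ℝ) / (a : ℝ) ^ 2)) * disp q')))
    with hF
  set Z₁ : ℝ := Zgen (cAdj (Q := a * M)) n β (lam / 2) with hZ₁
  have hZ₁0 : 0 < Z₁ := Zgen_pos' _ _ _ _
  have hC : Z₁ ≤ Real.exp ((1 - z₁)⁻¹ * (((q : ℝ) ^ 3 * (4 * (9 : ℝ) ^ 8)) * z₁)) := by
    rw [hz₁]
    exact Zgen_cube_apriori hn haM hQ0 hβ.le hm (by linarith)
  have hE1 := rb_E1 (K₀ := (K₀ : ℝ)) hn1 hβ hθ hX0 hA4 hYX h2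
  have hBQ := rb_Q hq1 hX1 hA4 hAX' hYX K₀
  have hBe : Real.exp (-(β * E₀)) ≤ Real.exp (-(θ / (18 * (K₀ : ℝ)) * Y)) := by
    refine Real.exp_le_exp.mpr ?_
    have e1 : β * E₀ = θ / (18 * (K₀ : ℝ)) * ((β * n) / (a : ℝ) ^ 2) := by
      rw [hE₀]
      field_simp
    have e2 : Y ≤ (β * n) / (a : ℝ) ^ 2 := by
      rw [le_div_iff₀ (by positivity), hYX]
      linarith [h1, mul_pow (a : ℝ) X 2]
    have e3 := mul_le_mul_of_nonneg_left e2 (show 0 ≤ θ / (18 * (K₀ : ℝ)) by positivity)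
    rw [e1]
    linarith
  have hY15 : 0 ≤ Y ^ (15 * K₀) := by positivity
  have hB : ((K₀ : ℝ) + 1) * (Real.exp 1 * (Qr ^ 3 + 1) ^ K₀ * Real.exp (-(β * E₀)))
      ≤ ((K₀ : ℝ) + 1) * Real.exp 1 * (8192 * (q : ℝ) ^ 3) ^ K₀ * Y ^ (15 * K₀)
          * Real.exp (-(θ / (18 * (K₀ : ℝ)) * Y)) := by
    have h5 : (Qr ^ 3 + 1) ^ K₀ * Real.exp (-(β * E₀))
        ≤ ((8192 * (q : ℝ) ^ 3) ^ K₀ * Y ^ (15 * K₀)) * Real.exp (-(θ / (18 * (K₀ : ℝ)) * Y)) :=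
      mul_le_mul hBQ hBe (Real.exp_pos _).le (by positivity)
    have h6 := mul_le_mul_of_nonneg_left h5 (show 0 ≤ ((K₀ : ℝ) + 1) * Real.exp 1 by positivity)
    refine le_trans (le_of_eq ?_) (h6.trans (le_of_eq ?_)) <;> ring
  have hC' : (z / z₁) ^ (K₀ + 1) * Z₁
      ≤ (z / z₁) ^ (K₀ + 1) * Real.exp ((1 - z₁)⁻¹ * (((q : ℝ) ^ 3 * (4 * (9 : ℝ) ^ 8)) * z₁)) :=
    mul_le_mul_of_nonneg_left hC (by positivity)
  have hcomb : β * Real.sqrt β * Lβ ≤ r * Real.log (Zgen (cAdj (Q := a * M)) n β lam) := by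
    have := mul_le_mul_of_nonneg_left hlim (show 0 ≤ β * Real.sqrt β by positivity)
    refine this.trans (le_of_eq ?_)
    rw [hr]
    ring
  have hT0 : 0 ≤ β * ((1 + 1 / θ) * (12 * (n : ℝ) * (K₀ : ℝ) ^ 2 / (a : ℝ) ^ 3)) / (1 + θ)
      + (((K₀ : ℝ) + 1) * (Real.exp 1 * (Qr ^ 3 + 1) ^ K₀ * Real.exp (-(β * E₀)))
        + (z / z₁) ^ (K₀ + 1) * Z₁) := by positivity
  have h7 := mul_le_mul_of_nonneg_left hmain hr0
  have h8 : r * (β * ((1 + 1 / θ) * (12 * (n : ℝ) * (K₀ : ℝ) ^ 2 / (a : ℝ) ^ 3)) / (1 + θ)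
      + (((K₀ : ℝ) + 1) * (Real.exp 1 * (Qr ^ 3 + 1) ^ K₀ * Real.exp (-(β * E₀)))
        + (z / z₁) ^ (K₀ + 1) * Z₁))
      ≤ 8 / (q : ℝ) ^ 3 * (48 * (1 + 1 / θ) * (K₀ : ℝ) ^ 2 / Y
          + ((K₀ : ℝ) + 1) * Real.exp 1 * (8192 * (q : ℝ) ^ 3) ^ K₀ * Y ^ (15 * K₀)
              * Real.exp (-(θ / (18 * (K₀ : ℝ)) * Y))
          + (z / z₁) ^ (K₀ + 1) * Real.exp ((1 - z₁)⁻¹ * (((q : ℝ) ^ 3 * (4 * (9 : ℝ) ^ 8)) * z₁))) := by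
    refine mul_le_mul hr8 ?_ hT0 (by positivity)
    linarith
  have e : r * (β * ((1 + 1 / θ) * (12 * (n : ℝ) * (K₀ : ℝ) ^ 2 / (a : ℝ) ^ 3)) / (1 + θ) + F
      + (((K₀ : ℝ) + 1) * (Real.exp 1 * (Qr ^ 3 + 1) ^ K₀ * Real.exp (-(β * E₀)))
        + (z / z₁) ^ (K₀ + 1) * Z₁))
      = r * (β * ((1 + 1 / θ) * (12 * (n : ℝ) * (K₀ : ℝ) ^ 2 / (a : ℝ) ^ 3)) / (1 + θ)
      + (((K₀ : ℝ) + 1) * (Real.exp 1 * (Qr ^ 3 + 1) ^ K₀ * Real.exp (-(β * E₀)))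
        + (z / z₁) ^ (K₀ + 1) * Z₁)) + r * F := by ring
  rw [e] at h7
  linarith

/-- The finite bound behind the upper bound on the pressure. -/
theorem ub_step {n : ℕ} (hn : 1 ≤ n) {β lam : ℝ} (hβ : 0 < β) (hlam : 0 < lam) {m s q K₀ : ℕ}
    (hs : m / 5 = s) (hq : 1 ≤ q) (hK₀ : 1 ≤ K₀) (h1 : (4 : ℝ) ^ m ≤ β * n)
    (h2 : β * n ≤ (4 : ℝ) ^ (m + 1)) {θ : ℝ} (hθ : 0 < θ) (hθ' : θ ≤ 1 / 8)
    (hK : (K₀ : ℝ) ^ 2 ≤ θ * (4 : ℝ) ^ s) {Lβ : ℝ}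
    (hL : Tendsto (fun N => logDensity n N β lam) atTop (𝓝 Lβ)) {Y κb c₀ z z₁ : ℝ}
    (hY : Y = (4 : ℝ) ^ s)
    (hκb : κb = 2 / (q : ℝ) + 2 * Y * Real.exp (-(2 / Real.pi ^ 2 * θ ^ 2 / 4 * Y)))
    (hc₀ : c₀ = (Real.sqrt (1 - 4 * θ))⁻¹) (hz : z = Real.exp (-lam)) (hz₁ : z₁ = Real.exp (-(lam / 2))) :
    β * Real.sqrt β * Lβ
      ≤ 8 / (q : ℝ) ^ 3 * (48 * (1 + 1 / θ) * (K₀ : ℝ) ^ 2 / Y
          + ((K₀ : ℝ) + 1) * Real.exp 1 * (8192 * (q : ℝ) ^ 3) ^ K₀ * Y ^ (15 * K₀)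
              * Real.exp (-(θ / (18 * (K₀ : ℝ)) * Y))
          + (z / z₁) ^ (K₀ + 1) * Real.exp ((1 - z₁)⁻¹ * (((q : ℝ) ^ 3 * (4 * (9 : ℝ) ^ 8)) * z₁)))
        + c₀ ^ 3 * gS n z + κb * (3 * c₀ ^ 2 + 3 * c₀ * κb + κb ^ 2) * (-Real.log (1 - z)) := by
  have hm5 : 5 * s ≤ m := by rw [← hs]; omega
  have hm5' : m ≤ 5 * s + 4 := by rw [← hs]; omega
  obtain ⟨w, hw⟩ : ∃ w, w + s = m := ⟨m - s, by omega⟩
  have hw4 : 4 * s ≤ w := by omega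
  have hq1 : (1 : ℝ) ≤ q := by exact_mod_cast hq
  set X : ℝ := (2 : ℝ) ^ s with hX
  have hX1 : 1 ≤ X := one_le_pow₀ (by norm_num)
  have hcast : ((2 ^ w : ℕ) : ℝ) = (2 : ℝ) ^ w := by push_cast; rfl
  have hA4 : X ^ 4 ≤ ((2 ^ w : ℕ) : ℝ) := by
    rw [hcast, hX, ← pow_mul, mul_comm]
    exact pow_le_pow_right₀ (by norm_num) hw4
  have hAX : ((2 ^ w : ℕ) : ℝ) * X = (2 : ℝ) ^ m := by
    rw [hcast, hX, ← pow_add, hw]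
  have hAX' : ((2 ^ w : ℕ) : ℝ) * X ≤ 16 * X ^ 5 := by
    rw [hAX, hX, ← pow_mul]
    calc (2 : ℝ) ^ m ≤ 2 ^ (5 * s + 4) := pow_le_pow_right₀ (by norm_num) hm5'
      _ = 16 * 2 ^ (s * 5) := by rw [pow_add, mul_comm 5 s]; ring
  have hYX : Y = X ^ 2 := by
    rw [hY, hX, ← pow_mul, mul_comm s 2, pow_mul]
    norm_num
  have h4m : (4 : ℝ) ^ m = (((2 ^ w : ℕ) : ℝ) * X) ^ 2 := by
    rw [hAX, ← pow_mul, mul_comm m 2, pow_mul]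
    norm_num
  have hm : (4 : ℝ) ^ m ≤ β * n := h1
  rw [h4m] at h1
  rw [pow_succ, h4m] at h2
  rw [← hY] at hK
  have haM : 2 ^ w * (q * 2 ^ s) = q * 2 ^ m := by
    rw [← hw, pow_add]
    ring
  have hMr : ((q * 2 ^ s : ℕ) : ℝ) = q * X := by
    push_cast
    rfl
  exact ub_step_real hn hβ hlam (a := 2 ^ w) (M := q * 2 ^ s) (m := m) (by positivity) (by positivity) haM hq1 hK₀
    hX1 hMr hA4 hAX' hYX h1 h2 hm hθ hθ' hK hL hκb hc₀ hz hz₁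

/-- The exponent of four below a large number. -/
lemma exists_scale {x : ℝ} (hx : 1 ≤ x) : ∃ m : ℕ, (4 : ℝ) ^ m ≤ x ∧ x ≤ (4 : ℝ) ^ (m + 1) := by
  refine ⟨Nat.log 4 ⌊x⌋₊, ?_, ?_⟩
  · have h1 : 4 ^ Nat.log 4 ⌊x⌋₊ ≤ ⌊x⌋₊ := Nat.pow_log_le_self 4 (by
      have := Nat.floor_pos.mpr hx
      omega)
    have h2 : ((4 ^ Nat.log 4 ⌊x⌋₊ : ℕ) : ℝ) ≤ (⌊x⌋₊ : ℝ) := by exact_mod_cast h1
    have h3 := Nat.floor_le (show 0 ≤ x by linarith)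
    push_cast at h2
    linarith
  · have h1 : ⌊x⌋₊ < 4 ^ (Nat.log 4 ⌊x⌋₊ + 1) := Nat.lt_pow_succ_log_self (by norm_num) _
    have h2 : ⌊x⌋₊ + 1 ≤ 4 ^ (Nat.log 4 ⌊x⌋₊ + 1) := h1
    have h3 := Nat.lt_floor_add_one x
    have h4 : ((⌊x⌋₊ + 1 : ℕ) : ℝ) ≤ ((4 ^ (Nat.log 4 ⌊x⌋₊ + 1) : ℕ) : ℝ) := by exact_mod_cast h2
    push_cast at h4
    linarith

lemma tendsto_pow_exp {b : ℝ} (hb : 0 < b) (k : ℕ) :
    Tendsto (fun Y : ℝ => Y ^ k * Real.exp (-(b * Y))) atTop (𝓝 0) := by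
  have h := tendsto_rpow_mul_exp_neg_mul_atTop_nhds_zero (k : ℝ) b hb
  refine h.congr fun Y => ?_
  rw [Real.rpow_natCast, neg_mul]

/-- The limit of the bound, for fixed parameters. -/
lemma ub_phi_tendsto {θ c₁ C₁ C₂ R G ℓ c₀ q2 : ℝ} (hc₁ : 0 < c₁) {b : ℝ} (hb : 0 < b) (k : ℕ) :
    Tendsto (fun Y : ℝ => R * (C₁ / Y + C₂ * Y ^ k * Real.exp (-(b * Y)) + θ)
        + c₀ ^ 3 * G + (q2 + 2 * Y * Real.exp (-(c₁ * Y)))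
          * (3 * c₀ ^ 2 + 3 * c₀ * (q2 + 2 * Y * Real.exp (-(c₁ * Y))) + (q2 + 2 * Y * Real.exp (-(c₁ * Y))) ^ 2) * ℓ)
      atTop (𝓝 (R * θ + c₀ ^ 3 * G + q2 * (3 * c₀ ^ 2 + 3 * c₀ * q2 + q2 ^ 2) * ℓ)) := by
  have h1 : Tendsto (fun Y : ℝ => C₁ / Y) atTop (𝓝 0) := tendsto_const_nhds.div_atTop tendsto_id
  have h2 : Tendsto (fun Y : ℝ => C₂ * Y ^ k * Real.exp (-(b * Y))) atTop (𝓝 0) := by
    have := (tendsto_pow_exp hb k).const_mul C₂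
    rw [mul_zero] at this
    refine this.congr fun Y => ?_
    ring
  have h3 : Tendsto (fun Y : ℝ => q2 + 2 * Y * Real.exp (-(c₁ * Y))) atTop (𝓝 q2) := by
    have := (tendsto_pow_exp hc₁ 1).const_mul 2
    rw [mul_zero] at this
    have h4 := this.const_add q2
    rw [add_zero] at h4
    refine h4.congr fun Y => ?_
    ring
  have h5 := ((((h1.add h2).add_const θ).const_mul R).add_const (c₀ ^ 3 * G)).add
    ((h3.mul (((h3.const_mul (3 * c₀)).const_add (3 * c₀ ^ 2)).add (h3.pow 2))).mul_const ℓ)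
  convert h5 using 2
  ring

/-- The upper bound on the pressure at scaled positive field. -/
theorem ub_limit {n : ℕ} (hn : 1 ≤ n) {lam : ℝ} (hlam : 0 < lam) {ε : ℝ} (hε : 0 < ε) :
    ∃ β₀ : ℝ, 0 < β₀ ∧ ∀ β, β₀ ≤ β → ∀ Lβ,
      Tendsto (fun N => logDensity n N β lam) atTop (𝓝 Lβ) →
        β * Real.sqrt β * Lβ ≤ gS n (Real.exp (-lam)) + ε := by
  set z : ℝ := Real.exp (-lam) with hz
  set z₁ : ℝ := Real.exp (-(lam / 2)) with hz₁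
  have hz0 : 0 < z := Real.exp_pos _
  have hz1 : z < 1 := by
    rw [hz, Real.exp_lt_one_iff]
    linarith
  have hz₁0 : 0 < z₁ := Real.exp_pos _
  set G : ℝ := gS n z with hG
  have hG0 : 0 ≤ G := gS_nonneg n hz0.le
  set ℓ : ℝ := -Real.log (1 - z) with hℓ
  have hℓ0 : 0 ≤ ℓ := by
    have := Real.log_nonpos (show 0 ≤ 1 - z by linarith) (by linarith)
    linarith
  -- the choice of `θ`
  obtain ⟨θ, ⟨hθ, hθ'⟩, hθG⟩ : ∃ θ ∈ Set.Ioo (0 : ℝ) (1 / 8), ((Real.sqrt (1 - 4 * θ))⁻¹) ^ 3 * G < G + ε / 4 := by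
    have hcont : ContinuousAt (fun θ : ℝ => ((Real.sqrt (1 - 4 * θ))⁻¹) ^ 3 * G) 0 := by
      refine ContinuousAt.mul (ContinuousAt.pow (ContinuousAt.inv₀ ?_ ?_) 3) continuousAt_const
      · exact (Real.continuous_sqrt.comp (by fun_prop)).continuousAt
      · norm_num
    have h0 : ((Real.sqrt (1 - 4 * 0))⁻¹) ^ 3 * G < G + ε / 4 := by
      norm_num
      linarith
    have hev := hcont.eventually (gt_mem_nhds h0)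
    have hev2 := (hev.filter_mono (nhdsWithin_le_nhds (s := Set.Ioi 0))).and
      (Ioo_mem_nhdsGT (show (0 : ℝ) < 1 / 8 by norm_num))
    obtain ⟨θ, h1, h2⟩ := hev2.exists
    exact ⟨θ, h2, h1⟩
  have hθ1 : 0 < 1 - 4 * θ := by linarith
  set c₀ : ℝ := (Real.sqrt (1 - 4 * θ))⁻¹ with hc₀
  have hc₀0 : 0 ≤ c₀ := by positivity
  have hc₀2 : c₀ ≤ 2 := by
    rw [hc₀, inv_le_comm₀ (Real.sqrt_pos.mpr hθ1) (by norm_num)]
    refine Real.le_sqrt_of_sq_le ?_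
    norm_num
    linarith
  -- the choice of `q`
  obtain ⟨q, hq⟩ := exists_nat_ge (152 * ℓ / ε + 2)
  have hq2 : (2 : ℝ) ≤ q := by
    have : 0 ≤ 152 * ℓ / ε := by positivity
    linarith
  have hq1 : 1 ≤ q := by
    have : (1 : ℝ) ≤ q := by linarith
    exact_mod_cast this
  have hq0 : (0 : ℝ) < q := by linarith
  set q2 : ℝ := 2 / (q : ℝ) with hq2def
  have hq20 : 0 ≤ q2 := by positivity
  have hq21 : q2 ≤ 1 := by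
    rw [hq2def, div_le_one hq0]
    exact hq2
  have hq2ℓ : 19 * (q2 * ℓ) ≤ ε / 4 := by
    have h1 : 152 * ℓ / ε ≤ q := by linarith
    rw [div_le_iff₀ hε] at h1
    rw [hq2def, div_mul_eq_mul_div, mul_div_assoc', div_le_iff₀ hq0]
    nlinarith
  have hpart3 : q2 * (3 * c₀ ^ 2 + 3 * c₀ * q2 + q2 ^ 2) * ℓ ≤ ε / 4 := by
    have h1 : c₀ ^ 2 ≤ 4 := by nlinarith
    have h2 : c₀ * q2 ≤ 2 := by nlinarith
    have h3 : q2 ^ 2 ≤ 1 := by nlinarith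
    have h4 : 3 * c₀ ^ 2 + 3 * c₀ * q2 + q2 ^ 2 ≤ 19 := by nlinarith
    have h5 : q2 * (3 * c₀ ^ 2 + 3 * c₀ * q2 + q2 ^ 2) * ℓ ≤ q2 * 19 * ℓ :=
      mul_le_mul_of_nonneg_right (mul_le_mul_of_nonneg_left h4 hq20) hℓ0
    linarith
  -- the choice of `K₀`
  set E : ℝ := Real.exp ((1 - z₁)⁻¹ * (((q : ℝ) ^ 3 * (4 * (9 : ℝ) ^ 8)) * z₁)) with hE
  set R : ℝ := 8 / (q : ℝ) ^ 3 with hR
  have hzz : z / z₁ < 1 := by
    rw [div_lt_one hz₁0, hz, hz₁, Real.exp_lt_exp]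
    linarith
  obtain ⟨K₀, hK₀a, hK₀b⟩ : ∃ K₀ : ℕ, R * ((z / z₁) ^ (K₀ + 1) * E) < ε / 4 ∧ 1 ≤ K₀ := by
    have h1 := tendsto_pow_atTop_nhds_zero_of_lt_one (show 0 ≤ z / z₁ by positivity) hzz
    have h2 := ((h1.comp (tendsto_add_atTop_nat 1)).mul_const E).const_mul R
    rw [zero_mul, mul_zero] at h2
    have h3 := (tendsto_order.1 h2).2 _ (show (0 : ℝ) < ε / 4 by linarith)
    exact (h3.and (eventually_ge_atTop 1)).exists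
  have hK1 : (1 : ℝ) ≤ K₀ := by exact_mod_cast hK₀b
  -- the limit
  have hb : 0 < θ / (18 * (K₀ : ℝ)) := by positivity
  have hc₁ : 0 < 2 / Real.pi ^ 2 * θ ^ 2 / 4 := by positivity
  have hΦ := ub_phi_tendsto (θ := (z / z₁) ^ (K₀ + 1) * E) (C₁ := 48 * (1 + 1 / θ) * (K₀ : ℝ) ^ 2)
    (C₂ := ((K₀ : ℝ) + 1) * Real.exp 1 * (8192 * (q : ℝ) ^ 3) ^ K₀) (R := R) (G := G) (ℓ := ℓ) (c₀ := c₀) (q2 := q2)
    hc₁ hb (15 * K₀)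
  have hV : R * ((z / z₁) ^ (K₀ + 1) * E) + c₀ ^ 3 * G + q2 * (3 * c₀ ^ 2 + 3 * c₀ * q2 + q2 ^ 2) * ℓ < G + ε := by
    linarith
  have hev := (tendsto_order.1 hΦ).2 _ hV
  have hev2 : ∀ᶠ Y : ℝ in atTop, (K₀ : ℝ) ^ 2 ≤ θ * Y := by
    filter_upwards [eventually_ge_atTop ((K₀ : ℝ) ^ 2 / θ)] with Y hY
    rwa [div_le_iff₀' hθ] at hY
  obtain ⟨Y₀, hY₀⟩ := eventually_atTop.mp (hev.and hev2)
  obtain ⟨s₀, hs₀⟩ := pow_unbounded_of_one_lt Y₀ (show (1 : ℝ) < 4 by norm_num)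
  refine ⟨(4 : ℝ) ^ (5 * s₀ + 1), by positivity, fun β hβ Lβ hL => ?_⟩
  have hn1 : (1 : ℝ) ≤ n := by exact_mod_cast hn
  have hβ1 : (1 : ℝ) ≤ β := le_trans (one_le_pow₀ (by norm_num)) hβ
  have hβ0 : 0 < β := by linarith
  have hβn : β ≤ β * n := le_mul_of_one_le_right hβ0.le hn1
  obtain ⟨m, hm1, hm2⟩ := exists_scale (show (1 : ℝ) ≤ β * n by linarith)
  have hm : 5 * s₀ ≤ m := by
    have h1 : (4 : ℝ) ^ (5 * s₀ + 1) ≤ (4 : ℝ) ^ (m + 1) := hβ.trans (hβn.trans hm2)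
    have h2 := (pow_le_pow_iff_right₀ (show (1 : ℝ) < 4 by norm_num)).mp h1
    omega
  have hs : s₀ ≤ m / 5 := by omega
  have hYs : Y₀ ≤ (4 : ℝ) ^ (m / 5) :=
    hs₀.le.trans (pow_le_pow_right₀ (by norm_num) hs)
  obtain ⟨hΦY, hKY⟩ := hY₀ _ hYs
  have hstep := ub_step hn hβ0 hlam (m := m) (s := m / 5) (q := q) (K₀ := K₀) rfl hq1 hK₀b hm1 hm2 hθ hθ'.le hKY hL
    rfl rfl rfl hz hz₁
  refine hstep.trans (le_trans ?_ hΦY.le)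
  refine le_of_eq ?_
  rfl

end Vale.Agent.P361Lib
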