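import Vale.Agent.Lib.P361.LBStepA
import Vale.Agent.Lib.P361.UB

/-!
# The lower bound: the limit of the auxiliary parameters
-/

open Matrix Filter Topology MeasureTheory Set

noncomputable section

namespace Vale.Agent.P361Lib

variable {Q₀ : ℕ}

/-- A lower bound for a Gaussian sum. -/
lemma gaussian_sum_ge {b : ℝ} (hb : 0 < b) :
    ∀ᶠ P : ℕ in atTop, Real.sqrt (Real.pi / b) / 2 - 2
      ≤ ∑ p ∈ Finset.range P, Real.exp (-b * ((p : ℝ) + 1) ^ 2) := by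
  set f : ℝ → ℝ := fun x => Real.exp (-b * x ^ 2) with hf
  have hint : Integrable f := integrable_exp_neg_mul_sq hb
  have ht : Tendsto (fun P : ℕ => (1 : ℝ) + (P : ℝ)) atTop atTop :=
    tendsto_atTop_add_const_left _ _ tendsto_natCast_atTop_atTop
  have hlim := intervalIntegral_tendsto_integral_Ioi (μ := volume) (f := f) (0 : ℝ) hint.integrableOn ht
  have hval : ∫ x in Ioi (0 : ℝ), f x = Real.sqrt (Real.pi / b) / 2 := integral_gaussian_Ioi b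
  rw [hval] at hlim
  have hev := hlim.eventually (lt_mem_nhds (show Real.sqrt (Real.pi / b) / 2 - 1 < Real.sqrt (Real.pi / b) / 2 by linarith))
  filter_upwards [hev] with P hP
  have hanti : AntitoneOn f (Icc (1 : ℝ) (1 + (P : ℕ))) := by
    intro x hx y hy hxy
    simp only [hf]
    refine Real.exp_le_exp.mpr ?_
    have hx0 : 0 ≤ x := le_trans zero_le_one hx.1
    have : x ^ 2 ≤ y ^ 2 := by nlinarith
    nlinarith
  have h1 := hanti.integral_le_sum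
  have h2 : ∫ x in (0 : ℝ)..1, f x ≤ 1 := by
    have h3 : ∫ x in (0 : ℝ)..1, f x ≤ ∫ _ in (0 : ℝ)..1, (1 : ℝ) := by
      refine intervalIntegral.integral_mono_on zero_le_one (hint.intervalIntegrable) (by simp) ?_
      intro x _
      simp only [hf]
      rw [Real.exp_le_one_iff]
      have : 0 ≤ b * x ^ 2 := by positivity
      linarith
    simpa using h3
  have h4 : (∫ x in (0 : ℝ)..1, f x) + ∫ x in (1 : ℝ)..(1 + (P : ℝ)), f x = ∫ x in (0 : ℝ)..(1 + (P : ℝ)), f x :=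
    intervalIntegral.integral_add_adjacent_intervals hint.intervalIntegrable hint.intervalIntegrable
  have e : ∑ i ∈ Finset.range P, f (1 + (i : ℝ)) = ∑ p ∈ Finset.range P, Real.exp (-b * ((p : ℝ) + 1) ^ 2) := by
    refine Finset.sum_congr rfl fun p _ => ?_
    simp only [hf]
    rw [add_comm]
  rw [e] at h1
  linarith

lemma sqrt_eval {n j : ℕ} (hn : 1 ≤ n) {θ Ell : ℝ} (hθ : 0 < θ) (hEll : 0 < Ell) :
    Real.sqrt (Real.pi / ((1 + θ) * ((j : ℝ) + 1) * ((n : ℝ) / 2) * (Real.pi / Ell) ^ 2)) / 2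
      = Ell * (xS n (j + 1) / Real.sqrt (1 + θ)) := by
  have hn' : (0 : ℝ) < n := by exact_mod_cast hn
  have hpi := Real.pi_pos
  have hj : (0 : ℝ) < (j : ℝ) + 1 := by positivity
  have e1 : Real.pi / ((1 + θ) * ((j : ℝ) + 1) * ((n : ℝ) / 2) * (Real.pi / Ell) ^ 2)
      = Ell ^ 2 / ((1 + θ) * (Real.pi * ((n : ℝ) / 2) * (((j + 1 : ℕ) : ℕ) : ℝ))) := by
    push_cast
    field_simp
  have h1 : (0 : ℝ) < 1 + θ := by positivity
  have h2 : (0 : ℝ) < Real.pi * ((n : ℝ) / 2) * (((j + 1 : ℕ) : ℕ) : ℝ) := by positivity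
  rw [e1, Real.sqrt_div (by positivity), Real.sqrt_sq hEll.le, Real.sqrt_mul h1.le]
  unfold xS
  have h3 := Real.sqrt_pos.mpr h1
  have h4 := Real.sqrt_pos.mpr h2
  field_simp

lemma Wb_pos {n : ℕ} (hn : 1 ≤ n) {Ell lam : ℝ} (hEll : 0 < Ell) (hlam : 0 ≤ lam) (q : C3 Q₀) :
    0 < Wb n Ell lam q := by
  unfold Wb
  have hn' : (0 : ℝ) < n := by exact_mod_cast hn
  have hpi := Real.pi_pos
  have h1 : (0 : ℝ) < (((q.1 : ℕ) + 1 : ℕ) : ℝ) := by positivity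
  positivity

/-- The weight of a mode. -/
def wq (n : ℕ) (Ell lam θ : ℝ) (q : C3 Q₀) : ℝ := Real.exp (-((1 + θ) * Wb n Ell lam q))

lemma wq_pos (n : ℕ) (Ell lam θ : ℝ) (q : C3 Q₀) : 0 < wq n Ell lam θ q := Real.exp_pos _

lemma wq_lt_one {n : ℕ} (hn : 1 ≤ n) {Ell lam θ : ℝ} (hEll : 0 < Ell) (hlam : 0 ≤ lam) (hθ : 0 < θ)
    (q : C3 Q₀) : wq n Ell lam θ q < 1 := by
  unfold wq
  rw [Real.exp_lt_one_iff]
  have := Wb_pos hn hEll hlam q
  have h2 : 0 < (1 + θ) * Wb n Ell lam q := by positivity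
  linarith

lemma tendsto_XiZ {n : ℕ} (hn : 1 ≤ n) {Ell lam θ : ℝ} (hEll : 0 < Ell) (hlam : 0 ≤ lam) (hθ : 0 < θ)
    (Q₀ : ℕ) : Tendsto (fun K₁ => XiZ n Ell lam θ Q₀ K₁) atTop
      (𝓝 (∑ q : C3 Q₀, -Real.log (1 - wq n Ell lam θ q))) := by
  unfold XiZ
  refine tendsto_finsetSum _ fun q _ => ?_
  have h0 := (wq_pos n Ell lam θ q).le
  have h1 := wq_lt_one hn hEll hlam hθ q
  have hs := (hasSum_geometric_of_lt_one h0 h1).tendsto_sum_nat
  have hs1 := hs.comp (tendsto_add_atTop_nat 1)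
  have hpos : 0 < (1 - wq n Ell lam θ q)⁻¹ := inv_pos.mpr (by linarith)
  have hlog := (Real.continuousAt_log hpos.ne').tendsto.comp hs1
  rw [Real.log_inv] at hlog
  refine hlog.congr fun K₁ => ?_
  simp only [Function.comp]
  congr 1
  rw [Finset.sum_range]
  refine Finset.sum_congr rfl fun k _ => ?_
  unfold wq
  rw [← Real.exp_nat_mul]
  congr 1
  ring

lemma log_geom_ge {w : ℝ} (h0 : 0 ≤ w) (h1 : w < 1) (J₀ : ℕ) :
    ∑ j ∈ Finset.range J₀, w ^ (j + 1) / ((j : ℝ) + 1) ≤ -Real.log (1 - w) := by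
  have h := Real.hasSum_pow_div_log_of_abs_lt_one (x := w) (by rwa [abs_of_nonneg h0])
  refine sum_le_hasSum _ (fun j _ => ?_) h
  positivity

lemma sum_triple {Q₀ : ℕ} (c : ℝ) (A : Fin Q₀ → ℝ) :
    ∑ q : C3 Q₀, c * A q.1 * A q.2.1 * A q.2.2 = c * (∑ p, A p) ^ 3 := by
  rw [Fintype.sum_prod_type]
  simp only [Fintype.sum_prod_type]
  set T : ℝ := ∑ p, A p with hT
  have h1 : ∀ a b : Fin Q₀, ∑ z : Fin Q₀, c * A a * A b * A z = c * A a * A b * T := fun a b => by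
    rw [hT, Finset.mul_sum]
  simp only [h1]
  have h2 : ∀ a : Fin Q₀, ∑ b : Fin Q₀, c * A a * A b * T = c * A a * T * T := fun a => by
    rw [← Finset.sum_mul, ← Finset.mul_sum]
  simp only [h2]
  rw [← Finset.sum_mul, ← Finset.sum_mul, ← Finset.mul_sum]
  ring

/-- The factorisation of the sum over the modes. -/
lemma wq_pow_sum (n : ℕ) (Ell lam θ : ℝ) (Q₀ j : ℕ) :
    ∑ q : C3 Q₀, wq n Ell lam θ q ^ (j + 1)
      = Real.exp (-((1 + θ) * ((j : ℝ) + 1) * lam))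
        * (∑ p ∈ Finset.range Q₀, Real.exp (-((1 + θ) * ((j : ℝ) + 1) * ((n : ℝ) / 2) * (Real.pi / Ell) ^ 2)
            * ((p : ℝ) + 1) ^ 2)) ^ 3 := by
  set b : ℝ := (1 + θ) * ((j : ℝ) + 1) * ((n : ℝ) / 2) * (Real.pi / Ell) ^ 2 with hb
  have h1 : ∀ q : C3 Q₀, wq n Ell lam θ q ^ (j + 1)
      = Real.exp (-((1 + θ) * ((j : ℝ) + 1) * lam)) * Real.exp (-b * (((q.1 : ℕ) : ℝ) + 1) ^ 2)
        * Real.exp (-b * (((q.2.1 : ℕ) : ℝ) + 1) ^ 2) * Real.exp (-b * (((q.2.2 : ℕ) : ℝ) + 1) ^ 2) := by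
    intro q
    unfold wq Wb
    rw [← Real.exp_nat_mul, ← Real.exp_add, ← Real.exp_add, ← Real.exp_add]
    congr 1
    rw [hb]
    push_cast
    ring
  have hS : ∑ q : C3 Q₀, wq n Ell lam θ q ^ (j + 1)
      = ∑ q : C3 Q₀, Real.exp (-((1 + θ) * ((j : ℝ) + 1) * lam)) * Real.exp (-b * (((q.1 : ℕ) : ℝ) + 1) ^ 2)
        * Real.exp (-b * (((q.2.1 : ℕ) : ℝ) + 1) ^ 2) * Real.exp (-b * (((q.2.2 : ℕ) : ℝ) + 1) ^ 2) :=
    Finset.sum_congr rfl fun q _ => h1 q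
  rw [hS, Finset.sum_range]
  exact sum_triple _ fun p : Fin Q₀ => Real.exp (-b * (((p : ℕ) : ℝ) + 1) ^ 2)

/-- The function of the auxiliary parameter. -/
def Fs (n : ℕ) (lam : ℝ) (J₀ : ℕ) (s : ℝ) : ℝ :=
  (1 - s) * ∑ j ∈ Finset.range J₀, (Real.exp (-((1 + s) * ((j : ℝ) + 1) * lam)) / ((j : ℝ) + 1))
    * (xS n (j + 1) / Real.sqrt (1 + s) - s) ^ 3

lemma Fs_cont (n : ℕ) (lam : ℝ) (J₀ : ℕ) : ContinuousAt (Fs n lam J₀) 0 := by
  unfold Fs
  refine (continuousAt_const.sub continuousAt_id).mul ?_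
  refine tendsto_finsetSum _ fun j _ => ?_
  refine ContinuousAt.mul ?_ ?_
  · refine ContinuousAt.div_const ?_ _
    fun_prop
  · refine ContinuousAt.pow (ContinuousAt.sub (ContinuousAt.div continuousAt_const ?_ ?_) continuousAt_id) 3
    · fun_prop
    · simp

lemma Fs_zero (n : ℕ) (lam : ℝ) (J₀ : ℕ) :
    Fs n lam J₀ 0 = ∑ j ∈ Finset.range J₀, Real.exp (-lam) ^ (j + 1) / ((j : ℝ) + 1) * (xS n (j + 1)) ^ 3 := by
  unfold Fs
  simp only [sub_zero, one_mul, add_zero, Real.sqrt_one, div_one]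
  refine Finset.sum_congr rfl fun j _ => ?_
  congr 2
  rw [← Real.exp_nat_mul]
  congr 1
  push_cast
  ring

lemma Xi_lower {n J₀ Q₀ : ℕ} (hn : 1 ≤ n) {lam s Ell : ℝ} (hlam : 0 ≤ lam) (hs : 0 < s) (hs1 : s < 1)
    (hEll : Ell = 2 / s)
    (hQ : ∀ j ∈ Finset.range J₀, Ell * (xS n (j + 1) / Real.sqrt (1 + s)) - 2
      ≤ ∑ p ∈ Finset.range Q₀, Real.exp (-((1 + s) * ((j : ℝ) + 1) * ((n : ℝ) / 2) * (Real.pi / Ell) ^ 2)
            * ((p : ℝ) + 1) ^ 2)) :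
    Fs n lam J₀ s ≤ (1 - s) * (1 / Ell) ^ 3 * ∑ q : C3 Q₀, -Real.log (1 - wq n Ell lam s q) := by
  have hEll0 : 0 < Ell := by
    rw [hEll]
    positivity
  have h1 : ∑ q : C3 Q₀, ∑ j ∈ Finset.range J₀, wq n Ell lam s q ^ (j + 1) / ((j : ℝ) + 1)
      ≤ ∑ q : C3 Q₀, -Real.log (1 - wq n Ell lam s q) :=
    Finset.sum_le_sum fun q _ => log_geom_ge (wq_pos n Ell lam s q).le (wq_lt_one hn hEll0 hlam hs q) J₀
  have h2 : ∑ q : C3 Q₀, ∑ j ∈ Finset.range J₀, wq n Ell lam s q ^ (j + 1) / ((j : ℝ) + 1)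
      = ∑ j ∈ Finset.range J₀, (∑ q : C3 Q₀, wq n Ell lam s q ^ (j + 1)) / ((j : ℝ) + 1) := by
    rw [Finset.sum_comm]
    refine Finset.sum_congr rfl fun j _ => ?_
    rw [Finset.sum_div]
  have hs' : 0 ≤ 1 - s := by linarith
  have hE : 0 ≤ (1 / Ell) ^ 3 := by positivity
  unfold Fs
  rw [mul_assoc]
  apply mul_le_mul_of_nonneg_left _ hs'
  refine le_trans ?_ (mul_le_mul_of_nonneg_left h1 hE)
  rw [h2, Finset.mul_sum]
  refine Finset.sum_le_sum fun j hj => ?_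
  rw [wq_pow_sum]
  set S : ℝ := ∑ p ∈ Finset.range Q₀, Real.exp (-((1 + s) * ((j : ℝ) + 1) * ((n : ℝ) / 2) * (Real.pi / Ell) ^ 2)
            * ((p : ℝ) + 1) ^ 2) with hS
  set ex : ℝ := Real.exp (-((1 + s) * ((j : ℝ) + 1) * lam)) with hex
  have hex0 : 0 ≤ ex := (Real.exp_pos _).le
  have hj0 : (0 : ℝ) < (j : ℝ) + 1 := by positivity
  have hb : xS n (j + 1) / Real.sqrt (1 + s) - s ≤ (1 / Ell) * S := by
    have h3 := hQ j hj
    have h4 := mul_le_mul_of_nonneg_left h3 (by positivity : (0 : ℝ) ≤ 1 / Ell)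
    have h5 : 1 / Ell * (Ell * (xS n (j + 1) / Real.sqrt (1 + s)) - 2)
        = xS n (j + 1) / Real.sqrt (1 + s) - s := by
      rw [mul_sub, ← mul_assoc, one_div, inv_mul_cancel₀ hEll0.ne', one_mul]
      congr 1
      rw [hEll]
      field_simp
    rw [h5] at h4
    exact h4
  have hc := (Odd.strictMono_pow (R := ℝ) (by decide : Odd 3)).monotone hb
  calc ex / ((j : ℝ) + 1) * (xS n (j + 1) / Real.sqrt (1 + s) - s) ^ 3
      ≤ ex / ((j : ℝ) + 1) * ((1 / Ell) * S) ^ 3 := mul_le_mul_of_nonneg_left hc (by positivity)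
    _ = _ := by
      rw [mul_pow]
      ring

/-- The lower bound for the scaled pressure. -/
theorem lb_limit {n : ℕ} (hn : 1 ≤ n) {lam : ℝ} (hlam : 0 ≤ lam) (J₀ : ℕ) {ε : ℝ} (hε : 0 < ε) :
    ∃ β₀ : ℝ, 0 < β₀ ∧ ∀ β, β₀ ≤ β → ∀ Lβ : ℝ, Tendsto (fun N => logDensity n N β lam) atTop (𝓝 Lβ) →
      ∑ j ∈ Finset.range J₀, Real.exp (-lam) ^ (j + 1) / ((j : ℝ) + 1) * (xS n (j + 1)) ^ 3 - ε
        ≤ β * Real.sqrt β * Lβ := by
  set T₀ : ℝ := ∑ j ∈ Finset.range J₀, Real.exp (-lam) ^ (j + 1) / ((j : ℝ) + 1) * (xS n (j + 1)) ^ 3 with hT₀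
  have hcont := Fs_cont n lam J₀
  have h1 : ∀ᶠ s in 𝓝 (0 : ℝ), T₀ - ε / 3 < Fs n lam J₀ s := by
    apply hcont.eventually (lt_mem_nhds _)
    rw [Fs_zero, ← hT₀]
    linarith
  have h2 : ∀ᶠ s in 𝓝[>] (0 : ℝ), T₀ - ε / 3 < Fs n lam J₀ s := eventually_nhdsWithin_of_eventually_nhds h1
  have h3 : ∀ᶠ s in 𝓝[>] (0 : ℝ), s ∈ Ioo (0 : ℝ) (min 1 (ε / 3)) :=
    Ioo_mem_nhdsGT (lt_min one_pos (by positivity))
  obtain ⟨s, hs, hs0⟩ := (h2.and h3).exists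
  have hs1 : s < 1 := lt_of_lt_of_le hs0.2 (min_le_left _ _)
  have hsε : s < ε / 3 := lt_of_lt_of_le hs0.2 (min_le_right _ _)
  have hs00 : 0 < s := hs0.1
  set Ell : ℝ := 2 / s with hEll
  have hEll0 : 0 < Ell := by
    rw [hEll]
    positivity
  -- the choice of the number of modes
  have hn' : (0 : ℝ) < n := by exact_mod_cast hn
  have hQ : ∀ᶠ Q₀ : ℕ in atTop, ∀ j ∈ Finset.range J₀, Ell * (xS n (j + 1) / Real.sqrt (1 + s)) - 2
      ≤ ∑ p ∈ Finset.range Q₀, Real.exp (-((1 + s) * ((j : ℝ) + 1) * ((n : ℝ) / 2) * (Real.pi / Ell) ^ 2)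
            * ((p : ℝ) + 1) ^ 2) := by
    rw [Filter.eventually_all_finset]
    intro j _
    have hb : 0 < (1 + s) * ((j : ℝ) + 1) * ((n : ℝ) / 2) * (Real.pi / Ell) ^ 2 := by
      have := Real.pi_pos
      positivity
    have := gaussian_sum_ge hb
    rwa [sqrt_eval hn hs00 hEll0] at this
  obtain ⟨Q₀, hQ₀, hQ₀'⟩ := (hQ.and (eventually_gt_atTop 0)).exists.imp fun _ h => h
  have hXi := Xi_lower hn hlam hs00 hs1 hEll hQ₀
  -- the choice of the maximal occupation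
  have hlim := (tendsto_XiZ hn hEll0 hlam hs00 Q₀).const_mul ((1 - s) * (1 / Ell) ^ 3)
  have hK := hlim.eventually (lt_mem_nhds (show (1 - s) * (1 / Ell) ^ 3
      * (∑ q : C3 Q₀, -Real.log (1 - wq n Ell lam s q)) - ε / 3
      < (1 - s) * (1 / Ell) ^ 3 * (∑ q : C3 Q₀, -Real.log (1 - wq n Ell lam s q)) by linarith))
  obtain ⟨K₁, hK₁⟩ := hK.exists
  obtain ⟨β₀, hβ₀, hb⟩ := lb_stepA hn hQ₀' K₁ hlam hEll0 hs00 hs1
  refine ⟨β₀, hβ₀, fun β hβ Lβ hL => ?_⟩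
  have := hb β hβ Lβ hL
  linarith


end Vale.Agent.P361Lib
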