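import Vale.Agent.Lib.P361.Lower

/-!
# The box in the cubic lattice; the magnon profile
-/

open Matrix
open scoped MatrixOrder ComplexOrder

noncomputable section

namespace Vale.Agent.P361Lib

lemma mem_boxFinset {N : ℕ} {p : ℤ × ℤ × ℤ} :
    p ∈ boxFinset N ↔ (-(N : ℤ) ≤ p.1 ∧ p.1 ≤ N) ∧ (-(N : ℤ) ≤ p.2.1 ∧ p.2.1 ≤ N)
      ∧ (-(N : ℤ) ≤ p.2.2 ∧ p.2.2 ≤ N) := by
  unfold boxFinset
  simp only [Finset.mem_product, Finset.mem_Icc]

lemma nearest_irrefl {N : ℕ} (x : BoxSite N) : ¬ nearest x x := by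
  unfold nearest latticeNearest
  simp

lemma card_boxSite (N : ℕ) : Fintype.card (BoxSite N) = (2 * N + 1) ^ 3 := by
  rw [Fintype.card_coe]
  unfold boxFinset
  simp only [Finset.card_product, Int.card_Icc]
  have : (N : ℤ) + 1 - -(N : ℤ) = ((2 * N + 1 : ℕ) : ℤ) := by
    push_cast
    ring
  rw [this, Int.toNat_natCast]
  ring

/-- The grid map of the box. -/
def gridSite (N a b c : ℕ) : BoxSite N :=
  if h : (-(N : ℤ) + a, -(N : ℤ) + b, -(N : ℤ) + c) ∈ boxFinset N then ⟨_, h⟩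
  else ⟨(0, 0, 0), by rw [mem_boxFinset]; simp⟩

lemma gridSite_val {N a b c : ℕ} (ha : a < 2 * N + 1) (hb : b < 2 * N + 1) (hc : c < 2 * N + 1) :
    (gridSite N a b c).1 = (-(N : ℤ) + a, -(N : ℤ) + b, -(N : ℤ) + c) := by
  unfold gridSite
  rw [dif_pos]
  rw [mem_boxFinset]
  simp only
  omega

theorem gridOK_box (N : ℕ) : GridOK nearest (2 * N + 1) (gridSite N) where
  inj := by
    intro a b c a' b' c' h1 h2 h3 h1' h2' h3' e
    have e' := congrArg Subtype.val e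
    rw [gridSite_val h1 h2 h3, gridSite_val h1' h2' h3'] at e'
    simp only [Prod.mk.injEq] at e'
    exact ⟨by omega, by omega, by omega⟩
  adj1 := by
    intro a b c h1 h2 h3
    unfold nearest latticeNearest
    rw [gridSite_val (by omega) h2 h3, gridSite_val h1 h2 h3]
    simp
  adj2 := by
    intro a b c h1 h2 h3
    unfold nearest latticeNearest
    rw [gridSite_val h1 (by omega) h3, gridSite_val h1 h2 h3]
    simp
  adj3 := by
    intro a b c h1 h2 h3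
    unfold nearest latticeNearest
    rw [gridSite_val h1 h2 (by omega), gridSite_val h1 h2 h3]
    simp

/-! ### The one-dimensional profile -/

/-- The parabolic profile on `{0, …, ℓ}`. -/
def prof (l : ℕ) (t : ℤ) : ℝ := if 0 ≤ t ∧ t ≤ l then (t : ℝ) * ((l : ℝ) - t) else 0

lemma prof_nat {l u : ℕ} (hu : u ≤ l) : prof l u = (u : ℝ) * ((l : ℝ) - u) := by
  unfold prof
  rw [if_pos ⟨by omega, by omega⟩]
  simp

lemma prof_ne_zero {l : ℕ} {t : ℤ} (h : prof l t ≠ 0) : 0 < t ∧ t < l := by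
  unfold prof at h
  split_ifs at h with h1
  · constructor
    · rcases lt_or_eq_of_le h1.1 with h2 | h2
      · exact h2
      · subst h2
        simp at h
    · rcases lt_or_eq_of_le h1.2 with h2 | h2
      · exact h2
      · subst h2
        simp at h
  · exact absurd rfl h

/-- The sum of the squares of the profile. -/
def F2 (l : ℕ) : ℝ := ∑ u ∈ Finset.range (l + 1), prof l u ^ 2

/-- The sum of the squared increments of the profile. -/
def F1 (l : ℕ) : ℝ := ∑ u ∈ Finset.range l, (prof l ((u : ℤ) + 1) - prof l u) ^ 2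

lemma F2_eq (l : ℕ) : F2 l = ((l : ℝ) - 1) * l * (l + 1) * ((l : ℝ) ^ 2 + 1) / 30 := by
  have key : ∀ K : ℕ, ∑ u ∈ Finset.range K, ((u : ℝ) * ((l : ℝ) - u)) ^ 2
      = (l : ℝ) ^ 2 * (((K : ℝ) - 1) * K * (2 * K - 1) / 6)
        - 2 * l * ((((K : ℝ) - 1) * K / 2) ^ 2)
        + ((K : ℝ) - 1) * K * (2 * K - 1) * (3 * ((K : ℝ) - 1) ^ 2 + 3 * ((K : ℝ) - 1) - 1) / 30 := by
    intro K
    induction K with
    | zero => simp
    | succ K ih =>
      rw [Finset.sum_range_succ, ih]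
      push_cast
      ring
  unfold F2
  have h1 : ∀ u ∈ Finset.range (l + 1), prof l u ^ 2 = ((u : ℝ) * ((l : ℝ) - u)) ^ 2 := by
    intro u hu
    rw [prof_nat (by simpa [Nat.lt_succ_iff] using hu)]
  rw [Finset.sum_congr rfl h1, key (l + 1)]
  push_cast
  ring

lemma F1_eq (l : ℕ) : F1 l = ((l : ℝ) - 1) * l * (l + 1) / 3 := by
  have key : ∀ K : ℕ, ∑ u ∈ Finset.range K, ((l : ℝ) - 1 - 2 * u) ^ 2
      = K * ((l : ℝ) - 1) ^ 2 - 2 * ((l : ℝ) - 1) * ((K : ℝ) - 1) * K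
        + 4 * (((K : ℝ) - 1) * K * (2 * K - 1) / 6) := by
    intro K
    induction K with
    | zero => simp
    | succ K ih =>
      rw [Finset.sum_range_succ, ih]
      push_cast
      ring
  unfold F1
  have h1 : ∀ u ∈ Finset.range l, (prof l ((u : ℤ) + 1) - prof l u) ^ 2
      = ((l : ℝ) - 1 - 2 * u) ^ 2 := by
    intro u hu
    have hu' : u < l := Finset.mem_range.mp hu
    have e : ((u : ℤ) + 1) = ((u + 1 : ℕ) : ℤ) := by push_cast; rfl
    rw [e, prof_nat (by omega), prof_nat hu'.le]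
    push_cast
    ring
  rw [Finset.sum_congr rfl h1, key l]
  ring

/-- The normalised profile. -/
def gProf (l : ℕ) (t : ℤ) : ℝ := prof l t / Real.sqrt (F2 l)

lemma F2_pos {l : ℕ} (hl : 2 ≤ l) : 0 < F2 l := by
  rw [F2_eq]
  have : (2 : ℝ) ≤ l := by exact_mod_cast hl
  have h1 : 0 < (l : ℝ) - 1 := by linarith
  positivity

lemma gProf_ne_zero {l : ℕ} {t : ℤ} (h : gProf l t ≠ 0) : 0 < t ∧ t < l := by
  refine prof_ne_zero ?_
  intro h0
  apply h
  unfold gProf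
  rw [h0, zero_div]

lemma gProf_sq {l : ℕ} (hl : 2 ≤ l) (t : ℤ) : gProf l t ^ 2 = prof l t ^ 2 / F2 l := by
  unfold gProf
  rw [div_pow, Real.sq_sqrt (F2_pos hl).le]

/-- Reindexing a sum of a function with support in an interval. -/
lemma shift_sum (w : ℤ → ℝ) (L : ℕ) (hw : ∀ t, w t ≠ 0 → 0 ≤ t ∧ t < L) {lo hi a : ℤ} (ha : lo ≤ a)
    (hb : a + L ≤ hi + 1) :
    ∑ t ∈ Finset.Icc lo hi, w (t - a) = ∑ u ∈ Finset.range L, w (u : ℤ) := by
  have hinj : Set.InjOn (fun u : ℕ => a + (u : ℤ)) (Finset.range L : Set ℕ) := by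
    intro u _ v _ e
    simp only [add_right_inj, Nat.cast_inj] at e
    exact e
  have e1 : ∑ u ∈ Finset.range L, w (u : ℤ)
      = ∑ t ∈ (Finset.range L).image (fun u : ℕ => a + (u : ℤ)), w (t - a) := by
    rw [Finset.sum_image hinj]
    refine Finset.sum_congr rfl fun u _ => ?_
    congr 1
    ring
  rw [e1]
  symm
  refine Finset.sum_subset ?_ ?_
  · intro t ht
    obtain ⟨u, hu, rfl⟩ := Finset.mem_image.mp ht
    have := Finset.mem_range.mp hu
    rw [Finset.mem_Icc]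
    omega
  · intro t _ ht
    by_contra h
    obtain ⟨h1, h2⟩ := hw _ h
    apply ht
    refine Finset.mem_image.mpr ⟨(t - a).toNat, Finset.mem_range.mpr (by omega), ?_⟩
    have : (((t - a).toNat : ℕ) : ℤ) = t - a := Int.toNat_of_nonneg h1
    rw [this]
    ring

section OneDim

variable {l : ℕ} (hl : 2 ≤ l) {lo hi a : ℤ} (ha : lo ≤ a) (hb : a + l ≤ hi)

include hl ha hb

lemma sum_g_sq : ∑ t ∈ Finset.Icc lo hi, gProf l (t - a) ^ 2 = 1 := by
  have h : ∑ t ∈ Finset.Icc lo hi, gProf l (t - a) ^ 2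
      = ∑ u ∈ Finset.range (l + 1), gProf l (u : ℤ) ^ 2 :=
    shift_sum (fun t => gProf l t ^ 2) (l + 1) (by
    intro t ht
    have h1 : gProf l t ≠ 0 := by
      intro h0
      apply ht
      simp [h0]
    have := gProf_ne_zero h1
    push_cast
    omega) ha (by push_cast; omega)
  rw [h]
  simp only [gProf_sq hl]
  rw [← Finset.sum_div]
  unfold F2
  have hp := F2_pos hl
  unfold F2 at hp
  exact div_self hp.ne'

lemma sum_g_fwd : ∑ t ∈ Finset.Icc lo hi, (gProf l (t - a + 1) - gProf l (t - a)) ^ 2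
    = F1 l / F2 l := by
  have h : ∑ t ∈ Finset.Icc lo hi, (gProf l (t - a + 1) - gProf l (t - a)) ^ 2
      = ∑ u ∈ Finset.range l, (gProf l ((u : ℤ) + 1) - gProf l (u : ℤ)) ^ 2 :=
    shift_sum (fun t => (gProf l (t + 1) - gProf l t) ^ 2) l (by
    intro t ht
    have h1 : gProf l (t + 1) ≠ 0 ∨ gProf l t ≠ 0 := by
      by_contra h0
      push Not at h0
      apply ht
      simp [h0.1, h0.2]
    rcases h1 with h1 | h1
    · have := gProf_ne_zero h1
      omega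
    · have := gProf_ne_zero h1
      omega) ha (by omega)
  rw [h]
  unfold F1
  rw [Finset.sum_div]
  refine Finset.sum_congr rfl fun u _ => ?_
  unfold gProf
  have hp := F2_pos hl
  rw [← sub_div, div_pow, Real.sq_sqrt hp.le]

lemma sum_g_bwd : ∑ t ∈ Finset.Icc lo hi, (gProf l (t - a - 1) - gProf l (t - a)) ^ 2
    = F1 l / F2 l := by
  have h : ∑ t ∈ Finset.Icc lo hi, (gProf l (t - a - 1) - gProf l (t - a)) ^ 2
      = ∑ u ∈ Finset.range (l + 1), (gProf l ((u : ℤ) - 1) - gProf l (u : ℤ)) ^ 2 :=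
    shift_sum (fun t => (gProf l (t - 1) - gProf l t) ^ 2) (l + 1) (by
    intro t ht
    have h1 : gProf l (t - 1) ≠ 0 ∨ gProf l t ≠ 0 := by
      by_contra h0
      push Not at h0
      apply ht
      simp [h0.1, h0.2]
    push_cast
    rcases h1 with h1 | h1
    · have := gProf_ne_zero h1
      omega
    · have := gProf_ne_zero h1
      omega) ha (by push_cast; omega)
  rw [h, Finset.sum_range_succ']
  have h0 : gProf l (((0 : ℕ) : ℤ) - 1) = 0 := by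
    by_contra h1
    have := gProf_ne_zero h1
    omega
  have h0' : gProf l ((0 : ℕ) : ℤ) = 0 := by
    by_contra h1
    have := gProf_ne_zero h1
    omega
  rw [h0, h0']
  simp only [sub_self, ne_eq, OfNat.ofNat_ne_zero, not_false_eq_true, zero_pow, add_zero]
  unfold F1
  rw [Finset.sum_div]
  refine Finset.sum_congr rfl fun u _ => ?_
  unfold gProf
  have hp := F2_pos hl
  have e : (((u + 1 : ℕ) : ℤ) - 1) = (u : ℤ) := by push_cast; ring
  have e2 : (((u + 1 : ℕ) : ℤ)) = (u : ℤ) + 1 := by push_cast; rfl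
  rw [e, e2, ← sub_div, div_pow, Real.sq_sqrt hp.le]
  ring

end OneDim

lemma F1_div_F2 {l : ℕ} (hl : 2 ≤ l) : F1 l / F2 l = 10 / ((l : ℝ) ^ 2 + 1) := by
  rw [F1_eq, F2_eq]
  have h2 : (2 : ℝ) ≤ l := by exact_mod_cast hl
  have h1 : (l : ℝ) - 1 ≠ 0 := by
    have : 0 < (l : ℝ) - 1 := by linarith
    exact this.ne'
  have h3 : (l : ℝ) ≠ 0 := by positivity
  have h4 : (l : ℝ) + 1 ≠ 0 := by positivity
  have h5 : (l : ℝ) ^ 2 + 1 ≠ 0 := by positivity
  field_simp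
  norm_num

/-! ### The three-dimensional profile -/

/-- The product profile with corner `(a, b, c)`. -/
def phi3 (l : ℕ) (a b c : ℤ) (p : ℤ × ℤ × ℤ) : ℝ :=
  gProf l (p.1 - a) * gProf l (p.2.1 - b) * gProf l (p.2.2 - c)

/-- The closed cube with corner `(a, b, c)`. -/
def cubeC (N l : ℕ) (a b c : ℤ) : Finset (BoxSite N) :=
  Finset.univ.filter fun x => (a ≤ x.1.1 ∧ x.1.1 ≤ a + l) ∧ (b ≤ x.1.2.1 ∧ x.1.2.1 ≤ b + l)
    ∧ (c ≤ x.1.2.2 ∧ x.1.2.2 ≤ c + l)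

lemma sum_triple_mul (I : Finset ℤ) (A B C : ℤ → ℝ) :
    ∑ x ∈ I, ∑ y ∈ I, ∑ z ∈ I, A x * B y * C z
      = (∑ t ∈ I, A t) * (∑ t ∈ I, B t) * (∑ t ∈ I, C t) := by
  have h1 : ∀ x y, ∑ z ∈ I, A x * B y * C z = A x * B y * (∑ t ∈ I, C t) :=
    fun x y => (Finset.mul_sum _ _ _).symm
  simp only [h1]
  have h2 : ∀ x, ∑ y ∈ I, A x * B y * (∑ t ∈ I, C t) = A x * (∑ t ∈ I, B t) * (∑ t ∈ I, C t) := by
    intro x
    rw [← Finset.sum_mul, ← Finset.mul_sum]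
  simp only [h2]
  rw [← Finset.sum_mul, ← Finset.sum_mul]

section ThreeD

variable {N l : ℕ} (hl : 2 ≤ l) {a b c : ℤ} (ha : -(N : ℤ) ≤ a) (ha' : a + l ≤ N)
  (hb : -(N : ℤ) ≤ b) (hb' : b + l ≤ N) (hc : -(N : ℤ) ≤ c) (hc' : c + l ≤ N)

include hl ha ha' hb hb' hc hc'

lemma phi3_unit : ∑ z : BoxSite N, phi3 l a b c z.1 ^ 2 = 1 := by
  rw [Finset.sum_coe_sort (boxFinset N) (fun p => phi3 l a b c p ^ 2)]
  unfold boxFinset
  have : ∀ p : ℤ × ℤ × ℤ, phi3 l a b c p ^ 2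
      = gProf l (p.1 - a) ^ 2 * gProf l (p.2.1 - b) ^ 2 * gProf l (p.2.2 - c) ^ 2 := by
    intro p
    unfold phi3
    ring
  simp only [this, Finset.sum_product]
  rw [sum_triple_mul, sum_g_sq hl ha ha', sum_g_sq hl hb hb', sum_g_sq hl hc hc']
  norm_num

omit hl ha ha' hb hb' hc hc' in
lemma abs_sum_one_cases {A B C : ℤ} (h : |A| + |B| + |C| = 1) :
    (|A| ≤ 1 ∧ |B| ≤ 1 ∧ |C| ≤ 1) := by
  have h1 := abs_nonneg A
  have h2 := abs_nonneg B
  have h3 := abs_nonneg C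
  omega

theorem magnon_box :
    Magnon (nearest (N := N)) (cubeC N l a b c) (fun x => phi3 l a b c x.1) where
  unit := phi3_unit hl ha ha' hb hb' hc hc'
  supp := by
    intro z hz
    have h1 : gProf l (z.1.1 - a) ≠ 0 := fun h0 => hz (by unfold phi3; rw [h0]; ring)
    have h2 : gProf l (z.1.2.1 - b) ≠ 0 := fun h0 => hz (by unfold phi3; rw [h0]; ring)
    have h3 : gProf l (z.1.2.2 - c) ≠ 0 := fun h0 => hz (by unfold phi3; rw [h0]; ring)
    have k1 := gProf_ne_zero h1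
    have k2 := gProf_ne_zero h2
    have k3 := gProf_ne_zero h3
    unfold cubeC
    rw [Finset.mem_filter]
    refine ⟨Finset.mem_univ _, ⟨?_, ?_⟩, ⟨?_, ?_⟩, ⟨?_, ?_⟩⟩ <;> omega
  nbr := by
    intro x y hxy hne
    obtain ⟨h1, h2, h3⟩ := abs_sum_one_cases hxy
    rw [abs_le] at h1 h2 h3
    have key : ∀ z : BoxSite N, phi3 l a b c z.1 ≠ 0 →
        (0 < z.1.1 - a ∧ z.1.1 - a < l) ∧ (0 < z.1.2.1 - b ∧ z.1.2.1 - b < l)
          ∧ (0 < z.1.2.2 - c ∧ z.1.2.2 - c < l) := by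
      intro z hz
      have h1 : gProf l (z.1.1 - a) ≠ 0 := fun h0 => hz (by unfold phi3; rw [h0]; ring)
      have h2 : gProf l (z.1.2.1 - b) ≠ 0 := fun h0 => hz (by unfold phi3; rw [h0]; ring)
      have h3 : gProf l (z.1.2.2 - c) ≠ 0 := fun h0 => hz (by unfold phi3; rw [h0]; ring)
      exact ⟨gProf_ne_zero h1, gProf_ne_zero h2, gProf_ne_zero h3⟩
    unfold cubeC
    simp only [Finset.mem_filter, Finset.mem_univ, true_and]
    rcases hne with hne | hne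
    · obtain ⟨k1, k2, k3⟩ := key x hne
      refine ⟨⟨⟨?_, ?_⟩, ⟨?_, ?_⟩, ⟨?_, ?_⟩⟩, ⟨?_, ?_⟩, ⟨?_, ?_⟩, ⟨?_, ?_⟩⟩ <;> omega
    · obtain ⟨k1, k2, k3⟩ := key y hne
      refine ⟨⟨⟨?_, ?_⟩, ⟨?_, ?_⟩, ⟨?_, ?_⟩⟩, ⟨?_, ?_⟩, ⟨?_, ?_⟩, ⟨?_, ?_⟩⟩ <;> omega

omit hl ha ha' hb hb' hc hc' in
/-- Summing over the neighbours of a lattice point. -/
lemma sum_nearest_le (B : Finset (ℤ × ℤ × ℤ)) (p : ℤ × ℤ × ℤ) (u : ℤ × ℤ × ℤ → ℝ)
    (hu : ∀ q, 0 ≤ u q) :
    ∑ q ∈ B, (if latticeNearest p q then u q else 0)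
      ≤ u (p.1 + 1, p.2.1, p.2.2) + u (p.1 - 1, p.2.1, p.2.2) + u (p.1, p.2.1 + 1, p.2.2)
        + u (p.1, p.2.1 - 1, p.2.2) + u (p.1, p.2.1, p.2.2 + 1) + u (p.1, p.2.1, p.2.2 - 1) := by
  classical
  rw [← Finset.sum_filter]
  have hsub : B.filter (latticeNearest p) ⊆
      insert (p.1 + 1, p.2.1, p.2.2) (insert (p.1 - 1, p.2.1, p.2.2)
        (insert (p.1, p.2.1 + 1, p.2.2) (insert (p.1, p.2.1 - 1, p.2.2)
          (insert (p.1, p.2.1, p.2.2 + 1) {(p.1, p.2.1, p.2.2 - 1)})))) := by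
    intro q hq
    have h := (Finset.mem_filter.mp hq).2
    unfold latticeNearest at h
    obtain ⟨q1, q2, q3⟩ := q
    obtain ⟨p1, p2, p3⟩ := p
    simp only at h
    simp only [Finset.mem_insert, Finset.mem_singleton, Prod.mk.injEq]
    rcases abs_cases (p1 - q1) with ⟨h1, _⟩ | ⟨h1, _⟩ <;>
    rcases abs_cases (p2 - q2) with ⟨h2, _⟩ | ⟨h2, _⟩ <;>
    rcases abs_cases (p3 - q3) with ⟨h3, _⟩ | ⟨h3, _⟩ <;>
    rw [h1, h2, h3] at h <;> omega
  refine (Finset.sum_le_sum_of_subset_of_nonneg hsub fun q _ _ => hu q).trans ?_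
  have hins : ∀ (a : ℤ × ℤ × ℤ) (s : Finset (ℤ × ℤ × ℤ)),
      ∑ q ∈ insert a s, u q ≤ u a + ∑ q ∈ s, u q := by
    intro a s
    by_cases ha : a ∈ s
    · rw [Finset.insert_eq_of_mem ha]
      linarith [hu a]
    · rw [Finset.sum_insert ha]
  have h1 := hins (p.1 + 1, p.2.1, p.2.2) (insert (p.1 - 1, p.2.1, p.2.2)
        (insert (p.1, p.2.1 + 1, p.2.2) (insert (p.1, p.2.1 - 1, p.2.2)
          (insert (p.1, p.2.1, p.2.2 + 1) {(p.1, p.2.1, p.2.2 - 1)}))))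
  have h2 := hins (p.1 - 1, p.2.1, p.2.2)
        (insert (p.1, p.2.1 + 1, p.2.2) (insert (p.1, p.2.1 - 1, p.2.2)
          (insert (p.1, p.2.1, p.2.2 + 1) {(p.1, p.2.1, p.2.2 - 1)})))
  have h3 := hins (p.1, p.2.1 + 1, p.2.2) (insert (p.1, p.2.1 - 1, p.2.2)
          (insert (p.1, p.2.1, p.2.2 + 1) {(p.1, p.2.1, p.2.2 - 1)}))
  have h4 := hins (p.1, p.2.1 - 1, p.2.2)
          (insert (p.1, p.2.1, p.2.2 + 1) {(p.1, p.2.1, p.2.2 - 1)})
  have h5 := hins (p.1, p.2.1, p.2.2 + 1) {(p.1, p.2.1, p.2.2 - 1)}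
  rw [Finset.sum_singleton] at h5
  linarith

/-- The energy of the product profile. -/
theorem energy_box {n : ℕ} :
    profileEnergy n (nearest (N := N)) (fun x => phi3 l a b c x.1)
      ≤ 15 * (n : ℝ) / ((l : ℝ) ^ 2 + 1) := by
  unfold profileEnergy
  set R : ℝ := F1 l / F2 l with hR
  have hRe : R = 10 / ((l : ℝ) ^ 2 + 1) := F1_div_F2 hl
  set B := boxFinset N with hB
  have inner : ∀ x : BoxSite N, ∑ y : BoxSite N,
      (if nearest x y then (phi3 l a b c y.1 - phi3 l a b c x.1) ^ 2 else 0)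
      = ∑ q ∈ B, (if latticeNearest x.1 q then (phi3 l a b c q - phi3 l a b c x.1) ^ 2 else 0) :=
    fun x => Finset.sum_coe_sort B
      (fun q => if latticeNearest x.1 q then (phi3 l a b c q - phi3 l a b c x.1) ^ 2 else 0)
  simp only [inner]
  have outer : ∑ x : BoxSite N, ∑ q ∈ B,
      (if latticeNearest x.1 q then (phi3 l a b c q - phi3 l a b c x.1) ^ 2 else 0)
      = ∑ p ∈ B, ∑ q ∈ B,
        (if latticeNearest p q then (phi3 l a b c q - phi3 l a b c p) ^ 2 else 0) :=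
    Finset.sum_coe_sort B (fun p => ∑ q ∈ B,
      (if latticeNearest p q then (phi3 l a b c q - phi3 l a b c p) ^ 2 else 0))
  rw [outer]
  set g := gProf l with hg
  have hbound : ∑ p ∈ B, ∑ q ∈ B,
      (if latticeNearest p q then (phi3 l a b c q - phi3 l a b c p) ^ 2 else 0) ≤ 6 * R := by
    have h1 : ∀ p ∈ B, ∑ q ∈ B,
        (if latticeNearest p q then (phi3 l a b c q - phi3 l a b c p) ^ 2 else 0)
        ≤ (g (p.1 - a + 1) - g (p.1 - a)) ^ 2 * g (p.2.1 - b) ^ 2 * g (p.2.2 - c) ^ 2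
        + (g (p.1 - a - 1) - g (p.1 - a)) ^ 2 * g (p.2.1 - b) ^ 2 * g (p.2.2 - c) ^ 2
        + g (p.1 - a) ^ 2 * (g (p.2.1 - b + 1) - g (p.2.1 - b)) ^ 2 * g (p.2.2 - c) ^ 2
        + g (p.1 - a) ^ 2 * (g (p.2.1 - b - 1) - g (p.2.1 - b)) ^ 2 * g (p.2.2 - c) ^ 2
        + g (p.1 - a) ^ 2 * g (p.2.1 - b) ^ 2 * (g (p.2.2 - c + 1) - g (p.2.2 - c)) ^ 2
        + g (p.1 - a) ^ 2 * g (p.2.1 - b) ^ 2 * (g (p.2.2 - c - 1) - g (p.2.2 - c)) ^ 2 := by
      intro p _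
      refine (sum_nearest_le B p _ fun q => sq_nonneg _).trans (le_of_eq ?_)
      unfold phi3
      simp only
      have e1 : p.1 + 1 - a = p.1 - a + 1 := by ring
      have e2 : p.1 - 1 - a = p.1 - a - 1 := by ring
      have e3 : p.2.1 + 1 - b = p.2.1 - b + 1 := by ring
      have e4 : p.2.1 - 1 - b = p.2.1 - b - 1 := by ring
      have e5 : p.2.2 + 1 - c = p.2.2 - c + 1 := by ring
      have e6 : p.2.2 - 1 - c = p.2.2 - c - 1 := by ring
      rw [e1, e2, e3, e4, e5, e6]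
      ring
    refine (Finset.sum_le_sum h1).trans (le_of_eq ?_)
    rw [Finset.sum_add_distrib, Finset.sum_add_distrib, Finset.sum_add_distrib,
      Finset.sum_add_distrib, Finset.sum_add_distrib]
    rw [hB]
    unfold boxFinset
    simp only [Finset.sum_product, sum_triple_mul]
    have s1 : ∀ {a : ℤ}, -(N : ℤ) ≤ a → a + l ≤ N →
        ∑ t ∈ Finset.Icc (-(N : ℤ)) N, g (t - a) ^ 2 = 1 := fun h h' => sum_g_sq hl h h'
    have s2 : ∀ {a : ℤ}, -(N : ℤ) ≤ a → a + l ≤ N →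
        ∑ t ∈ Finset.Icc (-(N : ℤ)) N, (g (t - a + 1) - g (t - a)) ^ 2 = R :=
      fun h h' => sum_g_fwd hl h h'
    have s3 : ∀ {a : ℤ}, -(N : ℤ) ≤ a → a + l ≤ N →
        ∑ t ∈ Finset.Icc (-(N : ℤ)) N, (g (t - a - 1) - g (t - a)) ^ 2 = R :=
      fun h h' => sum_g_bwd hl h h'
    rw [s1 ha ha', s1 hb hb', s1 hc hc', s2 ha ha', s2 hb hb', s2 hc hc', s3 ha ha', s3 hb hb',
      s3 hc hc']
    ring
  have hn0 : (0 : ℝ) ≤ (n : ℝ) / 4 := by positivity
  refine (mul_le_mul_of_nonneg_left hbound hn0).trans (le_of_eq ?_)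
  rw [hRe]
  have h5 : (l : ℝ) ^ 2 + 1 ≠ 0 := by positivity
  field_simp
  ring

end ThreeD

/-- The corners of the boxes. -/
def cornerZ (N l i : ℕ) : ℤ := -(N : ℤ) + (i : ℤ) * ((l : ℤ) + 1)

lemma cornerZ_ge (N l i : ℕ) : -(N : ℤ) ≤ cornerZ N l i := by
  unfold cornerZ
  have : 0 ≤ (i : ℤ) * ((l : ℤ) + 1) := by positivity
  omega

lemma cornerZ_le {N l i : ℕ} (hi : i < (2 * N + 1) / (l + 1)) : cornerZ N l i + l ≤ N := by
  have h1 : (i + 1) * (l + 1) ≤ (2 * N + 1) / (l + 1) * (l + 1) := Nat.mul_le_mul_right _ hi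
  have h2 : (2 * N + 1) / (l + 1) * (l + 1) ≤ 2 * N + 1 := Nat.div_mul_le_self _ _
  have h3 : (i + 1) * (l + 1) ≤ 2 * N + 1 := h1.trans h2
  have h4 : ((i : ℤ) + 1) * ((l : ℤ) + 1) ≤ 2 * (N : ℤ) + 1 := by exact_mod_cast h3
  have e : ((i : ℤ) + 1) * ((l : ℤ) + 1) = (i : ℤ) * ((l : ℤ) + 1) + l + 1 := by ring
  unfold cornerZ
  omega

lemma cornerZ_sep {N l i i' : ℕ} (hne : i ≠ i') {u : ℤ}
    (h1 : cornerZ N l i ≤ u ∧ u ≤ cornerZ N l i + l)
    (h2 : cornerZ N l i' ≤ u ∧ u ≤ cornerZ N l i' + l) : False := by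
  have key : ∀ {j j' : ℕ}, j < j' → cornerZ N l j + l + 1 ≤ cornerZ N l j' := by
    intro j j' hj
    have h3 : ((j : ℤ) + 1) * ((l : ℤ) + 1) ≤ (j' : ℤ) * ((l : ℤ) + 1) :=
      mul_le_mul_of_nonneg_right (by exact_mod_cast hj) (by positivity)
    have e : ((j : ℤ) + 1) * ((l : ℤ) + 1) = (j : ℤ) * ((l : ℤ) + 1) + l + 1 := by ring
    unfold cornerZ
    omega
  rcases Nat.lt_or_gt_of_ne hne with h | h
  · have := key h
    omega
  · have := key h
    omega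

/-- The lower bound for the partition function on the box. -/
theorem lower_box {n : ℕ} (hn : 1 ≤ n) {β : ℝ} (hβ : 0 ≤ β) (N : ℕ) {l : ℕ} (hl : 2 ≤ l) :
    (1 + Real.exp (-(β * (15 * (n : ℝ) / ((l : ℝ) ^ 2 + 1))))) ^ (((2 * N + 1) / (l + 1)) ^ 3)
      ≤ (trace (NormedSpace.exp
          (-(β • (edgeSum nearest (Finset.univ : Finset (BoxSite N)) : Op (BoxSite N) n))))).re := by
  set q : ℕ := (2 * N + 1) / (l + 1) with hq
  set s : Finset (ℕ × ℕ × ℕ) := Finset.range q ×ˢ Finset.range q ×ˢ Finset.range q with hs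
  have hsc : s.card = q ^ 3 := by
    rw [hs]
    simp only [Finset.card_product, Finset.card_range]
    ring
  rw [← hsc]
  have hmem : ∀ t ∈ s, t.1 < q ∧ t.2.1 < q ∧ t.2.2 < q := by
    intro t ht
    simpa [hs] using ht
  refine lower_main hn nearest_irrefl hβ s
    (fun t => cubeC N l (cornerZ N l t.1) (cornerZ N l t.2.1) (cornerZ N l t.2.2))
    (fun t x => phi3 l (cornerZ N l t.1) (cornerZ N l t.2.1) (cornerZ N l t.2.2) x.1) _ ?_ ?_ ?_
  · intro t ht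
    obtain ⟨h1, h2, h3⟩ := hmem t ht
    exact magnon_box hl (cornerZ_ge _ _ _) (cornerZ_le h1) (cornerZ_ge _ _ _) (cornerZ_le h2)
      (cornerZ_ge _ _ _) (cornerZ_le h3)
  · intro t ht
    obtain ⟨h1, h2, h3⟩ := hmem t ht
    exact energy_box hl (cornerZ_ge _ _ _) (cornerZ_le h1) (cornerZ_ge _ _ _) (cornerZ_le h2)
      (cornerZ_ge _ _ _) (cornerZ_le h3)
  · intro t _ t' _ hne
    rw [Finset.disjoint_left]
    intro x hx hx'
    unfold cubeC at hx hx'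
    simp only [Finset.mem_filter, Finset.mem_univ, true_and] at hx hx'
    obtain ⟨k1, k2, k3⟩ := hx
    obtain ⟨k1', k2', k3'⟩ := hx'
    by_cases e1 : t.1 = t'.1
    · by_cases e2 : t.2.1 = t'.2.1
      · by_cases e3 : t.2.2 = t'.2.2
        · exact hne (Prod.ext e1 (Prod.ext e2 e3))
        · exact cornerZ_sep e3 k3 k3'
      · exact cornerZ_sep e2 k2 k2'
    · exact cornerZ_sep e1 k1 k1'

/-- The upper bound for the partition function on the box. -/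
theorem upper_box {n : ℕ} (hn : 1 ≤ n) {β : ℝ} (hβ : 0 ≤ β) (N m : ℕ)
    (hm : (4 : ℝ) ^ m ≤ β * n) {lam : ℝ} (hlam : Real.exp (-lam) ≤ 1 / 2) :
    (trace (NormedSpace.exp (-(β • edgeSum nearest (Finset.univ : Finset (BoxSite N))
        + lam • (totalOp (Finset.univ : Finset (BoxSite N)) (devD n) : Op (BoxSite N) n))))).re
      ≤ Real.exp ((((((2 * N + 1) / 2 ^ m : ℕ) : ℝ)) ^ 3 * (4 * (9 : ℝ) ^ 8)
          + (((2 * (N : ℝ) + 1) ^ 3) - (((2 * N + 1) / 2 ^ m : ℕ) : ℝ) ^ 3 * (8 : ℝ) ^ m) * 2)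
            * Real.exp (-lam)) := by
  have h := upper_main hn (gridOK_box N) hβ m hm hlam
  rw [card_boxSite] at h
  push_cast at h
  exact h

end Vale.Agent.P361Lib
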