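import Vale.Agent.Lib.P361.Upper

/-!
# Trial states: one magnon per box
-/

open Matrix
open scoped MatrixOrder ComplexOrder

noncomputable section

namespace Vale.Agent.P361Lib

variable {X : Type} [Fintype X] [DecidableEq X] {n : ℕ}

/-- The vector `ψ` is fully polarised at `x`. -/
def Pol (x : X) (ψ : Cfg X n → ℂ) : Prop := ∀ σ : Cfg X n, σ x ≠ 0 → ψ σ = 0

omit [Fintype X] [DecidableEq X] in
lemma Pol.add {x : X} {ψ χ : Cfg X n → ℂ} (h1 : Pol x ψ) (h2 : Pol x χ) : Pol x (ψ + χ) := by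
  intro σ hσ
  simp [h1 σ hσ, h2 σ hσ]

omit [Fintype X] [DecidableEq X] in
lemma Pol.sub {x : X} {ψ χ : Cfg X n → ℂ} (h1 : Pol x ψ) (h2 : Pol x χ) : Pol x (ψ - χ) := by
  intro σ hσ
  simp [h1 σ hσ, h2 σ hσ]

omit [Fintype X] [DecidableEq X] in
lemma Pol.smul {x : X} {ψ : Cfg X n → ℂ} (h1 : Pol x ψ) (c : ℂ) : Pol x (c • ψ) := by
  intro σ hσ
  simp [h1 σ hσ]

omit [Fintype X] [DecidableEq X] in
lemma pol_zero (x : X) : Pol x (0 : Cfg X n → ℂ) := fun _ _ => rfl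

omit [Fintype X] [DecidableEq X] in
lemma Pol.sum {x : X} {ι : Type} (s : Finset ι) {f : ι → Cfg X n → ℂ} (h : ∀ i ∈ s, Pol x (f i)) :
    Pol x (∑ i ∈ s, f i) := by
  intro σ hσ
  rw [Finset.sum_apply]
  exact Finset.sum_eq_zero fun i hi => h i hi σ hσ

/-- A site operator acts on a polarised vector through the first column of its matrix. -/
lemma pol_act {x : X} {ψ : Cfg X n → ℂ} (h : Pol x ψ) (a : SMat n) (hz : ∀ i, i ≠ 0 → a i 0 = 0) :
    siteOp x a *ᵥ ψ = a 0 0 • ψ := by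
  funext σ
  rw [siteOp_mulVec_apply, Finset.sum_eq_single (0 : Fin (n + 1))]
  · by_cases hσ : σ x = 0
    · rw [hσ, Pi.smul_apply, smul_eq_mul]
      congr 2
      funext y
      by_cases hy : y = x
      · subst hy
        simp [hσ]
      · simp [hy]
    · rw [hz _ hσ, zero_mul, Pi.smul_apply, h σ hσ, smul_zero]
  · intro i _ hi
    rw [h (Function.update σ x i) (by simpa using hi), mul_zero]
  · intro h0
    exact absurd (Finset.mem_univ _) h0

lemma Pol.other {x y : X} {ψ : Cfg X n → ℂ} (h : Pol x ψ) (hxy : x ≠ y) (a : SMat n) :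
    Pol x (siteOp y a *ᵥ ψ) := by
  intro σ hσ
  rw [siteOp_mulVec_apply]
  refine Finset.sum_eq_zero fun i _ => ?_
  rw [h _ (by rwa [Function.update_of_ne hxy]), mul_zero]

/-- The inner product. -/
def ip (u v : Cfg X n → ℂ) : ℂ := star u ⬝ᵥ v

/-- The squared norm. -/
def nrm (v : Cfg X n → ℂ) : ℝ := (ip v v).re

lemma ip_adj (M : Op X n) (u v : Cfg X n → ℂ) : ip (M *ᵥ u) v = ip u (Mᴴ *ᵥ v) := by
  unfold ip
  rw [Matrix.star_mulVec, Matrix.dotProduct_mulVec]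

lemma ip_smul_right (c : ℂ) (u v : Cfg X n → ℂ) : ip u (c • v) = c * ip u v := by
  unfold ip
  rw [dotProduct_smul, smul_eq_mul]

lemma ip_smul_left (c : ℂ) (u v : Cfg X n → ℂ) : ip (c • u) v = star c * ip u v := by
  unfold ip
  rw [star_smul, smul_dotProduct, smul_eq_mul]

lemma ip_zero_right (u : Cfg X n → ℂ) : ip u 0 = 0 := by
  unfold ip
  simp

lemma ip_zero_left (u : Cfg X n → ℂ) : ip 0 u = 0 := by
  unfold ip
  simp

lemma nrm_smul (r : ℝ) (v : Cfg X n → ℂ) : nrm (((r : ℝ) : ℂ) • v) = r ^ 2 * nrm v := by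
  unfold nrm
  rw [ip_smul_left, ip_smul_right, Complex.star_def, Complex.conj_ofReal]
  rw [← mul_assoc, ← Complex.ofReal_mul, Complex.re_ofReal_mul]
  ring

lemma nrm_zero : nrm (0 : Cfg X n → ℂ) = 0 := by
  unfold nrm
  rw [ip_zero_right]
  rfl

/-- The magnon creation operator with real profile `φ`. -/
def magnon (φ : X → ℝ) : Op X n :=
  ∑ z, ((φ z / Real.sqrt n : ℝ) : ℂ) • siteOp z (spinM n)

lemma magnon_conjTranspose (φ : X → ℝ) :
    (magnon φ : Op X n)ᴴ = ∑ z, ((φ z / Real.sqrt n : ℝ) : ℂ) • siteOp z (spinP n) := by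
  unfold magnon
  rw [Matrix.conjTranspose_sum]
  refine Finset.sum_congr rfl fun z _ => ?_
  rw [Matrix.conjTranspose_smul, siteOp_conjTranspose, Complex.star_def, Complex.conj_ofReal]
  unfold spinM
  rw [Matrix.conjTranspose_conjTranspose]

lemma spinP_act {x : X} {ψ : Cfg X n → ℂ} (h : Pol x ψ) : siteOp x (spinP n) *ᵥ ψ = 0 := by
  rw [pol_act h _ fun i _ => spinP_first_col i, spinP_first_col, zero_smul]

lemma bosB_act {x : X} {ψ : Cfg X n → ℂ} (h : Pol x ψ) : siteOp x (bosB n) *ᵥ ψ = 0 := by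
  rw [pol_act h _ fun i _ => bosB_first_col i, bosB_first_col, zero_smul]

lemma bosA_act {x : X} {ψ : Cfg X n → ℂ} (h : Pol x ψ) :
    siteOp x (bosA n) *ᵥ ψ = ((Real.sqrt n : ℝ) : ℂ) • ψ := by
  rw [pol_act h _ bosA_first_col, bosA_zero_zero]

lemma spinPM_act {x : X} {ψ : Cfg X n → ℂ} (h : Pol x ψ) :
    siteOp x (spinP n) *ᵥ (siteOp x (spinM n) *ᵥ ψ) = (n : ℂ) • ψ := by
  rw [Matrix.mulVec_mulVec, siteOp_mul_same, pol_act h _ spinPM_first_col, spinPM_zero_zero]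

lemma bosBM_act (hn : 1 ≤ n) {x : X} {ψ : Cfg X n → ℂ} (h : Pol x ψ) :
    siteOp x (bosB n) *ᵥ (siteOp x (spinM n) *ᵥ ψ) = ((Real.sqrt n : ℝ) : ℂ) • ψ := by
  rw [Matrix.mulVec_mulVec, siteOp_mul_same, pol_act h _ (bosB_spinM_first_col hn),
    bosB_spinM_zero_zero hn]

lemma site_comm_act {x y : X} (hxy : x ≠ y) (a b : SMat n) (ψ : Cfg X n → ℂ) :
    siteOp x a *ᵥ (siteOp y b *ᵥ ψ) = siteOp y b *ᵥ (siteOp x a *ᵥ ψ) := by
  rw [Matrix.mulVec_mulVec, Matrix.mulVec_mulVec, (siteOp_commute hxy a b).eq]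

lemma magnonH_act {φ : X → ℝ} {ψ : Cfg X n → ℂ} (h : ∀ z, φ z ≠ 0 → Pol z ψ) :
    (magnon φ : Op X n)ᴴ *ᵥ ψ = 0 := by
  rw [magnon_conjTranspose, Matrix.sum_mulVec]
  refine Finset.sum_eq_zero fun z _ => ?_
  rw [Matrix.smul_mulVec]
  by_cases hz : φ z = 0
  · simp [hz]
  · rw [spinP_act (h z hz), smul_zero]

lemma sqrt_n_sq : ((Real.sqrt n : ℝ) : ℂ) * ((Real.sqrt n : ℝ) : ℂ) = (n : ℂ) := by
  rw [← Complex.ofReal_mul, Real.mul_self_sqrt (Nat.cast_nonneg n)]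
  simp

lemma magnonH_magnon_act (hn : 1 ≤ n) {φ : X → ℝ} {ψ : Cfg X n → ℂ} (h : ∀ z, φ z ≠ 0 → Pol z ψ)
    (hu : ∑ z, φ z ^ 2 = 1) :
    (magnon φ : Op X n)ᴴ *ᵥ ((magnon φ : Op X n) *ᵥ ψ) = ψ := by
  have hn0 : (0 : ℝ) < n := by exact_mod_cast hn
  have hs : Real.sqrt n * Real.sqrt n = n := Real.mul_self_sqrt hn0.le
  have hs0 : Real.sqrt n ≠ 0 := (Real.sqrt_pos.mpr hn0).ne'
  have e1 : (magnon φ : Op X n) *ᵥ ψ
      = ∑ z, ((φ z / Real.sqrt n : ℝ) : ℂ) • (siteOp z (spinM n) *ᵥ ψ) := by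
    unfold magnon
    rw [Matrix.sum_mulVec]
    exact Finset.sum_congr rfl fun z _ => Matrix.smul_mulVec _ _ _
  have e2 : ∀ z, φ z ≠ 0 → siteOp z (spinP n) *ᵥ ((magnon φ : Op X n) *ᵥ ψ)
      = ((φ z / Real.sqrt n : ℝ) : ℂ) • ((n : ℂ) • ψ) := by
    intro z hz
    rw [e1, Matrix.mulVec_sum, Finset.sum_eq_single z]
    · rw [Matrix.mulVec_smul, spinPM_act (h z hz)]
    · intro z' _ hne
      rw [Matrix.mulVec_smul, site_comm_act hne.symm, spinP_act (h z hz), Matrix.mulVec_zero,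
        smul_zero]
    · intro h0
      exact absurd (Finset.mem_univ _) h0
  rw [magnon_conjTranspose, Matrix.sum_mulVec]
  have e3 : ∀ z, (((φ z / Real.sqrt n : ℝ) : ℂ) • siteOp z (spinP n)) *ᵥ ((magnon φ : Op X n) *ᵥ ψ)
      = ((φ z ^ 2 : ℝ) : ℂ) • ψ := by
    intro z
    rw [Matrix.smul_mulVec]
    by_cases hz : φ z = 0
    · simp [hz]
    · rw [e2 z hz, smul_smul, smul_smul]
      congr 1
      have : ((φ z / Real.sqrt n : ℝ) : ℂ) * ((φ z / Real.sqrt n : ℝ) : ℂ) * (n : ℂ)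
          = (((φ z / Real.sqrt n) * (φ z / Real.sqrt n) * n : ℝ) : ℂ) := by
        push_cast
        ring
      rw [this]
      congr 1
      field_simp
      nlinarith
  rw [Finset.sum_congr rfl fun z _ => e3 z, ← Finset.sum_smul, ← Complex.ofReal_sum, hu]
  simp

/-- The magnon operator is isometric on polarised vectors. -/
lemma ip_magnon_magnon (hn : 1 ≤ n) {φ : X → ℝ} {ψ χ : Cfg X n → ℂ} (h : ∀ z, φ z ≠ 0 → Pol z χ)
    (hu : ∑ z, φ z ^ 2 = 1) :
    ip ((magnon φ : Op X n) *ᵥ ψ) ((magnon φ : Op X n) *ᵥ χ) = ip ψ χ := by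
  rw [ip_adj, magnonH_magnon_act hn h hu]

lemma ip_magnon_pol {φ : X → ℝ} {ψ χ : Cfg X n → ℂ} (h : ∀ z, φ z ≠ 0 → Pol z χ) :
    ip ((magnon φ : Op X n) *ᵥ ψ) χ = 0 := by
  rw [ip_adj, magnonH_act h, ip_zero_right]

lemma ip_pol_magnon {φ : X → ℝ} {ψ χ : Cfg X n → ℂ} (h : ∀ z, φ z ≠ 0 → Pol z ψ) :
    ip ψ ((magnon φ : Op X n) *ᵥ χ) = 0 := by
  have h1 := ip_adj (magnon φ : Op X n)ᴴ ψ χ
  rw [Matrix.conjTranspose_conjTranspose, magnonH_act h, ip_zero_left] at h1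
  exact h1.symm

/-- The bond operator annihilates vectors polarised at both ends. -/
lemma bond_pol {x y : X} {ψ : Cfg X n → ℂ} (hx : Pol x ψ) (hy : Pol y ψ) (hxy : x ≠ y) :
    (bondA x y : Op X n) *ᵥ ψ = 0 := by
  unfold bondA
  rw [Matrix.sub_mulVec, ← Matrix.mulVec_mulVec, ← Matrix.mulVec_mulVec, bosB_act hy,
    bosA_act hy, Matrix.mulVec_zero, Matrix.mulVec_smul, bosB_act hx, smul_zero, sub_zero]

/-- The action of the bond operator on a one-site excitation. -/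
lemma bond_site_other {x y z : X} (hzx : z ≠ x) (hzy : z ≠ y) (ψ : Cfg X n → ℂ) (a : SMat n) :
    (bondA x y : Op X n) *ᵥ (siteOp z a *ᵥ ψ) = siteOp z a *ᵥ ((bondA x y : Op X n) *ᵥ ψ) := by
  unfold bondA
  rw [Matrix.sub_mulVec, Matrix.sub_mulVec, Matrix.mulVec_sub, ← Matrix.mulVec_mulVec,
    ← Matrix.mulVec_mulVec, ← Matrix.mulVec_mulVec, ← Matrix.mulVec_mulVec]
  rw [site_comm_act hzy.symm, site_comm_act hzy.symm, site_comm_act hzx.symm, site_comm_act hzx.symm]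

lemma bond_site_left (hn : 1 ≤ n) {x y : X} {ψ : Cfg X n → ℂ} (hx : Pol x ψ) (hy : Pol y ψ)
    (hxy : x ≠ y) :
    (bondA x y : Op X n) *ᵥ (siteOp x (spinM n) *ᵥ ψ) = (-(n : ℂ)) • ψ := by
  unfold bondA
  rw [Matrix.sub_mulVec, ← Matrix.mulVec_mulVec, ← Matrix.mulVec_mulVec,
    site_comm_act hxy.symm (bosB n) (spinM n), bosB_act hy, Matrix.mulVec_zero, Matrix.mulVec_zero,
    site_comm_act hxy.symm (bosA n) (spinM n), bosA_act hy, Matrix.mulVec_smul, Matrix.mulVec_smul,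
    bosBM_act hn hx, smul_smul, sqrt_n_sq]
  simp

lemma bond_site_right (hn : 1 ≤ n) {x y : X} {ψ : Cfg X n → ℂ} (hx : Pol x ψ) (hy : Pol y ψ)
    (hxy : x ≠ y) :
    (bondA x y : Op X n) *ᵥ (siteOp y (spinM n) *ᵥ ψ) = (n : ℂ) • ψ := by
  unfold bondA
  rw [Matrix.sub_mulVec, ← Matrix.mulVec_mulVec, ← Matrix.mulVec_mulVec, bosBM_act hn hy,
    Matrix.mulVec_smul, bosA_act hx, smul_smul, sqrt_n_sq,
    site_comm_act hxy (bosB n) (bosA n), site_comm_act hxy (bosB n) (spinM n), bosB_act hx,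
    Matrix.mulVec_zero, Matrix.mulVec_zero, sub_zero]

/-- The action of the bond operator on a magnon. -/
lemma bond_magnon (hn : 1 ≤ n) {x y : X} {φ : X → ℝ} {ψ : Cfg X n → ℂ} (hx : Pol x ψ) (hy : Pol y ψ)
    (hxy : x ≠ y) :
    (bondA x y : Op X n) *ᵥ ((magnon φ : Op X n) *ᵥ ψ)
      = ((Real.sqrt n * (φ y - φ x) : ℝ) : ℂ) • ψ := by
  have hn0 : (0 : ℝ) < n := by exact_mod_cast hn
  have hs : Real.sqrt n * Real.sqrt n = n := Real.mul_self_sqrt hn0.le
  have hs0 : Real.sqrt n ≠ 0 := (Real.sqrt_pos.mpr hn0).ne'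
  have e1 : (magnon φ : Op X n) *ᵥ ψ
      = ∑ z, ((φ z / Real.sqrt n : ℝ) : ℂ) • (siteOp z (spinM n) *ᵥ ψ) := by
    unfold magnon
    rw [Matrix.sum_mulVec]
    exact Finset.sum_congr rfl fun z _ => Matrix.smul_mulVec _ _ _
  rw [e1, Matrix.mulVec_sum]
  rw [Finset.sum_eq_add_of_mem x y (Finset.mem_univ _) (Finset.mem_univ _) hxy]
  · rw [Matrix.mulVec_smul, Matrix.mulVec_smul, bond_site_left hn hx hy hxy,
      bond_site_right hn hx hy hxy, smul_smul, smul_smul, ← add_smul]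
    congr 1
    have hne : ((Real.sqrt n : ℝ) : ℂ) ≠ 0 := by exact_mod_cast hs0
    have hnc : (n : ℂ) = ((Real.sqrt n : ℝ) : ℂ) * ((Real.sqrt n : ℝ) : ℂ) := sqrt_n_sq.symm
    push_cast
    rw [hnc]
    field_simp
    ring
  · intro z _ hz
    rw [Matrix.mulVec_smul, bond_site_other hz.1 hz.2, bond_pol hx hy hxy, Matrix.mulVec_zero,
      smul_zero]

lemma Pol.bond {z x y : X} {ψ : Cfg X n → ℂ} (h : Pol z ψ) (hx : z ≠ x) (hy : z ≠ y) :
    Pol z ((bondA x y : Op X n) *ᵥ ψ) := by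
  unfold bondA
  rw [Matrix.sub_mulVec, ← Matrix.mulVec_mulVec, ← Matrix.mulVec_mulVec]
  exact ((h.other hy _).other hx _).sub ((h.other hy _).other hx _)

lemma Pol.magnon {z : X} {φ : X → ℝ} {ψ : Cfg X n → ℂ} (h : Pol z ψ) (hφ : φ z = 0) :
    Pol z ((magnon φ : Op X n) *ᵥ ψ) := by
  unfold Vale.Agent.P361Lib.magnon
  rw [Matrix.sum_mulVec]
  refine Pol.sum (Finset.univ) fun u _ => ?_
  rw [Matrix.smul_mulVec]
  by_cases hu : u = z
  · subst hu
    simp [hφ, pol_zero]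
  · exact (h.other (Ne.symm hu) _).smul _

lemma bond_commute_magnon {x y : X} {φ : X → ℝ} (hx : φ x = 0) (hy : φ y = 0) (ψ : Cfg X n → ℂ) :
    (bondA x y : Op X n) *ᵥ ((magnon φ : Op X n) *ᵥ ψ)
      = (magnon φ : Op X n) *ᵥ ((bondA x y : Op X n) *ᵥ ψ) := by
  unfold Vale.Agent.P361Lib.magnon
  rw [Matrix.sum_mulVec, Matrix.sum_mulVec, Matrix.mulVec_sum]
  refine Finset.sum_congr rfl fun z _ => ?_
  rw [Matrix.smul_mulVec, Matrix.smul_mulVec, Matrix.mulVec_smul]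
  by_cases hz : φ z = 0
  · simp [hz]
  · rw [bond_site_other (by rintro rfl; exact hz hx) (by rintro rfl; exact hz hy)]

/-- The adjacency data of a magnon profile. -/
structure Magnon (adj : X → X → Prop) (C : Finset X) (φ : X → ℝ) : Prop where
  unit : ∑ z, φ z ^ 2 = 1
  supp : ∀ z, φ z ≠ 0 → z ∈ C
  nbr : ∀ x y, adj x y → (φ x ≠ 0 ∨ φ y ≠ 0) → x ∈ C ∧ y ∈ C

/-- The key identity for the norm of a bond operator on a magnon state. -/
lemma nrm_bond_magnon (hn : 1 ≤ n) {adj : X → X → Prop} {C : Finset X} {φ : X → ℝ}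
    (hm : Magnon adj C φ) {ψ : Cfg X n → ℂ} (hψ : ∀ z ∈ C, Pol z ψ) {x y : X} (ha : adj x y)
    (hxy : x ≠ y) :
    nrm ((bondA x y : Op X n) *ᵥ ((magnon φ : Op X n) *ᵥ ψ))
      = nrm ((bondA x y : Op X n) *ᵥ ψ) + (n : ℝ) * (φ y - φ x) ^ 2 * nrm ψ := by
  have hn0 : (0 : ℝ) < n := by exact_mod_cast hn
  by_cases hc : φ x ≠ 0 ∨ φ y ≠ 0
  · obtain ⟨hxC, hyC⟩ := hm.nbr x y ha hc
    rw [bond_magnon hn (hψ x hxC) (hψ y hyC) hxy, bond_pol (hψ x hxC) (hψ y hyC) hxy, nrm_zero,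
      nrm_smul, mul_pow, Real.sq_sqrt hn0.le, zero_add]
  · push Not at hc
    rw [bond_commute_magnon hc.1 hc.2, hc.1, hc.2]
    have hχ : ∀ z, φ z ≠ 0 → Pol z ((bondA x y : Op X n) *ᵥ ψ) := by
      intro z hz
      refine (hψ z (hm.supp z hz)).bond ?_ ?_
      · rintro rfl
        exact hz hc.1
      · rintro rfl
        exact hz hc.2
    unfold nrm
    rw [ip_magnon_magnon hn hχ hm.unit]
    simp

lemma qf_add (A B : Op X n) (v : Cfg X n → ℂ) : qf (A + B) v = qf A v + qf B v := by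
  unfold qf
  rw [Matrix.add_mulVec, dotProduct_add, Complex.add_re]

lemma qf_smul (r : ℝ) (A : Op X n) (v : Cfg X n → ℂ) : qf (r • A) v = r * qf A v := by
  unfold qf
  rw [Matrix.smul_mulVec, dotProduct_smul, Complex.real_smul, Complex.re_ofReal_mul]

lemma qf_sum {ι : Type} (s : Finset ι) (f : ι → Op X n) (v : Cfg X n → ℂ) :
    qf (∑ i ∈ s, f i) v = ∑ i ∈ s, qf (f i) v := by
  unfold qf
  rw [Matrix.sum_mulVec, dotProduct_sum, Complex.re_sum]

lemma qf_zero (v : Cfg X n → ℂ) : qf (0 : Op X n) v = 0 := by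
  unfold qf
  simp

lemma qf_hEdge {x y : X} (hxy : x ≠ y) (ψ : Cfg X n → ℂ) :
    qf (hEdge x y : Op X n) ψ = (1 / 2) * nrm ((bondA x y : Op X n) *ᵥ ψ) := by
  rw [hEdge_eq_half_bond hxy, qf_smul]
  congr 1
  unfold qf nrm ip
  rw [← Matrix.mulVec_mulVec]
  have := ip_adj (bondA x y : Op X n) ψ ((bondA x y : Op X n) *ᵥ ψ)
  unfold ip at this
  rw [this]

/-- The energy of a magnon profile. -/
def profileEnergy (n : ℕ) (adj : X → X → Prop) [DecidableRel adj] (φ : X → ℝ) : ℝ :=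
  ((n : ℝ) / 4) * ∑ x, ∑ y, if adj x y then (φ y - φ x) ^ 2 else 0

lemma qf_edgeSum_eq (adj : X → X → Prop) [DecidableRel adj] (hirr : ∀ x, ¬ adj x x)
    (ψ : Cfg X n → ℂ) :
    qf (edgeSum adj (Finset.univ : Finset X) : Op X n) ψ
      = (1 / 4) * ∑ x, ∑ y, if adj x y then nrm ((bondA x y : Op X n) *ᵥ ψ) else 0 := by
  unfold edgeSum
  rw [qf_smul, qf_sum]
  have : ∀ x, qf (∑ y, if adj x y then (hEdge x y : Op X n) else 0) ψ
      = (1 / 2) * ∑ y, if adj x y then nrm ((bondA x y : Op X n) *ᵥ ψ) else 0 := by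
    intro x
    rw [qf_sum, Finset.mul_sum]
    refine Finset.sum_congr rfl fun y _ => ?_
    by_cases ha : adj x y
    · rw [if_pos ha, if_pos ha, qf_hEdge]
      rintro rfl
      exact hirr x ha
    · rw [if_neg ha, if_neg ha, qf_zero, mul_zero]
  rw [Finset.sum_congr rfl fun x _ => this x, ← Finset.mul_sum, ← mul_assoc]
  norm_num

/-- Adding a magnon raises the energy by the energy of the profile. -/
lemma qf_edgeSum_magnon (hn : 1 ≤ n) {adj : X → X → Prop} [DecidableRel adj] (hirr : ∀ x, ¬ adj x x)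
    {C : Finset X} {φ : X → ℝ} (hm : Magnon adj C φ) {ψ : Cfg X n → ℂ} (hψ : ∀ z ∈ C, Pol z ψ) :
    qf (edgeSum adj (Finset.univ : Finset X) : Op X n) ((magnon φ : Op X n) *ᵥ ψ)
      = qf (edgeSum adj (Finset.univ : Finset X) : Op X n) ψ + profileEnergy n adj φ * nrm ψ := by
  rw [qf_edgeSum_eq adj hirr, qf_edgeSum_eq adj hirr]
  unfold profileEnergy
  have : ∀ x y, (if adj x y then nrm ((bondA x y : Op X n) *ᵥ ((magnon φ : Op X n) *ᵥ ψ)) else 0)
      = (if adj x y then nrm ((bondA x y : Op X n) *ᵥ ψ) else 0)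
        + (n : ℝ) * nrm ψ * (if adj x y then (φ y - φ x) ^ 2 else 0) := by
    intro x y
    by_cases ha : adj x y
    · rw [if_pos ha, if_pos ha, if_pos ha, nrm_bond_magnon hn hm hψ ha (by rintro rfl; exact hirr x ha)]
      ring
    · rw [if_neg ha, if_neg ha, if_neg ha]
      ring
  simp only [this, Finset.sum_add_distrib, ← Finset.mul_sum]
  ring

/-- The fully polarised vector. -/
def vac : Cfg X n → ℂ := fun σ => if σ = (fun _ => 0) then 1 else 0

lemma pol_vac (x : X) : Pol x (vac : Cfg X n → ℂ) := by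
  intro σ hσ
  unfold vac
  rw [if_neg]
  rintro rfl
  exact hσ rfl

lemma ip_vac : ip (vac : Cfg X n → ℂ) vac = 1 := by
  unfold ip vac dotProduct
  simp only [Pi.star_apply]
  rw [Finset.sum_eq_single (fun _ => 0)]
  · simp
  · intro σ _ hσ
    simp [hσ]
  · intro h
    exact absurd (Finset.mem_univ _) h

lemma qf_vac (adj : X → X → Prop) [DecidableRel adj] (hirr : ∀ x, ¬ adj x x) :
    qf (edgeSum adj (Finset.univ : Finset X) : Op X n) vac = 0 := by
  rw [qf_edgeSum_eq adj hirr]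
  have : ∀ x y, (if adj x y then nrm ((bondA x y : Op X n) *ᵥ (vac : Cfg X n → ℂ)) else 0) = 0 := by
    intro x y
    by_cases ha : adj x y
    · rw [if_pos ha, bond_pol (pol_vac x) (pol_vac y) (fun h => hirr x (h ▸ ha)), nrm_zero]
    · rw [if_neg ha]
  simp [this]

/-- The orthonormal family with one optional magnon per box. -/
theorem family_exists (hn : 1 ≤ n) {adj : X → X → Prop} [DecidableRel adj] (hirr : ∀ x, ¬ adj x x)
    {β : ℝ} (hβ : 0 ≤ β) {ι : Type} [DecidableEq ι] (s : Finset ι) (C : ι → Finset X)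
    (φ : ι → X → ℝ) (E : ℝ) (hm : ∀ i ∈ s, Magnon adj (C i) (φ i))
    (hE : ∀ i ∈ s, profileEnergy n adj (φ i) ≤ E)
    (hdis : ∀ i ∈ s, ∀ j ∈ s, i ≠ j → Disjoint (C i) (C j)) (T : Finset ι) (hT : T ⊆ s) :
    ∃ (κ : Type) (_ : Fintype κ) (_ : DecidableEq κ) (Ψ : κ → Cfg X n → ℂ),
      (∀ a b, ip (Ψ a) (Ψ b) = if a = b then 1 else 0) ∧
      (∀ a, ∀ i ∈ s \ T, ∀ z ∈ C i, Pol z (Ψ a)) ∧
      (1 + Real.exp (-(β * E))) ^ T.card
        ≤ ∑ a, Real.exp (-(β * qf (edgeSum adj (Finset.univ : Finset X) : Op X n) (Ψ a))) := by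
  induction T using Finset.induction_on with
  | empty =>
    refine ⟨Unit, inferInstance, inferInstance, fun _ => vac, ?_, ?_, ?_⟩
    · intro a b
      rw [ip_vac]
      simp
    · intro _ _ _ z _
      exact pol_vac z
    · simp [qf_vac adj hirr]
  | insert t T ht ih =>
    obtain ⟨κ, iF, iD, Ψ, hO, hP, hS⟩ := ih (fun i hi => hT (Finset.mem_insert_of_mem hi))
    have hts : t ∈ s := hT (Finset.mem_insert_self t T)
    have htm := hm t hts
    have hPt : ∀ a, ∀ z ∈ C t, Pol z (Ψ a) := fun a z hz =>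
      hP a t (Finset.mem_sdiff.mpr ⟨hts, ht⟩) z hz
    have hPt' : ∀ a, ∀ z, φ t z ≠ 0 → Pol z (Ψ a) := fun a z hz => hPt a z (htm.supp z hz)
    refine ⟨κ × Bool, inferInstance, inferInstance,
      fun p => if p.2 then (magnon (φ t) : Op X n) *ᵥ Ψ p.1 else Ψ p.1, ?_, ?_, ?_⟩
    · rintro ⟨a, ba⟩ ⟨b, bb⟩
      cases ba <;> cases bb
      · simp only [Bool.false_eq_true, if_false, hO a b, Prod.mk.injEq, and_true]
      · simp only [Bool.false_eq_true, if_false, if_true, ip_pol_magnon (hPt' a)]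
        simp
      · simp only [Bool.false_eq_true, if_false, if_true, ip_magnon_pol (hPt' b)]
        simp
      · simp only [if_true, ip_magnon_magnon hn (hPt' b) htm.unit, hO a b, Prod.mk.injEq, and_true]
    · rintro ⟨a, ba⟩ i hi z hz
      have hi' : i ∈ s ∧ i ≠ t ∧ i ∉ T := by
        simpa [Finset.mem_sdiff, Finset.mem_insert, not_or] using hi
      have hP0 : Pol z (Ψ a) := hP a i (Finset.mem_sdiff.mpr ⟨hi'.1, hi'.2.2⟩) z hz
      cases ba
      · simpa using hP0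
      · simp only [if_true]
        refine hP0.magnon ?_
        by_contra hne
        have hzt := htm.supp z hne
        exact (Finset.disjoint_left.mp (hdis i hi'.1 t hts hi'.2.1)) hz hzt
    · rw [Fintype.sum_prod_type]
      simp only [Fintype.sum_bool, if_true, Bool.false_eq_true, if_false]
      have hterm : ∀ a, Real.exp (-(β * qf (edgeSum adj (Finset.univ : Finset X) : Op X n) (Ψ a)))
            * (1 + Real.exp (-(β * E)))
          ≤ Real.exp (-(β * qf (edgeSum adj (Finset.univ : Finset X) : Op X n)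
              ((magnon (φ t) : Op X n) *ᵥ Ψ a)))
            + Real.exp (-(β * qf (edgeSum adj (Finset.univ : Finset X) : Op X n) (Ψ a))) := by
        intro a
        rw [qf_edgeSum_magnon hn hirr htm (hPt a)]
        have hnrm : nrm (Ψ a) = 1 := by
          unfold nrm
          rw [hO a a]
          simp
        rw [hnrm, mul_one, mul_add, mul_one, ← Real.exp_add, add_comm]
        refine add_le_add_left ?_ _
        refine Real.exp_le_exp.mpr ?_
        have := mul_le_mul_of_nonneg_left (hE t hts) hβ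
        nlinarith
      refine le_trans ?_ (Finset.sum_le_sum fun a _ => hterm a)
      rw [← Finset.sum_mul, Finset.card_insert_of_notMem ht, pow_succ, mul_comm]
      rw [mul_comm]
      exact mul_le_mul_of_nonneg_right hS (by positivity)

/-- The lower bound on the partition function. -/
theorem lower_main (hn : 1 ≤ n) {adj : X → X → Prop} [DecidableRel adj] (hirr : ∀ x, ¬ adj x x)
    {β : ℝ} (hβ : 0 ≤ β) {ι : Type} [DecidableEq ι] (s : Finset ι) (C : ι → Finset X)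
    (φ : ι → X → ℝ) (E : ℝ) (hm : ∀ i ∈ s, Magnon adj (C i) (φ i))
    (hE : ∀ i ∈ s, profileEnergy n adj (φ i) ≤ E)
    (hdis : ∀ i ∈ s, ∀ j ∈ s, i ≠ j → Disjoint (C i) (C j)) :
    (1 + Real.exp (-(β * E))) ^ s.card
      ≤ (trace (NormedSpace.exp (-(β • (edgeSum adj (Finset.univ : Finset X) : Op X n))))).re := by
  obtain ⟨κ, iF, iD, Ψ, hO, _, hS⟩ := family_exists hn hirr hβ s C φ E hm hE hdis s subset_rfl
  refine hS.trans ?_
  have hH : (β • (edgeSum adj (Finset.univ : Finset X) : Op X n)).IsHermitian := by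
    unfold Matrix.IsHermitian
    rw [Matrix.conjTranspose_smul, star_trivial, (edgeSum_isHermitian adj _).eq]
  have := sum_exp_qf_le_trace_exp hH Ψ hO
  refine le_trans (le_of_eq ?_) this
  refine Finset.sum_congr rfl fun a _ => ?_
  rw [qf_smul]

end Vale.Agent.P361Lib
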