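import Mathlib

/-!
# The Neumann modes of a path
-/

open Matrix Finset

noncomputable section

namespace Vale.Agent.P361Lib

/-- The Kronecker delta between a point of `Fin M` and a natural number. -/
def kd {M : ℕ} (c : Fin M) (t : ℕ) : ℝ := if (c : ℕ) = t then 1 else 0

/-- The Laplacian of the path with `M` vertices. -/
def pathL (M : ℕ) : Matrix (Fin M) (Fin M) ℝ :=
  Matrix.of fun c c' => ∑ t ∈ Finset.range (M - 1), (kd c t - kd c (t + 1)) * (kd c' t - kd c' (t + 1))

lemma sum_kd {M : ℕ} {t : ℕ} (ht : t < M) (f : ℕ → ℝ) : ∑ c : Fin M, kd c t * f c = f t := by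
  rw [Finset.sum_eq_single (⟨t, ht⟩ : Fin M)]
  · simp [kd]
  · intro c _ hc
    have : (c : ℕ) ≠ t := fun h => hc (Fin.ext h)
    simp [kd, this]
  · intro h
    exact absurd (Finset.mem_univ _) h

lemma pathL_mulVec {M : ℕ} (f : ℕ → ℝ) (c : Fin M) :
    ∑ c' : Fin M, pathL M c c' * f c'
      = ∑ t ∈ Finset.range (M - 1), (kd c t - kd c (t + 1)) * (f t - f (t + 1)) := by
  unfold pathL
  simp only [Matrix.of_apply, Finset.sum_mul]
  rw [Finset.sum_comm]
  refine Finset.sum_congr rfl fun t ht => ?_
  have ht' : t + 1 < M := by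
    have := Finset.mem_range.mp ht
    omega
  have h1 := sum_kd (M := M) (by omega : t < M) f
  have h2 := sum_kd (M := M) ht' f
  rw [← h1, ← h2, ← Finset.sum_sub_distrib, Finset.mul_sum]
  refine Finset.sum_congr rfl fun c' _ => ?_
  ring

/-- The cosine profile, on the natural numbers. -/
def nw (M q c : ℕ) : ℝ := Real.cos (Real.pi * q * ((c : ℝ) + 1 / 2) / M)

/-- The eigenvalues of the path Laplacian. -/
def lamN (M q : ℕ) : ℝ := 2 * (1 - Real.cos (Real.pi * q / M))

lemma nw_succ_add_pred (M q c : ℕ) :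
    nw M q (c + 2) + nw M q c = 2 * Real.cos (Real.pi * q / M) * nw M q (c + 1) := by
  unfold nw
  set θ : ℝ := Real.pi * q / M with hθ
  have e0 : Real.pi * q * (((c + 2 : ℕ) : ℝ) + 1 / 2) / M = θ * ((c : ℝ) + 3 / 2) + θ := by
    rw [hθ]; push_cast; ring
  have e1 : Real.pi * q * (((c + 1 : ℕ) : ℝ) + 1 / 2) / M = θ * ((c : ℝ) + 3 / 2) := by
    rw [hθ]; push_cast; ring
  have e2 : Real.pi * q * (((c : ℕ) : ℝ) + 1 / 2) / M = θ * ((c : ℝ) + 3 / 2) - θ := by
    rw [hθ]; ring
  rw [e0, e1, e2, Real.cos_add, Real.cos_sub]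
  ring

lemma nw_zero_rel (M q : ℕ) :
    nw M q 1 + nw M q 0 = 2 * Real.cos (Real.pi * q / M) * nw M q 0 := by
  unfold nw
  set θ : ℝ := Real.pi * q / M with hθ
  have e1 : Real.pi * q * (((1 : ℕ) : ℝ) + 1 / 2) / M = θ / 2 + θ := by
    rw [hθ]; push_cast; ring
  have e2 : Real.pi * q * (((0 : ℕ) : ℝ) + 1 / 2) / M = θ / 2 := by
    rw [hθ]; push_cast; ring
  have e3 : Real.cos (θ / 2) = Real.cos (θ / 2 + θ - θ) := by ring_nf
  rw [e1, e2, Real.cos_add]
  have h1 : Real.cos θ = Real.cos (θ / 2 + θ / 2) := by ring_nf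
  have h2 : Real.sin θ = Real.sin (θ / 2 + θ / 2) := by ring_nf
  rw [h1, h2, Real.cos_add, Real.sin_add]
  have h3 := Real.sin_sq_add_cos_sq (θ / 2)
  linear_combination (-(Real.cos (θ / 2))) * h3

lemma nw_last_rel {M : ℕ} (hM : 0 < M) (q : ℕ) :
    nw M q M = nw M q (M - 1) := by
  unfold nw
  have hM' : (M : ℝ) ≠ 0 := by positivity
  obtain ⟨k, rfl⟩ : ∃ k, M = k + 1 := ⟨M - 1, by omega⟩
  simp only [Nat.add_sub_cancel]
  set θ : ℝ := Real.pi * q / ((k + 1 : ℕ) : ℝ) with hθ
  have e1 : Real.pi * q * (((k + 1 : ℕ) : ℝ) + 1 / 2) / ((k + 1 : ℕ) : ℝ) = q * Real.pi + θ / 2 := by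
    rw [hθ]; field_simp
  have e2 : Real.pi * q * ((k : ℝ) + 1 / 2) / ((k + 1 : ℕ) : ℝ) = q * Real.pi - θ / 2 := by
    rw [hθ]; push_cast at hM' ⊢; field_simp; ring
  rw [e1, e2, Real.cos_add, Real.cos_sub, Real.cos_nat_mul_pi, Real.sin_nat_mul_pi]
  simp

/-- The eigenvalue equation of the cosine profile. -/
lemma nw_eigen {M : ℕ} (q : ℕ) (c : Fin M) :
    ∑ c' : Fin M, pathL M c c' * nw M q c' = lamN M q * nw M q c := by
  rw [pathL_mulVec]
  have hM : 0 < M := Nat.pos_of_ne_zero (by
    rintro rfl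
    exact c.elim0)
  obtain ⟨c, hc⟩ := c
  -- the general form of the sum
  have key : ∀ (g : ℕ → ℝ), ∑ t ∈ Finset.range (M - 1),
      (kd (⟨c, hc⟩ : Fin M) t - kd (⟨c, hc⟩ : Fin M) (t + 1)) * g t
      = (if c < M - 1 then g c else 0) - (if c = 0 then 0 else g (c - 1)) := by
    intro g
    simp only [sub_mul, Finset.sum_sub_distrib]
    congr 1
    · by_cases h : c < M - 1
      · rw [if_pos h, Finset.sum_eq_single c]
        · simp [kd]
        · intro t _ ht
          simp [kd, Ne.symm ht]
        · intro h'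
          exact absurd (Finset.mem_range.mpr h) h'
      · rw [if_neg h]
        refine Finset.sum_eq_zero fun t ht => ?_
        have : c ≠ t := by
          have := Finset.mem_range.mp ht
          omega
        simp [kd, this]
    · by_cases h : c = 0
      · rw [if_pos h]
        refine Finset.sum_eq_zero fun t _ => ?_
        have : c ≠ t + 1 := by omega
        simp [kd, this]
      · rw [if_neg h, Finset.sum_eq_single (c - 1)]
        · have : c = c - 1 + 1 := by omega
          simp [kd, this.symm]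
        · intro t _ ht
          have : c ≠ t + 1 := by omega
          simp [kd, this]
        · intro h'
          exact absurd (Finset.mem_range.mpr (by omega)) h'
  rw [key]
  unfold lamN
  set C := Real.cos (Real.pi * q / M) with hC
  by_cases h0 : c = 0
  · subst h0
    rw [if_pos rfl, sub_zero]
    by_cases h1 : 0 < M - 1
    · rw [if_pos h1]
      have := nw_zero_rel M q
      rw [← hC] at this
      simp only
      linarith
    · have hM1 : M = 1 := by omega
      rw [if_neg h1]
      subst hM1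
      have := nw_zero_rel 1 q
      have h2 := nw_last_rel (M := 1) (by norm_num) q
      simp only [Nat.sub_self] at h2
      rw [← hC] at this
      simp only
      rw [h2] at this
      linarith
  · rw [if_neg h0]
    obtain ⟨d, rfl⟩ : ∃ d, c = d + 1 := ⟨c - 1, by omega⟩
    simp only [Nat.add_sub_cancel]
    by_cases h1 : d + 1 < M - 1
    · rw [if_pos h1]
      have := nw_succ_add_pred M q d
      rw [← hC] at this
      linarith
    · rw [if_neg h1]
      have hM1 : M = d + 2 := by omega
      subst hM1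
      have := nw_succ_add_pred (d + 2) q d
      have h2 := nw_last_rel (M := d + 2) (by omega) q
      simp only [show d + 2 - 1 = d + 1 by omega] at h2
      rw [← hC, h2] at this
      linarith

lemma pathL_symm (M : ℕ) (c c' : Fin M) : pathL M c c' = pathL M c' c := by
  unfold pathL
  simp only [Matrix.of_apply]
  refine Finset.sum_congr rfl fun t _ => ?_
  ring

lemma nw_orth {M : ℕ} {q q' : ℕ} (hq : q < M) (hq' : q' < M) (hne : q ≠ q') :
    ∑ c : Fin M, nw M q c * nw M q' c = 0 := by
  have hsym : ∑ c : Fin M, (∑ c' : Fin M, pathL M c c' * nw M q c') * nw M q' c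
      = ∑ c : Fin M, nw M q c * (∑ c' : Fin M, pathL M c c' * nw M q' c') := by
    simp only [Finset.sum_mul, Finset.mul_sum]
    rw [Finset.sum_comm]
    refine Finset.sum_congr rfl fun c _ => Finset.sum_congr rfl fun c' _ => ?_
    rw [pathL_symm]
    ring
  simp only [nw_eigen] at hsym
  have e1 : ∑ c : Fin M, lamN M q * nw M q c * nw M q' c = lamN M q * ∑ c : Fin M, nw M q c * nw M q' c := by
    rw [Finset.mul_sum]
    exact Finset.sum_congr rfl fun c _ => by ring
  have e2 : ∑ c : Fin M, nw M q c * (lamN M q' * nw M q' c) = lamN M q' * ∑ c : Fin M, nw M q c * nw M q' c := by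
    rw [Finset.mul_sum]
    exact Finset.sum_congr rfl fun c _ => by ring
  rw [e1, e2] at hsym
  have h1 : (lamN M q - lamN M q') * ∑ c : Fin M, nw M q c * nw M q' c = 0 := by
    rw [sub_mul, hsym, sub_self]
  have hne' : lamN M q - lamN M q' ≠ 0 := by
    intro h0
    have hM : (0 : ℝ) < M := by
      have : 0 < M := by omega
      exact_mod_cast this
    unfold lamN at h0
    have h2 : Real.cos (Real.pi * q / M) = Real.cos (Real.pi * q' / M) := by linarith
    have hmem : ∀ r : ℕ, r < M → Real.pi * r / M ∈ Set.Icc 0 Real.pi := by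
      intro r hr
      constructor
      · positivity
      · rw [div_le_iff₀ hM]
        have : (r : ℝ) ≤ M := by exact_mod_cast hr.le
        have hp := Real.pi_pos
        nlinarith
    have h3 := Real.injOn_cos (hmem q hq) (hmem q' hq') h2
    have hp := Real.pi_pos
    have h4 : (q : ℝ) = q' := by
      field_simp at h3
      exact h3
    exact hne (by exact_mod_cast h4)
  exact (mul_eq_zero.mp h1).resolve_left hne'

lemma nw_zero_pos {M q : ℕ} (hq : q < M) : 0 < nw M q 0 := by
  unfold nw
  have hM : (0 : ℝ) < M := by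
    have : 0 < M := by omega
    exact_mod_cast this
  refine Real.cos_pos_of_mem_Ioo ⟨?_, ?_⟩
  · have hp := Real.pi_pos
    have : 0 ≤ Real.pi * q * (((0 : ℕ) : ℝ) + 1 / 2) / M := by positivity
    linarith
  · rw [div_lt_iff₀ hM]
    have h1 : (q : ℝ) < M := by exact_mod_cast hq
    have hp := Real.pi_pos
    push_cast
    nlinarith

/-- The squared norm of the cosine profile. -/
def nwNorm (M q : ℕ) : ℝ := ∑ c : Fin M, nw M q c ^ 2

lemma nwNorm_pos {M q : ℕ} (hq : q < M) : 0 < nwNorm M q := by
  unfold nwNorm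
  refine Finset.sum_pos' (fun c _ => sq_nonneg _) ⟨⟨0, by omega⟩, Finset.mem_univ _, ?_⟩
  have := nw_zero_pos hq
  simp only
  positivity

/-- The orthonormal Neumann modes. -/
def nV (M : ℕ) (c q : Fin M) : ℝ := nw M q c / Real.sqrt (nwNorm M q)

lemma nV_orth {M : ℕ} (q q' : Fin M) : ∑ c : Fin M, nV M c q * nV M c q' = if q = q' then 1 else 0 := by
  unfold nV
  by_cases h : q = q'
  · subst h
    rw [if_pos rfl]
    have hpos := nwNorm_pos q.2
    have hs := Real.sq_sqrt hpos.le
    have e : ∀ c : Fin M, nw M q c / Real.sqrt (nwNorm M q) * (nw M q c / Real.sqrt (nwNorm M q))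
        = nw M q c ^ 2 / nwNorm M q := by
      intro c
      rw [div_mul_div_comm, ← pow_two, ← pow_two, hs]
    simp only [e]
    rw [← Finset.sum_div]
    exact div_self hpos.ne'
  · rw [if_neg h]
    have hne : (q : ℕ) ≠ q' := fun e => h (Fin.ext e)
    have h0 := nw_orth q.2 q'.2 hne
    have e : ∀ c : Fin M, nw M q c / Real.sqrt (nwNorm M q) * (nw M q' c / Real.sqrt (nwNorm M q'))
        = (nw M q c * nw M q' c) / (Real.sqrt (nwNorm M q) * Real.sqrt (nwNorm M q')) := by
      intro c
      rw [div_mul_div_comm]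
    simp only [e]
    rw [← Finset.sum_div, h0, zero_div]

/-- Completeness of the Neumann modes. -/
lemma nV_compl {M : ℕ} (c c' : Fin M) : ∑ q : Fin M, nV M c q * nV M c' q = if c = c' then 1 else 0 := by
  have h1 : (Matrix.of (nV M))ᵀ * Matrix.of (nV M) = 1 := by
    ext q q'
    rw [Matrix.mul_apply, Matrix.one_apply]
    simp only [Matrix.transpose_apply, Matrix.of_apply]
    exact nV_orth q q'
  have h2 : Matrix.of (nV M) * (Matrix.of (nV M))ᵀ = 1 := mul_eq_one_comm.mp h1
  have h3 := congrFun (congrFun h2 c) c'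
  rw [Matrix.mul_apply, Matrix.one_apply] at h3
  simpa only [Matrix.transpose_apply, Matrix.of_apply] using h3

/-- The spectral decomposition of the path Laplacian. -/
lemma nV_spec {M : ℕ} (c c' : Fin M) :
    ∑ q : Fin M, lamN M q * (nV M c q * nV M c' q) = pathL M c c' := by
  have h1 : ∀ (c : Fin M) (q : Fin M), ∑ d : Fin M, pathL M c d * nV M d q = lamN M q * nV M c q := by
    intro c q
    unfold nV
    have := nw_eigen (M := M) (q : ℕ) c
    simp only [← mul_div_assoc]
    rw [← Finset.sum_div, this]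
  have h2 : ∑ q : Fin M, lamN M q * (nV M c q * nV M c' q)
      = ∑ q : Fin M, (∑ d : Fin M, pathL M c d * nV M d q) * nV M c' q := by
    refine Finset.sum_congr rfl fun q _ => ?_
    rw [h1]
    ring
  rw [h2]
  simp only [Finset.sum_mul]
  rw [Finset.sum_comm]
  have h3 : ∀ d : Fin M, ∑ q : Fin M, pathL M c d * nV M d q * nV M c' q
      = pathL M c d * if d = c' then 1 else 0 := by
    intro d
    rw [← nV_compl, Finset.mul_sum]
    exact Finset.sum_congr rfl fun q _ => by ring
  simp only [h3]
  simp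

end Vale.Agent.P361Lib
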