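import Vale.Agent.Lib.P361.Coarse
import Vale.Agent.Lib.P361.Neumann

/-!
# The three-dimensional Neumann modes
-/

open Matrix Finset
open scoped MatrixOrder ComplexOrder

noncomputable section

namespace Vale.Agent.P361Lib

variable {X : Type} [Fintype X] [DecidableEq X] {n : ℕ}

/-- The real sesquilinear form of an operator. -/
def sesq (A : Op X n) (u v : Cfg X n → ℂ) : ℝ := (star u ⬝ᵥ A *ᵥ v).re

lemma sesq_self (A : Op X n) (u : Cfg X n → ℂ) : sesq A u u = qf A u := rfl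

lemma sesq_sum_left {ι : Type} (s : Finset ι) (A : Op X n) (f : ι → Cfg X n → ℂ) (v : Cfg X n → ℂ) :
    sesq A (∑ i ∈ s, f i) v = ∑ i ∈ s, sesq A (f i) v := by
  unfold sesq
  rw [star_sum, sum_dotProduct, Complex.re_sum]

lemma sesq_sum_right {ι : Type} (s : Finset ι) (A : Op X n) (f : ι → Cfg X n → ℂ) (u : Cfg X n → ℂ) :
    sesq A u (∑ i ∈ s, f i) = ∑ i ∈ s, sesq A u (f i) := by
  unfold sesq
  rw [Matrix.mulVec_sum, dotProduct_sum, Complex.re_sum]

lemma sesq_smul_left (A : Op X n) (r : ℝ) (u v : Cfg X n → ℂ) :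
    sesq A (((r : ℝ) : ℂ) • u) v = r * sesq A u v := by
  unfold sesq
  rw [star_smul, smul_dotProduct, smul_eq_mul, Complex.star_def, Complex.conj_ofReal,
    Complex.re_ofReal_mul]

lemma sesq_smul_right (A : Op X n) (r : ℝ) (u v : Cfg X n → ℂ) :
    sesq A u (((r : ℝ) : ℂ) • v) = r * sesq A u v := by
  unfold sesq
  rw [Matrix.mulVec_smul, dotProduct_smul, smul_eq_mul, Complex.re_ofReal_mul]

lemma sesq_sub_left (A : Op X n) (u u' v : Cfg X n → ℂ) :
    sesq A (u - u') v = sesq A u v - sesq A u' v := by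
  unfold sesq
  rw [star_sub, sub_dotProduct, Complex.sub_re]

lemma sesq_sub_right (A : Op X n) (u v v' : Cfg X n → ℂ) :
    sesq A u (v - v') = sesq A u v - sesq A u v' := by
  unfold sesq
  rw [Matrix.mulVec_sub, dotProduct_sub, Complex.sub_re]

/-- The quadratic form of a real linear combination. -/
lemma qf_lincomb {ι : Type} [Fintype ι] (A : Op X n) (a : ι → ℝ) (w : ι → Cfg X n → ℂ) :
    qf A (∑ c, ((a c : ℝ) : ℂ) • w c) = ∑ c, ∑ c', (a c * a c') * sesq A (w c) (w c') := by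
  rw [← sesq_self, sesq_sum_left]
  refine Finset.sum_congr rfl fun c _ => ?_
  rw [sesq_smul_left, sesq_sum_right, Finset.mul_sum]
  refine Finset.sum_congr rfl fun c' _ => ?_
  rw [sesq_smul_right]
  ring

/-- A general Parseval formula. -/
lemma parseval_gen {ι Q : Type} [Fintype ι] [Fintype Q] (A : Op X n) (O : ι → Q → ℝ) (κ : Q → ℝ)
    (w : ι → Cfg X n → ℂ) :
    ∑ q, κ q * qf A (∑ c, ((O c q : ℝ) : ℂ) • w c)
      = ∑ c, ∑ c', (∑ q, κ q * (O c q * O c' q)) * sesq A (w c) (w c') := by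
  simp only [qf_lincomb, Finset.mul_sum, Finset.sum_mul]
  rw [Finset.sum_comm]
  refine Finset.sum_congr rfl fun c _ => ?_
  rw [Finset.sum_comm]
  refine Finset.sum_congr rfl fun c' _ => ?_
  refine Finset.sum_congr rfl fun q _ => ?_
  ring

/-- The Parseval formula for an orthogonal change of basis. -/
lemma parseval_orth {ι Q : Type} [Fintype ι] [DecidableEq ι] [Fintype Q] (A : Op X n) (O : ι → Q → ℝ)
    (hO : ∀ c c', ∑ q, O c q * O c' q = if c = c' then 1 else 0) (w : ι → Cfg X n → ℂ) :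
    ∑ q, qf A (∑ c, ((O c q : ℝ) : ℂ) • w c) = ∑ c, qf A (w c) := by
  have h := parseval_gen A O (fun _ => 1) w
  simp only [one_mul, hO] at h
  rw [h]
  refine Finset.sum_congr rfl fun c _ => ?_
  simp only [ite_mul, one_mul, zero_mul, Finset.sum_ite_eq, Finset.mem_univ, if_true]
  rfl

/-- The quadratic form of the path Laplacian. -/
lemma pathL_form {M : ℕ} (u : ℕ → Cfg X n → ℂ) :
    ∑ c : Fin M, ∑ c' : Fin M, pathL M c c' * sesq 1 (u c) (u c')
      = ∑ t ∈ Finset.range (M - 1), nrm (u t - u (t + 1)) := by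
  have hsum : ∀ t ∈ Finset.range (M - 1),
      ∑ c : Fin M, (((kd c t - kd c (t + 1) : ℝ) : ℂ)) • u c = u t - u (t + 1) := by
    intro t ht
    have ht' : t + 1 < M := by
      have := Finset.mem_range.mp ht
      omega
    funext σ
    simp only [Finset.sum_apply, Pi.smul_apply, Pi.sub_apply, smul_eq_mul]
    have key : ∀ (s : ℕ), s < M → ∑ c : Fin M, ((kd c s : ℝ) : ℂ) * u c σ = u s σ := by
      intro s hs
      rw [Finset.sum_eq_single (⟨s, hs⟩ : Fin M)]
      · simp [kd]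
      · intro c _ hc
        have : (c : ℕ) ≠ s := fun h => hc (Fin.ext h)
        simp [kd, this]
      · intro h
        exact absurd (Finset.mem_univ _) h
    rw [← key t (by omega), ← key (t + 1) ht', ← Finset.sum_sub_distrib]
    refine Finset.sum_congr rfl fun c _ => ?_
    push_cast
    ring
  have h1 : ∀ t ∈ Finset.range (M - 1), nrm (u t - u (t + 1))
      = ∑ c : Fin M, ∑ c' : Fin M, ((kd c t - kd c (t + 1)) * (kd c' t - kd c' (t + 1)))
          * sesq 1 (u c) (u c') := by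
    intro t ht
    rw [nrm_eq_vnsq, ← qf_one, ← hsum t ht, qf_lincomb]
  rw [Finset.sum_congr rfl h1]
  unfold pathL
  simp only [Matrix.of_apply, Finset.sum_mul]
  symm
  rw [Finset.sum_comm]
  refine Finset.sum_congr rfl fun c _ => ?_
  exact Finset.sum_comm

section ThreeD

variable {M : ℕ}

/-- The three-dimensional coarse index. -/
abbrev C3 (M : ℕ) : Type := Fin M × Fin M × Fin M

/-- The product modes. -/
def O3 (c q : C3 M) : ℝ := nV M c.1 q.1 * nV M c.2.1 q.2.1 * nV M c.2.2 q.2.2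

/-- The product eigenvalues. -/
def lam3 (q : C3 M) : ℝ := lamN M q.1 + lamN M q.2.1 + lamN M q.2.2

lemma O3_compl (c c' : C3 M) : ∑ q, O3 c q * O3 c' q = if c = c' then 1 else 0 := by
  unfold O3
  rw [Fintype.sum_prod_type]
  simp only [Fintype.sum_prod_type]
  have e : ∀ (a : Fin M) (b : Fin M) (d : Fin M),
      nV M c.1 a * nV M c.2.1 b * nV M c.2.2 d * (nV M c'.1 a * nV M c'.2.1 b * nV M c'.2.2 d)
      = (nV M c.1 a * nV M c'.1 a) * ((nV M c.2.1 b * nV M c'.2.1 b) * (nV M c.2.2 d * nV M c'.2.2 d)) := by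
    intro a b d
    ring
  simp only [e, ← Finset.mul_sum, ← Finset.sum_mul]
  simp only [nV_compl]
  obtain ⟨c1, c2, c3⟩ := c
  obtain ⟨c1', c2', c3'⟩ := c'
  simp only [Prod.mk.injEq]
  by_cases h1 : c1 = c1' <;> by_cases h2 : c2 = c2' <;> by_cases h3 : c3 = c3' <;> simp [h1, h2, h3]

/-- The Laplacian of the coarse cube, as a kernel. -/
lemma O3_lap (c c' : C3 M) :
    ∑ q, lam3 q * (O3 c q * O3 c' q)
      = pathL M c.1 c'.1 * ((if c.2.1 = c'.2.1 then 1 else 0) * (if c.2.2 = c'.2.2 then 1 else 0))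
        + (if c.1 = c'.1 then 1 else 0) * (pathL M c.2.1 c'.2.1 * (if c.2.2 = c'.2.2 then 1 else 0))
        + (if c.1 = c'.1 then 1 else 0) * ((if c.2.1 = c'.2.1 then 1 else 0) * pathL M c.2.2 c'.2.2) := by
  unfold O3 lam3
  rw [Fintype.sum_prod_type]
  simp only [Fintype.sum_prod_type]
  have e : ∀ (a : Fin M) (b : Fin M) (d : Fin M),
      (lamN M a + lamN M b + lamN M d) * (nV M c.1 a * nV M c.2.1 b * nV M c.2.2 d
        * (nV M c'.1 a * nV M c'.2.1 b * nV M c'.2.2 d))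
      = (lamN M a * (nV M c.1 a * nV M c'.1 a)) * ((nV M c.2.1 b * nV M c'.2.1 b) * (nV M c.2.2 d * nV M c'.2.2 d))
        + (nV M c.1 a * nV M c'.1 a) * ((lamN M b * (nV M c.2.1 b * nV M c'.2.1 b)) * (nV M c.2.2 d * nV M c'.2.2 d))
        + (nV M c.1 a * nV M c'.1 a) * ((nV M c.2.1 b * nV M c'.2.1 b) * (lamN M d * (nV M c.2.2 d * nV M c'.2.2 d))) := by
    intro a b d
    ring
  simp only [e, Finset.sum_add_distrib, ← Finset.mul_sum, ← Finset.sum_mul]
  simp only [nV_compl, nV_spec]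

lemma kernel1 (L : Fin M → Fin M → ℝ) (f : Fin M → Fin M → Fin M → Fin M → Fin M → Fin M → ℝ) :
    ∑ a, ∑ b, ∑ d, ∑ a', ∑ b', ∑ d', L a a' * ((if b = b' then 1 else 0) * (if d = d' then 1 else 0)) * f a b d a' b' d'
      = ∑ b, ∑ d, ∑ a, ∑ a', L a a' * f a b d a' b d := by
  have h : ∀ a b d a', ∑ b', ∑ d', L a a' * ((if b = b' then 1 else 0) * (if d = d' then 1 else 0)) * f a b d a' b' d'
      = L a a' * f a b d a' b d := by
    intro a b d a'
    rw [Finset.sum_eq_single b, Finset.sum_eq_single d]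
    · simp
    · intro d' _ hd'
      simp [Ne.symm hd']
    · simp
    · intro b' _ hb'
      simp [Ne.symm hb']
    · simp
  simp only [h]
  rw [Finset.sum_comm]
  refine Finset.sum_congr rfl fun b _ => ?_
  rw [Finset.sum_comm]

lemma kernel2 (L : Fin M → Fin M → ℝ) (f : Fin M → Fin M → Fin M → Fin M → Fin M → Fin M → ℝ) :
    ∑ a, ∑ b, ∑ d, ∑ a', ∑ b', ∑ d', (if a = a' then 1 else 0) * (L b b' * (if d = d' then 1 else 0)) * f a b d a' b' d'
      = ∑ a, ∑ d, ∑ b, ∑ b', L b b' * f a b d a b' d := by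
  have h : ∀ a b d, ∑ a', ∑ b', ∑ d', (if a = a' then 1 else 0) * (L b b' * (if d = d' then 1 else 0)) * f a b d a' b' d'
      = ∑ b', L b b' * f a b d a b' d := by
    intro a b d
    rw [Finset.sum_eq_single a]
    · refine Finset.sum_congr rfl fun b' _ => ?_
      rw [Finset.sum_eq_single d]
      · simp
      · intro d' _ hd'
        simp [Ne.symm hd']
      · simp
    · intro a' _ ha'
      simp [Ne.symm ha']
    · simp
  simp only [h]
  refine Finset.sum_congr rfl fun a _ => ?_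
  rw [Finset.sum_comm]

lemma kernel3 (L : Fin M → Fin M → ℝ) (f : Fin M → Fin M → Fin M → Fin M → Fin M → Fin M → ℝ) :
    ∑ a, ∑ b, ∑ d, ∑ a', ∑ b', ∑ d', (if a = a' then 1 else 0) * ((if b = b' then 1 else 0) * L d d') * f a b d a' b' d'
      = ∑ a, ∑ b, ∑ d, ∑ d', L d d' * f a b d a b d' := by
  have h : ∀ a b d, ∑ a', ∑ b', ∑ d', (if a = a' then 1 else 0) * ((if b = b' then 1 else 0) * L d d') * f a b d a' b' d'
      = ∑ d', L d d' * f a b d a b d' := by
    intro a b d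
    rw [Finset.sum_eq_single a]
    · rw [Finset.sum_eq_single b]
      · simp
      · intro b' _ hb'
        simp [Ne.symm hb']
      · simp
    · intro a' _ ha'
      simp [Ne.symm ha']
    · simp
  simp only [h]

/-- The form of the Laplacian of the coarse cube in terms of the differences. -/
theorem modes_lap (W : ℕ → ℕ → ℕ → Cfg X n → ℂ) :
    ∑ q : C3 M, lam3 q * nrm (∑ c : C3 M, ((O3 c q : ℝ) : ℂ) • W c.1 c.2.1 c.2.2)
      = ∑ c2 : Fin M, ∑ c3 : Fin M, ∑ t ∈ Finset.range (M - 1), nrm (W t c2 c3 - W (t + 1) c2 c3)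
        + ∑ c1 : Fin M, ∑ c3 : Fin M, ∑ t ∈ Finset.range (M - 1), nrm (W c1 t c3 - W c1 (t + 1) c3)
        + ∑ c1 : Fin M, ∑ c2 : Fin M, ∑ t ∈ Finset.range (M - 1), nrm (W c1 c2 t - W c1 c2 (t + 1)) := by
  have hn : ∀ v : Cfg X n → ℂ, nrm v = qf (1 : Op X n) v := fun v => by rw [nrm_eq_vnsq, qf_one]
  simp only [hn]
  rw [parseval_gen]
  simp only [O3_lap, add_mul, Finset.sum_add_distrib]
  simp only [← hn]
  have key1 : ∀ c2 c3 : Fin M, ∑ t ∈ Finset.range (M - 1), nrm (W t c2 c3 - W (t + 1) c2 c3)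
      = ∑ c1 : Fin M, ∑ c1' : Fin M, pathL M c1 c1' * sesq 1 (W c1 c2 c3) (W c1' c2 c3) :=
    fun c2 c3 => (pathL_form (fun t => W t c2 c3)).symm
  have key2 : ∀ c1 c3 : Fin M, ∑ t ∈ Finset.range (M - 1), nrm (W c1 t c3 - W c1 (t + 1) c3)
      = ∑ c2 : Fin M, ∑ c2' : Fin M, pathL M c2 c2' * sesq 1 (W c1 c2 c3) (W c1 c2' c3) :=
    fun c1 c3 => (pathL_form (fun t => W c1 t c3)).symm
  have key3 : ∀ c1 c2 : Fin M, ∑ t ∈ Finset.range (M - 1), nrm (W c1 c2 t - W c1 c2 (t + 1))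
      = ∑ c3 : Fin M, ∑ c3' : Fin M, pathL M c3 c3' * sesq 1 (W c1 c2 c3) (W c1 c2 c3') :=
    fun c1 c2 => (pathL_form (fun t => W c1 c2 t)).symm
  simp only [key1, key2, key3]
  simp only [Fintype.sum_prod_type]
  rw [kernel1 (pathL M) (fun a b d a' b' d' => sesq 1 (W a b d) (W a' b' d')),
    kernel2 (pathL M) (fun a b d a' b' d' => sesq 1 (W a b d) (W a' b' d')),
    kernel3 (pathL M) (fun a b d a' b' d' => sesq 1 (W a b d) (W a' b' d'))]

end ThreeD

end Vale.Agent.P361Lib
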