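import Vale.Agent.Lib.P361.Sector

/-!
# Occupation numbers and the comparison map
-/

open Matrix Finset
open scoped MatrixOrder ComplexOrder

noncomputable section

namespace Vale.Agent.P361Lib

variable {X : Type} [Fintype X] [DecidableEq X] {n : ℕ}
variable {Q : Type} [Fintype Q] [DecidableEq Q]

/-- The pairwise commutation required for the ordered product. -/
lemma pow_pairwise (F : Q → Op X n) (hc : ∀ p q, Commute (F p) (F q)) (m : Q → ℕ) :
    Set.Pairwise (↑(Finset.univ : Finset Q)) (Function.onFun Commute fun q => F q ^ m q) := by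
  intro p _ q _ _
  exact (hc p q).pow_pow _ _

/-- Increasing one occupation number. -/
def inc (m : Q → ℕ) (q : Q) : Q → ℕ := Function.update m q (m q + 1)

/-- Decreasing one occupation number. -/
def dcr (m : Q → ℕ) (q : Q) : Q → ℕ := Function.update m q (m q - 1)

@[simp] lemma inc_same (m : Q → ℕ) (q : Q) : inc m q q = m q + 1 := by simp [inc]

lemma inc_ne (m : Q → ℕ) {p q : Q} (h : p ≠ q) : inc m q p = m p := by simp [inc, h]

@[simp] lemma dcr_same (m : Q → ℕ) (q : Q) : dcr m q q = m q - 1 := by simp [dcr]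

lemma dcr_ne (m : Q → ℕ) {p q : Q} (h : p ≠ q) : dcr m q p = m p := by simp [dcr, h]

lemma inc_dcr (m : Q → ℕ) {q : Q} (h : m q ≠ 0) : inc (dcr m q) q = m := by
  funext p
  by_cases hp : p = q
  · subst hp
    simp
    omega
  · rw [inc_ne _ hp, dcr_ne _ hp]

lemma dcr_inc (m : Q → ℕ) (q : Q) : dcr (inc m q) q = m := by
  funext p
  by_cases hp : p = q
  · subst hp
    simp
  · rw [dcr_ne _ hp, inc_ne _ hp]

lemma sum_inc (m : Q → ℕ) (q : Q) : ∑ p, inc m q p = ∑ p, m p + 1 := by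
  rw [← Finset.add_sum_erase Finset.univ _ (Finset.mem_univ q),
    ← Finset.add_sum_erase Finset.univ (fun p => m p) (Finset.mem_univ q)]
  have e2 : ∑ p ∈ Finset.univ.erase q, inc m q p = ∑ p ∈ Finset.univ.erase q, m p :=
    Finset.sum_congr rfl fun p hp => inc_ne _ (Finset.ne_of_mem_erase hp)
  rw [e2, inc_same]
  omega

/-- The monomial `∏ F_q ^ m_q`. -/
def mono (F : Q → Op X n) (hc : ∀ p q, Commute (F p) (F q)) (m : Q → ℕ) : Op X n :=
  (Finset.univ : Finset Q).noncommProd (fun q => F q ^ m q) (pow_pairwise F hc m)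

lemma mono_zero (F : Q → Op X n) (hc : ∀ p q, Commute (F p) (F q)) : mono F hc 0 = 1 := by
  unfold mono
  rw [Finset.noncommProd_eq_pow_card _ _ _ 1]
  · simp
  · intro q _
    simp

lemma mono_succ (F : Q → Op X n) (hc : ∀ p q, Commute (F p) (F q)) (m : Q → ℕ) (q : Q) :
    mono F hc (inc m q) = mono F hc m * F q := by
  unfold mono
  rw [← Finset.noncommProd_erase_mul Finset.univ (Finset.mem_univ q) _ _ (by
    intro a _ b _ _
    exact (hc a b).pow_pow _ _)]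
  rw [← Finset.noncommProd_erase_mul Finset.univ (Finset.mem_univ q) (fun q => F q ^ m q) _ (by
    intro a _ b _ _
    exact (hc a b).pow_pow _ _)]
  have e : (Finset.univ.erase q).noncommProd (fun p => F p ^ (inc m q) p) (by
      intro a _ b _ _
      exact (hc a b).pow_pow _ _)
      = (Finset.univ.erase q).noncommProd (fun p => F p ^ m p) (by
      intro a _ b _ _
      exact (hc a b).pow_pow _ _) := by
    refine Finset.noncommProd_congr rfl ?_ _
    intro p hp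
    rw [inc_ne _ (Finset.ne_of_mem_erase hp)]
  rw [e]
  simp only [inc_same]
  rw [pow_succ, mul_assoc]

/-- The vacuum configuration. -/
def vac0 : Cfg X n := fun _ => 0

/-- The amplitude of `ψ` along a monomial. -/
def amp (F : Q → Op X n) (hc : ∀ p q, Commute (F p) (F q)) (m : Q → ℕ) (ψ : Cfg X n → ℂ) : ℂ :=
  (mono F hc m *ᵥ ψ) vac0

lemma amp_succ (F : Q → Op X n) (hc : ∀ p q, Commute (F p) (F q)) (m : Q → ℕ) (q : Q)
    (ψ : Cfg X n → ℂ) : amp F hc (inc m q) ψ = amp F hc m (F q *ᵥ ψ) := by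
  unfold amp
  rw [mono_succ, Matrix.mulVec_mulVec]

/-- The factorial of a multi-index. -/
def mfac (m : Q → ℕ) : ℝ := ∏ q, ((m q).factorial : ℝ)

lemma mfac_pos (m : Q → ℕ) : 0 < mfac m :=
  Finset.prod_pos fun q _ => by exact_mod_cast Nat.factorial_pos _

lemma mfac_succ (m : Q → ℕ) (q : Q) : mfac (inc m q) = ((m q : ℝ) + 1) * mfac m := by
  unfold mfac
  rw [← Finset.mul_prod_erase Finset.univ _ (Finset.mem_univ q),
    ← Finset.mul_prod_erase Finset.univ (fun q => ((m q).factorial : ℝ)) (Finset.mem_univ q)]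
  have e : ∏ p ∈ Finset.univ.erase q, ((inc m q p).factorial : ℝ)
      = ∏ p ∈ Finset.univ.erase q, ((m p).factorial : ℝ) := by
    refine Finset.prod_congr rfl fun p hp => ?_
    rw [inc_ne _ (Finset.ne_of_mem_erase hp)]
  rw [e]
  simp only [inc_same, Nat.factorial_succ]
  push_cast
  ring

/-- The occupation numbers with total `K`. -/
def Occ (Q : Type) [Fintype Q] [DecidableEq Q] (K : ℕ) : Finset (Q → ℕ) :=
  Finset.piAntidiag Finset.univ K

lemma mem_Occ {K : ℕ} {m : Q → ℕ} : m ∈ Occ Q K ↔ ∑ q, m q = K := by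
  unfold Occ
  simp

/-- The squared weight of a monomial amplitude. -/
def rsq (F : Q → Op X n) (hc : ∀ p q, Commute (F p) (F q)) (ψ : Cfg X n → ℂ) (m : Q → ℕ) : ℝ :=
  Complex.normSq (amp F hc m ψ) / mfac m

lemma rsq_nonneg (F : Q → Op X n) (hc : ∀ p q, Commute (F p) (F q)) (ψ : Cfg X n → ℂ) (m : Q → ℕ) :
    0 ≤ rsq F hc ψ m :=
  div_nonneg (Complex.normSq_nonneg _) (mfac_pos m).le

/-- The total squared weight in the sector `K`. -/
def RN (F : Q → Op X n) (hc : ∀ p q, Commute (F p) (F q)) (K : ℕ) (ψ : Cfg X n → ℂ) : ℝ :=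
  ∑ m ∈ Occ Q K, rsq F hc ψ m

/-- The basic recursion. -/
lemma rsq_rec (F : Q → Op X n) (hc : ∀ p q, Commute (F p) (F q)) (K : ℕ) (q : Q) (ψ : Cfg X n → ℂ) :
    ∑ m ∈ Occ Q (K + 1), (m q : ℝ) * rsq F hc ψ m = RN F hc K (F q *ᵥ ψ) := by
  unfold RN
  have h1 : ∑ m ∈ Occ Q (K + 1), (m q : ℝ) * rsq F hc ψ m
      = ∑ m ∈ (Occ Q (K + 1)).filter (fun m => m q ≠ 0), (m q : ℝ) * rsq F hc ψ m := by
    rw [Finset.sum_filter]
    refine Finset.sum_congr rfl fun m _ => ?_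
    by_cases h : m q = 0
    · simp [h]
    · simp [h]
  rw [h1]
  refine Finset.sum_nbij' (fun m => dcr m q) (fun m => inc m q) ?_ ?_ ?_ ?_ ?_
  · intro m hm
    obtain ⟨hm1, hm2⟩ := Finset.mem_filter.mp hm
    rw [mem_Occ] at hm1 ⊢
    have e := sum_inc (dcr m q) q
    rw [inc_dcr m hm2] at e
    omega
  · intro m hm
    rw [mem_Occ] at hm
    refine Finset.mem_filter.mpr ⟨?_, ?_⟩
    · rw [mem_Occ, sum_inc, hm]
    · simp
  · intro m hm
    exact inc_dcr m (Finset.mem_filter.mp hm).2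
  · intro m _
    exact dcr_inc m q
  · intro m hm
    obtain ⟨_, hm2⟩ := Finset.mem_filter.mp hm
    have e := inc_dcr m hm2
    set m' := dcr m q with hm'
    rw [← e]
    unfold rsq
    rw [amp_succ, mfac_succ, inc_same]
    push_cast
    have h2 : (m' q : ℝ) + 1 ≠ 0 := by positivity
    have h3 := (mfac_pos m').ne'
    field_simp

/-- Summing the recursion against a weight. -/
lemma rsq_rec_sum (F : Q → Op X n) (hc : ∀ p q, Commute (F p) (F q)) (K : ℕ) (eps : Q → ℝ)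
    (ψ : Cfg X n → ℂ) :
    ∑ m ∈ Occ Q (K + 1), (∑ q, eps q * (m q : ℝ)) * rsq F hc ψ m
      = ∑ q, eps q * RN F hc K (F q *ᵥ ψ) := by
  simp only [← rsq_rec, Finset.sum_mul, Finset.mul_sum]
  rw [Finset.sum_comm]
  refine Finset.sum_congr rfl fun q _ => ?_
  refine Finset.sum_congr rfl fun m _ => ?_
  ring

lemma rsq_rec_one (F : Q → Op X n) (hc : ∀ p q, Commute (F p) (F q)) (K : ℕ) (ψ : Cfg X n → ℂ) :
    ((K : ℝ) + 1) * RN F hc (K + 1) ψ = ∑ q, RN F hc K (F q *ᵥ ψ) := by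
  have h := rsq_rec_sum F hc K (fun _ => 1) ψ
  simp only [one_mul] at h
  rw [← h]
  unfold RN
  rw [Finset.mul_sum]
  refine Finset.sum_congr rfl fun m hm => ?_
  have : (∑ q, (m q : ℝ)) = (K : ℝ) + 1 := by
    rw [mem_Occ] at hm
    exact_mod_cast hm
  rw [this]

/-- A vector in the sector with `K` deviations. -/
def InSec (K : ℕ) (ψ : Cfg X n → ℂ) : Prop :=
  ∀ σ : Cfg X n, devCount (Finset.univ : Finset X) σ ≠ K → ψ σ = 0

lemma nrm_eq_vnsq (ψ : Cfg X n → ℂ) : nrm ψ = vnsq ψ := by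
  unfold nrm ip
  rw [vnsq_eq, Complex.ofReal_re]

lemma nrm_nonneg (ψ : Cfg X n → ℂ) : 0 ≤ nrm ψ := by
  rw [nrm_eq_vnsq]
  exact vnsq_nonneg ψ

lemma devCount_eq_zero {σ : Cfg X n} (h : devCount (Finset.univ : Finset X) σ = 0) :
    σ = vac0 := by
  funext x
  unfold devCount at h
  rw [Finset.sum_eq_zero_iff] at h
  have := h x (Finset.mem_univ x)
  exact Fin.ext (by simpa [vac0] using this)

lemma devCount_vac0 : devCount (Finset.univ : Finset X) (vac0 : Cfg X n) = 0 := by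
  unfold devCount vac0
  simp

lemma Occ_zero : Occ Q 0 = {0} := by
  unfold Occ
  simp

lemma RN_zero (F : Q → Op X n) (hc : ∀ p q, Commute (F p) (F q)) (ψ : Cfg X n → ℂ) :
    RN F hc 0 ψ = Complex.normSq (ψ vac0) := by
  unfold RN
  rw [Occ_zero, Finset.sum_singleton]
  unfold rsq amp mfac
  rw [mono_zero, Matrix.one_mulVec]
  simp

lemma nrm_inSec_zero {ψ : Cfg X n → ℂ} (h : InSec 0 ψ) : nrm ψ = Complex.normSq (ψ vac0) := by
  rw [nrm_eq_vnsq]
  unfold vnsq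
  rw [Finset.sum_eq_single vac0]
  · intro σ _ hσ
    rw [h σ (fun h0 => hσ (devCount_eq_zero h0))]
    simp
  · intro h0
    exact absurd (Finset.mem_univ _) h0

/-- The contraction property of the comparison map. -/
theorem RN_le (F : Q → Op X n) (hc : ∀ p q, Commute (F p) (F q))
    (hL : ∀ q K ψ, InSec (K + 1) ψ → InSec K (F q *ᵥ ψ))
    (hN : ∀ K ψ, InSec (K + 1) ψ → ∑ q, nrm (F q *ᵥ ψ) ≤ ((K : ℝ) + 1) * nrm ψ) :
    ∀ K ψ, InSec K ψ → RN F hc K ψ ≤ nrm ψ := by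
  intro K
  induction K with
  | zero =>
    intro ψ h
    rw [RN_zero, nrm_inSec_zero h]
  | succ K ih =>
    intro ψ h
    have h1 := rsq_rec_one F hc K ψ
    have h2 : ∑ q, RN F hc K (F q *ᵥ ψ) ≤ ∑ q, nrm (F q *ᵥ ψ) :=
      Finset.sum_le_sum fun q _ => ih _ (hL q K ψ h)
    have h3 := hN K ψ h
    have hK : (0 : ℝ) < (K : ℝ) + 1 := by positivity
    have h4 : ((K : ℝ) + 1) * RN F hc (K + 1) ψ ≤ ((K : ℝ) + 1) * nrm ψ := by
      rw [h1]
      exact h2.trans h3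
    exact le_of_mul_le_mul_left h4 hK

/-- The energy of the comparison vector. -/
theorem wsum_le (F : Q → Op X n) (hc : ∀ p q, Commute (F p) (F q))
    (hL : ∀ q K ψ, InSec (K + 1) ψ → InSec K (F q *ᵥ ψ))
    (hN : ∀ K ψ, InSec (K + 1) ψ → ∑ q, nrm (F q *ᵥ ψ) ≤ ((K : ℝ) + 1) * nrm ψ)
    {eps : Q → ℝ} (heps : ∀ q, 0 ≤ eps q) (K : ℕ) {ψ : Cfg X n → ℂ} (h : InSec (K + 1) ψ) :
    ∑ m ∈ Occ Q (K + 1), (∑ q, eps q * (m q : ℝ)) * rsq F hc ψ m ≤ ∑ q, eps q * nrm (F q *ᵥ ψ) := by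
  rw [rsq_rec_sum]
  exact Finset.sum_le_sum fun q _ =>
    mul_le_mul_of_nonneg_left (RN_le F hc hL hN K _ (hL q K ψ h)) (heps q)

/-- The lower bound on the comparison map. -/
theorem RN_ge (F : Q → Op X n) (hc : ∀ p q, Commute (F p) (F q))
    (hL : ∀ q K ψ, InSec (K + 1) ψ → InSec K (F q *ᵥ ψ))
    {v : ℝ} (hv : 0 < v) (c : (Cfg X n → ℂ) → ℝ) (hc0 : ∀ ψ, 0 ≤ c ψ)
    (hN : ∀ K ψ, InSec (K + 1) ψ →
      ((K : ℝ) + 1) * (1 - (K : ℝ) / v) * nrm ψ - (2 / v) * c ψ ≤ ∑ q, nrm (F q *ᵥ ψ))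
    (hC : ∀ K ψ, InSec (K + 1) ψ → ∑ q, c (F q *ᵥ ψ) ≤ ((K : ℝ) + 1) * c ψ) :
    ∀ K : ℕ, ((K : ℝ) ^ 2 ≤ v) → ∀ ψ, InSec K ψ →
      (1 - (K : ℝ) ^ 2 / v) * nrm ψ - (2 * (K : ℝ) / v) * c ψ ≤ RN F hc K ψ := by
  intro K
  induction K with
  | zero =>
    intro _ ψ h
    rw [RN_zero, nrm_inSec_zero h]
    simp
  | succ K ih =>
    intro hKv ψ h
    push_cast at hKv
    have hK0 : (0 : ℝ) ≤ (K : ℝ) := by positivity
    have hKv' : (K : ℝ) ^ 2 ≤ v := by nlinarith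
    have h1 := rsq_rec_one F hc K ψ
    have h2 : ∑ q, ((1 - (K : ℝ) ^ 2 / v) * nrm (F q *ᵥ ψ) - (2 * (K : ℝ) / v) * c (F q *ᵥ ψ))
        ≤ ∑ q, RN F hc K (F q *ᵥ ψ) :=
      Finset.sum_le_sum fun q _ => ih hKv' _ (hL q K ψ h)
    rw [Finset.sum_sub_distrib, ← Finset.mul_sum, ← Finset.mul_sum, ← h1] at h2
    have hth : 0 ≤ 1 - (K : ℝ) ^ 2 / v := by
      rw [sub_nonneg, div_le_one hv]
      exact hKv'
    have h3 := mul_le_mul_of_nonneg_left (hN K ψ h) hth
    have h4 := mul_le_mul_of_nonneg_left (hC K ψ h) (by positivity : 0 ≤ 2 * (K : ℝ) / v)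
    have hn := nrm_nonneg ψ
    have hcψ := hc0 ψ
    have hK1 : (0 : ℝ) < (K : ℝ) + 1 := by positivity
    -- divide by `K + 1`
    have hfin : ((K : ℝ) + 1) * ((1 - ((K : ℝ) + 1) ^ 2 / v) * nrm ψ - (2 * ((K : ℝ) + 1) / v) * c ψ)
        ≤ ((K : ℝ) + 1) * RN F hc (K + 1) ψ := by
      refine le_trans ?_ h2
      set th := 1 - (K : ℝ) ^ 2 / v with hthdef
      have e1 : ((K : ℝ) + 1) * (1 - (K : ℝ) / v) * nrm ψ - (2 / v) * c ψ
          = ((K : ℝ) + 1) * ((1 - (K : ℝ) / v) * nrm ψ) - (2 / v) * c ψ := by ring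
      rw [e1] at h3
      have hrat1 : th * (1 - (K : ℝ) / v) ≥ 1 - ((K : ℝ) + 1) ^ 2 / v := by
        have h5 : (K : ℝ) / v ≥ 0 := by positivity
        have h6 : (K : ℝ) ^ 2 / v ≥ 0 := by positivity
        have e2 : th * (1 - (K : ℝ) / v) = 1 - (K : ℝ) ^ 2 / v - (K : ℝ) / v + ((K : ℝ) ^ 2 / v) * ((K : ℝ) / v) := by
          rw [hthdef]
          ring
        have e3 : ((K : ℝ) + 1) ^ 2 / v = (K : ℝ) ^ 2 / v + 2 * ((K : ℝ) / v) + 1 / v := by
          field_simp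
          ring
        rw [e2, e3]
        have h7 : 0 ≤ ((K : ℝ) ^ 2 / v) * ((K : ℝ) / v) := by positivity
        have h8 : 0 < 1 / v := by positivity
        linarith
      have hrat2 : th * (2 / v) ≤ ((K : ℝ) + 1) * (2 / v) := by
        have h5 : th ≤ 1 := by
          rw [hthdef]
          have h6 : (K : ℝ) ^ 2 / v ≥ 0 := by positivity
          linarith
        have h6 : 0 < 2 / v := by positivity
        nlinarith
      have e4 : 2 * ((K : ℝ) + 1) / v = (2 / v) * ((K : ℝ) + 1) := by ring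
      have e5 : 2 * (K : ℝ) / v = (2 / v) * (K : ℝ) := by ring
      rw [e4]
      rw [e5] at h4 ⊢
      have h9 := mul_le_mul_of_nonneg_right hrat1 hn
      have h10 := mul_le_mul_of_nonneg_right hrat2 hcψ
      nlinarith [mul_le_mul_of_nonneg_left h9 hK1.le]
    push_cast
    exact le_of_mul_le_mul_left hfin hK1

end Vale.Agent.P361Lib
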