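import Vale.Agent.Lib.P361.TraceIneq

/-!
# A Peierls inequality for non-orthonormal families
-/

open Matrix
open scoped MatrixOrder ComplexOrder

noncomputable section

namespace Vale.Agent.P361Lib

section TraceComm

variable {Ω : Type} [Fintype Ω] [DecidableEq Ω]

attribute [local instance] Matrix.linftyOpNormedRing Matrix.linftyOpNormedAlgebra

lemma trace_exp_hasSum (A : Matrix Ω Ω ℂ) :
    HasSum (fun k : ℕ => ((k.factorial : ℂ)⁻¹) * trace (A ^ k)) (trace (NormedSpace.exp A)) := by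
  have h := NormedSpace.exp_series_hasSum_exp' (𝕂 := ℂ) A
  have h2 := h.mapL (Matrix.traceLinearMap Ω ℂ ℂ).toContinuousLinearMap
  simp only [LinearMap.coe_toContinuousLinearMap', Matrix.traceLinearMap_apply, Matrix.trace_smul,
    smul_eq_mul] at h2
  exact h2

/-- Cyclicity of the trace of the exponential. -/
theorem trace_exp_mul_comm (A B : Matrix Ω Ω ℂ) :
    trace (NormedSpace.exp (A * B)) = trace (NormedSpace.exp (B * A)) := by
  have h1 := trace_exp_hasSum (A * B)
  have h2 := trace_exp_hasSum (B * A)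
  have e : ∀ k : ℕ, trace ((A * B) ^ k) = trace ((B * A) ^ k) := by
    intro k
    cases k with
    | zero => simp
    | succ k =>
      have e1 : (A * B) ^ (k + 1) = A * ((B * A) ^ k * B) := by
        induction k with
        | zero => simp
        | succ k ih =>
          rw [pow_succ, ih, pow_succ (B * A) k]
          simp only [mul_assoc]
      rw [e1, Matrix.trace_mul_comm, mul_assoc, ← pow_succ]
  simp only [e] at h1
  exact h1.unique h2

end TraceComm

section PGen

variable {M J : Type} [Fintype M] [DecidableEq M] [Fintype J] [DecidableEq J]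

/-- The diagonal matrix with real entries. -/
def rdiag (d : J → ℝ) : Matrix J J ℂ := diagonal fun j => ((d j : ℝ) : ℂ)

omit [Fintype J] in
lemma rdiag_herm (d : J → ℝ) : (rdiag d).IsHermitian := by
  unfold rdiag Matrix.IsHermitian
  rw [Matrix.diagonal_conjTranspose]
  congr 1
  funext j
  simp

lemma trace_exp_rdiag (d : J → ℝ) :
    (trace (NormedSpace.exp (-(rdiag d)))).re = ∑ j, Real.exp (-d j) := by
  have e : -(rdiag d) = diagonal fun j => ((-d j : ℝ) : ℂ) := by
    unfold rdiag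
    ext a b
    by_cases hab : a = b
    · subst hab; simp
    · simp [Matrix.diagonal_apply_ne _ hab]
  rw [e, Matrix.exp_diagonal, Matrix.trace_diagonal, Complex.re_sum]
  refine Finset.sum_congr rfl fun j _ => ?_
  rw [Pi.exp_def, ← Complex.exp_eq_exp_ℂ]
  show (Complex.exp ((-d j : ℝ) : ℂ)).re = _
  rw [← Complex.ofReal_exp, Complex.ofReal_re]

/-- The square-root data of a positive definite matrix. -/
lemma exists_inv_sqrt {G : Matrix J J ℂ} (hG : G.IsHermitian) {g : ℝ} (hg : 0 < g)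
    (hGg : (g : ℂ) • (1 : Matrix J J ℂ) ≤ G) :
    ∃ T : Matrix J J ℂ, T.IsHermitian ∧ T * G * T = 1 ∧ T * T ≤ ((1 / g : ℝ) : ℂ) • 1 := by
  classical
  set V : Matrix J J ℂ := (hG.eigenvectorUnitary : Matrix J J ℂ) with hVdef
  have hV1 : Vᴴ * V = 1 := by
    have := Unitary.coe_star_mul_self hG.eigenvectorUnitary
    rwa [Matrix.star_eq_conjTranspose] at this
  have hV2 : V * Vᴴ = 1 := mul_eq_one_comm.mp hV1
  set lam : J → ℝ := hG.eigenvalues with hlam
  have hspec : G = V * diagonal (fun i => ((lam i : ℝ) : ℂ)) * Vᴴ := by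
    have := hG.spectral_theorem
    rw [Unitary.conjStarAlgAut_apply, Matrix.star_eq_conjTranspose] at this
    exact this
  -- the eigenvalues are at least `g`
  have hlamg : ∀ i, g ≤ lam i := by
    intro i
    have hpsd := (Matrix.le_iff.mp hGg).conjTranspose_mul_mul_same V
    have e : Vᴴ * (G - (g : ℂ) • 1) * V = diagonal fun i => (((lam i - g : ℝ) : ℂ)) := by
      rw [hspec]
      have : Vᴴ * (V * diagonal (fun i => ((lam i : ℝ) : ℂ)) * Vᴴ - (g : ℂ) • 1) * V
          = (Vᴴ * V) * diagonal (fun i => ((lam i : ℝ) : ℂ)) * (Vᴴ * V) - (g : ℂ) • (Vᴴ * V) := by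
        simp only [mul_sub, sub_mul, mul_smul_comm, smul_mul_assoc, mul_one, mul_assoc]
      rw [this, hV1, one_mul, mul_one]
      ext a b
      by_cases hab : a = b
      · subst hab; simp
      · simp [Matrix.diagonal_apply_ne _ hab, Matrix.one_apply_ne hab]
    rw [e] at hpsd
    have := hpsd.diag_nonneg (i := i)
    rw [Matrix.diagonal_apply_eq] at this
    have h3 : (0 : ℝ) ≤ lam i - g := by exact_mod_cast (Complex.le_def.mp this).1
    linarith
  have hlam0 : ∀ i, 0 < lam i := fun i => lt_of_lt_of_le hg (hlamg i)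
  set r : J → ℝ := fun i => (Real.sqrt (lam i))⁻¹ with hr
  have hr2 : ∀ i, r i * lam i * r i = 1 := by
    intro i
    have h1 := Real.sq_sqrt (hlam0 i).le
    have h2 : Real.sqrt (lam i) ≠ 0 := (Real.sqrt_pos.mpr (hlam0 i)).ne'
    simp only [hr]
    field_simp
    nlinarith
  have hr3 : ∀ i, r i * r i ≤ 1 / g := by
    intro i
    have h1 := Real.sq_sqrt (hlam0 i).le
    have h2 : 0 < Real.sqrt (lam i) := Real.sqrt_pos.mpr (hlam0 i)
    have e : r i * r i = 1 / lam i := by
      simp only [hr]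
      rw [← h1]
      field_simp
      rw [h1]
      simp [h1]
    rw [e]
    exact one_div_le_one_div_of_le hg (hlamg i)
  set T : Matrix J J ℂ := V * diagonal (fun i => ((r i : ℝ) : ℂ)) * Vᴴ with hT
  refine ⟨T, ?_, ?_, ?_⟩
  · unfold Matrix.IsHermitian
    rw [hT, Matrix.conjTranspose_mul, Matrix.conjTranspose_mul, Matrix.conjTranspose_conjTranspose,
      Matrix.diagonal_conjTranspose, mul_assoc]
    congr 3
    funext i
    simp
  · rw [hT, hspec]
    have : V * diagonal (fun i => ((r i : ℝ) : ℂ)) * Vᴴ * (V * diagonal (fun i => ((lam i : ℝ) : ℂ)) * Vᴴ)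
        * (V * diagonal (fun i => ((r i : ℝ) : ℂ)) * Vᴴ)
        = V * (diagonal (fun i => ((r i : ℝ) : ℂ)) * (Vᴴ * V) * diagonal (fun i => ((lam i : ℝ) : ℂ))
          * (Vᴴ * V) * diagonal (fun i => ((r i : ℝ) : ℂ))) * Vᴴ := by
      simp only [mul_assoc]
    rw [this, hV1, mul_one, mul_one, Matrix.diagonal_mul_diagonal, Matrix.diagonal_mul_diagonal]
    have e : (fun i => ((r i : ℝ) : ℂ) * ((lam i : ℝ) : ℂ) * ((r i : ℝ) : ℂ)) = fun _ => (1 : ℂ) := by
      funext i
      rw [← Complex.ofReal_mul, ← Complex.ofReal_mul, hr2]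
      simp
    rw [e, Matrix.diagonal_one, mul_one, hV2]
  · rw [Matrix.le_iff]
    have e : ((1 / g : ℝ) : ℂ) • (1 : Matrix J J ℂ) - T * T
        = V * diagonal (fun i => ((1 / g - r i * r i : ℝ) : ℂ)) * Vᴴ := by
      have e1 : T * T = V * diagonal (fun i => ((r i * r i : ℝ) : ℂ)) * Vᴴ := by
        rw [hT]
        have : V * diagonal (fun i => ((r i : ℝ) : ℂ)) * Vᴴ * (V * diagonal (fun i => ((r i : ℝ) : ℂ)) * Vᴴ)
            = V * (diagonal (fun i => ((r i : ℝ) : ℂ)) * (Vᴴ * V) * diagonal (fun i => ((r i : ℝ) : ℂ))) * Vᴴ := by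
          simp only [mul_assoc]
        rw [this, hV1, mul_one, Matrix.diagonal_mul_diagonal]
        congr 2
        funext i
        push_cast
        ring
      have e2 : ((1 / g : ℝ) : ℂ) • (1 : Matrix J J ℂ)
          = V * diagonal (fun _ => ((1 / g : ℝ) : ℂ)) * Vᴴ := by
        have : diagonal (fun _ : J => ((1 / g : ℝ) : ℂ)) = ((1 / g : ℝ) : ℂ) • (1 : Matrix J J ℂ) := by
          ext a b
          by_cases hab : a = b
          · subst hab; simp
          · simp [Matrix.diagonal_apply_ne _ hab, Matrix.one_apply_ne hab]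
        rw [this, mul_smul_comm, smul_mul_assoc, mul_one, hV2]
      rw [e1, e2, ← sub_mul, ← mul_sub, Matrix.diagonal_sub]
      congr 3
      funext i
      push_cast
      ring
    rw [e]
    have hd : (diagonal (fun i => ((1 / g - r i * r i : ℝ) : ℂ))).PosSemidef := by
      refine Matrix.PosSemidef.diagonal ?_
      intro i
      have : (0 : ℝ) ≤ 1 / g - r i * r i := by linarith [hr3 i]
      show (0 : ℂ) ≤ ((1 / g - r i * r i : ℝ) : ℂ)
      exact_mod_cast this
    have := hd.conjTranspose_mul_mul_same Vᴴ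
    rwa [Matrix.conjTranspose_conjTranspose] at this

/-- The Peierls inequality for a non-orthonormal family, with a family of orthonormal vectors in
the range of `S`. -/
theorem peierls_family {B : Matrix M M ℂ} (hB : B.IsHermitian) (S : Matrix M J ℂ) {g : ℝ} (hg : 0 < g)
    (hG : (g : ℂ) • (1 : Matrix J J ℂ) ≤ Sᴴ * S) {d : J → ℝ} (hd : ∀ j, 0 ≤ d j)
    (hD : Sᴴ * B * S ≤ rdiag d) :
    ∃ Ψ : J → M → ℂ, (∀ i j, star (Ψ i) ⬝ᵥ Ψ j = if i = j then 1 else 0) ∧
      (∀ i, ∃ c : J → ℂ, Ψ i = S *ᵥ c) ∧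
      ∑ j, Real.exp (-(d j / g)) ≤ ∑ i, Real.exp (-qf B (Ψ i)) := by
  classical
  have hGH : (Sᴴ * S).IsHermitian := Matrix.isHermitian_conjTranspose_mul_self S
  obtain ⟨T, hTH, hTG, hTT⟩ := exists_inv_sqrt hGH hg hG
  have hTH' : Tᴴ = T := hTH.eq
  set X : Matrix M J ℂ := S * T with hX
  have hXX : Xᴴ * X = 1 := by
    rw [hX, Matrix.conjTranspose_mul, hTH', ← hTG]
    simp only [Matrix.mul_assoc]
  set D : Matrix J J ℂ := Xᴴ * B * X with hDdef
  have hDH : D.IsHermitian := Matrix.isHermitian_conjTranspose_mul_mul X hB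
  -- the matrix `Y`
  set sq : J → ℝ := fun j => Real.sqrt (d j) with hsq
  have hsq2 : ∀ j, sq j * sq j = d j := fun j => Real.mul_self_sqrt (hd j)
  set Y : Matrix J J ℂ := rdiag sq * T with hY
  have hYH : Yᴴ = T * rdiag sq := by
    rw [hY, Matrix.conjTranspose_mul, hTH', (rdiag_herm sq).eq]
  have hrr : rdiag sq * rdiag sq = rdiag d := by
    unfold rdiag
    rw [Matrix.diagonal_mul_diagonal]
    congr 1
    funext j
    rw [← Complex.ofReal_mul, hsq2]
  have hYY1 : Yᴴ * Y = T * rdiag d * T := by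
    rw [hYH, hY, ← hrr]
    simp only [mul_assoc]
  have hYY2 : Y * Yᴴ = rdiag sq * (T * T) * rdiag sq := by
    rw [hYH, hY]
    simp only [mul_assoc]
  have hDle : D ≤ Yᴴ * Y := by
    rw [hYY1, Matrix.le_iff]
    have hp := (Matrix.le_iff.mp hD).conjTranspose_mul_mul_same T
    rw [hTH'] at hp
    have e : T * (rdiag d - Sᴴ * B * S) * T = T * rdiag d * T - D := by
      rw [hDdef, hX, Matrix.conjTranspose_mul, hTH']
      simp only [Matrix.mul_sub, Matrix.sub_mul, Matrix.mul_assoc]
    rwa [e] at hp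
  have hYle : Y * Yᴴ ≤ rdiag fun j => d j / g := by
    rw [hYY2, Matrix.le_iff]
    have hp := (Matrix.le_iff.mp hTT).conjTranspose_mul_mul_same (rdiag sq)
    rw [(rdiag_herm sq).eq] at hp
    have e : rdiag sq * (((1 / g : ℝ) : ℂ) • (1 : Matrix J J ℂ) - T * T) * rdiag sq
        = (rdiag fun j => d j / g) - rdiag sq * (T * T) * rdiag sq := by
      rw [mul_sub, sub_mul]
      congr 1
      rw [mul_smul_comm, smul_mul_assoc, mul_one, hrr]
      unfold rdiag
      ext a b
      by_cases hab : a = b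
      · subst hab
        simp [Matrix.diagonal_apply_eq]
        ring
      · simp [Matrix.diagonal_apply_ne _ hab]
    rwa [e] at hp
  have hY1H : (Yᴴ * Y).IsHermitian := Matrix.isHermitian_conjTranspose_mul_self Y
  have hY2H : (Y * Yᴴ).IsHermitian := Matrix.isHermitian_mul_conjTranspose_self Y
  have step1 := trace_exp_neg_mono hDH hY1H hDle
  have step2 := trace_exp_neg_mono hY2H (rdiag_herm fun j => d j / g) hYle
  have step3 : trace (NormedSpace.exp (-(Yᴴ * Y))) = trace (NormedSpace.exp (-(Y * Yᴴ))) := by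
    have := trace_exp_mul_comm (-Yᴴ) Y
    rwa [Matrix.neg_mul, Matrix.mul_neg] at this
  rw [trace_exp_rdiag] at step2
  rw [step3] at step1
  -- the orthonormal family
  obtain ⟨W, hW, hWs⟩ := trace_exp_eq_sum hDH
  refine ⟨fun i => X *ᵥ W i, ?_, ?_, ?_⟩
  · intro i j
    rw [Matrix.star_mulVec, Matrix.dotProduct_mulVec, Matrix.vecMul_vecMul, hXX, Matrix.vecMul_one]
    exact hW i j
  · intro i
    refine ⟨T *ᵥ W i, ?_⟩
    rw [hX, Matrix.mulVec_mulVec]
  · refine step2.trans (step1.trans (le_of_eq ?_))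
    rw [hWs]
    refine Finset.sum_congr rfl fun i _ => ?_
    congr 2
    unfold qf
    have e : (Xᴴ * B * X) *ᵥ W i = Xᴴ *ᵥ (B *ᵥ (X *ᵥ W i)) := by
      simp only [Matrix.mulVec_mulVec, Matrix.mul_assoc]
    rw [hDdef, e, Matrix.dotProduct_mulVec, Matrix.star_mulVec]

/-- The Peierls inequality for a non-orthonormal family. -/
theorem peierls_gen {B : Matrix M M ℂ} (hB : B.IsHermitian) (S : Matrix M J ℂ) {g : ℝ} (hg : 0 < g)
    (hG : (g : ℂ) • (1 : Matrix J J ℂ) ≤ Sᴴ * S) {d : J → ℝ} (hd : ∀ j, 0 ≤ d j)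
    (hD : Sᴴ * B * S ≤ rdiag d) :
    ∑ j, Real.exp (-(d j / g)) ≤ (trace (NormedSpace.exp (-B))).re := by
  obtain ⟨Ψ, hΨ, _, h⟩ := peierls_family hB S hg hG hd hD
  exact h.trans (sum_exp_qf_le_trace_exp hB Ψ hΨ)

end PGen

end Vale.Agent.P361Lib
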