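import Vale.Agent.Lib.P361.Lattice

/-!
# The pressure in finite volume
-/

open Matrix
open scoped MatrixOrder ComplexOrder

noncomputable section

namespace Vale.Agent.P361Lib

variable {X : Type} [Fintype X] [DecidableEq X] {n : ℕ}

lemma spinDot_eq {x y : X} (hxy : x ≠ y) :
    (spinDot x y : Op X n) = ((n : ℂ) / 2) ^ 2 • (1 : Op X n) - hEdge x y := by
  unfold spinDot hEdge
  rw [if_neg hxy, spinX_spinX_add_spinY_spinY]
  abel

/-- The number of edges of the box. -/
def edgeCount (N : ℕ) : ℝ := (1 / 2) * ∑ x : BoxSite N, ∑ y : BoxSite N, if nearest x y then 1 else 0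

lemma hamiltonian_eq (n N : ℕ) :
    hamiltonian n N = edgeSum nearest (Finset.univ : Finset (BoxSite N))
      - ((((n : ℝ) / 2) ^ 2 * edgeCount N : ℝ) : ℂ) • (1 : Op (BoxSite N) n) := by
  unfold hamiltonian edgeSum edgeCount
  have h1 : ∀ x y : BoxSite N, (if nearest x y then (spinDot x y : Op (BoxSite N) n) else 0)
      = ((n : ℂ) / 2) ^ 2 • ((if nearest x y then (1 : ℂ) else 0) • (1 : Op (BoxSite N) n))
        - (if nearest x y then hEdge x y else 0) := by
    intro x y
    by_cases ha : nearest x y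
    · rw [if_pos ha, if_pos ha, if_pos ha, spinDot_eq, one_smul]
      rintro rfl
      exact nearest_irrefl x ha
    · rw [if_neg ha, if_neg ha, if_neg ha]
      simp
  simp only [h1, Finset.sum_sub_distrib, ← Finset.smul_sum, ← Finset.sum_smul]
  ext σ τ
  simp only [Matrix.neg_apply, Matrix.smul_apply, Matrix.sub_apply, smul_eq_mul, Complex.real_smul]
  have h2 : ∀ x y : BoxSite N, ((if nearest x y then (1 : ℝ) else 0 : ℝ) : ℂ)
      = if nearest x y then 1 else 0 := by
    intro x y
    split_ifs <;> simp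
  push_cast
  simp only [h2]
  ring

lemma magnetization_eq (n N : ℕ) :
    magnetization n N = (((n : ℝ) / 2 * Fintype.card (BoxSite N) : ℝ) : ℂ) • (1 : Op (BoxSite N) n)
      - totalOp (Finset.univ : Finset (BoxSite N)) (devD n) := by
  have h := totalZ_eq (X := BoxSite N) (n := n) Finset.univ
  unfold magnetization
  unfold totalOp at h ⊢
  rw [h, Finset.card_univ]
  push_cast
  rfl

/-- The partition function, measured from the ground state energy. -/
def Ztil (n N : ℕ) (β lam : ℝ) : ℝ :=
  (trace (NormedSpace.exp (-(β • edgeSum nearest (Finset.univ : Finset (BoxSite N))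
    + lam • (totalOp (Finset.univ : Finset (BoxSite N)) (devD n) : Op (BoxSite N) n))))).re

lemma devTotal_hermitian (k : Finset X) (lam : ℝ) :
    (lam • (totalOp k (devD n) : Op X n)).IsHermitian := by
  rw [totalOp_devD]
  unfold Matrix.IsHermitian
  rw [Matrix.conjTranspose_smul, star_trivial, Matrix.diagonal_conjTranspose]
  congr 2
  funext σ
  simp

lemma genZ_hermitian (N : ℕ) (β lam : ℝ) :
    (β • edgeSum nearest (Finset.univ : Finset (BoxSite N))
      + lam • (totalOp (Finset.univ : Finset (BoxSite N)) (devD n) : Op (BoxSite N) n)).IsHermitian := by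
  refine Matrix.IsHermitian.add ?_ (devTotal_hermitian _ _)
  unfold Matrix.IsHermitian
  rw [Matrix.conjTranspose_smul, star_trivial, (edgeSum_isHermitian nearest _).eq]

lemma Ztil_pos (n N : ℕ) (β lam : ℝ) : 0 < Ztil n N β lam := by
  unfold Ztil
  obtain ⟨Ψ, _, hs⟩ := trace_exp_eq_sum (genZ_hermitian (n := n) N β lam)
  rw [hs]
  refine Finset.sum_pos (fun i _ => Real.exp_pos _) ?_
  exact ⟨fun _ => 0, Finset.mem_univ _⟩

/-- The exponential of a shifted matrix. -/
lemma exp_add_scalar {Ω : Type} [Fintype Ω] [DecidableEq Ω] (B : Matrix Ω Ω ℂ) (c : ℝ) :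
    NormedSpace.exp (B + ((c : ℝ) : ℂ) • (1 : Matrix Ω Ω ℂ))
      = ((Real.exp c : ℝ) : ℂ) • NormedSpace.exp B := by
  rw [Matrix.exp_add_of_commute _ _ ((Commute.one_right _).smul_right _), exp_scalar, mul_smul_comm,
    mul_one]

lemma pressureN_eq (n N : ℕ) (β h : ℝ) :
    pressureN n N β h
      = (1 / (β * Fintype.card (BoxSite N))) * (β * (((n : ℝ) / 2) ^ 2 * edgeCount N
          + h * ((n : ℝ) / 2 * Fintype.card (BoxSite N))) + Real.log (Ztil n N β (β * h))) := by
  unfold pressureN
  congr 1
  have e : (-β) • (hamiltonian n N - h • magnetization n N)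
      = -(β • edgeSum nearest (Finset.univ : Finset (BoxSite N))
          + (β * h) • (totalOp (Finset.univ : Finset (BoxSite N)) (devD n) : Op (BoxSite N) n))
        + ((β * (((n : ℝ) / 2) ^ 2 * edgeCount N
          + h * ((n : ℝ) / 2 * Fintype.card (BoxSite N))) : ℝ) : ℂ) • (1 : Op (BoxSite N) n) := by
    rw [hamiltonian_eq, magnetization_eq]
    ext σ τ
    simp only [Matrix.smul_apply, Matrix.sub_apply, Matrix.neg_apply, Matrix.add_apply, smul_eq_mul,
      Complex.real_smul]
    push_cast
    ring
  rw [e, exp_add_scalar, Matrix.trace_smul, smul_eq_mul, Complex.re_ofReal_mul]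
  have := Ztil_pos n N β (β * h)
  unfold Ztil at this ⊢
  rw [Real.log_mul (Real.exp_pos _).ne' this.ne', Real.log_exp]

/-- Convexity of a logarithm of a sum of exponentials. -/
lemma convexOn_log_sum_exp {ι : Type} [Fintype ι] (g d : ι → ℝ) (hg : ∀ i, 0 ≤ g i)
    (hpos : ∃ i, 0 < g i) :
    ConvexOn ℝ Set.univ (fun lam : ℝ => Real.log (∑ i, g i * Real.exp (lam * d i))) := by
  obtain ⟨i₀, hi₀⟩ := hpos
  have hS : ∀ lam : ℝ, 0 < ∑ i, g i * Real.exp (lam * d i) := by
    intro lam
    refine Finset.sum_pos' (fun i _ => mul_nonneg (hg i) (Real.exp_pos _).le) ?_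
    exact ⟨i₀, Finset.mem_univ _, mul_pos hi₀ (Real.exp_pos _)⟩
  refine ⟨convex_univ, ?_⟩
  intro x _ y _ a b ha hb hab
  simp only [smul_eq_mul]
  set A := ∑ i, g i * Real.exp (x * d i) with hA
  set B := ∑ i, g i * Real.exp (y * d i) with hB
  have hApos : 0 < A := hS x
  have hBpos : 0 < B := hS y
  set K := Real.exp (a * Real.log A + b * Real.log B) with hK
  have hterm : ∀ i, g i * Real.exp ((a * x + b * y) * d i)
      ≤ K * (a * (g i * Real.exp (x * d i)) / A + b * (g i * Real.exp (y * d i)) / B) := by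
    intro i
    have hc := convexOn_exp.2 (Set.mem_univ (x * d i - Real.log A))
      (Set.mem_univ (y * d i - Real.log B)) ha hb hab
    simp only [smul_eq_mul] at hc
    have e1 : Real.exp (x * d i - Real.log A) = Real.exp (x * d i) / A := by
      rw [Real.exp_sub, Real.exp_log hApos]
    have e2 : Real.exp (y * d i - Real.log B) = Real.exp (y * d i) / B := by
      rw [Real.exp_sub, Real.exp_log hBpos]
    rw [e1, e2] at hc
    have e3 : Real.exp ((a * x + b * y) * d i)
        = K * Real.exp (a * (x * d i - Real.log A) + b * (y * d i - Real.log B)) := by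
      rw [hK, ← Real.exp_add]
      congr 1
      ring
    rw [e3]
    have hK0 : 0 < K := Real.exp_pos _
    have h2 := mul_le_mul_of_nonneg_left (mul_le_mul_of_nonneg_left hc hK0.le) (hg i)
    refine h2.trans (le_of_eq ?_)
    field_simp
  have hsum : ∑ i, g i * Real.exp ((a * x + b * y) * d i) ≤ K := by
    refine (Finset.sum_le_sum fun i _ => hterm i).trans (le_of_eq ?_)
    rw [← Finset.mul_sum, Finset.sum_add_distrib]
    have e1 : ∑ i, a * (g i * Real.exp (x * d i)) / A = a := by
      rw [← Finset.sum_div, ← Finset.mul_sum, ← hA]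
      field_simp
    have e2 : ∑ i, b * (g i * Real.exp (y * d i)) / B = b := by
      rw [← Finset.sum_div, ← Finset.mul_sum, ← hB]
      field_simp
    rw [e1, e2, hab, mul_one]
  have hlog := Real.log_le_log (hS _) hsum
  rw [hK, Real.log_exp] at hlog
  exact hlog

/-- The exponential of a Hermitian matrix is positive semidefinite. -/
lemma exp_posSemidef {Ω : Type} [Fintype Ω] [DecidableEq Ω] {B : Matrix Ω Ω ℂ} (hB : B.IsHermitian) :
    (NormedSpace.exp B).PosSemidef := by
  set E := NormedSpace.exp ((1 / 2 : ℝ) • B) with hE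
  have hEH : Eᴴ = E := by
    have : ((1 / 2 : ℝ) • B).IsHermitian := by
      unfold Matrix.IsHermitian
      rw [Matrix.conjTranspose_smul, star_trivial, hB.eq]
    exact (Matrix.IsHermitian.exp this).eq
  have hEE : NormedSpace.exp B = Eᴴ * E := by
    rw [hEH, hE, ← Matrix.exp_add_of_commute _ _ ((Commute.refl B).smul_left _ |>.smul_right _),
      ← add_smul]
    norm_num
  rw [hEE]
  exact Matrix.posSemidef_conjTranspose_mul_self E

end Vale.Agent.P361Lib
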