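import Vale.Agent.Lib.P361.TraceMap
import Vale.Agent.Lib.P361.Convex

/-!
# Sectors of fixed deviation number
-/

open Matrix
open scoped MatrixOrder ComplexOrder

noncomputable section

namespace Vale.Agent.P361Lib

section Fiber

variable {Ω κ : Type} [Fintype Ω] [DecidableEq Ω] [Fintype κ] [DecidableEq κ]

lemma exp_reindex {Ω' : Type} [Fintype Ω'] [DecidableEq Ω'] (e : Ω' ≃ Ω) (M : Matrix Ω Ω ℂ) :
    (NormedSpace.exp M).submatrix e e = NormedSpace.exp (M.submatrix e e) := by
  open scoped Matrix.Norms.Operator in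
  have hc : Continuous (Matrix.reindexAlgEquiv ℂ ℂ e.symm : Matrix Ω Ω ℂ ≃ₐ[ℂ] Matrix Ω' Ω' ℂ) := by
    refine continuous_matrix fun i j => ?_
    show Continuous fun M : Matrix Ω Ω ℂ => M (e i) (e j)
    exact continuous_id.matrix_elem _ _
  open scoped Matrix.Norms.Operator in
  exact NormedSpace.map_exp (Matrix.reindexAlgEquiv ℂ ℂ e.symm : Matrix Ω Ω ℂ ≃ₐ[ℂ] Matrix Ω' Ω' ℂ) hc M

/-- Exponential of a matrix that preserves the fibres of `f`. -/
theorem exp_submatrix_fiber (f : Ω → κ) (M : Matrix Ω Ω ℂ) (hM : ∀ σ τ, f σ ≠ f τ → M σ τ = 0) (k : κ) :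
    (NormedSpace.exp M).submatrix (Subtype.val : {σ // f σ = k} → Ω) (Subtype.val : {σ // f σ = k} → Ω)
      = NormedSpace.exp (M.submatrix (Subtype.val : {σ // f σ = k} → Ω) (Subtype.val : {σ // f σ = k} → Ω)) := by
  classical
  set e := Equiv.sigmaFiberEquiv f with he
  set A : ∀ k, Matrix {σ // f σ = k} {σ // f σ = k} ℂ := fun k => M.submatrix Subtype.val Subtype.val with hA
  have hB : M.submatrix e e = blockDiagonal' A := by
    ext ⟨a, x⟩ ⟨b, y⟩
    by_cases hab : a = b
    · subst hab
      rw [Matrix.blockDiagonal'_apply_eq]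
      rfl
    · rw [Matrix.blockDiagonal'_apply_ne _ _ _ hab]
      apply hM
      simp only [he, Equiv.sigmaFiberEquiv_apply]
      rw [x.2, y.2]
      exact hab
  have h1 := exp_reindex e M
  rw [hB, Matrix.exp_blockDiagonal'] at h1
  ext a b
  have h2 := congrFun (congrFun h1 ⟨k, a⟩) ⟨k, b⟩
  rw [Matrix.blockDiagonal'_apply_eq] at h2
  have h3 : NormedSpace.exp A k = NormedSpace.exp (A k) := by
    open scoped Matrix.Norms.Operator in
    exact congrFun (Pi.exp_def (x := A)) k
  rw [h3] at h2
  simpa [he, Matrix.submatrix_apply, hA] using h2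

/-- Exponential of a matrix that preserves a subset of the basis. -/
theorem exp_submatrix_pred (p : Ω → Prop) [DecidablePred p] (M : Matrix Ω Ω ℂ)
    (hM : ∀ σ τ, (p σ ∧ ¬ p τ ∨ ¬ p σ ∧ p τ) → M σ τ = 0) :
    (NormedSpace.exp M).submatrix (Subtype.val : {σ // p σ} → Ω) (Subtype.val : {σ // p σ} → Ω)
      = NormedSpace.exp (M.submatrix (Subtype.val : {σ // p σ} → Ω) (Subtype.val : {σ // p σ} → Ω)) := by
  set f : Ω → Bool := fun σ => decide (p σ) with hf
  have hfib := exp_submatrix_fiber f M (by
    intro σ τ hne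
    apply hM
    simp only [hf] at hne
    by_cases h1 : p σ <;> by_cases h2 : p τ <;> simp_all) true
  set e : {σ // p σ} ≃ {σ // f σ = true} := Equiv.subtypeEquivRight (by simp [hf]) with he
  have h2 := exp_reindex e (M.submatrix (Subtype.val : {σ // f σ = true} → Ω) (Subtype.val : {σ // f σ = true} → Ω))
  rw [← hfib] at h2
  exact h2

end Fiber

section Sec

variable {X : Type} [Fintype X] [DecidableEq X] {n : ℕ}

/-- The sector with `K` deviations. -/
abbrev Sec (X : Type) [Fintype X] (n K : ℕ) : Type :=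
  {σ : Cfg X n // devCount (Finset.univ : Finset X) σ = K}

/-- The block of a matrix on the sector. -/
def secBlock (K : ℕ) (A : Op X n) : Matrix (Sec X n K) (Sec X n K) ℂ :=
  A.submatrix (Subtype.val : Sec X n K → Cfg X n) (Subtype.val : Sec X n K → Cfg X n)

/-- An operator commuting with the deviation number preserves the sectors. -/
lemma comm_devTotal_entry {A : Op X n}
    (hA : Commute A (totalOp (Finset.univ : Finset X) (devD n) : Op X n)) (σ τ : Cfg X n)
    (h : devCount (Finset.univ : Finset X) σ ≠ devCount (Finset.univ : Finset X) τ) : A σ τ = 0 := by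
  have h1 := congrFun (congrFun hA.eq σ) τ
  rw [totalOp_devD, Matrix.mul_diagonal, Matrix.diagonal_mul] at h1
  have h2 : (((devCount (Finset.univ : Finset X) τ : ℕ) : ℂ) - ((devCount (Finset.univ : Finset X) σ : ℕ) : ℂ))
      * A σ τ = 0 := by
    rw [sub_mul, mul_comm _ (A σ τ), h1, sub_self]
  rcases mul_eq_zero.mp h2 with h3 | h3
  · exfalso
    apply h
    have : ((devCount (Finset.univ : Finset X) τ : ℕ) : ℂ) = ((devCount (Finset.univ : Finset X) σ : ℕ) : ℂ) :=
      sub_eq_zero.mp h3
    exact_mod_cast this.symm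
  · exact h3

/-- The diagonal sum of the exponential in a sector is the trace of the exponential of the block. -/
theorem sector_trace {A : Op X n} (hA : Commute A (totalOp (Finset.univ : Finset X) (devD n) : Op X n))
    (K : ℕ) :
    ∑ σ ∈ Finset.univ.filter (fun σ : Cfg X n => devCount (Finset.univ : Finset X) σ = K),
        NormedSpace.exp A σ σ
      = trace (NormedSpace.exp (secBlock K A)) := by
  have h := exp_submatrix_pred (fun σ : Cfg X n => devCount (Finset.univ : Finset X) σ = K) A
    (by
      intro σ τ hst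
      apply comm_devTotal_entry hA
      rcases hst with ⟨h1, h2⟩ | ⟨h1, h2⟩
      · rw [h1]
        exact fun e => h2 e.symm
      · rw [h2]
        exact h1)
  unfold secBlock
  rw [← h, Matrix.trace]
  rw [Finset.sum_subtype (Finset.univ.filter (fun σ : Cfg X n => devCount (Finset.univ : Finset X) σ = K))
    (p := fun σ : Cfg X n => devCount (Finset.univ : Finset X) σ = K) (by simp)]
  rfl

end Sec

end Vale.Agent.P361Lib
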