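import Vale.Agent.Lib.P361.LBStepB
import Vale.Agent.Lib.P361.Final

/-!
# The limit functions: polylogarithm type series
-/

open Filter Topology Set

noncomputable section

namespace Vale.Agent.P361Lib

/-- The constant of the spin wave law. -/
def Cn (n : ℕ) : ℝ := 1 / (8 * Real.pi ^ (3 / 2 : ℝ) * ((n : ℝ) / 2) ^ (3 / 2 : ℝ))

lemma Cn_pos {n : ℕ} (hn : 1 ≤ n) : 0 < Cn n := by
  have hn' : (0 : ℝ) < n := by exact_mod_cast hn
  unfold Cn
  have := Real.pi_pos
  positivity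

lemma xS_cube {n : ℕ} (hn : 1 ≤ n) (j : ℕ) :
    xS n (j + 1) ^ 3 = Cn n * (1 / ((j : ℝ) + 1) ^ (3 / 2 : ℝ)) := by
  have hn' : (0 : ℝ) < n := by exact_mod_cast hn
  have hpi := Real.pi_pos
  have hj : (0 : ℝ) < (j : ℝ) + 1 := by positivity
  unfold xS Cn
  push_cast
  have hs : ∀ x : ℝ, 0 < x → Real.sqrt x ^ 3 = x ^ (3 / 2 : ℝ) := fun x hx => by
    rw [Real.sqrt_eq_rpow, ← Real.rpow_natCast, ← Real.rpow_mul hx.le]
    norm_num
  rw [inv_pow, mul_pow, hs _ (by positivity), Real.mul_rpow (by positivity) (by positivity),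
    Real.mul_rpow (by positivity) (by positivity)]
  have h1 : (0 : ℝ) < Real.pi ^ (3 / 2 : ℝ) := by positivity
  have h2 : (0 : ℝ) < ((n : ℝ) / 2) ^ (3 / 2 : ℝ) := by positivity
  have h3 : (0 : ℝ) < ((j : ℝ) + 1) ^ (3 / 2 : ℝ) := by positivity
  field_simp
  norm_num

lemma summable_rpow_succ : Summable fun j : ℕ => 1 / ((j : ℝ) + 1) ^ (3 / 2 : ℝ) := by
  have h := (summable_nat_add_iff 1).mpr (Real.summable_one_div_nat_rpow.mpr (show (1 : ℝ) < 3 / 2 by norm_num))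
  refine h.congr fun j => ?_
  push_cast
  rfl

lemma summable_xS {n : ℕ} (hn : 1 ≤ n) : Summable fun j : ℕ => xS n (j + 1) ^ 3 := by
  refine (summable_rpow_succ.mul_left (Cn n)).congr fun j => ?_
  rw [xS_cube hn]

/-- The coefficient of the derivative. -/
def Psi (n : ℕ) (lam : ℝ) : ℝ := ∑' j : ℕ, Real.exp (-(lam * ((j : ℝ) + 1))) * xS n (j + 1) ^ 3

/-- The limit function of the scaled pressure. -/
def Phi (n : ℕ) (lam : ℝ) : ℝ := ∑' j : ℕ, Real.exp (-(lam * ((j : ℝ) + 1))) * (xS n (j + 1) ^ 3 / ((j : ℝ) + 1))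

lemma Phi_eq_gS (n : ℕ) (lam : ℝ) : Phi n lam = gS n (Real.exp (-lam)) := by
  unfold Phi gS
  refine tsum_congr fun j => ?_
  rw [← Real.exp_nat_mul]
  push_cast
  have : ((j : ℝ) + 1) * -lam = -(lam * ((j : ℝ) + 1)) := by ring
  rw [this]
  ring

lemma exp_neg_lipschitz {a b : ℝ} (ha : 0 ≤ a) (hb : 0 ≤ b) :
    |Real.exp (-a) - Real.exp (-b)| ≤ |a - b| := by
  have key : ∀ {x y : ℝ}, 0 ≤ x → x ≤ y → Real.exp (-x) - Real.exp (-y) ≤ y - x := by
    intro x y hx hxy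
    have h1 : Real.exp (-y) = Real.exp (-x) * Real.exp (-(y - x)) := by
      rw [← Real.exp_add]
      congr 1
      ring
    have h2 := Real.add_one_le_exp (-(y - x))
    have h3 : Real.exp (-x) ≤ 1 := Real.exp_le_one_iff.mpr (by linarith)
    have h4 : 0 < Real.exp (-x) := Real.exp_pos _
    rw [h1]
    nlinarith
  rcases le_total a b with h | h
  · have h5 : Real.exp (-b) ≤ Real.exp (-a) := Real.exp_le_exp.mpr (by linarith)
    rw [abs_of_nonneg (by linarith), abs_of_nonpos (by linarith)]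
    linarith [key ha h]
  · have h5 : Real.exp (-a) ≤ Real.exp (-b) := Real.exp_le_exp.mpr (by linarith)
    rw [abs_of_nonpos (by linarith), abs_of_nonneg (by linarith)]
    linarith [key hb h]

lemma summable_Phi_term {n : ℕ} (hn : 1 ≤ n) {lam : ℝ} (hlam : 0 ≤ lam) :
    Summable fun j : ℕ => Real.exp (-(lam * ((j : ℝ) + 1))) * (xS n (j + 1) ^ 3 / ((j : ℝ) + 1)) := by
  refine Summable.of_nonneg_of_le (fun j => ?_) (fun j => ?_) (summable_xS hn)
  · have := xS_nonneg n (j + 1)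
    positivity
  · have h0 : 0 ≤ xS n (j + 1) ^ 3 := pow_nonneg (xS_nonneg n (j + 1)) 3
    have h1 : Real.exp (-(lam * ((j : ℝ) + 1))) ≤ 1 := Real.exp_le_one_iff.mpr (by
      have : 0 ≤ lam * ((j : ℝ) + 1) := by positivity
      linarith)
    have h2 : xS n (j + 1) ^ 3 / ((j : ℝ) + 1) ≤ xS n (j + 1) ^ 3 :=
      div_le_self h0 (by linarith [(Nat.cast_nonneg j : (0 : ℝ) ≤ j)])
    calc _ ≤ 1 * (xS n (j + 1) ^ 3 / ((j : ℝ) + 1)) :=
          mul_le_mul_of_nonneg_right h1 (by positivity)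
      _ ≤ _ := by rw [one_mul]; exact h2

/-- The derivative of the limit function. -/
theorem hasDerivWithinAt_Phi {n : ℕ} (hn : 1 ≤ n) {lam : ℝ} (hlam : 0 ≤ lam) :
    HasDerivWithinAt (Phi n) (-Psi n lam) (Ici 0) lam := by
  rw [hasDerivWithinAt_iff_tendsto_slope]
  have hslope : ∀ y ∈ Ici (0 : ℝ) \ {lam}, slope (Phi n) lam y
      = ∑' j : ℕ, xS n (j + 1) ^ 3 / ((j : ℝ) + 1)
          * ((Real.exp (-(y * ((j : ℝ) + 1))) - Real.exp (-(lam * ((j : ℝ) + 1)))) / (y - lam)) := by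
    intro y hy
    rw [slope_def_field]
    unfold Phi
    rw [← (summable_Phi_term hn hy.1).tsum_sub (summable_Phi_term hn hlam), ← tsum_div_const]
    refine tsum_congr fun j => ?_
    ring
  have hlim : Tendsto (fun y => ∑' j : ℕ, xS n (j + 1) ^ 3 / ((j : ℝ) + 1)
          * ((Real.exp (-(y * ((j : ℝ) + 1))) - Real.exp (-(lam * ((j : ℝ) + 1)))) / (y - lam)))
      (𝓝[Ici 0 \ {lam}] lam) (𝓝 (∑' j : ℕ, -(Real.exp (-(lam * ((j : ℝ) + 1))) * xS n (j + 1) ^ 3))) := by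
    refine tendsto_tsum_of_dominated_convergence (summable_xS hn) (fun j => ?_) ?_
    · have hd : HasDerivAt (fun y : ℝ => Real.exp (-(y * ((j : ℝ) + 1))))
          (Real.exp (-(lam * ((j : ℝ) + 1))) * (-(1 * ((j : ℝ) + 1)))) lam :=
        ((hasDerivAt_id lam).mul_const ((j : ℝ) + 1)).neg.exp
      have ht := (hasDerivAt_iff_tendsto_slope.mp hd).mono_left
        (nhdsWithin_mono lam (show Ici (0 : ℝ) \ {lam} ⊆ {lam}ᶜ from fun y hy => hy.2))
      have hj : ((j : ℝ) + 1) ≠ 0 := by positivity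
      have e : -(Real.exp (-(lam * ((j : ℝ) + 1))) * xS n (j + 1) ^ 3)
          = xS n (j + 1) ^ 3 / ((j : ℝ) + 1) * (Real.exp (-(lam * ((j : ℝ) + 1))) * (-(1 * ((j : ℝ) + 1)))) := by
        field_simp
      rw [e]
      refine (ht.const_mul _).congr' ?_
      filter_upwards [self_mem_nhdsWithin] with y hy
      rw [slope_def_field]
    · filter_upwards [self_mem_nhdsWithin] with y hy j
      have hy0 : 0 ≤ y := hy.1
      have hne : y - lam ≠ 0 := sub_ne_zero.mpr hy.2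
      have hj0 : (0 : ℝ) < (j : ℝ) + 1 := by positivity
      have h0 : 0 ≤ xS n (j + 1) ^ 3 := pow_nonneg (xS_nonneg n (j + 1)) 3
      have hL := exp_neg_lipschitz (mul_nonneg hy0 hj0.le) (mul_nonneg hlam hj0.le)
      have e : y * ((j : ℝ) + 1) - lam * ((j : ℝ) + 1) = (y - lam) * ((j : ℝ) + 1) := by ring
      rw [e, abs_mul, abs_of_pos hj0] at hL
      rw [Real.norm_eq_abs, abs_mul, abs_of_nonneg (by positivity), abs_div]
      have hpos : 0 < |y - lam| := abs_pos.mpr hne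
      calc xS n (j + 1) ^ 3 / ((j : ℝ) + 1) * (|Real.exp (-(y * ((j : ℝ) + 1))) - Real.exp (-(lam * ((j : ℝ) + 1)))| / |y - lam|)
          ≤ xS n (j + 1) ^ 3 / ((j : ℝ) + 1) * ((|y - lam| * ((j : ℝ) + 1)) / |y - lam|) :=
            mul_le_mul_of_nonneg_left (div_le_div_of_nonneg_right hL hpos.le) (by positivity)
        _ = _ := by field_simp
  have e2 : ∑' j : ℕ, -(Real.exp (-(lam * ((j : ℝ) + 1))) * xS n (j + 1) ^ 3) = -Psi n lam := by
    unfold Psi
    rw [tsum_neg]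
  rw [e2] at hlim
  refine hlim.congr' ?_
  filter_upwards [self_mem_nhdsWithin] with y hy
  exact (hslope y hy).symm

end Vale.Agent.P361Lib
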