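import Vale.Agent.Lib.P361.SharpA

/-!
# The sharp estimates for the pressure and the magnetization
-/

open Filter Topology Set

noncomputable section

namespace Vale.Agent.P361Lib

/-- The scaled pressure: the limit of the densities at the scaled field. -/
def Psc (n : ℕ) (β : ℝ) (p : ℝ → ℝ) (lam : ℝ) : ℝ :=
  β * (p (lam / β) - 3 * ((n : ℝ) / 2) ^ 2 - lam / β * ((n : ℝ) / 2))

lemma tendsto_edge_density : Tendsto (fun N : ℕ => 6 * (N : ℝ) / (2 * (N : ℝ) + 1)) atTop (𝓝 3) := by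
  have h0 : Tendsto (fun N : ℕ => 1 / (2 * (N : ℝ) + 1)) atTop (𝓝 0) := by
    refine tendsto_const_nhds.div_atTop ?_
    exact tendsto_atTop_add_const_right _ _
      (tendsto_natCast_atTop_atTop.const_mul_atTop (by norm_num))
  have h1 : Tendsto (fun N : ℕ => 3 - 3 * (1 / (2 * (N : ℝ) + 1))) atTop (𝓝 (3 - 3 * 0)) :=
    tendsto_const_nhds.sub (h0.const_mul 3)
  rw [mul_zero, sub_zero] at h1
  refine h1.congr fun N => ?_
  have hQ : (2 * (N : ℝ) + 1) ≠ 0 := by positivity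
  field_simp
  ring

lemma Psc_limit {n : ℕ} {β : ℝ} (hβ : 0 < β) {p : ℝ → ℝ}
    (hp : ∀ h, Tendsto (fun N => pressureN n N β h) atTop (𝓝 (p h))) (lam : ℝ) :
    Tendsto (fun N => logDensity n N β lam) atTop (𝓝 (Psc n β p lam)) := by
  have h1 := (((hp (lam / β)).sub (tendsto_edge_density.const_mul (((n : ℝ) / 2) ^ 2))).sub_const
    (lam / β * ((n : ℝ) / 2))).const_mul β
  have e : β * (p (lam / β) - ((n : ℝ) / 2) ^ 2 * 3 - lam / β * ((n : ℝ) / 2)) = Psc n β p lam := by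
    unfold Psc
    ring
  rw [e] at h1
  refine h1.congr fun N => ?_
  rw [pressureN_eq_density n N hβ (lam / β), mul_div_cancel₀ lam hβ.ne']
  field_simp
  ring

lemma rpow_three_halves {β : ℝ} (hβ : 0 < β) : β ^ (3 / 2 : ℝ) = β * Real.sqrt β := by
  rw [Real.sqrt_eq_rpow, show (3 / 2 : ℝ) = 1 + 1 / 2 by norm_num, Real.rpow_add hβ, Real.rpow_one]

/-- The upper bound for the scaled pressure. -/
theorem Psc_ub {n : ℕ} (hn : 1 ≤ n) {lam : ℝ} (hlam : 0 < lam) {ε : ℝ} (hε : 0 < ε) :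
    ∃ β₀ : ℝ, 0 < β₀ ∧ ∀ β, β₀ ≤ β → ∀ p : ℝ → ℝ,
      (∀ h, Tendsto (fun N => pressureN n N β h) atTop (𝓝 (p h))) →
        β * Real.sqrt β * Psc n β p lam ≤ Phi n lam + ε := by
  obtain ⟨β₀, h0, hb⟩ := ub_limit hn hlam hε
  refine ⟨β₀, h0, fun β hβ p hp => ?_⟩
  rw [Phi_eq_gS]
  exact hb β hβ _ (Psc_limit (lt_of_lt_of_le h0 hβ) hp lam)

/-- The lower bound for the scaled pressure. -/
theorem Psc_lb {n : ℕ} (hn : 1 ≤ n) {lam : ℝ} (hlam : 0 ≤ lam) {ε : ℝ} (hε : 0 < ε) :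
    ∃ β₀ : ℝ, 0 < β₀ ∧ ∀ β, β₀ ≤ β → ∀ p : ℝ → ℝ,
      (∀ h, Tendsto (fun N => pressureN n N β h) atTop (𝓝 (p h))) →
        Phi n lam - ε ≤ β * Real.sqrt β * Psc n β p lam := by
  have hS := (summable_Phi_term hn hlam).hasSum.tendsto_sum_nat
  have hev := hS.eventually (lt_mem_nhds (show Phi n lam - ε / 2 < Phi n lam by linarith))
  obtain ⟨J₀, hJ₀⟩ := hev.exists
  obtain ⟨β₀, h0, hb⟩ := lb_limit hn hlam J₀ (half_pos hε)
  refine ⟨β₀, h0, fun β hβ p hp => ?_⟩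
  have h1 := hb β hβ _ (Psc_limit (lt_of_lt_of_le h0 hβ) hp lam)
  have e : ∑ j ∈ Finset.range J₀, Real.exp (-lam) ^ (j + 1) / ((j : ℝ) + 1) * xS n (j + 1) ^ 3
      = ∑ j ∈ Finset.range J₀, Real.exp (-(lam * ((j : ℝ) + 1))) * (xS n (j + 1) ^ 3 / ((j : ℝ) + 1)) := by
    refine Finset.sum_congr rfl fun j _ => ?_
    rw [← Real.exp_nat_mul]
    push_cast
    have : ((j : ℝ) + 1) * -lam = -(lam * ((j : ℝ) + 1)) := by ring
    rw [this]
    ring
  rw [e] at h1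
  linarith

lemma Psc_sub {n : ℕ} {β : ℝ} (hβ : 0 < β) (p : ℝ → ℝ) (a b : ℝ) :
    Psc n β p a - Psc n β p b = β * (p (a / β) - p (b / β)) - (a - b) * ((n : ℝ) / 2) := by
  unfold Psc
  field_simp
  ring

/-- Convexity: the deficit of the magnetization dominates the slope to the right. -/
lemma deficit_ge {n : ℕ} {β : ℝ} (hβ : 0 < β) {p : ℝ → ℝ} (hconv : ConvexOn ℝ univ p) (lam : ℝ) {t : ℝ}
    (ht : 0 < t) :
    (Psc n β p lam - Psc n β p (lam + t)) / t ≤ (n : ℝ) / 2 - derivWithin p (Ioi (lam / β)) (lam / β) := by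
  have hxy : lam / β < (lam + t) / β := div_lt_div_of_pos_right (by linarith) hβ
  have hint : lam / β ∈ interior (univ : Set ℝ) := by simp
  have h1 := hconv.rightDeriv_le_slope (mem_univ _) (mem_univ _) hxy
    (hconv.differentiableWithinAt_Ioi_of_mem_interior hint)
  have e : slope p (lam / β) ((lam + t) / β) = (n : ℝ) / 2 - (Psc n β p lam - Psc n β p (lam + t)) / t := by
    rw [slope_def_field, Psc_sub hβ]
    have hβ' := hβ.ne'
    have ht' := ht.ne'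
    have d : (lam + t) / β - lam / β = t / β := by ring
    have d2 : lam - (lam + t) = -t := by ring
    rw [d, d2]
    generalize p ((lam + t) / β) = A
    generalize p (lam / β) = B
    field_simp
    ring
  rw [e] at h1
  linarith

/-- Convexity: the deficit of the magnetization is below the slope to the left. -/
lemma deficit_le {n : ℕ} {β : ℝ} (hβ : 0 < β) {p : ℝ → ℝ} (hconv : ConvexOn ℝ univ p) (lam : ℝ) {t : ℝ}
    (ht : 0 < t) :
    (n : ℝ) / 2 - derivWithin p (Ioi (lam / β)) (lam / β) ≤ (Psc n β p (lam - t) - Psc n β p lam) / t := by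
  have hxy : (lam - t) / β < lam / β := div_lt_div_of_pos_right (by linarith) hβ
  have hint : lam / β ∈ interior (univ : Set ℝ) := by simp
  have h1 := hconv.slope_le_leftDeriv (mem_univ _) (mem_univ _) hxy
    (hconv.differentiableWithinAt_Iio_of_mem_interior hint)
  have h2 := hconv.leftDeriv_le_rightDeriv_of_mem_interior hint
  have e : slope p ((lam - t) / β) (lam / β) = (n : ℝ) / 2 - (Psc n β p (lam - t) - Psc n β p lam) / t := by
    rw [slope_def_field, Psc_sub hβ]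
    have hβ' := hβ.ne'
    have ht' := ht.ne'
    have d : lam / β - (lam - t) / β = t / β := by ring
    have d2 : lam - t - lam = -t := by ring
    rw [d, d2]
    generalize p ((lam - t) / β) = A
    generalize p (lam / β) = B
    field_simp
    ring
  rw [e] at h1
  linarith

/-- The sharp lower bound for the deficit of the magnetization at a scaled field. -/
theorem sharp_lower {n : ℕ} (hn : 1 ≤ n) {lam : ℝ} (hlam : 0 ≤ lam) {ε : ℝ} (hε : 0 < ε) :
    ∃ β₀ : ℝ, 0 < β₀ ∧ ∀ β, β₀ ≤ β → ∀ p : ℝ → ℝ,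
      (∀ h, Tendsto (fun N => pressureN n N β h) atTop (𝓝 (p h))) →
        Psi n lam - ε ≤ β * Real.sqrt β * ((n : ℝ) / 2 - derivWithin p (Ioi (lam / β)) (lam / β)) := by
  have hd : HasDerivWithinAt (Phi n) (-Psi n lam) (Ioi lam) lam :=
    (hasDerivWithinAt_Phi hn hlam).mono (Ioi_subset_Ici hlam)
  rw [hasDerivWithinAt_iff_tendsto_slope' (by simp)] at hd
  have hev := hd.eventually (gt_mem_nhds (show -Psi n lam < -Psi n lam + ε / 2 by linarith))
  obtain ⟨t, ht1, ht2⟩ := (hev.and self_mem_nhdsWithin).exists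
  have ht3 : lam < t := ht2
  have ht0 : 0 < t := lt_of_le_of_lt hlam ht3
  set d : ℝ := t - lam with hdd
  have hd0 : 0 < d := by
    rw [hdd]
    linarith
  have hε₁ : 0 < d * ε / 4 := by positivity
  obtain ⟨β₁, h1, hb1⟩ := Psc_lb hn hlam hε₁
  obtain ⟨β₂, _, hb2⟩ := Psc_ub hn ht0 hε₁
  refine ⟨max β₁ β₂, lt_of_lt_of_le h1 (le_max_left _ _), fun β hβ p hp => ?_⟩
  have hβ0 : 0 < β := lt_of_lt_of_le h1 (le_trans (le_max_left _ _) hβ)
  have hc := convexOn_limit hβ0 hp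
  have h3 := deficit_ge (n := n) hβ0 hc lam hd0
  have e1 : lam + d = t := by
    rw [hdd]
    ring
  rw [e1] at h3
  have h4 := hb1 β (le_trans (le_max_left _ _) hβ) p hp
  have h5 := hb2 β (le_trans (le_max_right _ _) hβ) p hp
  have hy : 0 < β * Real.sqrt β := mul_pos hβ0 (Real.sqrt_pos.mpr hβ0)
  have h6 := mul_le_mul_of_nonneg_left h3 hy.le
  refine le_trans ?_ h6
  rw [slope_def_field, ← hdd] at ht1
  have h7 : β * Real.sqrt β * ((Psc n β p lam - Psc n β p t) / d)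
      = (β * Real.sqrt β * Psc n β p lam - β * Real.sqrt β * Psc n β p t) / d := by
    ring
  rw [h7, le_div_iff₀ hd0]
  rw [div_lt_iff₀ hd0] at ht1
  nlinarith

/-- The sharp upper bound for the deficit of the magnetization at a positive scaled field. -/
theorem sharp_upper {n : ℕ} (hn : 1 ≤ n) {lam : ℝ} (hlam : 0 < lam) {ε : ℝ} (hε : 0 < ε) :
    ∃ β₀ : ℝ, 0 < β₀ ∧ ∀ β, β₀ ≤ β → ∀ p : ℝ → ℝ,
      (∀ h, Tendsto (fun N => pressureN n N β h) atTop (𝓝 (p h))) →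
        β * Real.sqrt β * ((n : ℝ) / 2 - derivWithin p (Ioi (lam / β)) (lam / β)) ≤ Psi n lam + ε := by
  have hd : HasDerivWithinAt (Phi n) (-Psi n lam) (Ioo 0 lam) lam :=
    (hasDerivWithinAt_Phi hn hlam.le).mono (fun x hx => le_of_lt hx.1)
  rw [hasDerivWithinAt_iff_tendsto_slope' (by simp)] at hd
  have hev := hd.eventually (lt_mem_nhds (show -Psi n lam - ε / 2 < -Psi n lam by linarith))
  have : (𝓝[Ioo 0 lam] lam).NeBot := right_nhdsWithin_Ioo_neBot hlam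
  obtain ⟨t, ht1, ht2⟩ := (hev.and self_mem_nhdsWithin).exists
  have ht0 : 0 < t := ht2.1
  have ht3 : t < lam := ht2.2
  set d : ℝ := lam - t with hdd
  have hd0 : 0 < d := by
    rw [hdd]
    linarith
  have hε₁ : 0 < d * ε / 4 := by positivity
  obtain ⟨β₁, h1, hb1⟩ := Psc_lb hn hlam.le hε₁
  obtain ⟨β₂, _, hb2⟩ := Psc_ub hn ht0 hε₁
  refine ⟨max β₁ β₂, lt_of_lt_of_le h1 (le_max_left _ _), fun β hβ p hp => ?_⟩
  have hβ0 : 0 < β := lt_of_lt_of_le h1 (le_trans (le_max_left _ _) hβ)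
  have hc := convexOn_limit hβ0 hp
  have h3 := deficit_le (n := n) hβ0 hc lam hd0
  have e1 : lam - d = t := by
    rw [hdd]
    ring
  rw [e1] at h3
  have h4 := hb1 β (le_trans (le_max_left _ _) hβ) p hp
  have h5 := hb2 β (le_trans (le_max_right _ _) hβ) p hp
  have hy : 0 < β * Real.sqrt β := mul_pos hβ0 (Real.sqrt_pos.mpr hβ0)
  have h6 := mul_le_mul_of_nonneg_left h3 hy.le
  refine le_trans h6 ?_
  rw [slope_def_field] at ht1
  have e2 : t - lam = -d := by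
    rw [hdd]
    ring
  rw [e2, lt_div_iff_of_neg (by linarith)] at ht1
  have h7 : β * Real.sqrt β * ((Psc n β p t - Psc n β p lam) / d)
      = (β * Real.sqrt β * Psc n β p t - β * Real.sqrt β * Psc n β p lam) / d := by
    ring
  rw [h7, div_le_iff₀ hd0]
  nlinarith

lemma summable_Psi_term {n : ℕ} (hn : 1 ≤ n) {lam : ℝ} (hlam : 0 ≤ lam) :
    Summable fun j : ℕ => Real.exp (-(lam * ((j : ℝ) + 1))) * xS n (j + 1) ^ 3 := by
  refine Summable.of_nonneg_of_le (fun j => ?_) (fun j => ?_) (summable_xS hn)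
  · have := xS_nonneg n (j + 1)
    positivity
  · have h0 : 0 ≤ xS n (j + 1) ^ 3 := pow_nonneg (xS_nonneg n (j + 1)) 3
    have h1 : Real.exp (-(lam * ((j : ℝ) + 1))) ≤ 1 := Real.exp_le_one_iff.mpr (by
      have : 0 ≤ lam * ((j : ℝ) + 1) := by positivity
      linarith)
    calc _ ≤ 1 * xS n (j + 1) ^ 3 := mul_le_mul_of_nonneg_right h1 h0
      _ = _ := one_mul _

/-- The continuity of the coefficient at zero field. -/
theorem Psi_tendsto {n : ℕ} (hn : 1 ≤ n) : Tendsto (Psi n) (𝓝[>] 0) (𝓝 (Psi n 0)) := by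
  unfold Psi
  refine tendsto_tsum_of_dominated_convergence (summable_xS hn) (fun j => ?_) ?_
  · apply Tendsto.mono_left _ nhdsWithin_le_nhds
    apply ContinuousAt.tendsto
    fun_prop
  · filter_upwards [self_mem_nhdsWithin] with y hy j
    have h0 : 0 ≤ xS n (j + 1) ^ 3 := pow_nonneg (xS_nonneg n (j + 1)) 3
    have hy' : 0 < y := hy
    have h1 : Real.exp (-(y * ((j : ℝ) + 1))) ≤ 1 := Real.exp_le_one_iff.mpr (by
      have : 0 ≤ y * ((j : ℝ) + 1) := by positivity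
      linarith)
    rw [Real.norm_eq_abs, abs_of_nonneg (by positivity)]
    calc _ ≤ 1 * xS n (j + 1) ^ 3 := mul_le_mul_of_nonneg_right h1 h0
      _ = _ := one_mul _

lemma Psi_eq {n : ℕ} (hn : 1 ≤ n) (lam : ℝ) :
    Psi n lam = Cn n * ∑' j : ℕ, Real.exp (-(lam * ((j : ℝ) + 1))) / ((j : ℝ) + 1) ^ (3 / 2 : ℝ) := by
  unfold Psi
  rw [← tsum_mul_left]
  refine tsum_congr fun j => ?_
  rw [xS_cube hn]
  ring

/-- The real part of the value of the zeta function at `3/2` as a series. -/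
lemma zeta_three_halves :
    (riemannZeta (3 / 2 : ℂ)).re = ∑' j : ℕ, 1 / ((j : ℝ) + 1) ^ (3 / 2 : ℝ) := by
  have h := zeta_eq_tsum_one_div_nat_add_one_cpow (s := (3 / 2 : ℂ)) (by norm_num)
  rw [h]
  have e : ∀ j : ℕ, (1 : ℂ) / ((j : ℂ) + 1) ^ (3 / 2 : ℂ) = ((1 / ((j : ℝ) + 1) ^ (3 / 2 : ℝ) : ℝ) : ℂ) := by
    intro j
    have hj : (0 : ℝ) ≤ (j : ℝ) + 1 := by positivity
    push_cast
    rw [Complex.ofReal_cpow hj]
    push_cast
    rfl
  simp only [e]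
  rw [← Complex.ofReal_tsum, Complex.ofReal_re]

lemma Psi_zero {n : ℕ} (hn : 1 ≤ n) :
    Psi n 0 = (riemannZeta (3 / 2 : ℂ)).re / (8 * Real.pi ^ (3 / 2 : ℝ) * ((n : ℝ) / 2) ^ (3 / 2 : ℝ)) := by
  rw [Psi_eq hn, zeta_three_halves]
  unfold Cn
  simp only [zero_mul, neg_zero, Real.exp_zero]
  ring


/-- A family of limit functions exists. -/
theorem exists_pressure_family (n : ℕ) :
    ∃ p : ℝ → ℝ → ℝ, ∀ β, 0 < β → ∀ h, Tendsto (fun N => pressureN n N β h) atTop (𝓝 (p β h)) := by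
  have h1 : ∀ β : ℝ, ∃ q : ℝ → ℝ, 0 < β → ∀ h, Tendsto (fun N => pressureN n N β h) atTop (𝓝 (q h)) := by
    intro β
    by_cases hβ : 0 < β
    · obtain ⟨q, hq⟩ := exists_pressure_function n hβ
      exact ⟨q, fun _ => hq⟩
    · exact ⟨0, fun h => absurd h hβ⟩
  choose p hp using h1
  exact ⟨p, hp⟩

/-- The limit law at a positive scaled field. -/
theorem tendsto_deficit {n : ℕ} (hn : 1 ≤ n) {p : ℝ → ℝ → ℝ}
    (hp : ∀ β, 0 < β → ∀ h, Tendsto (fun N => pressureN n N β h) atTop (𝓝 (p β h))) {lam : ℝ} (hlam : 0 < lam) :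
    Tendsto (fun β : ℝ => β ^ (3 / 2 : ℝ)
        * ((n : ℝ) / 2 - derivWithin (p β) (Ioi (lam / β)) (lam / β))) atTop (𝓝 (Psi n lam)) := by
  rw [Metric.tendsto_atTop]
  intro ε hε
  obtain ⟨β₁, h1, hb1⟩ := sharp_lower hn hlam.le (half_pos hε)
  obtain ⟨β₂, _, hb2⟩ := sharp_upper hn hlam (half_pos hε)
  refine ⟨max β₁ β₂, fun β hβ => ?_⟩
  have hβ0 : 0 < β := lt_of_lt_of_le h1 (le_trans (le_max_left _ _) hβ)
  have h3 := hb1 β (le_trans (le_max_left _ _) hβ) (p β) (hp β hβ0)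
  have h4 := hb2 β (le_trans (le_max_right _ _) hβ) (p β) (hp β hβ0)
  rw [Real.dist_eq, rpow_three_halves hβ0, abs_lt]
  constructor <;> linarith

/-- The lower bound at zero field. -/
theorem eventually_deficit_zero {n : ℕ} (hn : 1 ≤ n) {p : ℝ → ℝ → ℝ}
    (hp : ∀ β, 0 < β → ∀ h, Tendsto (fun N => pressureN n N β h) atTop (𝓝 (p β h))) {ε : ℝ} (hε : 0 < ε) :
    ∀ᶠ β : ℝ in atTop, (riemannZeta (3 / 2 : ℂ)).re / (8 * Real.pi ^ (3 / 2 : ℝ) * ((n : ℝ) / 2) ^ (3 / 2 : ℝ)) - ε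
      ≤ β ^ (3 / 2 : ℝ) * ((n : ℝ) / 2 - derivWithin (p β) (Ioi 0) 0) := by
  obtain ⟨β₁, h1, hb1⟩ := sharp_lower hn le_rfl hε
  filter_upwards [eventually_ge_atTop β₁] with β hβ
  have hβ0 : 0 < β := lt_of_lt_of_le h1 hβ
  have h3 := hb1 β hβ (p β) (hp β hβ0)
  rw [zero_div, Psi_zero hn] at h3
  rw [rpow_three_halves hβ0]
  exact h3


lemma xS_cube_div {n : ℕ} (hn : 1 ≤ n) (j : ℕ) :
    xS n (j + 1) ^ 3 / ((j : ℝ) + 1) = Cn n * (1 / ((j : ℝ) + 1) ^ (5 / 2 : ℝ)) := by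
  have hj : (0 : ℝ) < (j : ℝ) + 1 := by positivity
  rw [xS_cube hn, show (5 / 2 : ℝ) = 3 / 2 + 1 by norm_num, Real.rpow_add hj, Real.rpow_one]
  field_simp

lemma Phi_eq {n : ℕ} (hn : 1 ≤ n) (lam : ℝ) :
    Phi n lam = Cn n * ∑' j : ℕ, Real.exp (-(lam * ((j : ℝ) + 1))) / ((j : ℝ) + 1) ^ (5 / 2 : ℝ) := by
  unfold Phi
  rw [← tsum_mul_left]
  refine tsum_congr fun j => ?_
  rw [xS_cube_div hn]
  ring

lemma rpow_five_halves {β : ℝ} (hβ : 0 < β) : β ^ (5 / 2 : ℝ) = β * Real.sqrt β * β := by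
  rw [show (5 / 2 : ℝ) = 3 / 2 + 1 by norm_num, Real.rpow_add hβ, Real.rpow_one, rpow_three_halves hβ]

/-- The limit law of the pressure at a positive scaled field. -/
theorem tendsto_scaled_pressure {n : ℕ} (hn : 1 ≤ n) {p : ℝ → ℝ → ℝ}
    (hp : ∀ β, 0 < β → ∀ h, Tendsto (fun N => pressureN n N β h) atTop (𝓝 (p β h))) {lam : ℝ} (hlam : 0 < lam) :
    Tendsto (fun β : ℝ => β ^ (5 / 2 : ℝ)
        * (p β (lam / β) - 3 * ((n : ℝ) / 2) ^ 2 - lam / β * ((n : ℝ) / 2))) atTop (𝓝 (Phi n lam)) := by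
  rw [Metric.tendsto_atTop]
  intro ε hε
  obtain ⟨β₁, h1, hb1⟩ := Psc_lb hn hlam.le (half_pos hε)
  obtain ⟨β₂, _, hb2⟩ := Psc_ub hn hlam (half_pos hε)
  refine ⟨max β₁ β₂, fun β hβ => ?_⟩
  have hβ0 : 0 < β := lt_of_lt_of_le h1 (le_trans (le_max_left _ _) hβ)
  have h3 := hb1 β (le_trans (le_max_left _ _) hβ) (p β) (hp β hβ0)
  have h4 := hb2 β (le_trans (le_max_right _ _) hβ) (p β) (hp β hβ0)
  unfold Psc at h3 h4
  have e : β ^ (5 / 2 : ℝ) * (p β (lam / β) - 3 * ((n : ℝ) / 2) ^ 2 - lam / β * ((n : ℝ) / 2))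
      = β * Real.sqrt β * (β * (p β (lam / β) - 3 * ((n : ℝ) / 2) ^ 2 - lam / β * ((n : ℝ) / 2))) := by
    rw [rpow_five_halves hβ0]
    ring
  rw [Real.dist_eq, e, abs_lt]
  constructor <;> linarith

/-- The deficit at all fields above a scaled field. -/
theorem eventually_deficit_uniform {n : ℕ} (hn : 1 ≤ n) {p : ℝ → ℝ → ℝ}
    (hp : ∀ β, 0 < β → ∀ h, Tendsto (fun N => pressureN n N β h) atTop (𝓝 (p β h))) {lam : ℝ} (hlam : 0 < lam)
    {ε : ℝ} (hε : 0 < ε) :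
    ∀ᶠ β : ℝ in atTop, ∀ h : ℝ, lam / β ≤ h →
      β ^ (3 / 2 : ℝ) * ((n : ℝ) / 2 - derivWithin (p β) (Ioi h) h) ≤ Psi n lam + ε := by
  obtain ⟨β₂, h2, hb2⟩ := sharp_upper hn hlam hε
  filter_upwards [eventually_ge_atTop β₂] with β hβ h hh
  have hβ0 : 0 < β := lt_of_lt_of_le h2 hβ
  have h3 := hb2 β hβ (p β) (hp β hβ0)
  rw [rpow_three_halves hβ0]
  refine le_trans (mul_le_mul_of_nonneg_left ?_ (mul_pos hβ0 (Real.sqrt_pos.mpr hβ0)).le) h3
  have hc := convexOn_limit hβ0 (hp β hβ0)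
  have hm : derivWithin (p β) (Ioi (lam / β)) (lam / β) ≤ derivWithin (p β) (Ioi h) h :=
    hc.monotoneOn_rightDeriv (by simp) (by simp) hh
  linarith


end Vale.Agent.P361Lib
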