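import Vale.Agent.Lib.P361.Defs

/-!
# Single-site operators on a finite spin system

`Cfg X n` is the configuration space `X → Fin (n+1)`; operators are complex matrices indexed by
configurations.  `siteOp x a` is the matrix `a` acting at the site `x`.
-/

open Matrix

noncomputable section

namespace Vale.Agent.P361Lib

variable {X : Type} [Fintype X] [DecidableEq X] {n : ℕ}

lemma siteOp_apply (x : X) (a : SMat n) (σ τ : Cfg X n) :
    siteOp x a σ τ = if (∀ y, y ≠ x → σ y = τ y) then a (σ x) (τ x) else 0 := rfl

/-- Sum over configurations that agree with `σ` off `x`. -/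
lemma sum_agree (x : X) (σ : Cfg X n) (f : Cfg X n → ℂ) :
    ∑ ρ : Cfg X n, (if (∀ y, y ≠ x → σ y = ρ y) then f ρ else 0)
      = ∑ i : Fin (n + 1), f (Function.update σ x i) := by
  rw [← Finset.sum_filter]
  refine Finset.sum_bij' (fun ρ _ => ρ x) (fun i _ => Function.update σ x i) ?_ ?_ ?_ ?_ ?_
  · intro ρ _; exact Finset.mem_univ _
  · intro i _
    simp only [Finset.mem_filter, Finset.mem_univ, true_and]
    intro y hy
    simp [Function.update_of_ne hy]
  · intro ρ hρ
    simp only [Finset.mem_filter, Finset.mem_univ, true_and] at hρ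
    funext y
    by_cases hy : y = x
    · subst hy; simp
    · simp [Function.update_of_ne hy, hρ y hy]
  · intro i _; simp
  · intro ρ hρ
    simp only [Finset.mem_filter, Finset.mem_univ, true_and] at hρ
    congr 1
    funext y
    by_cases hy : y = x
    · subst hy; simp
    · simp [Function.update_of_ne hy, hρ y hy]

lemma sum_agree' (x : X) (σ : Cfg X n) (f : Cfg X n → ℂ) :
    ∑ ρ : Cfg X n, (if (∀ y, y ≠ x → ρ y = σ y) then f ρ else 0)
      = ∑ i : Fin (n + 1), f (Function.update σ x i) := by
  rw [← sum_agree x σ f]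
  refine Finset.sum_congr rfl fun ρ _ => ?_
  have : (∀ y, y ≠ x → ρ y = σ y) ↔ (∀ y, y ≠ x → σ y = ρ y) :=
    ⟨fun h y hy => (h y hy).symm, fun h y hy => (h y hy).symm⟩
  simp only [this]

/-- Left multiplication by a site operator. -/
lemma siteOp_mul_apply (x : X) (a : SMat n) (M : Op X n) (σ τ : Cfg X n) :
    (siteOp x a * M) σ τ = ∑ i : Fin (n + 1), a (σ x) i * M (Function.update σ x i) τ := by
  rw [Matrix.mul_apply]
  have h := sum_agree x σ (fun ρ => a (σ x) (ρ x) * M ρ τ)
  simp only [Function.update_self] at h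
  rw [← h]
  refine Finset.sum_congr rfl fun ρ _ => ?_
  rw [siteOp_apply]
  split_ifs <;> simp

/-- Right multiplication by a site operator. -/
lemma mul_siteOp_apply (x : X) (a : SMat n) (M : Op X n) (σ τ : Cfg X n) :
    (M * siteOp x a) σ τ = ∑ i : Fin (n + 1), M σ (Function.update τ x i) * a i (τ x) := by
  rw [Matrix.mul_apply]
  have h := sum_agree' x τ (fun ρ => M σ ρ * a (ρ x) (τ x))
  simp only [Function.update_self] at h
  rw [← h]
  refine Finset.sum_congr rfl fun ρ _ => ?_
  rw [siteOp_apply]
  split_ifs <;> simp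

/-- Action of a site operator on a vector. -/
lemma siteOp_mulVec_apply (x : X) (a : SMat n) (ψ : Cfg X n → ℂ) (σ : Cfg X n) :
    (siteOp x a *ᵥ ψ) σ = ∑ i : Fin (n + 1), a (σ x) i * ψ (Function.update σ x i) := by
  simp only [Matrix.mulVec, dotProduct]
  have h := sum_agree x σ (fun ρ => a (σ x) (ρ x) * ψ ρ)
  simp only [Function.update_self] at h
  rw [← h]
  refine Finset.sum_congr rfl fun ρ _ => ?_
  rw [siteOp_apply]
  split_ifs <;> simp

lemma siteOp_mul_same (x : X) (a b : SMat n) :
    siteOp x a * siteOp x b = siteOp x (a * b) := by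
  ext σ τ
  rw [siteOp_mul_apply, siteOp_apply, Matrix.mul_apply]
  have hc : ∀ i : Fin (n + 1), (∀ y, y ≠ x → (Function.update σ x i) y = τ y)
      ↔ (∀ y, y ≠ x → σ y = τ y) := by
    intro i
    refine forall_congr' fun y => imp_congr_right fun hy => ?_
    rw [Function.update_of_ne hy]
  by_cases h : ∀ y, y ≠ x → σ y = τ y
  · rw [if_pos h]
    refine Finset.sum_congr rfl fun i _ => ?_
    rw [siteOp_apply, if_pos ((hc i).2 h), Function.update_self]
  · rw [if_neg h]
    refine Finset.sum_eq_zero fun i _ => ?_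
    rw [siteOp_apply, if_neg (fun h' => h ((hc i).1 h')), mul_zero]

/-- Explicit entries of a product of site operators at different sites. -/
lemma siteOp_mul_ne_apply {x y : X} (hxy : x ≠ y) (a b : SMat n) (σ τ : Cfg X n) :
    (siteOp x a * siteOp y b) σ τ
      = if (∀ w, w ≠ x → w ≠ y → σ w = τ w) then a (σ x) (τ x) * b (σ y) (τ y) else 0 := by
  rw [siteOp_mul_apply]
  rw [Finset.sum_eq_single (τ x)]
  · rw [siteOp_apply]
    have hy : (Function.update σ x (τ x)) y = σ y := Function.update_of_ne hxy.symm _ _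
    rw [hy]
    by_cases h : ∀ w, w ≠ x → w ≠ y → σ w = τ w
    · rw [if_pos h, if_pos]
      intro w hw
      by_cases hwx : w = x
      · subst hwx; simp
      · rw [Function.update_of_ne hwx]; exact h w hwx hw
    · rw [if_neg h, if_neg, mul_zero]
      intro h'
      apply h
      intro w hwx hwy
      have := h' w hwy
      rwa [Function.update_of_ne hwx] at this
  · intro i _ hi
    rw [siteOp_apply, if_neg, mul_zero]
    intro h'
    have := h' x hxy
    simp only [Function.update_self] at this
    exact hi this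
  · intro h; exact absurd (Finset.mem_univ _) h

lemma siteOp_commute {x y : X} (hxy : x ≠ y) (a b : SMat n) :
    Commute (siteOp x a) (siteOp y b) := by
  show siteOp x a * siteOp y b = siteOp y b * siteOp x a
  ext σ τ
  rw [siteOp_mul_ne_apply hxy, siteOp_mul_ne_apply hxy.symm]
  have : (∀ w, w ≠ x → w ≠ y → σ w = τ w) ↔ (∀ w, w ≠ y → w ≠ x → σ w = τ w) :=
    ⟨fun h w h1 h2 => h w h2 h1, fun h w h1 h2 => h w h2 h1⟩
  simp only [this, mul_comm]

lemma siteOp_zero (x : X) : siteOp x (0 : SMat n) = (0 : Op X n) := by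
  ext σ τ
  rw [siteOp_apply]
  simp

lemma siteOp_add (x : X) (a b : SMat n) : siteOp x (a + b) = siteOp x a + siteOp x b := by
  ext σ τ
  rw [Matrix.add_apply, siteOp_apply, siteOp_apply, siteOp_apply]
  split_ifs <;> simp

lemma siteOp_smul (x : X) (c : ℂ) (a : SMat n) : siteOp x (c • a) = c • siteOp x a := by
  ext σ τ
  rw [Matrix.smul_apply, siteOp_apply, siteOp_apply]
  split_ifs <;> simp

lemma siteOp_sub (x : X) (a b : SMat n) : siteOp x (a - b) = siteOp x a - siteOp x b := by
  ext σ τ
  rw [Matrix.sub_apply, siteOp_apply, siteOp_apply, siteOp_apply]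
  split_ifs <;> simp

lemma siteOp_neg (x : X) (a : SMat n) : siteOp x (-a) = -siteOp x a := by
  ext σ τ
  rw [Matrix.neg_apply, siteOp_apply, siteOp_apply]
  split_ifs <;> simp

lemma siteOp_conjTranspose (x : X) (a : SMat n) : (siteOp x a)ᴴ = siteOp x aᴴ := by
  ext σ τ
  rw [Matrix.conjTranspose_apply, siteOp_apply, siteOp_apply, Matrix.conjTranspose_apply]
  have : (∀ y, y ≠ x → τ y = σ y) ↔ (∀ y, y ≠ x → σ y = τ y) :=
    ⟨fun h y hy => (h y hy).symm, fun h y hy => (h y hy).symm⟩
  simp only [this]
  split_ifs <;> simp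

lemma siteOp_diagonal (x : X) (d : Fin (n + 1) → ℂ) :
    siteOp x (diagonal d) = diagonal (fun σ : Cfg X n => d (σ x)) := by
  ext σ τ
  rw [siteOp_apply]
  by_cases h : σ = τ
  · subst h; simp
  · rw [Matrix.diagonal_apply_ne _ h]
    split_ifs with h'
    · rw [Matrix.diagonal_apply_ne]
      intro hx
      apply h
      funext y
      by_cases hy : y = x
      · subst hy; exact hx
      · exact h' y hy
    · rfl

lemma siteOp_one (x : X) : siteOp x (1 : SMat n) = (1 : Op X n) := by
  have h := siteOp_diagonal (X := X) (n := n) x (fun _ => (1 : ℂ))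
  simpa [Matrix.diagonal_one] using h

/-- A diagonal operator whose entries do not depend on the coordinate at `x` commutes with any
operator at `x`. -/
lemma commute_diagonal_siteOp (x : X) (a : SMat n) (g : Cfg X n → ℂ)
    (hg : ∀ (σ : Cfg X n) (i : Fin (n + 1)), g (Function.update σ x i) = g σ) :
    Commute (diagonal g) (siteOp x a) := by
  show diagonal g * siteOp x a = siteOp x a * diagonal g
  ext σ τ
  rw [Matrix.diagonal_mul, Matrix.mul_diagonal, siteOp_apply]
  split_ifs with h
  · have : g σ = g τ := by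
      have h1 := hg σ (τ x)
      rw [← h1]
      congr 1
      funext y
      by_cases hy : y = x
      · subst hy; simp
      · simp [Function.update_of_ne hy, h y hy]
    rw [this, mul_comm]
  · simp

/-- The total operator on a finite set of sites. -/
def totalOp (k : Finset X) (a : SMat n) : Op X n := ∑ x ∈ k, siteOp x a

end Vale.Agent.P361Lib
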