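import Vale.Agent.Lib.P361.SiteOps

/-!
# The spin matrices on `ℂ^(n+1)`, and Schwinger-type factors
-/

open Matrix

noncomputable section

namespace Vale.Agent.P361Lib

/-- Schwinger factor: `a |i⟩ = √(n-i) |i⟩`. -/
def bosA (n : ℕ) : SMat n := diagonal fun i => ((Real.sqrt ((n : ℝ) - (i : ℕ)) : ℝ) : ℂ)

/-- Schwinger factor: `b |i+1⟩ = √(i+1) |i⟩`. -/
def bosB (n : ℕ) : SMat n :=
  Matrix.of fun i j => if (j : ℕ) = (i : ℕ) + 1 then ((Real.sqrt ((j : ℕ) : ℝ) : ℝ) : ℂ) else 0

/-- The number of spin deviations as a diagonal matrix. -/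
def devD (n : ℕ) : SMat n := diagonal fun i => (((i : ℕ) : ℕ) : ℂ)

variable {n : ℕ}

lemma fin_sub_nonneg (i : Fin (n + 1)) : (0 : ℝ) ≤ (n : ℝ) - (i : ℕ) := by
  have : (i : ℕ) ≤ n := Nat.lt_succ_iff.mp i.2
  have h : ((i : ℕ) : ℝ) ≤ (n : ℝ) := by exact_mod_cast this
  linarith

lemma spinP_apply (i j : Fin (n + 1)) :
    spinP n i j = if (j : ℕ) = (i : ℕ) + 1 then
      ((Real.sqrt (((i : ℕ) + 1 : ℝ) * ((n : ℝ) - (i : ℕ))) : ℝ) : ℂ) else 0 := rfl

lemma bosB_apply (i j : Fin (n + 1)) :
    bosB n i j = if (j : ℕ) = (i : ℕ) + 1 then ((Real.sqrt ((j : ℕ) : ℝ) : ℝ) : ℂ) else 0 := rfl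

lemma bosA_isHermitian : (bosA n)ᴴ = bosA n := by
  unfold bosA
  rw [Matrix.diagonal_conjTranspose]
  congr 1
  funext i
  simp

lemma spinZ_isHermitian : (spinZ n)ᴴ = spinZ n := by
  unfold spinZ
  rw [Matrix.diagonal_conjTranspose]
  congr 1
  funext i
  simp

lemma devD_isHermitian : (devD n)ᴴ = devD n := by
  unfold devD
  rw [Matrix.diagonal_conjTranspose]
  congr 1
  funext i
  simp

lemma bosA_mul_bosB : bosA n * bosB n = spinP n := by
  ext i j
  unfold bosA
  rw [Matrix.diagonal_mul, bosB_apply, spinP_apply]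
  split_ifs with h
  · rw [← Complex.ofReal_mul, ← Real.sqrt_mul (fin_sub_nonneg i), h]
    congr 2
    push_cast
    ring
  · simp

lemma bosBH_mul_bosA : (bosB n)ᴴ * bosA n = spinM n := by
  unfold spinM
  rw [← bosA_mul_bosB, Matrix.conjTranspose_mul, bosA_isHermitian]

lemma bosA_mul_bosA : bosA n * bosA n = diagonal fun i : Fin (n + 1) => (n : ℂ) - ((i : ℕ) : ℂ) := by
  unfold bosA
  rw [Matrix.diagonal_mul_diagonal]
  congr 1
  funext i
  rw [← Complex.ofReal_mul, Real.mul_self_sqrt (fin_sub_nonneg i)]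
  push_cast
  ring

lemma bosBH_mul_bosB : (bosB n)ᴴ * bosB n = devD n := by
  ext i j
  rw [Matrix.mul_apply]
  unfold devD
  by_cases hi : (i : ℕ) = 0
  · -- no term
    have hij : Matrix.diagonal (fun i : Fin (n + 1) => (((i : ℕ) : ℕ) : ℂ)) i j = 0 := by
      by_cases hij : i = j
      · subst hij; simp [hi]
      · exact Matrix.diagonal_apply_ne _ hij
    rw [hij]
    refine Finset.sum_eq_zero fun k _ => ?_
    rw [Matrix.conjTranspose_apply, bosB_apply, if_neg (by omega)]
    simp
  · obtain ⟨i', hi'⟩ : ∃ i' : Fin (n + 1), (i' : ℕ) + 1 = (i : ℕ) :=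
      ⟨⟨(i : ℕ) - 1, by have := i.2; omega⟩, by simp; omega⟩
    rw [Finset.sum_eq_single i']
    · rw [Matrix.conjTranspose_apply, bosB_apply, bosB_apply, if_pos hi'.symm]
      by_cases hij : i = j
      · subst hij
        rw [if_pos hi'.symm, Matrix.diagonal_apply_eq]
        simp only [RCLike.star_def, Complex.conj_ofReal]
        rw [← Complex.ofReal_mul, Real.mul_self_sqrt (by positivity)]
        simp
      · rw [Matrix.diagonal_apply_ne _ hij, if_neg, mul_zero]
        intro h
        apply hij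
        apply Fin.ext
        omega
    · intro k _ hk
      rw [Matrix.conjTranspose_apply, bosB_apply, if_neg, star_zero, zero_mul]
      intro h
      apply hk
      apply Fin.ext
      omega
    · intro h; exact absurd (Finset.mem_univ _) h

/-- `a†a + b†b = n` at a single site. -/
lemma bos_number : bosA n * bosA n + (bosB n)ᴴ * bosB n = (n : ℂ) • (1 : SMat n) := by
  rw [bosA_mul_bosA, bosBH_mul_bosB]
  unfold devD
  rw [Matrix.diagonal_add, ← Matrix.diagonal_one, ← Matrix.diagonal_smul]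
  congr 1
  funext i
  simp

lemma diag_eq_half_add_Z :
    (diagonal fun i : Fin (n + 1) => (n : ℂ) - ((i : ℕ) : ℂ)) = ((n : ℂ) / 2) • (1 : SMat n) + spinZ n := by
  unfold spinZ
  rw [← Matrix.diagonal_one, ← Matrix.diagonal_smul, Matrix.diagonal_add]
  congr 1
  funext i
  simp only [Pi.smul_apply, smul_eq_mul, mul_one]
  ring

lemma devD_eq_half_sub_Z : devD n = ((n : ℂ) / 2) • (1 : SMat n) - spinZ n := by
  unfold spinZ devD
  rw [← Matrix.diagonal_one, ← Matrix.diagonal_smul, Matrix.diagonal_sub]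
  congr 1
  funext i
  simp

lemma spinZ_eq_half_sub_D : spinZ n = ((n : ℂ) / 2) • (1 : SMat n) - devD n := by
  rw [devD_eq_half_sub_Z]; abel

lemma spinP_mul_spinM :
    spinP n * spinM n = diagonal fun i : Fin (n + 1) => (((i : ℕ) : ℂ) + 1) * ((n : ℂ) - ((i : ℕ) : ℂ)) := by
  ext i j
  rw [Matrix.mul_apply]
  by_cases hin : (i : ℕ) = n
  · -- last index
    have hij : (Matrix.diagonal fun i : Fin (n + 1) => (((i : ℕ) : ℂ) + 1) * ((n : ℂ) - ((i : ℕ) : ℂ))) i j = 0 := by
      by_cases hij : i = j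
      · subst hij; simp [hin]
      · exact Matrix.diagonal_apply_ne _ hij
    rw [hij]
    refine Finset.sum_eq_zero fun k _ => ?_
    rw [spinP_apply, if_neg (by have := k.2; omega), zero_mul]
  · have hlt : (i : ℕ) + 1 < n + 1 := by have := i.2; omega
    rw [Finset.sum_eq_single ⟨(i : ℕ) + 1, hlt⟩]
    · unfold spinM
      rw [Matrix.conjTranspose_apply, spinP_apply, spinP_apply, if_pos rfl]
      by_cases hij : i = j
      · subst hij
        rw [if_pos rfl, Matrix.diagonal_apply_eq]
        simp only [RCLike.star_def, Complex.conj_ofReal]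
        rw [← Complex.ofReal_mul, Real.mul_self_sqrt (mul_nonneg (by positivity) (fin_sub_nonneg i))]
        push_cast
        ring
      · rw [Matrix.diagonal_apply_ne _ hij, if_neg, star_zero, mul_zero]
        intro h
        apply hij
        apply Fin.ext
        simp only at h
        omega
    · intro k _ hk
      rw [spinP_apply, if_neg, zero_mul]
      intro h
      apply hk
      apply Fin.ext
      simpa using h
    · intro h; exact absurd (Finset.mem_univ _) h

lemma spinM_mul_spinP :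
    spinM n * spinP n = diagonal fun i : Fin (n + 1) => ((i : ℕ) : ℂ) * ((n : ℂ) + 1 - ((i : ℕ) : ℂ)) := by
  ext i j
  rw [Matrix.mul_apply]
  unfold spinM
  by_cases hi : (i : ℕ) = 0
  · have hij : (Matrix.diagonal fun i : Fin (n + 1) => ((i : ℕ) : ℂ) * ((n : ℂ) + 1 - ((i : ℕ) : ℂ))) i j = 0 := by
      by_cases hij : i = j
      · subst hij; simp [hi]
      · exact Matrix.diagonal_apply_ne _ hij
    rw [hij]
    refine Finset.sum_eq_zero fun k _ => ?_
    rw [Matrix.conjTranspose_apply, spinP_apply, if_neg (by omega)]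
    simp
  · obtain ⟨i', hi'⟩ : ∃ i' : Fin (n + 1), (i' : ℕ) + 1 = (i : ℕ) :=
      ⟨⟨(i : ℕ) - 1, by have := i.2; omega⟩, by simp; omega⟩
    rw [Finset.sum_eq_single i']
    · rw [Matrix.conjTranspose_apply, spinP_apply, spinP_apply, if_pos hi'.symm]
      by_cases hij : i = j
      · subst hij
        rw [if_pos hi'.symm, Matrix.diagonal_apply_eq]
        simp only [RCLike.star_def, Complex.conj_ofReal]
        rw [← Complex.ofReal_mul, Real.mul_self_sqrt (mul_nonneg (by positivity) (fin_sub_nonneg i'))]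
        have h1 : ((i : ℕ) : ℂ) = ((i' : ℕ) : ℂ) + 1 := by
          rw [← hi']; push_cast; ring
        push_cast
        rw [h1]
        ring
      · rw [Matrix.diagonal_apply_ne _ hij, if_neg, mul_zero]
        intro h
        apply hij
        apply Fin.ext
        omega
    · intro k _ hk
      rw [Matrix.conjTranspose_apply, spinP_apply, if_neg, star_zero, zero_mul]
      intro h
      apply hk
      apply Fin.ext
      omega
    · intro h; exact absurd (Finset.mem_univ _) h

/-- The commutator `[S⁺, S⁻] = 2 S³`. -/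
lemma spin_comm_PM : spinP n * spinM n - spinM n * spinP n = (2 : ℂ) • spinZ n := by
  rw [spinP_mul_spinM, spinM_mul_spinP]
  unfold spinZ
  rw [Matrix.diagonal_sub, ← Matrix.diagonal_smul]
  congr 1
  funext i
  simp only [Pi.smul_apply, smul_eq_mul]
  ring

/-- `S⁻` raises the number of deviations. -/
lemma devD_comm_M : devD n * spinM n - spinM n * devD n = spinM n := by
  ext i j
  unfold devD spinM
  rw [Matrix.sub_apply, Matrix.diagonal_mul, Matrix.mul_diagonal, Matrix.conjTranspose_apply,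
    spinP_apply]
  split_ifs with h
  · have h1 : ((i : ℕ) : ℂ) = ((j : ℕ) : ℂ) + 1 := by rw [h]; push_cast; ring
    rw [h1]; ring
  · simp

lemma devD_comm_P : devD n * spinP n - spinP n * devD n = -spinP n := by
  ext i j
  unfold devD
  rw [Matrix.sub_apply, Matrix.diagonal_mul, Matrix.mul_diagonal, spinP_apply, Matrix.neg_apply,
    spinP_apply]
  split_ifs with h
  · have h1 : ((j : ℕ) : ℂ) = ((i : ℕ) : ℂ) + 1 := by rw [h]; push_cast; ring
    rw [h1]; ring
  · simp

/-- `S¹⊗S¹ + S²⊗S²` in terms of ladder operators. -/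
lemma spinX_spinX_add_spinY_spinY {X : Type} [Fintype X] [DecidableEq X] (x y : X) :
    siteOp x (spinX n) * siteOp y (spinX n) + siteOp x (spinY n) * siteOp y (spinY n)
      = (1 / 2 : ℂ) • (siteOp x (spinP n) * siteOp y (spinM n)
          + siteOp x (spinM n) * siteOp y (spinP n)) := by
  unfold spinX spinY
  simp only [siteOp_smul, siteOp_add, siteOp_sub, smul_mul_assoc, mul_smul_comm, smul_smul,
    add_mul, mul_add, sub_mul, mul_sub, smul_add, smul_sub]
  have h1 : (1 / (2 * Complex.I)) * (1 / (2 * Complex.I)) = -(1 / 4 : ℂ) := by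
    rw [div_mul_div_comm, one_mul]
    have : (2 * Complex.I) * (2 * Complex.I) = -4 := by
      have h := Complex.I_mul_I
      linear_combination (4 : ℂ) * h
    rw [this]
    norm_num
  have h2 : (1 / 2 : ℂ) * (1 / 2) = 1 / 4 := by norm_num
  rw [h1, h2]
  ext σ τ
  simp only [Matrix.add_apply, Matrix.sub_apply, Matrix.smul_apply, smul_eq_mul]
  ring

/-- First column facts used for polarised sites. -/
lemma bosB_first_col (i : Fin (n + 1)) : bosB n i 0 = 0 := by
  rw [bosB_apply, if_neg]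
  simp

lemma spinP_first_col (i : Fin (n + 1)) : spinP n i 0 = 0 := by
  rw [spinP_apply, if_neg]
  simp

lemma bosA_first_col (i : Fin (n + 1)) (hi : i ≠ 0) : bosA n i 0 = 0 := by
  unfold bosA
  exact Matrix.diagonal_apply_ne _ hi

lemma bosA_zero_zero : bosA n 0 0 = ((Real.sqrt (n : ℝ) : ℝ) : ℂ) := by
  unfold bosA
  rw [Matrix.diagonal_apply_eq]
  simp

lemma spinPM_first_col (i : Fin (n + 1)) (hi : i ≠ 0) : (spinP n * spinM n) i 0 = 0 := by
  rw [spinP_mul_spinM]
  exact Matrix.diagonal_apply_ne _ hi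

lemma spinPM_zero_zero : (spinP n * spinM n) 0 0 = (n : ℂ) := by
  rw [spinP_mul_spinM, Matrix.diagonal_apply_eq]
  simp

lemma spinZ_first_col (i : Fin (n + 1)) (hi : i ≠ 0) : spinZ n i 0 = 0 := by
  unfold spinZ
  exact Matrix.diagonal_apply_ne _ hi

lemma spinZ_zero_zero : spinZ n 0 0 = (n : ℂ) / 2 := by
  unfold spinZ
  rw [Matrix.diagonal_apply_eq]
  simp

lemma bosB_spinM_first_col (hn : 1 ≤ n) (i : Fin (n + 1)) (hi : i ≠ 0) :
    (bosB n * spinM n) i 0 = 0 := by
  rw [Matrix.mul_apply]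
  refine Finset.sum_eq_zero fun k _ => ?_
  unfold spinM
  rw [Matrix.conjTranspose_apply, spinP_apply, bosB_apply]
  by_cases hk : (k : ℕ) = (i : ℕ) + 1
  · have h0 : (i : ℕ) ≠ 0 := fun h => hi (Fin.ext (by simpa using h))
    have h1 : ¬ (k : ℕ) = ((0 : Fin (n + 1)) : ℕ) + 1 := by
      simp only [Fin.val_zero]
      omega
    simp only [if_neg h1, star_zero, mul_zero]
  · rw [if_neg hk, zero_mul]

lemma bosB_spinM_zero_zero (hn : 1 ≤ n) :
    (bosB n * spinM n) 0 0 = ((Real.sqrt (n : ℝ) : ℝ) : ℂ) := by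
  rw [Matrix.mul_apply]
  have h1 : (1 : ℕ) < n + 1 := by omega
  rw [Finset.sum_eq_single (⟨1, h1⟩ : Fin (n + 1))]
  · unfold spinM
    rw [Matrix.conjTranspose_apply, spinP_apply, bosB_apply]
    simp
  · intro k _ hk
    rw [bosB_apply, if_neg, zero_mul]
    intro h
    apply hk
    apply Fin.ext
    simpa using h
  · intro h; exact absurd (Finset.mem_univ _) h

lemma spinM_first_col_norm (hn : 1 ≤ n) :
    spinM n (⟨1, by omega⟩ : Fin (n + 1)) 0 = ((Real.sqrt (n : ℝ) : ℝ) : ℂ) := by
  unfold spinM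
  rw [Matrix.conjTranspose_apply, spinP_apply]
  simp

end Vale.Agent.P361Lib
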