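import Mathlib

/-!
# Peierls-type trace inequalities for Hermitian matrices
-/

open Matrix
open scoped MatrixOrder ComplexOrder

noncomputable section

namespace Vale.Agent.P361Lib

variable {Ω : Type} [Fintype Ω] [DecidableEq Ω]

/-- The real quadratic form of a matrix. -/
def qf (M : Matrix Ω Ω ℂ) (v : Ω → ℂ) : ℝ := (star v ⬝ᵥ M *ᵥ v).re

/-- Exponential of a unitarily diagonalised matrix. -/
lemma exp_unitary_conj {V : Matrix Ω Ω ℂ} (hV1 : Vᴴ * V = 1) (hV2 : V * Vᴴ = 1) (d : Ω → ℝ) :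
    NormedSpace.exp (V * diagonal (fun i => ((d i : ℝ) : ℂ)) * Vᴴ)
      = V * diagonal (fun i => ((Real.exp (d i) : ℝ) : ℂ)) * Vᴴ := by
  have hinv : V⁻¹ = Vᴴ := Matrix.inv_eq_right_inv hV2
  have hunit : IsUnit V := by
    rw [Matrix.isUnit_iff_isUnit_det]
    exact Matrix.isUnit_det_of_right_inverse hV2
  rw [← hinv, Matrix.exp_conj V _ hunit, Matrix.exp_diagonal]
  congr 3
  funext i
  rw [Pi.exp_def, ← Complex.exp_eq_exp_ℂ]
  simp

/-- Quadratic form of a unitarily diagonalised matrix. -/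
lemma quad_conj (V : Matrix Ω Ω ℂ) (d : Ω → ℂ) (v : Ω → ℂ) :
    star v ⬝ᵥ (V * diagonal d * Vᴴ) *ᵥ v
      = ∑ i, star ((Vᴴ *ᵥ v) i) * d i * (Vᴴ *ᵥ v) i := by
  have e : (V * diagonal d * Vᴴ) *ᵥ v = V *ᵥ (diagonal d *ᵥ (Vᴴ *ᵥ v)) := by
    simp only [Matrix.mulVec_mulVec, Matrix.mul_assoc]
  have e2 : star v ᵥ* V = star (Vᴴ *ᵥ v) := by
    rw [Matrix.star_mulVec, Matrix.conjTranspose_conjTranspose]
  rw [e, Matrix.dotProduct_mulVec, e2, dotProduct]
  refine Finset.sum_congr rfl fun i _ => ?_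
  rw [Matrix.mulVec_diagonal, mul_assoc]
  rfl

lemma norm_sq_conj {V : Matrix Ω Ω ℂ} (hV2 : V * Vᴴ = 1) (v : Ω → ℂ) :
    ∑ i, star ((Vᴴ *ᵥ v) i) * (Vᴴ *ᵥ v) i = star v ⬝ᵥ v := by
  have h := quad_conj V (fun _ => (1 : ℂ)) v
  have e : V * diagonal (fun _ : Ω => (1 : ℂ)) * Vᴴ = 1 := by
    rw [Matrix.diagonal_one, mul_one, hV2]
  rw [e, Matrix.one_mulVec] at h
  rw [h]
  refine Finset.sum_congr rfl fun i _ => ?_
  ring

/-- Peierls' inequality for a unit vector. -/
lemma peierls {A : Matrix Ω Ω ℂ} (hA : A.IsHermitian) {v : Ω → ℂ} (hv : star v ⬝ᵥ v = 1) :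
    Real.exp (qf A v) ≤ qf (NormedSpace.exp A) v := by
  classical
  set V : Matrix Ω Ω ℂ := (hA.eigenvectorUnitary : Matrix Ω Ω ℂ) with hVdef
  have hV1 : Vᴴ * V = 1 := by
    have := Unitary.coe_star_mul_self hA.eigenvectorUnitary
    rwa [Matrix.star_eq_conjTranspose] at this
  have hV2 : V * Vᴴ = 1 := mul_eq_one_comm.mp hV1
  set lam : Ω → ℝ := hA.eigenvalues with hlam
  have hspec : A = V * diagonal (fun i => ((lam i : ℝ) : ℂ)) * Vᴴ := by
    have := hA.spectral_theorem
    rw [Unitary.conjStarAlgAut_apply, Matrix.star_eq_conjTranspose] at this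
    exact this
  have hexp : NormedSpace.exp A = V * diagonal (fun i => ((Real.exp (lam i) : ℝ) : ℂ)) * Vᴴ := by
    rw [hspec]
    exact exp_unitary_conj hV1 hV2 lam
  set w := Vᴴ *ᵥ v with hw
  set p : Ω → ℝ := fun i => Complex.normSq (w i) with hp
  have hterm : ∀ (r : ℝ) (i : Ω), (star (w i) * (r : ℂ) * w i).re = p i * r := by
    intro r i
    have : star (w i) * (r : ℂ) * w i = ((p i * r : ℝ) : ℂ) := by
      simp only [hp]
      rw [Complex.ofReal_mul, Complex.normSq_eq_conj_mul_self]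
      simp only [RCLike.star_def]
      push_cast
      ring
    rw [this, Complex.ofReal_re]
  have hp0 : ∀ i ∈ Finset.univ, 0 ≤ p i := fun i _ => Complex.normSq_nonneg _
  have hp1 : ∑ i ∈ Finset.univ, p i = 1 := by
    have h1 := norm_sq_conj hV2 v
    rw [hv] at h1
    have h2 := congrArg Complex.re h1
    simp only [Complex.re_sum, Complex.one_re] at h2
    rw [← h2]
    refine Finset.sum_congr rfl fun i _ => ?_
    show Complex.normSq (w i) = (star (w i) * w i).re
    simp only [Complex.star_def, Complex.mul_re, Complex.conj_re, Complex.conj_im, Complex.normSq_apply]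
    ring
  have hqA : qf A v = ∑ i, p i * lam i := by
    unfold qf
    rw [hspec, quad_conj, Complex.re_sum]
    exact Finset.sum_congr rfl fun i _ => hterm _ i
  have hqE : qf (NormedSpace.exp A) v = ∑ i, p i * Real.exp (lam i) := by
    unfold qf
    rw [hexp, quad_conj, Complex.re_sum]
    exact Finset.sum_congr rfl fun i _ => hterm _ i
  rw [hqA, hqE]
  have := convexOn_exp.map_sum_le hp0 hp1 (fun i _ => Set.mem_univ (lam i))
  simpa [smul_eq_mul] using this

/-- Bessel-type inequality for positive matrices and an orthonormal family. -/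
lemma sum_qf_le_trace {ι : Type} [Fintype ι] [DecidableEq ι] {G : Matrix Ω Ω ℂ} (hG : G.PosSemidef)
    (Ψ : ι → Ω → ℂ) (hΨ : ∀ i j, star (Ψ i) ⬝ᵥ Ψ j = if i = j then 1 else 0) :
    ∑ i, qf G (Ψ i) ≤ (trace G).re := by
  set W : Matrix Ω ι ℂ := Matrix.of fun a i => Ψ i a with hW
  have hWW : Wᴴ * W = 1 := by
    ext i j
    rw [Matrix.mul_apply, Matrix.one_apply, ← hΨ i j]
    simp only [dotProduct, hW, Matrix.conjTranspose_apply, Matrix.of_apply, Pi.star_apply]
  set P : Matrix Ω Ω ℂ := W * Wᴴ with hP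
  have hPH : Pᴴ = P := by
    rw [hP, Matrix.conjTranspose_mul, Matrix.conjTranspose_conjTranspose]
  have hPP : P * P = P := by
    rw [hP, Matrix.mul_assoc, ← Matrix.mul_assoc Wᴴ, hWW, Matrix.one_mul]
  have hQH : (1 - P)ᴴ = 1 - P := by
    rw [Matrix.conjTranspose_sub, Matrix.conjTranspose_one, hPH]
  have hQQ : (1 - P) * (1 - P) = 1 - P := by
    rw [sub_mul, mul_sub, mul_sub, one_mul, mul_one, one_mul, hPP]
    abel
  have h1 : (trace (G * (1 - P))).re ≥ 0 := by
    have hpsd := hG.conjTranspose_mul_mul_same (1 - P)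
    have htr := hpsd.trace_nonneg
    have e : trace ((1 - P)ᴴ * G * (1 - P)) = trace (G * (1 - P)) := by
      rw [hQH, mul_assoc, Matrix.trace_mul_comm, mul_assoc, hQQ]
    rw [e] at htr
    exact (Complex.le_def.mp htr).1
  have h2 : ∑ i, qf G (Ψ i) = (trace (G * P)).re := by
    rw [hP, ← Matrix.mul_assoc, Matrix.trace_mul_comm, Matrix.trace, Complex.re_sum]
    refine Finset.sum_congr rfl fun i _ => ?_
    unfold qf
    simp only [dotProduct, Matrix.diag_apply, Matrix.mul_apply, hW, Matrix.conjTranspose_apply,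
      Matrix.of_apply, Pi.star_apply, Matrix.mulVec]
  have h3 : trace G = trace (G * P) + trace (G * (1 - P)) := by
    rw [← Matrix.trace_add, ← mul_add]
    simp
  rw [h3, h2, Complex.add_re]
  linarith

/-- Peierls' lower bound: for an orthonormal family of vectors. -/
theorem sum_exp_qf_le_trace_exp {ι : Type} [Fintype ι] [DecidableEq ι] {B : Matrix Ω Ω ℂ}
    (hB : B.IsHermitian) (Ψ : ι → Ω → ℂ)
    (hΨ : ∀ i j, star (Ψ i) ⬝ᵥ Ψ j = if i = j then 1 else 0) :
    ∑ i, Real.exp (-qf B (Ψ i)) ≤ (trace (NormedSpace.exp (-B))).re := by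
  have hnB : (-B).IsHermitian := hB.neg
  have hpos : (NormedSpace.exp (-B)).PosSemidef := by
    set E := NormedSpace.exp ((1 / 2 : ℝ) • (-B)) with hE
    have hEH : Eᴴ = E := by
      refine (Matrix.IsHermitian.exp ?_).eq
      unfold Matrix.IsHermitian
      rw [Matrix.conjTranspose_smul, hnB.eq]
      simp
    have e : NormedSpace.exp (-B) = Eᴴ * E := by
      rw [hEH, hE, ← Matrix.exp_add_of_commute _ _ (Commute.refl _), ← add_smul]
      norm_num
    rw [e]
    exact Matrix.posSemidef_conjTranspose_mul_self E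
  refine le_trans ?_ (sum_qf_le_trace hpos Ψ hΨ)
  refine Finset.sum_le_sum fun i _ => ?_
  have hunit : star (Ψ i) ⬝ᵥ Ψ i = 1 := by
    rw [hΨ i i, if_pos rfl]
  have h := peierls hnB hunit
  have e : qf (-B) (Ψ i) = -qf B (Ψ i) := by
    unfold qf
    rw [Matrix.neg_mulVec, dotProduct_neg, Complex.neg_re]
  rwa [e] at h

/-- Trace of the exponential in the eigenbasis. -/
lemma trace_exp_eq_sum {B : Matrix Ω Ω ℂ} (hB : B.IsHermitian) :
    ∃ Ψ : Ω → Ω → ℂ, (∀ i j, star (Ψ i) ⬝ᵥ Ψ j = if i = j then 1 else 0) ∧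
      (trace (NormedSpace.exp (-B))).re = ∑ i, Real.exp (-qf B (Ψ i)) := by
  classical
  set V : Matrix Ω Ω ℂ := (hB.eigenvectorUnitary : Matrix Ω Ω ℂ) with hVdef
  have hV1 : Vᴴ * V = 1 := by
    have := Unitary.coe_star_mul_self hB.eigenvectorUnitary
    rwa [Matrix.star_eq_conjTranspose] at this
  have hV2 : V * Vᴴ = 1 := mul_eq_one_comm.mp hV1
  set lam : Ω → ℝ := hB.eigenvalues with hlam
  have hspec : B = V * diagonal (fun i => ((lam i : ℝ) : ℂ)) * Vᴴ := by
    have := hB.spectral_theorem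
    rw [Unitary.conjStarAlgAut_apply, Matrix.star_eq_conjTranspose] at this
    exact this
  set Ψ : Ω → Ω → ℂ := fun i a => V a i with hΨdef
  have hortho : ∀ i j, star (Ψ i) ⬝ᵥ Ψ j = if i = j then 1 else 0 := by
    intro i j
    have := congrFun (congrFun hV1 i) j
    rw [Matrix.mul_apply, Matrix.one_apply] at this
    rw [← this]
    simp only [dotProduct, hΨdef, Pi.star_apply, Matrix.conjTranspose_apply]
  refine ⟨Ψ, hortho, ?_⟩
  have hneg : -B = V * diagonal (fun i => ((-lam i : ℝ) : ℂ)) * Vᴴ := by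
    have hd : diagonal (fun i => ((-lam i : ℝ) : ℂ)) = -diagonal (fun i => ((lam i : ℝ) : ℂ)) := by
      ext a b
      by_cases hab : a = b
      · subst hab; simp
      · simp [Matrix.diagonal_apply_ne _ hab]
    rw [hspec, hd, Matrix.mul_neg, Matrix.neg_mul]
  have hqf : ∀ i, qf B (Ψ i) = lam i := by
    intro i
    have hw : Vᴴ *ᵥ Ψ i = Pi.single i 1 := by
      ext j
      have := congrFun (congrFun hV1 j) i
      rw [Matrix.mul_apply, Matrix.one_apply] at this
      simp only [Matrix.mulVec, dotProduct, hΨdef]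
      rw [this]
      simp [Pi.single_apply]
    unfold qf
    rw [hspec, quad_conj, hw, Finset.sum_eq_single i]
    · simp
    · intro j _ hj
      simp [Pi.single_apply, hj]
    · intro h; exact absurd (Finset.mem_univ _) h
  rw [hneg, exp_unitary_conj hV1 hV2, Matrix.trace_mul_comm, ← mul_assoc, hV1, one_mul,
    Matrix.trace_diagonal, Complex.re_sum]
  refine Finset.sum_congr rfl fun i _ => ?_
  rw [hqf, Complex.ofReal_re]

/-- Monotonicity of the trace of the exponential under the Loewner order. -/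
theorem trace_exp_neg_mono {A B : Matrix Ω Ω ℂ} (hA : A.IsHermitian) (hB : B.IsHermitian)
    (hAB : A ≤ B) :
    (trace (NormedSpace.exp (-B))).re ≤ (trace (NormedSpace.exp (-A))).re := by
  obtain ⟨Ψ, hΨ, hs⟩ := trace_exp_eq_sum hB
  rw [hs]
  refine le_trans ?_ (sum_exp_qf_le_trace_exp hA Ψ hΨ)
  refine Finset.sum_le_sum fun i _ => ?_
  apply Real.exp_le_exp.mpr
  apply neg_le_neg
  have hpos := (Matrix.le_iff.mp hAB).re_dotProduct_nonneg (Ψ i)
  unfold qf
  rw [Matrix.sub_mulVec, dotProduct_sub] at hpos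
  simp only [map_sub, RCLike.re_to_complex] at hpos
  linarith

end Vale.Agent.P361Lib
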