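import Vale.Agent.Lib.P361.PeierlsGen

/-!
# The trace bound through a comparison map
-/

open Matrix
open scoped MatrixOrder ComplexOrder

noncomputable section

namespace Vale.Agent.P361Lib

variable {Ω M : Type} [Fintype Ω] [DecidableEq Ω] [Fintype M] [DecidableEq M]

/-- Squared norm of a complex vector. -/
def vnsq {ι : Type} [Fintype ι] (ψ : ι → ℂ) : ℝ := ∑ i, Complex.normSq (ψ i)

lemma vnsq_eq {ι : Type} [Fintype ι] (ψ : ι → ℂ) : ((star ψ ⬝ᵥ ψ : ℂ)) = (vnsq ψ : ℂ) := by
  unfold vnsq dotProduct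
  push_cast
  refine Finset.sum_congr rfl fun i _ => ?_
  rw [Complex.normSq_eq_conj_mul_self]
  rfl

lemma vnsq_nonneg {ι : Type} [Fintype ι] (ψ : ι → ℂ) : 0 ≤ vnsq ψ :=
  Finset.sum_nonneg fun _ _ => Complex.normSq_nonneg _

/-- Weighted squared norm. -/
def wnsq {ι : Type} [Fintype ι] (E : ι → ℝ) (ψ : ι → ℂ) : ℝ := ∑ i, E i * Complex.normSq (ψ i)

lemma qf_rdiag {ι : Type} [Fintype ι] [DecidableEq ι] (E : ι → ℝ) (ψ : ι → ℂ) :
    qf (rdiag E) ψ = wnsq E ψ := by
  unfold qf rdiag wnsq dotProduct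
  rw [Complex.re_sum]
  refine Finset.sum_congr rfl fun i _ => ?_
  rw [Matrix.mulVec_diagonal]
  simp only [Pi.star_apply]
  have : star (ψ i) * (((E i : ℝ) : ℂ) * ψ i) = ((E i * Complex.normSq (ψ i) : ℝ) : ℂ) := by
    push_cast
    rw [Complex.normSq_eq_conj_mul_self]
    simp only [RCLike.star_def]
    ring
  rw [this, Complex.ofReal_re]

/-- The quadratic form of a compressed matrix. -/
lemma qf_conj {κ : Type} [Fintype κ] (A : Matrix M M ℂ) (S : Matrix M κ ℂ) (c : κ → ℂ) :
    qf (Sᴴ * A * S) c = qf A (S *ᵥ c) := by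
  unfold qf
  have e : (Sᴴ * A * S) *ᵥ c = Sᴴ *ᵥ (A *ᵥ (S *ᵥ c)) := by
    simp only [Matrix.mulVec_mulVec, Matrix.mul_assoc]
  rw [e, Matrix.dotProduct_mulVec, Matrix.star_mulVec]

lemma quad_im_zero {κ : Type} [Fintype κ] {C : Matrix κ κ ℂ} (hC : C.IsHermitian) (c : κ → ℂ) :
    (star c ⬝ᵥ C *ᵥ c).im = 0 := by
  have h1 : star (star c ⬝ᵥ C *ᵥ c) = star c ⬝ᵥ C *ᵥ c := by
    have e : star c ⬝ᵥ C *ᵥ c = (star c ᵥ* C) ⬝ᵥ c := Matrix.dotProduct_mulVec _ _ _
    have e2 : star (C *ᵥ c) = star c ᵥ* C := by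
      rw [Matrix.star_mulVec, hC.eq]
    rw [← Matrix.star_dotProduct_star, star_star, e2, e]
  have h2 := congrArg Complex.im h1
  simp only [Complex.star_def, Complex.conj_im] at h2
  linarith

/-- A quadratic-form inequality gives the Loewner inequality. -/
lemma le_of_qf_le {κ : Type} [Fintype κ] [DecidableEq κ] {A B : Matrix κ κ ℂ} (hA : A.IsHermitian)
    (hB : B.IsHermitian) (h : ∀ c, qf A c ≤ qf B c) : A ≤ B := by
  rw [Matrix.le_iff]
  refine Matrix.PosSemidef.of_dotProduct_mulVec_nonneg (hB.sub hA) fun c => ?_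
  rw [Complex.le_def]
  constructor
  · have := h c
    unfold qf at this
    rw [Matrix.sub_mulVec, dotProduct_sub, Complex.sub_re]
    simp only [Complex.zero_re]
    linarith
  · exact (quad_im_zero (hB.sub hA) c).symm

/-- Loewner inequality gives the quadratic-form inequality. -/
lemma qf_le_of_le {κ : Type} [Fintype κ] [DecidableEq κ] {A B : Matrix κ κ ℂ} (h : A ≤ B) (c : κ → ℂ) :
    qf A c ≤ qf B c := by
  have hpos := (Matrix.le_iff.mp h).re_dotProduct_nonneg c
  unfold qf
  rw [Matrix.sub_mulVec, dotProduct_sub] at hpos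
  simp only [map_sub, RCLike.re_to_complex] at hpos
  linarith

lemma qf_one {κ : Type} [Fintype κ] [DecidableEq κ] (c : κ → ℂ) :
    qf (1 : Matrix κ κ ℂ) c = vnsq c := by
  unfold qf
  rw [Matrix.one_mulVec, vnsq_eq, Complex.ofReal_re]

lemma qf_smul_one {κ : Type} [Fintype κ] [DecidableEq κ] (g : ℝ) (c : κ → ℂ) :
    qf ((g : ℂ) • (1 : Matrix κ κ ℂ)) c = g * vnsq c := by
  unfold qf
  rw [Matrix.smul_mulVec, Matrix.one_mulVec, dotProduct_smul, vnsq_eq, smul_eq_mul, ← Complex.ofReal_mul,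
    Complex.ofReal_re]

/-- The trace bound through a comparison map: the abstract lemma for the upper bound. -/
theorem trace_bound_of_map {A : Matrix Ω Ω ℂ} (hA : A.IsHermitian) (R : Matrix M Ω ℂ) (E : M → ℝ)
    (hE : ∀ m, 0 ≤ E m) {α e θ ω E₀ β : ℝ} (hα : 0 < α) (hω : 0 ≤ ω) (hβ : 0 < β) (hE₀ : 0 ≤ E₀)
    (h1 : ∀ ψ : Ω → ℂ, wnsq E (R *ᵥ ψ) ≤ α * qf A ψ + e * vnsq ψ)
    (h2 : ∀ ψ : Ω → ℂ, θ * vnsq ψ - ω * qf A ψ ≤ vnsq (R *ᵥ ψ))
    (hg : 0 < θ - ω * E₀) :
    (trace (NormedSpace.exp (-(β • A)))).re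
      ≤ Real.exp (β * e / α) * ∑ m, Real.exp (-(β * (θ - ω * E₀) / α * E m))
        + (Fintype.card Ω : ℝ) * Real.exp (-(β * E₀)) := by
  classical
  set V : Matrix Ω Ω ℂ := (hA.eigenvectorUnitary : Matrix Ω Ω ℂ) with hVdef
  have hV1 : Vᴴ * V = 1 := by
    have := Unitary.coe_star_mul_self hA.eigenvectorUnitary
    rwa [Matrix.star_eq_conjTranspose] at this
  have hV2 : V * Vᴴ = 1 := mul_eq_one_comm.mp hV1
  set lam : Ω → ℝ := hA.eigenvalues with hlam
  have hspec : A = V * rdiag lam * Vᴴ := by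
    have := hA.spectral_theorem
    rw [Unitary.conjStarAlgAut_apply, Matrix.star_eq_conjTranspose] at this
    exact this
  have hVqf : ∀ w : Ω → ℂ, qf A (V *ᵥ w) = wnsq lam w := by
    intro w
    rw [← qf_conj, ← qf_rdiag]
    congr 1
    rw [hspec]
    simp only [Matrix.mul_assoc]
    rw [← Matrix.mul_assoc Vᴴ V, hV1, Matrix.one_mul, Matrix.mul_one]
  have hVn : ∀ w : Ω → ℂ, vnsq (V *ᵥ w) = vnsq w := by
    intro w
    rw [← qf_one, ← qf_one, ← qf_conj, Matrix.mul_one, hV1]
  -- the low-energy index set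
  let J : Type := {j : Ω // lam j ≤ E₀}
  let _ : Fintype J := Subtype.fintype _
  let _ : DecidableEq J := Classical.decEq _
  set ext : (J → ℂ) → Ω → ℂ := fun c i => if h : lam i ≤ E₀ then c ⟨i, h⟩ else 0 with hext
  have hsumJ : ∀ f : Ω → ℝ, ∑ j : J, f j.1 = ∑ i ∈ Finset.univ.filter (fun i => lam i ≤ E₀), f i :=
    fun f => (Finset.sum_subtype (Finset.univ.filter (fun i => lam i ≤ E₀)) (by simp) f).symm
  have hext_w : ∀ (F : Ω → ℝ) (c : J → ℂ), wnsq F (ext c) = wnsq (fun j : J => F j.1) c := by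
    intro F c
    unfold wnsq
    have h3 : ∀ i, F i * Complex.normSq (ext c i)
        = if lam i ≤ E₀ then F i * Complex.normSq (ext c i) else 0 := by
      intro i
      by_cases h : lam i ≤ E₀
      · rw [if_pos h]
      · rw [if_neg h]
        simp [hext, h]
    rw [Finset.sum_congr rfl fun i _ => h3 i, ← Finset.sum_filter, ← hsumJ]
    refine Finset.sum_congr rfl fun j _ => ?_
    simp only [hext]
    rw [dif_pos j.2]
  have hext_n : ∀ c : J → ℂ, vnsq (ext c) = vnsq c := by
    intro c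
    have h3 := hext_w (fun _ => 1) c
    unfold wnsq at h3
    simpa [vnsq] using h3
  set S : Matrix M J ℂ := Matrix.of fun m j => (R * V) m j.1 with hS
  have hSext : ∀ c : J → ℂ, S *ᵥ c = R *ᵥ (V *ᵥ ext c) := by
    intro c
    rw [Matrix.mulVec_mulVec]
    funext m
    simp only [Matrix.mulVec, dotProduct, hS, Matrix.of_apply]
    have h3 : ∀ i, (R * V) m i * ext c i = if lam i ≤ E₀ then (R * V) m i * ext c i else 0 := by
      intro i
      by_cases h : lam i ≤ E₀
      · rw [if_pos h]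
      · rw [if_neg h]
        simp [hext, h]
    rw [Finset.sum_congr rfl fun i _ => h3 i, ← Finset.sum_filter]
    rw [Finset.sum_subtype (Finset.univ.filter (fun i => lam i ≤ E₀)) (p := fun i => lam i ≤ E₀) (by simp) (fun i => (R * V) m i * ext c i)]
    refine Finset.sum_congr rfl fun j _ => ?_
    simp only [hext]
    rw [dif_pos j.2]
  set g : ℝ := θ - ω * E₀ with hgdef
  set t : ℝ := β * g / α with ht
  have ht0 : 0 < t := by positivity
  have hqfA : ∀ c : J → ℂ, qf A (V *ᵥ ext c) = wnsq (fun j : J => lam j.1) c := by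
    intro c
    rw [hVqf, hext_w]
  have hlamc : ∀ c : J → ℂ, wnsq (fun j : J => lam j.1) c ≤ E₀ * vnsq c := by
    intro c
    unfold wnsq vnsq
    rw [Finset.mul_sum]
    exact Finset.sum_le_sum fun j _ => mul_le_mul_of_nonneg_right j.2 (Complex.normSq_nonneg _)
  have hG : (g : ℂ) • (1 : Matrix J J ℂ) ≤ Sᴴ * S := by
    refine le_of_qf_le ?_ (Matrix.isHermitian_conjTranspose_mul_self S) ?_
    · unfold Matrix.IsHermitian
      rw [Matrix.conjTranspose_smul, Matrix.conjTranspose_one]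
      simp
    · intro c
      rw [qf_smul_one]
      have e : Sᴴ * S = Sᴴ * (1 : Matrix M M ℂ) * S := by rw [Matrix.mul_one]
      rw [e, qf_conj, qf_one, hSext]
      have h3 := h2 (V *ᵥ ext c)
      rw [hVn, hext_n, hqfA] at h3
      have h4 := mul_le_mul_of_nonneg_left (hlamc c) hω
      rw [hgdef]
      nlinarith
  set d : J → ℝ := fun j => t * (α * lam j.1 + e) with hd
  have hkey : ∀ c : J → ℂ, t * wnsq E (S *ᵥ c) ≤ wnsq d c := by
    intro c
    rw [hSext]
    have h3 := h1 (V *ᵥ ext c)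
    rw [hVn, hext_n, hqfA] at h3
    have h4 := mul_le_mul_of_nonneg_left h3 ht0.le
    refine h4.trans (le_of_eq ?_)
    unfold wnsq vnsq
    rw [Finset.mul_sum, Finset.mul_sum, ← Finset.sum_add_distrib, Finset.mul_sum]
    refine Finset.sum_congr rfl fun j _ => ?_
    simp only [hd]
    ring
  have hd0 : ∀ j, 0 ≤ d j := by
    intro j
    have h3 := hkey (Pi.single j 1)
    have h5 : wnsq d (Pi.single j (1 : ℂ)) = d j := by
      unfold wnsq
      rw [Finset.sum_eq_single j]
      · simp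
      · intro b _ hb
        simp [Pi.single_apply, hb]
      · intro h
        exact absurd (Finset.mem_univ j) h
    rw [h5] at h3
    refine le_trans ?_ h3
    refine mul_nonneg ht0.le (Finset.sum_nonneg fun m _ => mul_nonneg (hE m) (Complex.normSq_nonneg _))
  have hBH : (t • rdiag E).IsHermitian := by
    unfold Matrix.IsHermitian
    rw [Matrix.conjTranspose_smul, (rdiag_herm E).eq, star_trivial]
  have hqfsmul : ∀ (r : ℝ) (C : Matrix M M ℂ) (v : M → ℂ), qf (r • C) v = r * qf C v := by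
    intro r C v
    unfold qf
    rw [Matrix.smul_mulVec, dotProduct_smul, Complex.real_smul, Complex.re_ofReal_mul]
  have hD : Sᴴ * (t • rdiag E) * S ≤ rdiag d := by
    refine le_of_qf_le (Matrix.isHermitian_conjTranspose_mul_mul S hBH) (rdiag_herm d) ?_
    intro c
    rw [qf_conj, hqfsmul, qf_rdiag, qf_rdiag]
    exact hkey c
  have hP := peierls_gen hBH S hg hG hd0 hD
  have hBexp : (trace (NormedSpace.exp (-(t • rdiag E)))).re = ∑ m, Real.exp (-(t * E m)) := by
    have e1 : t • rdiag E = rdiag fun m => t * E m := by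
      unfold rdiag
      ext a b
      by_cases hab : a = b
      · subst hab
        simp
      · simp [Matrix.diagonal_apply_ne _ hab]
    rw [e1, trace_exp_rdiag]
  rw [hBexp] at hP
  -- the trace of the exponential of `A`
  have hAexp : (trace (NormedSpace.exp (-(β • A)))).re = ∑ i, Real.exp (-(β * lam i)) := by
    have e1 : -(β • A) = V * diagonal (fun i => ((-(β * lam i) : ℝ) : ℂ)) * Vᴴ := by
      rw [hspec]
      have : diagonal (fun i => ((-(β * lam i) : ℝ) : ℂ)) = -(β • rdiag lam) := by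
        unfold rdiag
        ext a b
        by_cases hab : a = b
        · subst hab
          simp
        · simp [Matrix.diagonal_apply_ne _ hab]
      rw [this]
      simp only [Matrix.mul_neg, Matrix.neg_mul, Matrix.mul_smul, Matrix.smul_mul]
    rw [e1, exp_unitary_conj hV1 hV2, Matrix.trace_mul_comm, ← Matrix.mul_assoc, hV1, Matrix.one_mul,
      Matrix.trace_diagonal, Complex.re_sum]
    refine Finset.sum_congr rfl fun i _ => ?_
    rw [Complex.ofReal_re]
  rw [hAexp, ← Finset.sum_filter_add_sum_filter_not Finset.univ (fun i => lam i ≤ E₀)]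
  refine add_le_add ?_ ?_
  · rw [← hsumJ]
    have hgpos : 0 < g := hg
    have e2 : ∀ j : J, Real.exp (-(β * lam j.1))
        = Real.exp (β * e / α) * Real.exp (-(d j / g)) := by
      intro j
      rw [← Real.exp_add]
      congr 1
      simp only [hd, ht]
      field_simp
      ring
    rw [Finset.sum_congr rfl fun j _ => e2 j, ← Finset.mul_sum]
    exact mul_le_mul_of_nonneg_left hP (Real.exp_pos _).le
  · have h3 : ∀ i ∈ Finset.univ.filter (fun i => ¬ lam i ≤ E₀),
        Real.exp (-(β * lam i)) ≤ Real.exp (-(β * E₀)) := by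
      intro i hi
      have hi' : E₀ < lam i := not_le.mp (Finset.mem_filter.mp hi).2
      exact Real.exp_le_exp.mpr (by nlinarith)
    refine (Finset.sum_le_card_nsmul _ _ _ h3).trans ?_
    rw [nsmul_eq_mul]
    refine mul_le_mul_of_nonneg_right ?_ (Real.exp_pos _).le
    exact_mod_cast Finset.card_le_univ _

end Vale.Agent.P361Lib
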