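import Mathlib

/-!
# The abstract ladder trace inequality

An abstract `sl₂`-type computation: for a ladder operator `X` raising a grading `N` by one with
`[X†, X] = 2s - 2N`, and the operator `C = c(N) - ½ X X†`, `c(j) = j (2s+1-j)/2`, we bound
`Tr(F e^{-wC} z^N)` for positive `F` commuting with the ladder.
-/

open Matrix
open scoped MatrixOrder ComplexOrder

noncomputable section

namespace Vale.Agent.P361Lib

section Abstract

variable {Ω : Type} [Fintype Ω] [DecidableEq Ω]

/-- The projector on the sector `N = j`. -/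
def secP (N : Ω → ℕ) (j : ℕ) : Matrix Ω Ω ℂ := diagonal fun σ => if N σ = j then 1 else 0

/-- The function `c(j) = j (2s+1-j)/2`. -/
def ladderC (s : ℝ) (j : ℕ) : ℝ := (j : ℝ) * (2 * s + 1 - j) / 2

/-- The operator `C = c(N) - ½ X X†`. -/
def ladderOp (N : Ω → ℕ) (X : Matrix Ω Ω ℂ) (s : ℝ) : Matrix Ω Ω ℂ :=
  diagonal (fun σ => ((ladderC s (N σ) : ℝ) : ℂ)) - (1 / 2 : ℂ) • (X * Xᴴ)

/-- Ladder data: `X` raises the grading `N` by one and `[X†, X] = 2s - 2N`. -/
structure IsLadder (N : Ω → ℕ) (X : Matrix Ω Ω ℂ) (s : ℝ) : Prop where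
  raise : ∀ σ τ, X σ τ ≠ 0 → N σ = N τ + 1
  comm : Xᴴ * X - X * Xᴴ = diagonal (fun σ => (((2 * s - 2 * (N σ : ℝ)) : ℝ) : ℂ))

variable {N : Ω → ℕ} {X : Matrix Ω Ω ℂ} {s : ℝ} {M : ℕ}

lemma ladderC_succ (s : ℝ) (j : ℕ) : ladderC s (j + 1) = ladderC s j + (s - j) := by
  unfold ladderC; push_cast; ring

lemma ladderC_zero (s : ℝ) : ladderC s 0 = 0 := by
  unfold ladderC; simp

lemma IsLadder.diag_mul (h : IsLadder N X s) (g : ℕ → ℂ) :
    diagonal (fun σ => g (N σ)) * X = X * diagonal (fun σ => g (N σ + 1)) := by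
  ext σ τ
  rw [Matrix.diagonal_mul, Matrix.mul_diagonal]
  by_cases hx : X σ τ = 0
  · simp [hx]
  · rw [h.raise σ τ hx, mul_comm]

lemma IsLadder.mul_diag_H (h : IsLadder N X s) (g : ℕ → ℂ) :
    Xᴴ * diagonal (fun σ => g (N σ)) = diagonal (fun σ => g (N σ + 1)) * Xᴴ := by
  ext σ τ
  rw [Matrix.diagonal_mul, Matrix.mul_diagonal, Matrix.conjTranspose_apply]
  by_cases hx : X τ σ = 0
  · simp [hx]
  · rw [h.raise τ σ hx, mul_comm]

lemma IsLadder.secP_succ_mul (h : IsLadder N X s) (j : ℕ) :
    secP N (j + 1) * X = X * secP N j := by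
  have e : secP N (j + 1) = diagonal (fun σ => (fun i : ℕ => if i = j + 1 then (1 : ℂ) else 0) (N σ)) := rfl
  rw [e, h.diag_mul (fun i : ℕ => if i = j + 1 then (1 : ℂ) else 0)]
  unfold secP
  congr 2
  funext σ
  simp

lemma IsLadder.mul_secP_succ_H (h : IsLadder N X s) (j : ℕ) :
    Xᴴ * secP N (j + 1) = secP N j * Xᴴ := by
  have e : secP N (j + 1) = diagonal (fun σ => (fun i : ℕ => if i = j + 1 then (1 : ℂ) else 0) (N σ)) := rfl
  rw [e, h.mul_diag_H (fun i : ℕ => if i = j + 1 then (1 : ℂ) else 0)]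
  unfold secP
  congr 2
  funext σ
  simp

lemma secP_hermitian (N : Ω → ℕ) (j : ℕ) : (secP N j)ᴴ = secP N j := by
  unfold secP
  rw [Matrix.diagonal_conjTranspose]
  congr 1
  funext σ
  by_cases h : N σ = j <;> simp [h]

lemma secP_mul_secP_self (N : Ω → ℕ) (j : ℕ) : secP N j * secP N j = secP N j := by
  unfold secP
  rw [Matrix.diagonal_mul_diagonal]
  congr 1
  funext σ
  by_cases h : N σ = j <;> simp [h]

lemma ladderOp_hermitian (N : Ω → ℕ) (X : Matrix Ω Ω ℂ) (s : ℝ) :
    (ladderOp N X s)ᴴ = ladderOp N X s := by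
  unfold ladderOp
  rw [Matrix.conjTranspose_sub, Matrix.conjTranspose_smul, Matrix.conjTranspose_mul,
    Matrix.conjTranspose_conjTranspose, Matrix.diagonal_conjTranspose]
  congr 1
  · congr 1
    funext σ
    simp
  · congr 1
    simp

/-- `C` commutes with `X`. -/
lemma IsLadder.commute_op (h : IsLadder N X s) : Commute (ladderOp N X s) X := by
  show ladderOp N X s * X = X * ladderOp N X s
  unfold ladderOp
  have h1 : diagonal (fun σ => ((ladderC s (N σ) : ℝ) : ℂ)) * X
      = X * diagonal (fun σ => ((ladderC s (N σ + 1) : ℝ) : ℂ)) :=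
    h.diag_mul (fun i => ((ladderC s i : ℝ) : ℂ))
  have h2 : diagonal (fun σ => ((ladderC s (N σ + 1) : ℝ) : ℂ))
      = diagonal (fun σ => ((ladderC s (N σ) : ℝ) : ℂ))
        + (1 / 2 : ℂ) • diagonal (fun σ => (((2 * s - 2 * (N σ : ℝ)) : ℝ) : ℂ)) := by
    rw [← Matrix.diagonal_smul, Matrix.diagonal_add]
    congr 1
    funext σ
    simp only [Pi.smul_apply, smul_eq_mul, ladderC_succ]
    push_cast
    ring
  rw [sub_mul, mul_sub, h1, h2, ← h.comm]
  simp only [mul_add, smul_mul_assoc, mul_smul_comm, mul_sub, mul_assoc, smul_sub]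
  abel

lemma IsLadder.commute_op_H (h : IsLadder N X s) : Commute (ladderOp N X s) Xᴴ := by
  have := congrArg Matrix.conjTranspose h.commute_op.eq
  rw [Matrix.conjTranspose_mul, Matrix.conjTranspose_mul, ladderOp_hermitian] at this
  exact this.symm

/-- A matrix preserving the grading commutes with diagonal functions of the grading. -/
lemma commute_diag_of_preserve {A : Matrix Ω Ω ℂ} (hA : ∀ σ τ, A σ τ ≠ 0 → N σ = N τ) (g : ℕ → ℂ) :
    Commute (diagonal (fun σ => g (N σ))) A := by
  show diagonal (fun σ => g (N σ)) * A = A * diagonal (fun σ => g (N σ))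
  ext σ τ
  rw [Matrix.diagonal_mul, Matrix.mul_diagonal]
  by_cases hx : A σ τ = 0
  · simp [hx]
  · rw [hA σ τ hx, mul_comm]

lemma IsLadder.XXH_preserve (h : IsLadder N X s) :
    ∀ σ τ, (X * Xᴴ) σ τ ≠ 0 → N σ = N τ := by
  intro σ τ hne
  rw [Matrix.mul_apply] at hne
  obtain ⟨ρ, _, hρ⟩ := Finset.exists_ne_zero_of_sum_ne_zero hne
  have h1 : X σ ρ ≠ 0 := left_ne_zero_of_mul hρ
  have h2 : Xᴴ ρ τ ≠ 0 := right_ne_zero_of_mul hρ
  have h3 : X τ ρ ≠ 0 := by
    rw [Matrix.conjTranspose_apply] at h2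
    exact fun h => h2 (by simp [h])
  rw [h.raise σ ρ h1, h.raise τ ρ h3]

lemma IsLadder.ladderOp_preserve (h : IsLadder N X s) :
    ∀ σ τ, ladderOp N X s σ τ ≠ 0 → N σ = N τ := by
  intro σ τ hne
  by_cases hst : σ = τ
  · rw [hst]
  · apply h.XXH_preserve σ τ
    intro h0
    apply hne
    unfold ladderOp
    rw [Matrix.sub_apply, Matrix.diagonal_apply_ne _ hst, Matrix.smul_apply, h0]
    simp

lemma secP_eq (N : Ω → ℕ) (j : ℕ) :
    secP N j = diagonal (fun σ => (fun i : ℕ => if i = j then (1 : ℂ) else 0) (N σ)) := rfl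

lemma IsLadder.commute_secP_op (h : IsLadder N X s) (j : ℕ) :
    Commute (secP N j) (ladderOp N X s) := by
  rw [secP_eq]
  exact commute_diag_of_preserve h.ladderOp_preserve (fun i => if i = j then (1 : ℂ) else 0)

/-- The compressed identity on the top sector. -/
lemma secP_succ_gap (N : Ω → ℕ) (X : Matrix Ω Ω ℂ) (s : ℝ) (j : ℕ) :
    secP N (j + 1) * (((ladderC s (j + 1) : ℝ) : ℂ) • (1 : Matrix Ω Ω ℂ) - ladderOp N X s)
      = (1 / 2 : ℂ) • (secP N (j + 1) * (X * Xᴴ)) := by
  unfold ladderOp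
  have hd : secP N (j + 1) * (((ladderC s (j + 1) : ℝ) : ℂ) • (1 : Matrix Ω Ω ℂ)
        - diagonal (fun σ => ((ladderC s (N σ) : ℝ) : ℂ))) = 0 := by
    unfold secP
    rw [← Matrix.diagonal_one, ← Matrix.diagonal_smul, Matrix.diagonal_sub,
      Matrix.diagonal_mul_diagonal]
    rw [← Matrix.diagonal_zero]
    congr 1
    funext σ
    by_cases hσ : N σ = j + 1
    · simp [hσ]
    · simp [hσ]
  have e : ((ladderC s (j + 1) : ℝ) : ℂ) • (1 : Matrix Ω Ω ℂ)
      - (diagonal (fun σ => ((ladderC s (N σ) : ℝ) : ℂ)) - (1 / 2 : ℂ) • (X * Xᴴ))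
      = (((ladderC s (j + 1) : ℝ) : ℂ) • (1 : Matrix Ω Ω ℂ)
        - diagonal (fun σ => ((ladderC s (N σ) : ℝ) : ℂ))) + (1 / 2 : ℂ) • (X * Xᴴ) := by abel
  rw [e, mul_add, hd, zero_add, mul_smul_comm]

/-- The compressed identity on the lower sector. -/
lemma IsLadder.secP_gap (h : IsLadder N X s) (j : ℕ) :
    secP N j * (((ladderC s (j + 1) : ℝ) : ℂ) • (1 : Matrix Ω Ω ℂ) - ladderOp N X s)
      = (1 / 2 : ℂ) • (secP N j * (Xᴴ * X)) := by
  unfold ladderOp
  have hcomm : Xᴴ * X = X * Xᴴ + diagonal (fun σ => (((2 * s - 2 * (N σ : ℝ)) : ℝ) : ℂ)) := by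
    rw [← h.comm]; abel
  have hd : secP N j * (((ladderC s (j + 1) : ℝ) : ℂ) • (1 : Matrix Ω Ω ℂ)
        - diagonal (fun σ => ((ladderC s (N σ) : ℝ) : ℂ)))
      = (1 / 2 : ℂ) • (secP N j * diagonal (fun σ => (((2 * s - 2 * (N σ : ℝ)) : ℝ) : ℂ))) := by
    unfold secP
    rw [← Matrix.diagonal_one, ← Matrix.diagonal_smul, Matrix.diagonal_sub,
      Matrix.diagonal_mul_diagonal, Matrix.diagonal_mul_diagonal, ← Matrix.diagonal_smul]
    congr 1
    funext σ
    by_cases hσ : N σ = j
    · simp only [Pi.smul_apply, smul_eq_mul, hσ, if_true, ladderC_succ]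
      push_cast
      ring
    · simp [hσ]
  have e : ((ladderC s (j + 1) : ℝ) : ℂ) • (1 : Matrix Ω Ω ℂ)
      - (diagonal (fun σ => ((ladderC s (N σ) : ℝ) : ℂ)) - (1 / 2 : ℂ) • (X * Xᴴ))
      = (((ladderC s (j + 1) : ℝ) : ℂ) • (1 : Matrix Ω Ω ℂ)
        - diagonal (fun σ => ((ladderC s (N σ) : ℝ) : ℂ))) + (1 / 2 : ℂ) • (X * Xᴴ) := by abel
  rw [e, mul_add, hd, hcomm, mul_add, smul_add, mul_smul_comm, add_comm]

/-- The key trace identity. -/
lemma IsLadder.trace_key (h : IsLadder N X s) (j : ℕ) {K : Matrix Ω Ω ℂ}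
    (hKX : Commute K X) (hKY : Commute K Xᴴ) :
    trace (K * (secP N (j + 1) * (((ladderC s (j + 1) : ℝ) : ℂ) • (1 : Matrix Ω Ω ℂ) - ladderOp N X s)))
      = trace (K * (secP N j * (((ladderC s (j + 1) : ℝ) : ℂ) • (1 : Matrix Ω Ω ℂ) - ladderOp N X s))) := by
  rw [secP_succ_gap, h.secP_gap, mul_smul_comm, mul_smul_comm, trace_smul, trace_smul]
  congr 1
  -- `Tr(K P_{j+1} X X†) = Tr(K X P_j X†) = Tr(X† K X P_j) = Tr(K X† X P_j) = Tr(K P_j X† X)`
  have h1 : secP N (j + 1) * (X * Xᴴ) = X * (secP N j * Xᴴ) := by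
    rw [← mul_assoc, h.secP_succ_mul, mul_assoc]
  have h2 : secP N j * (Xᴴ * X) = Xᴴ * (secP N (j + 1) * X) := by
    rw [← mul_assoc, ← h.mul_secP_succ_H, mul_assoc]
  rw [h1, h2]
  calc trace (K * (X * (secP N j * Xᴴ)))
      = trace (X * K * (secP N j * Xᴴ)) := by
        rw [← mul_assoc, hKX.eq]
    _ = trace (Xᴴ * (X * K * secP N j)) := by
        rw [← mul_assoc (X * K), Matrix.trace_mul_comm]
    _ = trace (K * (Xᴴ * (X * secP N j))) := by
        have hc : K * (Xᴴ * X) = Xᴴ * X * K := (hKY.mul_right hKX).eq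
        have e1 : Xᴴ * (X * K * secP N j) = (K * (Xᴴ * X)) * secP N j := by
          rw [hc]; simp only [mul_assoc]
        have e2 : K * (Xᴴ * (X * secP N j)) = (K * (Xᴴ * X)) * secP N j := by
          simp only [mul_assoc]
        rw [e1, e2]
    _ = trace (K * (Xᴴ * (secP N (j + 1) * X))) := by
        rw [h.secP_succ_mul]

/-- If the derivative of `w ↦ Tr(K e^{wM})` vanishes identically, the function is constant. -/
lemma trace_exp_const (K M : Matrix Ω Ω ℂ)
    (h : ∀ w : ℝ, trace (K * (NormedSpace.exp (w • M) * M)) = 0) (w : ℝ) :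
    trace (K * NormedSpace.exp (w • M)) = trace K := by
  open scoped Matrix.Norms.Operator in
  have hd : ∀ w : ℝ, HasDerivAt (fun u : ℝ => trace (K * NormedSpace.exp (u • M)))
      (trace (K * (NormedSpace.exp (w • M) * M))) w := by
    intro w
    have h1 : HasDerivAt (fun u : ℝ => NormedSpace.exp (u • M)) (NormedSpace.exp (w • M) * M) w :=
      hasDerivAt_exp_smul_const M w
    have h2 : HasDerivAt (fun u : ℝ => K * NormedSpace.exp (u • M))
        (K * (NormedSpace.exp (w • M) * M)) w := h1.const_mul K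
    let L : Matrix Ω Ω ℂ →L[ℝ] ℂ :=
      LinearMap.toContinuousLinearMap (Matrix.traceLinearMap Ω ℝ ℂ)
    exact L.hasFDerivAt.comp_hasDerivAt w h2
  have hconst := is_const_of_deriv_eq_zero (𝕜 := ℝ)
    (f := fun u : ℝ => trace (K * NormedSpace.exp (u • M)))
    (fun u => (hd u).differentiableAt) (fun u => by rw [(hd u).deriv]; exact h u) w 0
  simpa using hconst

/-- Exponential of a real multiple of the identity. -/
lemma exp_scalar (r : ℝ) :
    NormedSpace.exp (((r : ℂ)) • (1 : Matrix Ω Ω ℂ)) = ((Real.exp r : ℝ) : ℂ) • (1 : Matrix Ω Ω ℂ) := by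
  have h1 : ((r : ℂ)) • (1 : Matrix Ω Ω ℂ) = diagonal (fun _ : Ω => (r : ℂ)) := by
    rw [← Matrix.diagonal_one, ← Matrix.diagonal_smul]
    congr 1
    funext σ
    simp
  have h2 : ((Real.exp r : ℝ) : ℂ) • (1 : Matrix Ω Ω ℂ) = diagonal (fun _ : Ω => ((Real.exp r : ℝ) : ℂ)) := by
    rw [← Matrix.diagonal_one, ← Matrix.diagonal_smul]
    congr 1
    funext σ
    simp
  rw [h1, h2, Matrix.exp_diagonal]
  congr 1
  funext σ
  rw [Pi.exp_def]
  rw [← Complex.exp_eq_exp_ℂ]
  simp

/-- Shifting the generator by a scalar. -/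
lemma exp_shift (C : Matrix Ω Ω ℂ) (a w : ℝ) :
    NormedSpace.exp (w • (((a : ℝ) : ℂ) • (1 : Matrix Ω Ω ℂ) - C))
      = ((Real.exp (w * a) : ℝ) : ℂ) • NormedSpace.exp (w • (-C)) := by
  have e : w • (((a : ℝ) : ℂ) • (1 : Matrix Ω Ω ℂ) - C)
      = (((w * a : ℝ) : ℂ)) • (1 : Matrix Ω Ω ℂ) + w • (-C) := by
    ext σ τ
    simp only [Matrix.smul_apply, Matrix.sub_apply, Matrix.add_apply, Matrix.neg_apply,
      Complex.real_smul, smul_eq_mul]
    push_cast
    ring
  rw [e, Matrix.exp_add_of_commute, exp_scalar, smul_mul_assoc, one_mul]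
  exact (Commute.one_left _).smul_left _

/-- A positive matrix commuting with a Hermitian `A` stays positive after multiplying by `e^A`. -/
lemma posSemidef_mul_exp {G A : Matrix Ω Ω ℂ} (hG : G.PosSemidef) (hA : A.IsHermitian)
    (hc : Commute G A) : (G * NormedSpace.exp A).PosSemidef := by
  set B : Matrix Ω Ω ℂ := (1 / 2 : ℝ) • A with hB
  have hBB : A = B + B := by
    rw [hB, ← add_smul]; norm_num
  have hBH : B.IsHermitian := by
    rw [hB]
    unfold Matrix.IsHermitian
    rw [Matrix.conjTranspose_smul, hA.eq]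
    simp
  have hEH : (NormedSpace.exp B)ᴴ = NormedSpace.exp B := (Matrix.IsHermitian.exp hBH).eq
  have hGB : Commute G B := hc.smul_right _
  have hcE : Commute G (NormedSpace.exp B) := hGB.exp_right
  have e : G * NormedSpace.exp A = (NormedSpace.exp B)ᴴ * G * NormedSpace.exp B := by
    rw [hEH, hBB, Matrix.exp_add_of_commute _ _ (Commute.refl B), ← mul_assoc, hcE.eq]
  rw [e]
  exact hG.conjTranspose_mul_mul_same _

/-- A positive matrix commuting with a Hermitian idempotent stays positive after multiplying. -/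
lemma posSemidef_mul_idem {G P : Matrix Ω Ω ℂ} (hG : G.PosSemidef) (hP : Pᴴ = P) (hPP : P * P = P)
    (hc : Commute G P) : (G * P).PosSemidef := by
  have e : G * P = Pᴴ * G * P := by
    rw [hP, ← hc.eq, mul_assoc, hPP]
  rw [e]
  exact hG.conjTranspose_mul_mul_same _

/-- Dominance of the largest exponent at infinity. -/
lemma dominant_nonneg (E : Finset ℕ) (j : ℕ) (hj : j ∈ E) (c : ℕ → ℝ)
    (hc : ∀ i ∈ E, i ≠ j → c i < c j) (ψ : ℕ → ℝ)
    (h : ∀ u : ℝ, 0 ≤ u → 0 ≤ ∑ i ∈ E, Real.exp (u * c i) * ψ i) : 0 ≤ ψ j := by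
  set f : ℝ → ℝ := fun u => ∑ i ∈ E, Real.exp (u * (c i - c j)) * ψ i with hf
  have hfnn : ∀ᶠ u in Filter.atTop, 0 ≤ f u := by
    filter_upwards [Filter.eventually_ge_atTop (0 : ℝ)] with u hu
    have : f u = Real.exp (-(u * c j)) * ∑ i ∈ E, Real.exp (u * c i) * ψ i := by
      simp only [hf, Finset.mul_sum]
      refine Finset.sum_congr rfl fun i _ => ?_
      rw [← mul_assoc, ← Real.exp_add]
      congr 2
      ring
    rw [this]
    exact mul_nonneg (Real.exp_pos _).le (h u hu)
  have hlim : Filter.Tendsto f Filter.atTop (nhds (∑ i ∈ E, if i = j then ψ i else 0)) := by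
    refine tendsto_finsetSum _ fun i hi => ?_
    by_cases hij : i = j
    · subst hij
      simp
    · rw [if_neg hij]
      have hneg : c i - c j < 0 := sub_neg.mpr (hc i hi hij)
      have h1 : Filter.Tendsto (fun u : ℝ => u * (c i - c j)) Filter.atTop Filter.atBot :=
        Filter.Tendsto.atTop_mul_const_of_neg hneg Filter.tendsto_id
      have h2 := Real.tendsto_exp_atBot.comp h1
      have h3 := h2.mul_const (ψ i)
      simpa using h3
  rw [Finset.sum_ite_eq' E j, if_pos hj] at hlim
  exact ge_of_tendsto hlim hfnn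

section Main

variable {F : Matrix Ω Ω ℂ}

/-- Sector trace with the exponential. -/
def secT (N : Ω → ℕ) (X F : Matrix Ω Ω ℂ) (s : ℝ) (j : ℕ) (w : ℝ) : ℝ :=
  (trace (F * (secP N j * NormedSpace.exp (w • (-ladderOp N X s))))).re

/-- Sector trace. -/
def sect (N : Ω → ℕ) (F : Matrix Ω Ω ℂ) (j : ℕ) : ℝ := (trace (F * secP N j)).re

/-- Successive differences of the sector traces. -/
def ladderPhi (t : ℕ → ℝ) : ℕ → ℝ
  | 0 => t 0
  | (j + 1) => t (j + 1) - t j

lemma secP_zero_gap (h : IsLadder N X s) : secP N 0 * ladderOp N X s = 0 := by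
  have h0 : secP N 0 * X = 0 := by
    ext σ τ
    unfold secP
    rw [Matrix.diagonal_mul]
    by_cases hx : X σ τ = 0
    · simp [hx]
    · have := h.raise σ τ hx
      simp [this]
  unfold ladderOp
  rw [mul_sub, mul_smul_comm, ← mul_assoc, h0]
  have : secP N 0 * diagonal (fun σ => ((ladderC s (N σ) : ℝ) : ℂ)) = 0 := by
    unfold secP
    rw [Matrix.diagonal_mul_diagonal, ← Matrix.diagonal_zero]
    congr 1
    funext σ
    by_cases hσ : N σ = 0
    · simp [hσ, ladderC_zero]
    · simp [hσ]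
  rw [this]
  simp

/-- Hypotheses on the positive weight `F`. -/
structure LadderWeight (N : Ω → ℕ) (X F : Matrix Ω Ω ℂ) : Prop where
  pos : F.PosSemidef
  comX : Commute F X
  comY : Commute F Xᴴ
  comP : ∀ j, Commute F (secP N j)

variable (h : IsLadder N X s) (hF : LadderWeight N X F)

include h hF in
lemma secT_succ (j : ℕ) (w : ℝ) :
    secT N X F s (j + 1) w - secT N X F s j w
      = Real.exp (-w * ladderC s (j + 1)) * (sect N F (j + 1) - sect N F j) := by
  set C := ladderOp N X s with hC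
  set a : ℝ := ladderC s (j + 1) with ha
  set M : Matrix Ω Ω ℂ := ((a : ℝ) : ℂ) • (1 : Matrix Ω Ω ℂ) - C with hM
  set K : Matrix Ω Ω ℂ := F * (secP N (j + 1) - secP N j) with hK
  have hMX : Commute M X := ((Commute.one_left X).smul_left _).sub_left h.commute_op
  have hMY : Commute M Xᴴ := ((Commute.one_left _).smul_left _).sub_left h.commute_op_H
  have hMP : ∀ i, Commute (secP N i) M := fun i =>
    ((Commute.one_right _).smul_right _).sub_right (h.commute_secP_op i)
  have hkey : ∀ u : ℝ, trace (K * (NormedSpace.exp (u • M) * M)) = 0 := by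
    intro u
    set E' := NormedSpace.exp (u • M) with hE'
    have hE'X : Commute E' X := (hMX.smul_left u).exp_left
    have hE'Y : Commute E' Xᴴ := (hMY.smul_left u).exp_left
    have hE'P : ∀ i, Commute (secP N i) E' := fun i => ((hMP i).smul_right u).exp_right
    have h1 := h.trace_key j (K := F * E') (hF.comX.mul_left hE'X) (hF.comY.mul_left hE'Y)
    have e0 : ∀ i, secP N i * (E' * M) = E' * (secP N i * M) := fun i => by
      rw [← mul_assoc, (hE'P i).eq, mul_assoc]
    have e1 : K * (E' * M) = F * E' * (secP N (j + 1) * M) - F * E' * (secP N j * M) := by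
      rw [hK, mul_assoc F, sub_mul, e0, e0, mul_sub]
      simp only [mul_assoc]
    rw [e1, Matrix.trace_sub, h1, sub_self]
  have hconst := trace_exp_const K M hkey w
  rw [exp_shift, hK] at hconst
  have e2 : trace (F * (secP N (j + 1) - secP N j)
        * (((Real.exp (w * a) : ℝ) : ℂ) • NormedSpace.exp (w • (-C))))
      = ((Real.exp (w * a) : ℝ) : ℂ) * (trace (F * (secP N (j + 1) * NormedSpace.exp (w • (-C))))
        - trace (F * (secP N j * NormedSpace.exp (w • (-C))))) := by
    rw [mul_smul_comm, Matrix.trace_smul, smul_eq_mul, mul_sub F, sub_mul, Matrix.trace_sub,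
      mul_assoc F, mul_assoc F]
  rw [e2] at hconst
  have e3 : trace (F * (secP N (j + 1) - secP N j)) = trace (F * secP N (j + 1)) - trace (F * secP N j) := by
    rw [mul_sub, Matrix.trace_sub]
  rw [e3] at hconst
  have hre := congrArg Complex.re hconst
  simp only [Complex.sub_re, Complex.re_ofReal_mul] at hre
  unfold secT sect
  rw [← hC]
  have hpos : Real.exp (w * a) * Real.exp (-w * a) = 1 := by
    rw [← Real.exp_add]; simp
  have e4 : ∀ y : ℝ, y = Real.exp (-w * a) * (Real.exp (w * a) * y) := fun y => by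
    rw [← mul_assoc, mul_comm (Real.exp (-w * a)) (Real.exp (w * a)), hpos, one_mul]
  rw [e4 ((trace (F * (secP N (j + 1) * NormedSpace.exp (w • (-C))))).re
      - (trace (F * (secP N j * NormedSpace.exp (w • (-C))))).re), hre]

include h hF in
lemma secT_zero (w : ℝ) : secT N X F s 0 w = sect N F 0 := by
  set C := ladderOp N X s with hC
  have hkey : ∀ u : ℝ, trace ((F * secP N 0) * (NormedSpace.exp (u • (-C)) * (-C))) = 0 := by
    intro u
    have hP : Commute (secP N 0) (NormedSpace.exp (u • (-C))) :=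
      (((h.commute_secP_op 0).neg_right).smul_right u).exp_right
    have e : (F * secP N 0) * (NormedSpace.exp (u • (-C)) * (-C))
        = -(F * NormedSpace.exp (u • (-C)) * (secP N 0 * C)) := by
      rw [mul_assoc F, ← mul_assoc (secP N 0), hP.eq]
      simp only [mul_assoc, mul_neg]
    rw [e, hC, secP_zero_gap h]
    simp
  have hconst := trace_exp_const (F * secP N 0) (-C) hkey w
  unfold secT sect
  rw [← hC, ← mul_assoc, hconst]

include hF in
lemma sect_nonneg (j : ℕ) : 0 ≤ sect N F j := by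
  have hpsd := posSemidef_mul_idem hF.pos (secP_hermitian N j) (secP_mul_secP_self N j) (hF.comP j)
  have := hpsd.trace_nonneg
  exact (Complex.le_def.mp this).1

include h hF in
lemma secT_nonneg (j : ℕ) (w : ℝ) : 0 ≤ secT N X F s j w := by
  have hpsd := posSemidef_mul_idem hF.pos (secP_hermitian N j) (secP_mul_secP_self N j) (hF.comP j)
  set C := ladderOp N X s with hC
  have hA : (w • (-C)).IsHermitian := by
    unfold Matrix.IsHermitian
    rw [Matrix.conjTranspose_smul, Matrix.conjTranspose_neg, hC, ladderOp_hermitian]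
    simp
  have hcom : Commute (F * secP N j) (w • (-C)) := by
    refine Commute.smul_right (Commute.neg_right (Commute.mul_left ?_ ?_)) w
    · -- `F` commutes with `C`
      show F * ladderOp N X s = ladderOp N X s * F
      unfold ladderOp
      have hd : Commute F (diagonal (fun σ => ((ladderC s (N σ) : ℝ) : ℂ))) := by
        obtain ⟨M, hM⟩ : ∃ M, ∀ σ, N σ ≤ M := by
          refine ⟨Finset.univ.sup N, fun σ => Finset.le_sup (Finset.mem_univ σ)⟩
        have : diagonal (fun σ => ((ladderC s (N σ) : ℝ) : ℂ))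
            = ∑ j ∈ Finset.range (M + 1), ((ladderC s j : ℝ) : ℂ) • secP N j := by
          ext σ τ
          rw [Matrix.sum_apply]
          by_cases hst : σ = τ
          · subst hst
            simp only [Matrix.smul_apply, smul_eq_mul]
            unfold secP
            simp only [Matrix.diagonal_apply_eq, mul_ite, mul_one, mul_zero]
            rw [Finset.sum_ite_eq, if_pos (Finset.mem_range.mpr (Nat.lt_succ_of_le (hM σ)))]
          · rw [Matrix.diagonal_apply_ne _ hst]
            symm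
            refine Finset.sum_eq_zero fun j _ => ?_
            simp only [Matrix.smul_apply, smul_eq_mul]
            unfold secP
            rw [Matrix.diagonal_apply_ne _ hst, mul_zero]
        rw [this]
        exact Commute.sum_right _ _ _ fun j _ => (hF.comP j).smul_right _
      have hXY : Commute F (X * Xᴴ) := hF.comX.mul_right hF.comY
      exact (hd.sub_right (hXY.smul_right _)).eq
    · exact h.commute_secP_op j
  have hp := posSemidef_mul_exp hpsd hA hcom
  have := hp.trace_nonneg
  have hre := (Complex.le_def.mp this).1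
  unfold secT
  rw [← hC, ← mul_assoc]
  exact hre

include h hF in
lemma secT_sum (j : ℕ) (w : ℝ) :
    secT N X F s j w = ∑ i ∈ Finset.range (j + 1),
      Real.exp (-w * ladderC s i) * ladderPhi (sect N F) i := by
  induction j with
  | zero =>
    simp only [zero_add, Finset.sum_range_one, ladderC_zero, mul_zero, Real.exp_zero, one_mul,
      ladderPhi]
    exact secT_zero h hF w
  | succ j ih =>
    rw [Finset.sum_range_succ, ← ih]
    have := secT_succ h hF j w
    simp only [ladderPhi]
    linarith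

include h hF in
lemma phi_nonneg {j : ℕ} (hj : (j : ℝ) ≤ s) : 0 ≤ ladderPhi (sect N F) j := by
  refine dominant_nonneg (Finset.range (j + 1)) j (Finset.mem_range.mpr (Nat.lt_succ_self j))
    (ladderC s) ?_ _ ?_
  · intro i hi hij
    have hi' : i < j := by
      have := Finset.mem_range.mp hi
      omega
    have hi'' : (i : ℝ) + 1 ≤ j := by exact_mod_cast hi'
    unfold ladderC
    have : (j : ℝ) * (2 * s + 1 - j) / 2 - (i : ℝ) * (2 * s + 1 - i) / 2
        = ((j : ℝ) - i) * (2 * s + 1 - i - j) / 2 := by ring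
    have h3 : 0 < ((j : ℝ) - i) * (2 * s + 1 - i - j) / 2 := by
      apply div_pos _ (by norm_num)
      apply mul_pos <;> linarith
    linarith
  · intro u hu
    have := secT_nonneg h hF j (-u)
    rw [secT_sum h hF] at this
    simpa using this

lemma secP_eq_zero (hM : ∀ σ, N σ ≤ M) {j : ℕ} (hj : M < j) : secP N j = 0 := by
  unfold secP
  rw [← Matrix.diagonal_zero]
  congr 1
  funext σ
  have : N σ ≠ j := by have := hM σ; omega
  simp [this]

include h hF in
lemma phi_nonpos (hs : 0 ≤ s) (hM : ∀ σ, N σ ≤ M) {j : ℕ} (hj : s < (j : ℝ)) :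
    ladderPhi (sect N F) j ≤ 0 := by
  cases j with
  | zero =>
    exfalso
    simp only [Nat.cast_zero] at hj
    linarith
  | succ j =>
    by_cases hjM : M + 1 < j + 1
    · have h1 : sect N F (j + 1) = 0 := by
        unfold sect
        rw [secP_eq_zero hM (by omega)]
        simp
      have h2 : sect N F j = 0 := by
        unfold sect
        rw [secP_eq_zero hM (by omega)]
        simp
      simp [ladderPhi, h1, h2]
    · have hj1 : j + 1 ≤ M + 1 := by omega
      have hmem : j + 1 ∈ Finset.Ico (j + 1) (M + 2) := Finset.mem_Ico.mpr ⟨le_rfl, by omega⟩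
      have := dominant_nonneg (Finset.Ico (j + 1) (M + 2)) (j + 1) hmem (ladderC s) ?_
        (fun i => -ladderPhi (sect N F) i) ?_
      · linarith
      · intro i hi hij
        have hi' : j + 1 < i := by
          have := (Finset.mem_Ico.mp hi).1
          omega
        have hi'' : ((j : ℝ) + 1) + 1 ≤ (i : ℝ) := by exact_mod_cast hi'
        unfold ladderC
        have e : ((j + 1 : ℕ) : ℝ) * (2 * s + 1 - ((j + 1 : ℕ) : ℝ)) / 2 - (i : ℝ) * (2 * s + 1 - i) / 2
            = ((i : ℝ) - ((j + 1 : ℕ) : ℝ)) * ((i : ℝ) + ((j + 1 : ℕ) : ℝ) - 2 * s - 1) / 2 := by ring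
        have h3 : 0 < ((i : ℝ) - ((j + 1 : ℕ) : ℝ)) * ((i : ℝ) + ((j + 1 : ℕ) : ℝ) - 2 * s - 1) / 2 := by
          apply div_pos _ (by norm_num)
          push_cast at hj ⊢
          apply mul_pos <;> linarith
        linarith
      · intro u _
        have h0 := secT_nonneg h hF j (-u)
        rw [secT_sum h hF] at h0
        have h1 : secT N X F s (M + 1) (-u) = 0 := by
          unfold secT
          rw [secP_eq_zero hM (by omega)]
          simp
        rw [secT_sum h hF] at h1
        simp only [neg_neg] at h0 h1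
        have hsplit := Finset.sum_Ico_eq_sub (fun i => Real.exp (u * ladderC s i) * ladderPhi (sect N F) i)
          (show j + 1 ≤ M + 2 by omega)
        simp only [mul_neg, Finset.sum_neg_distrib]
        rw [hsplit, h1]
        linarith

/-- Decomposition of a diagonal function of the grading into sector projectors. -/
lemma diag_eq_sum_secP (hM : ∀ σ, N σ ≤ M) (g : ℕ → ℂ) :
    diagonal (fun σ => g (N σ)) = ∑ j ∈ Finset.range (M + 1), g j • secP N j := by
  ext σ τ
  rw [Matrix.sum_apply]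
  by_cases hst : σ = τ
  · subst hst
    simp only [Matrix.smul_apply, smul_eq_mul]
    unfold secP
    simp only [Matrix.diagonal_apply_eq, mul_ite, mul_one, mul_zero]
    rw [Finset.sum_ite_eq, if_pos (Finset.mem_range.mpr (Nat.lt_succ_of_le (hM σ)))]
  · rw [Matrix.diagonal_apply_ne _ hst]
    symm
    refine Finset.sum_eq_zero fun j _ => ?_
    simp only [Matrix.smul_apply, smul_eq_mul]
    unfold secP
    rw [Matrix.diagonal_apply_ne _ hst, mul_zero]

include h hF in
/-- The main inequality of the abstract step. -/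
theorem ladder_trace_bound (hs : 0 ≤ s) {w : ℝ} (hw : 0 ≤ w) {z : ℝ} (hz0 : 0 ≤ z) (hz1 : z < 1) :
    (trace (F * (NormedSpace.exp (w • (-ladderOp N X s))
        * diagonal (fun σ => ((z ^ (N σ) : ℝ) : ℂ))))).re
      ≤ (1 / (1 - z)) *
        (trace (F * diagonal (fun σ => (((z * Real.exp (-w * s / 2)) ^ (N σ) : ℝ) : ℂ)))).re := by
  obtain ⟨M, hM⟩ : ∃ M, ∀ σ, N σ ≤ M :=
    ⟨Finset.univ.sup N, fun σ => Finset.le_sup (Finset.mem_univ σ)⟩
  have h1z : 0 < 1 - z := by linarith
  set y : ℝ := Real.exp (-w * s / 2) with hy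
  have hy0 : 0 < y := Real.exp_pos _
  set E := NormedSpace.exp (w • (-ladderOp N X s)) with hE
  have hEP : ∀ j, Commute (secP N j) E := fun j =>
    (((h.commute_secP_op j).neg_right).smul_right w).exp_right
  have hL : (trace (F * (E * diagonal (fun σ => ((z ^ (N σ) : ℝ) : ℂ))))).re
      = ∑ j ∈ Finset.range (M + 1), z ^ j * secT N X F s j w := by
    rw [diag_eq_sum_secP hM (fun i => ((z ^ i : ℝ) : ℂ))]
    rw [Finset.mul_sum, Finset.mul_sum, Matrix.trace_sum]
    rw [Complex.re_sum]
    refine Finset.sum_congr rfl fun j _ => ?_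
    rw [mul_smul_comm, mul_smul_comm, Matrix.trace_smul, smul_eq_mul, Complex.re_ofReal_mul]
    unfold secT
    rw [← hE, (hEP j).eq]
  have hR : (trace (F * diagonal (fun σ => (((z * y) ^ (N σ) : ℝ) : ℂ)))).re
      = ∑ j ∈ Finset.range (M + 1), (z * y) ^ j * sect N F j := by
    rw [diag_eq_sum_secP hM (fun i => (((z * y) ^ i : ℝ) : ℂ))]
    rw [Finset.mul_sum, Matrix.trace_sum, Complex.re_sum]
    refine Finset.sum_congr rfl fun j _ => ?_
    rw [mul_smul_comm, Matrix.trace_smul, smul_eq_mul, Complex.re_ofReal_mul]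
    rfl
  rw [hL, hR]
  -- swap the order of summation
  have hswap : ∑ j ∈ Finset.range (M + 1), z ^ j * secT N X F s j w
      = ∑ i ∈ Finset.range (M + 1), (Real.exp (-w * ladderC s i) * ladderPhi (sect N F) i)
          * ∑ j ∈ Finset.Ico i (M + 1), z ^ j := by
    have : ∀ j, z ^ j * secT N X F s j w = ∑ i ∈ Finset.range (j + 1),
        z ^ j * (Real.exp (-w * ladderC s i) * ladderPhi (sect N F) i) := fun j => by
      rw [secT_sum h hF, Finset.mul_sum]
    simp only [this, Finset.mul_sum]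
    rw [Finset.sum_comm' (t' := Finset.range (M + 1)) (s' := fun i => Finset.Ico i (M + 1))]
    · refine Finset.sum_congr rfl fun i _ => Finset.sum_congr rfl fun j _ => ?_
      ring
    · intro j i
      simp only [Finset.mem_range, Finset.mem_Ico]
      omega
  rw [hswap, Finset.mul_sum]
  refine Finset.sum_le_sum fun i _ => ?_
  have hgeom : ∑ j ∈ Finset.Ico i (M + 1), z ^ j ≤ z ^ i / (1 - z) := by
    rw [le_div_iff₀ h1z]
    have : (∑ j ∈ Finset.Ico i (M + 1), z ^ j) * (1 - z) ≤ z ^ i := by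
      by_cases hi : i ≤ M + 1
      · have := geom_sum_Ico_mul z hi
        have h2 : (∑ j ∈ Finset.Ico i (M + 1), z ^ j) * (1 - z)
            = -((∑ j ∈ Finset.Ico i (M + 1), z ^ j) * (z - 1)) := by ring
        rw [h2, this]
        have : 0 ≤ z ^ (M + 1) := pow_nonneg hz0 _
        linarith
      · rw [Finset.Ico_eq_empty (by omega)]
        simp only [Finset.sum_empty, zero_mul]
        exact pow_nonneg hz0 _
    exact this
  have hgeom0 : 0 ≤ ∑ j ∈ Finset.Ico i (M + 1), z ^ j :=
    Finset.sum_nonneg fun j _ => pow_nonneg hz0 _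
  have hti : 0 ≤ sect N F i := sect_nonneg hF i
  by_cases his : (i : ℝ) ≤ s
  · have hphi := phi_nonneg h hF his
    have hphit : ladderPhi (sect N F) i ≤ sect N F i := by
      cases i with
      | zero => exact le_rfl
      | succ i =>
        have := sect_nonneg hF i
        simp only [ladderPhi]
        linarith
    have hg : Real.exp (-w * ladderC s i) ≤ y ^ i := by
      rw [hy, ← Real.exp_nat_mul]
      apply Real.exp_le_exp.mpr
      have hc : (i : ℝ) * s / 2 ≤ ladderC s i := by
        unfold ladderC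
        have hi0 : (0 : ℝ) ≤ i := Nat.cast_nonneg i
        have : (i : ℝ) * (2 * s + 1 - i) / 2 - (i : ℝ) * s / 2 = (i : ℝ) * (s + 1 - i) / 2 := by ring
        have h3 : 0 ≤ (i : ℝ) * (s + 1 - i) / 2 := by
          apply div_nonneg _ (by norm_num)
          apply mul_nonneg hi0
          linarith
        linarith
      have := mul_le_mul_of_nonneg_left hc hw
      nlinarith
    have hzy : (z * y) ^ i = z ^ i * y ^ i := mul_pow z y i
    rw [hzy]
    calc (Real.exp (-w * ladderC s i) * ladderPhi (sect N F) i)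
          * ∑ j ∈ Finset.Ico i (M + 1), z ^ j
        ≤ (y ^ i * sect N F i) * (z ^ i / (1 - z)) := by
          apply mul_le_mul _ hgeom hgeom0
          · exact mul_nonneg (pow_nonneg hy0.le _) hti
          · apply mul_le_mul hg hphit hphi (pow_nonneg hy0.le _)
      _ = 1 / (1 - z) * (z ^ i * y ^ i * sect N F i) := by
          field_simp
  · have hphi := phi_nonpos h hF hs hM (not_le.mp his)
    have hL0 : (Real.exp (-w * ladderC s i) * ladderPhi (sect N F) i)
        * ∑ j ∈ Finset.Ico i (M + 1), z ^ j ≤ 0 :=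
      mul_nonpos_of_nonpos_of_nonneg
        (mul_nonpos_of_nonneg_of_nonpos (Real.exp_pos _).le hphi) hgeom0
    refine hL0.trans ?_
    apply mul_nonneg (by positivity)
    exact mul_nonneg (pow_nonneg (mul_nonneg hz0 hy0.le) _) hti

end Main

end Abstract

end Vale.Agent.P361Lib
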