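import Vale.Agent.Lib.P361.Casimir
import Vale.Agent.Lib.P361.TraceStep

/-!
# Elimination of a block: the combinators behind the hierarchical upper bound
-/

open Matrix
open scoped MatrixOrder ComplexOrder

noncomputable section

namespace Vale.Agent.P361Lib

variable {X : Type} [Fintype X] [DecidableEq X] {n : ℕ}

/-- The weight `z^{N_k}` on the block `k`. -/
def wt (k : Finset X) (z : ℝ) : Op X n :=
  diagonal fun σ => ((z ^ (devCount k σ) : ℝ) : ℂ)

/-- `F` commutes with every operator acting at a site of `k`. -/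
def Off (k : Finset X) (F : Op X n) : Prop :=
  ∀ x ∈ k, ∀ a : SMat n, Commute F (siteOp x a)

/-- `A` commutes with everything that commutes with the site operators of `k`. -/
def Loc (k : Finset X) (A : Op X n) : Prop :=
  ∀ M : Op X n, Off k M → Commute A M

lemma Loc.add {k : Finset X} {A B : Op X n} (hA : Loc k A) (hB : Loc k B) : Loc k (A + B) :=
  fun M hM => (hA M hM).add_left (hB M hM)

lemma Loc.sub {k : Finset X} {A B : Op X n} (hA : Loc k A) (hB : Loc k B) : Loc k (A - B) :=
  fun M hM => (hA M hM).sub_left (hB M hM)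

lemma Loc.mul {k : Finset X} {A B : Op X n} (hA : Loc k A) (hB : Loc k B) : Loc k (A * B) :=
  fun M hM => (hA M hM).mul_left (hB M hM)

lemma Loc.smul {k : Finset X} {A : Op X n} {R : Type*} [Monoid R] [DistribMulAction R ℂ]
    [SMulCommClass R ℂ ℂ] [IsScalarTower R ℂ ℂ] (c : R) (hA : Loc k A) : Loc k (c • A) :=
  fun M hM => (hA M hM).smul_left c

lemma Loc.neg {k : Finset X} {A : Op X n} (hA : Loc k A) : Loc k (-A) :=
  fun M hM => (hA M hM).neg_left

lemma Loc.exp {k : Finset X} {A : Op X n} (hA : Loc k A) : Loc k (NormedSpace.exp A) :=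
  fun M hM => (hA M hM).exp_left

lemma Loc.sum {k : Finset X} {ι : Type*} (s : Finset ι) {f : ι → Op X n}
    (hf : ∀ i ∈ s, Loc k (f i)) : Loc k (∑ i ∈ s, f i) :=
  fun M hM => Commute.sum_left _ _ _ fun i hi => hf i hi M hM

lemma Loc.one (k : Finset X) : Loc k (1 : Op X n) := fun M _ => Commute.one_left M

lemma Loc.zero (k : Finset X) : Loc k (0 : Op X n) := fun M _ => Commute.zero_left M

lemma Loc.mono {a b : Finset X} (hab : a ⊆ b) {A : Op X n} (hA : Loc a A) : Loc b A :=
  fun M hM => hA M fun x hx c => hM x (hab hx) c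

lemma loc_siteOp {k : Finset X} {x : X} (hx : x ∈ k) (a : SMat n) : Loc k (siteOp x a) :=
  fun M hM => (hM x hx a).symm

lemma loc_totalOp (k : Finset X) (a : SMat n) : Loc k (totalOp k a) :=
  Loc.sum _ fun _ hx => loc_siteOp hx a

/-- Operators local to `a` are off any disjoint set. -/
lemma Loc.off {a b : Finset X} (h : Disjoint a b) {A : Op X n} (hA : Loc a A) : Off b A := by
  intro x hx c
  apply hA
  intro y hy d
  have hxy : y ≠ x := by
    rintro rfl
    exact (Finset.disjoint_left.mp h hy) hx
  exact (siteOp_commute hxy d c).symm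

lemma off_of_subset {a b : Finset X} (hab : a ⊆ b) {F : Op X n} (hF : Off b F) : Off a F :=
  fun x hx c => hF x (hab hx) c

lemma loc_hEdge {k : Finset X} {x y : X} (hx : x ∈ k) (hy : y ∈ k) : Loc k (hEdge x y : Op X n) := by
  unfold hEdge
  split_ifs with h
  · exact Loc.zero k
  · refine ((((Loc.one k).smul _).sub ((loc_siteOp hx _).mul (loc_siteOp hy _))).sub ?_)
    exact (((loc_siteOp hx _).mul (loc_siteOp hy _)).add ((loc_siteOp hx _).mul (loc_siteOp hy _))).smul _

lemma loc_casimir (k : Finset X) : Loc k (casimir k : Op X n) := by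
  unfold casimir
  refine Loc.smul _ (Loc.sum _ fun x hx => Loc.sum _ fun y hy => loc_hEdge hx hy)

lemma casimir_isHermitian (k : Finset X) : (casimir k : Op X n).IsHermitian := by
  unfold casimir Matrix.IsHermitian
  rw [Matrix.conjTranspose_smul, Matrix.conjTranspose_sum]
  congr 1
  · simp
  · refine Finset.sum_congr rfl fun x _ => ?_
    rw [Matrix.conjTranspose_sum]
    refine Finset.sum_congr rfl fun y _ => (hEdge_isHermitian x y).eq

lemma casimir_nonneg (k : Finset X) : 0 ≤ (casimir k : Op X n) := by
  have h : (casimir k : Op X n) = (1 / 2 : ℝ) • ∑ x ∈ k, ∑ y ∈ k, hEdge x y := by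
    unfold casimir
    ext σ τ
    simp only [Matrix.smul_apply, Complex.real_smul, smul_eq_mul]
    push_cast
    ring
  rw [h]
  refine smul_nonneg (by norm_num) ?_
  exact Finset.sum_nonneg fun x _ => Finset.sum_nonneg fun y _ => hEdge_nonneg x y

/-- Matrix entries of an operator commuting with the site operators of `k` vanish unless the
configurations agree on `k`. -/
lemma Off.entry {k : Finset X} {M : Op X n} (hM : Off k M) {σ τ : Cfg X n} (h : M σ τ ≠ 0) :
    ∀ x ∈ k, σ x = τ x := by
  intro x hx
  have hc := (hM x hx (diagonal fun i => if i = τ x then (1 : ℂ) else 0)).eq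
  have := congrFun (congrFun hc σ) τ
  rw [siteOp_diagonal, Matrix.mul_diagonal, Matrix.diagonal_mul] at this
  simp only [if_true, mul_one] at this
  by_contra hne
  rw [if_neg hne, zero_mul] at this
  exact h this

/-- An operator commuting with the site operators of `k` commutes with any diagonal operator
depending only on the configuration in `k`. -/
lemma Off.commute_diagonal {k : Finset X} {M : Op X n} (hM : Off k M) (g : Cfg X n → ℂ)
    (hg : ∀ σ τ : Cfg X n, (∀ x ∈ k, σ x = τ x) → g σ = g τ) :
    Commute M (diagonal g) := by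
  show M * diagonal g = diagonal g * M
  ext σ τ
  rw [Matrix.mul_diagonal, Matrix.diagonal_mul]
  by_cases h : M σ τ = 0
  · simp [h]
  · rw [hg σ τ (hM.entry h), mul_comm]

lemma devCount_congr {k : Finset X} {σ τ : Cfg X n} (h : ∀ x ∈ k, σ x = τ x) :
    devCount k σ = devCount k τ := by
  unfold devCount
  exact Finset.sum_congr rfl fun x hx => by rw [h x hx]

lemma devCount_union {a b : Finset X} (h : Disjoint a b) (σ : Cfg X n) :
    devCount (a ∪ b) σ = devCount a σ + devCount b σ := by
  unfold devCount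
  exact Finset.sum_union h

lemma wt_union {a b : Finset X} (h : Disjoint a b) (z : ℝ) :
    (wt (a ∪ b) z : Op X n) = wt a z * wt b z := by
  unfold wt
  rw [Matrix.diagonal_mul_diagonal]
  congr 1
  funext σ
  rw [devCount_union h, pow_add]
  push_cast
  ring

lemma wt_isHermitian (k : Finset X) (z : ℝ) : (wt k z : Op X n)ᴴ = wt k z := by
  unfold wt
  rw [Matrix.diagonal_conjTranspose]
  congr 1
  funext σ
  simp

/-- Any operator off `k` commutes with the weight on `k`. -/
lemma Off.commute_wt {k : Finset X} {M : Op X n} (hM : Off k M) (z : ℝ) : Commute M (wt k z) :=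
  hM.commute_diagonal _ fun σ τ h => by rw [devCount_congr h]

lemma Off.commute_grading {k : Finset X} {M : Op X n} (hM : Off k M) (g : ℕ → ℂ) :
    Commute M (diagonal fun σ => g (devCount k σ)) :=
  hM.commute_diagonal _ fun σ τ h => by rw [devCount_congr h]

lemma Off.commute_secP {k : Finset X} {M : Op X n} (hM : Off k M) (j : ℕ) :
    Commute M (secP (devCount k) j) :=
  hM.commute_grading (fun i => if i = j then (1 : ℂ) else 0)

lemma loc_wt (k : Finset X) (z : ℝ) : Loc k (wt k z : Op X n) :=
  fun M hM => (hM.commute_wt z).symm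

/-- The weight commutes with the site operators outside the block. -/
lemma off_wt {a b : Finset X} (h : Disjoint a b) (z : ℝ) : Off b (wt a z : Op X n) :=
  (loc_wt a z).off h

lemma wt_sq (k : Finset X) {z : ℝ} (hz : 0 ≤ z) :
    (wt k z : Op X n) = wt k (Real.sqrt z) * wt k (Real.sqrt z) := by
  unfold wt
  rw [Matrix.diagonal_mul_diagonal]
  congr 1
  funext σ
  rw [← Complex.ofReal_mul, ← mul_pow, Real.mul_self_sqrt hz]

/-- `G W²` is positive when `G` is positive and commutes with the Hermitian `W`. -/
lemma posSemidef_mul_sq {Ω : Type} [Fintype Ω] [DecidableEq Ω] {G W : Matrix Ω Ω ℂ}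
    (hG : G.PosSemidef) (hW : Wᴴ = W) (hc : Commute G W) : (G * (W * W)).PosSemidef := by
  have e : G * (W * W) = Wᴴ * G * W := by
    rw [hW, ← hc.eq, mul_assoc]
  rw [e]
  exact hG.conjTranspose_mul_mul_same _

lemma posSemidef_mul_wt {k : Finset X} {G : Op X n} (hG : G.PosSemidef) (hGk : Off k G) {z : ℝ}
    (hz : 0 ≤ z) : (G * wt k z).PosSemidef := by
  rw [wt_sq k hz]
  exact posSemidef_mul_sq hG (wt_isHermitian _ _) (hGk.commute_wt _)

/-- Off is stable under products. -/
lemma Off.mul {k : Finset X} {A B : Op X n} (hA : Off k A) (hB : Off k B) : Off k (A * B) :=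
  fun x hx c => (hA x hx c).mul_left (hB x hx c)

lemma Off.one (k : Finset X) : Off k (1 : Op X n) := fun _ _ c => Commute.one_left _

lemma Off.exp {k : Finset X} {A : Op X n} (hA : Off k A) : Off k (NormedSpace.exp A) :=
  fun x hx c => (hA x hx c).exp_left

lemma Off.neg {k : Finset X} {A : Op X n} (hA : Off k A) : Off k (-A) :=
  fun x hx c => (hA x hx c).neg_left

lemma Off.commute_total {k : Finset X} {F : Op X n} (hF : Off k F) (a : SMat n) :
    Commute F (totalOp k a) :=
  Commute.sum_right _ _ _ fun x hx => hF x hx a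

/-- The ladder structure of a block. -/
lemma isLadder_block (k : Finset X) :
    IsLadder (devCount k : Cfg X n → ℕ) (totalOp k (spinM n)) ((n : ℝ) * k.card / 2) := by
  constructor
  · intro σ τ hne
    have hc := total_comm_DM (n := n) k
    rw [totalOp_devD] at hc
    have := congrFun (congrFun hc σ) τ
    rw [Matrix.sub_apply, Matrix.diagonal_mul, Matrix.mul_diagonal] at this
    have h2 : ((devCount k σ : ℕ) : ℂ) - (devCount k τ : ℕ) = 1 := by
      have h3 : (((devCount k σ : ℕ) : ℂ) - (devCount k τ : ℕ)) * totalOp k (spinM n) σ τ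
          = 1 * totalOp k (spinM n) σ τ := by
        rw [one_mul]; linear_combination this
      exact mul_right_cancel₀ hne h3
    have h4 : ((devCount k σ : ℕ) : ℂ) = ((devCount k τ + 1 : ℕ) : ℂ) := by
      push_cast
      rw [← h2]; ring
    exact_mod_cast h4
  · have hH : (totalOp k (spinM n) : Op X n)ᴴ = totalOp k (spinP n) := by
      rw [totalOp_conjTranspose]
      unfold spinM
      rw [Matrix.conjTranspose_conjTranspose]
    rw [hH, total_comm_PM, totalZ_eq, totalOp_devD]
    ext σ τ
    by_cases hst : σ = τ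
    · subst hst
      simp only [Matrix.smul_apply, Matrix.sub_apply, Matrix.diagonal_apply_eq, Matrix.one_apply_eq,
        smul_eq_mul]
      push_cast
      ring
    · simp only [Matrix.smul_apply, Matrix.sub_apply, Matrix.diagonal_apply_ne _ hst,
        Matrix.one_apply_ne hst, smul_eq_mul]
      simp

/-- Identification of the complete-graph energy with the abstract ladder operator. -/
lemma ladderOp_block (k : Finset X) :
    ladderOp (devCount k : Cfg X n → ℕ) (totalOp k (spinM n)) ((n : ℝ) * k.card / 2)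
      = (casimir k : Op X n) := by
  have hH : (totalOp k (spinM n) : Op X n)ᴴ = totalOp k (spinP n) := by
    rw [totalOp_conjTranspose]
    unfold spinM
    rw [Matrix.conjTranspose_conjTranspose]
  have hC := casimir_eq (X := X) (n := n) k
  have hC' : (casimir k : Op X n) = (1 / 2 : ℂ) • ((2 : ℂ) • casimir k) := by
    rw [smul_smul]; norm_num
  have hd : (diagonal fun σ : Cfg X n => ((ladderC ((n : ℝ) * k.card / 2) (devCount k σ) : ℝ) : ℂ))
      = (1 / 2 : ℂ) • (((n : ℂ) * k.card + 1) • (diagonal fun σ : Cfg X n => ((devCount k σ : ℕ) : ℂ))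
        - (diagonal fun σ : Cfg X n => ((devCount k σ : ℕ) : ℂ))
          * (diagonal fun σ : Cfg X n => ((devCount k σ : ℕ) : ℂ))) := by
    rw [Matrix.diagonal_mul_diagonal, ← Matrix.diagonal_smul, Matrix.diagonal_sub,
      ← Matrix.diagonal_smul]
    congr 1
    funext σ
    simp only [Pi.smul_apply, smul_eq_mul, ladderC]
    push_cast
    ring
  rw [hC', hC]
  unfold ladderOp
  rw [hH, totalOp_devD, hd]
  simp only [smul_sub]

/-! ### The elimination structure -/

/-- `Good k A Ξ`: the hierarchical operator `A` on the block `k` admits the trace bound with the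
function `Ξ`. -/
structure Good (k : Finset X) (A : Op X n) (Ξ : ℝ → ℝ) : Prop where
  herm : A.IsHermitian
  loc : Loc k A
  comM : Commute A (totalOp k (spinM n))
  comP : Commute A (totalOp k (spinP n))
  pres : ∀ σ τ : Cfg X n, A σ τ ≠ 0 → devCount k σ = devCount k τ
  nonneg : ∀ z : ℝ, 0 ≤ z → z < 1 → 0 ≤ Ξ z
  bound : ∀ F : Op X n, F.PosSemidef → Off k F → ∀ z : ℝ, 0 ≤ z → z < 1 →
    (trace (F * (NormedSpace.exp (-A) * wt k z))).re ≤ Ξ z * (trace (F * wt k 0)).re

lemma wt_empty (z : ℝ) : (wt (∅ : Finset X) z : Op X n) = 1 := by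
  unfold wt devCount
  simp

lemma totalOp_empty (a : SMat n) : totalOp (∅ : Finset X) a = (0 : Op X n) := by
  unfold totalOp
  simp

lemma good_empty : Good (∅ : Finset X) (0 : Op X n) (fun _ => 1) where
  herm := Matrix.isHermitian_zero
  loc := Loc.zero _
  comM := Commute.zero_left _
  comP := Commute.zero_left _
  pres := fun σ τ h => absurd rfl h
  nonneg := fun _ _ _ => zero_le_one
  bound := by
    intro F _ _ z _ _
    simp [wt_empty]

/-- The trace of `F` against the single-site projector does not depend on the projected level. -/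
lemma trace_site_proj {x : X} {F : Op X n} (hF : Off {x} F) (i : Fin (n + 1)) :
    trace (F * siteOp x (Matrix.single i i (1 : ℂ)))
      = trace (F * siteOp x (Matrix.single 0 0 (1 : ℂ))) := by
  have hx : x ∈ ({x} : Finset X) := Finset.mem_singleton_self x
  have h1 : (Matrix.single i i (1 : ℂ) : SMat n)
      = Matrix.single i 0 (1 : ℂ) * Matrix.single 0 i (1 : ℂ) := by
    rw [Matrix.single_mul_single_same]; simp
  have h2 : (Matrix.single 0 0 (1 : ℂ) : SMat n)
      = Matrix.single 0 i (1 : ℂ) * Matrix.single i 0 (1 : ℂ) := by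
    rw [Matrix.single_mul_single_same]; simp
  rw [h1, h2, ← siteOp_mul_same, ← siteOp_mul_same]
  have hc := (hF x hx (Matrix.single 0 i (1 : ℂ))).eq
  calc trace (F * (siteOp x (Matrix.single i 0 1) * siteOp x (Matrix.single 0 i 1)))
      = trace ((siteOp x (Matrix.single 0 i 1) * F) * siteOp x (Matrix.single i 0 1)) := by
        rw [← mul_assoc, Matrix.trace_mul_comm, ← mul_assoc]
    _ = trace (F * (siteOp x (Matrix.single 0 i 1) * siteOp x (Matrix.single i 0 1))) := by
        rw [← hc, mul_assoc]

lemma wt_singleton (x : X) (z : ℝ) :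
    (wt {x} z : Op X n) = ∑ i : Fin (n + 1), ((z ^ (i : ℕ) : ℝ) : ℂ) • siteOp x (Matrix.single i i (1 : ℂ)) := by
  have h1 : (wt {x} z : Op X n) = siteOp x (diagonal fun i : Fin (n + 1) => ((z ^ (i : ℕ) : ℝ) : ℂ)) := by
    rw [siteOp_diagonal]
    unfold wt devCount
    simp
  rw [h1, ← Finset.sum_congr rfl (fun i _ => siteOp_smul x _ _)]
  have h2 : (diagonal fun i : Fin (n + 1) => ((z ^ (i : ℕ) : ℝ) : ℂ))
      = ∑ i : Fin (n + 1), ((z ^ (i : ℕ) : ℝ) : ℂ) • (Matrix.single i i (1 : ℂ) : SMat n) := by
    ext a b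
    rw [Matrix.sum_apply]
    by_cases hab : a = b
    · subst hab
      simp [Matrix.single_apply, Finset.sum_ite_eq]
    · rw [Matrix.diagonal_apply_ne _ hab]
      symm
      refine Finset.sum_eq_zero fun i _ => ?_
      simp only [Matrix.smul_apply, Matrix.single_apply, smul_eq_mul]
      rw [if_neg, mul_zero]
      rintro ⟨h1, h2⟩
      exact hab (h1.symm.trans h2)
  rw [h2]
  unfold siteOp
  ext σ τ
  simp only [Matrix.of_apply, Matrix.sum_apply]
  split_ifs <;> simp

lemma good_singleton (x : X) : Good ({x} : Finset X) (0 : Op X n) (fun z => 1 / (1 - z)) where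
  herm := Matrix.isHermitian_zero
  loc := Loc.zero _
  comM := Commute.zero_left _
  comP := Commute.zero_left _
  pres := fun σ τ h => absurd rfl h
  nonneg := fun z _ hz => by
    have : 0 < 1 - z := by linarith
    positivity
  bound := by
    intro F hF hFk z hz0 hz1
    rw [neg_zero, NormedSpace.exp_zero, one_mul]
    have h1z : 0 < 1 - z := by linarith
    -- the common value of the projected traces
    set t := trace (F * siteOp x (Matrix.single 0 0 (1 : ℂ))) with ht
    have hwt : ∀ u : ℝ, trace (F * (wt {x} u : Op X n))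
        = ∑ i : Fin (n + 1), ((u ^ (i : ℕ) : ℝ) : ℂ) * t := by
      intro u
      rw [wt_singleton, Finset.mul_sum, Matrix.trace_sum]
      refine Finset.sum_congr rfl fun i _ => ?_
      rw [mul_smul_comm, Matrix.trace_smul, smul_eq_mul, trace_site_proj hFk i]
    rw [hwt z, hwt 0]
    have e0 : ∑ i : Fin (n + 1), (((0 : ℝ) ^ (i : ℕ) : ℝ) : ℂ) * t = t := by
      rw [Finset.sum_eq_single (0 : Fin (n + 1))]
      · simp
      · intro i _ hi
        have : (i : ℕ) ≠ 0 := fun h => hi (Fin.ext (by simpa using h))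
        simp [this]
      · intro h; exact absurd (Finset.mem_univ _) h
    rw [e0]
    have htnn : 0 ≤ t.re := by
      have hP : (wt {x} 0 : Op X n) = _ := rfl
      have := (posSemidef_mul_wt (k := {x}) hF hFk (le_refl (0 : ℝ))).trace_nonneg
      rw [hwt 0, e0] at this
      exact (Complex.le_def.mp this).1
    rw [Complex.re_sum]
    simp only [Complex.re_ofReal_mul]
    rw [← Finset.sum_mul]
    apply mul_le_mul_of_nonneg_right _ htnn
    -- geometric sum
    rw [le_div_iff₀ h1z]
    have : ∑ i : Fin (n + 1), z ^ (i : ℕ) = ∑ i ∈ Finset.range (n + 1), z ^ i :=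
      Fin.sum_univ_eq_sum_range (fun i => z ^ i) (n + 1)
    rw [this]
    have h2 := geom_sum_mul z (n + 1)
    have h3 : (∑ i ∈ Finset.range (n + 1), z ^ i) * (1 - z) = 1 - z ^ (n + 1) := by
      linear_combination -h2
    rw [h3]
    have : 0 ≤ z ^ (n + 1) := pow_nonneg hz0 _
    linarith

lemma Good.comD {k : Finset X} {A : Op X n} {Ξ : ℝ → ℝ} (h : Good k A Ξ) (g : ℕ → ℂ) :
    Commute A (diagonal fun σ : Cfg X n => g (devCount k σ)) :=
  (commute_diag_of_preserve h.pres g).symm

lemma Good.comWt {k : Finset X} {A : Op X n} {Ξ : ℝ → ℝ} (h : Good k A Ξ) (z : ℝ) :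
    Commute A (wt k z) :=
  h.comD (fun j => ((z ^ j : ℝ) : ℂ))

lemma Good.comSec {k : Finset X} {A : Op X n} {Ξ : ℝ → ℝ} (h : Good k A Ξ) (j : ℕ) :
    Commute A (secP (devCount k) j) :=
  h.comD (fun i => if i = j then (1 : ℂ) else 0)

/-- Positivity of `G * wt k z` from commutation with the weights. -/
lemma posSemidef_mul_wt' {k : Finset X} {G : Op X n} (hG : G.PosSemidef)
    (hc : ∀ u : ℝ, Commute G (wt k u)) {z : ℝ} (hz : 0 ≤ z) : (G * wt k z).PosSemidef := by
  rw [wt_sq k hz]
  exact posSemidef_mul_sq hG (wt_isHermitian _ _) (hc _)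

lemma Off.of_off_entry {k : Finset X} {A : Op X n} (hA : Off k A) {σ τ : Cfg X n}
    (h : A σ τ ≠ 0) {x : X} (hx : x ∈ k) : σ x = τ x :=
  hA.entry h x hx

/-- Union of two disjoint blocks. -/
lemma Good.union {a b : Finset X} {A B : Op X n} {Ξa Ξb : ℝ → ℝ} (hab : Disjoint a b)
    (ha : Good a A Ξa) (hb : Good b B Ξb) :
    Good (a ∪ b) (A + B) (fun z => Ξa z * Ξb z) := by
  have hAb : Off b A := ha.loc.off hab
  have hBa : Off a B := hb.loc.off hab.symm
  have hAB : Commute A B := ha.loc B hBa
  have hsplitT : ∀ c : SMat n, totalOp (a ∪ b) c = (totalOp a c + totalOp b c : Op X n) := by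
    intro c
    unfold totalOp
    exact Finset.sum_union hab
  have hlocU : Loc (a ∪ b) (A + B) :=
    (ha.loc.mono Finset.subset_union_left).add (hb.loc.mono Finset.subset_union_right)
  refine ⟨ha.herm.add hb.herm, hlocU, ?_, ?_, ?_, ?_, ?_⟩
  · rw [hsplitT]
    exact ((ha.comM.add_right (hAb.commute_total _)).add_left
      ((hBa.commute_total _).add_right hb.comM))
  · rw [hsplitT]
    exact ((ha.comP.add_right (hAb.commute_total _)).add_left
      ((hBa.commute_total _).add_right hb.comP))
  · intro σ τ hne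
    rw [devCount_union hab, devCount_union hab]
    rw [Matrix.add_apply] at hne
    by_cases hA0 : A σ τ = 0
    · have hB0 : B σ τ ≠ 0 := by
        intro h; apply hne; rw [hA0, h, add_zero]
      rw [hb.pres σ τ hB0, devCount_congr (hBa.entry hB0)]
    · rw [ha.pres σ τ hA0, devCount_congr (hAb.entry hA0)]
  · intro z hz0 hz1
    exact mul_nonneg (ha.nonneg z hz0 hz1) (hb.nonneg z hz0 hz1)
  · intro F hF hFk z hz0 hz1
    have hFa : Off a F := off_of_subset Finset.subset_union_left hFk
    have hFb : Off b F := off_of_subset Finset.subset_union_right hFk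
    set Ea := NormedSpace.exp (-A) with hEa
    set Eb := NormedSpace.exp (-B) with hEb
    have hexp : NormedSpace.exp (-(A + B)) = Ea * Eb := by
      rw [neg_add, Matrix.exp_add_of_commute _ _ (hAB.neg_left.neg_right)]
    have hEbOff : Off a Eb := hBa.neg.exp
    have hEaOff : Off b Ea := hAb.neg.exp
    have hFEb : Commute F Eb := (hb.loc F hFb).symm.neg_right.exp_right
    have hFB : (F * Eb).PosSemidef :=
      posSemidef_mul_exp hF hb.herm.neg (hb.loc F hFb).symm.neg_right
    have hEbW : ∀ u : ℝ, Commute Eb (wt b u) := fun u => (hb.comWt u).neg_left.exp_left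
    set F₁ := F * Eb * wt b z with hF₁
    have hF₁pos : F₁.PosSemidef :=
      posSemidef_mul_wt' hFB (fun u => (hFb.commute_wt u).mul_left (hEbW u)) hz0
    have hF₁off : Off a F₁ := (hFa.mul hEbOff).mul (off_wt hab.symm z)
    have h1 := ha.bound F₁ hF₁pos hF₁off z hz0 hz1
    set F₂ := F * wt a 0 with hF₂
    have hF₂pos : F₂.PosSemidef := posSemidef_mul_wt hF hFa le_rfl
    have hF₂off : Off b F₂ := hFb.mul (off_wt hab 0)
    have h2 := hb.bound F₂ hF₂pos hF₂off z hz0 hz1
    -- rearrangements
    have hEaWb : Commute Ea (wt b z) := hEaOff.commute_wt z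
    have hWW : Commute (wt a z) (wt b z : Op X n) := (off_wt hab z).commute_wt z
    have hEaEb : Commute Ea Eb := hAB.neg_left.neg_right.exp
    have hEbWa : Commute Eb (wt a z) := hEbOff.commute_wt z
    have e1 : F * (NormedSpace.exp (-(A + B)) * wt (a ∪ b) z) = F₁ * (Ea * wt a z) := by
      rw [hexp, wt_union hab, hF₁]
      calc F * (Ea * Eb * (wt a z * wt b z))
          = F * (Eb * (Ea * wt a z) * wt b z) := by
            rw [hEaEb.eq]; simp only [mul_assoc]
        _ = F * (Eb * (wt b z * (Ea * wt a z))) := by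
            rw [mul_assoc Eb]
            congr 2
            exact ((hEaWb.mul_left hWW).eq)
        _ = F * Eb * wt b z * (Ea * wt a z) := by simp only [mul_assoc]
    have e2 : F₁ * wt a 0 = F₂ * (Eb * wt b z) := by
      rw [hF₁, hF₂]
      have h3 : Commute (Eb * wt b z) (wt a 0) :=
        (hEbOff.commute_wt 0).mul_left ((off_wt hab.symm z).commute_wt 0)
      calc F * Eb * wt b z * wt a 0 = F * ((Eb * wt b z) * wt a 0) := by simp only [mul_assoc]
        _ = F * (wt a 0 * (Eb * wt b z)) := by rw [h3.eq]
        _ = F * wt a 0 * (Eb * wt b z) := by rw [mul_assoc]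
    have e3 : F₂ * wt b 0 = F * wt (a ∪ b) 0 := by
      rw [hF₂, wt_union hab, mul_assoc]
    rw [e1]
    refine h1.trans ?_
    rw [e2]
    rw [e3] at h2
    have e4 : Ξa z * Ξb z * (trace (F * wt (a ∪ b) 0)).re = Ξa z * (Ξb z * (trace (F * wt (a ∪ b) 0)).re) :=
      mul_assoc _ _ _
    rw [e4]
    exact mul_le_mul_of_nonneg_left h2 (ha.nonneg z hz0 hz1)

/-- Adding the complete-graph term on the block. -/
lemma Good.casimir_step {k : Finset X} {A : Op X n} {Ξ : ℝ → ℝ} (ha : Good k A Ξ) {w : ℝ}
    (hw : 0 ≤ w) :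
    Good k (A + w • (casimir k : Op X n))
      (fun z => (1 / (1 - z)) * Ξ (z * Real.exp (-w * ((n : ℝ) * k.card / 2) / 2))) := by
  set s : ℝ := (n : ℝ) * k.card / 2 with hs
  have hs0 : 0 ≤ s := by positivity
  set Xk : Op X n := totalOp k (spinM n) with hXk
  have hlad : IsLadder (devCount k : Cfg X n → ℕ) Xk s := isLadder_block k
  have hYk : Xkᴴ = totalOp k (spinP n) := by
    rw [hXk, totalOp_conjTranspose]
    unfold spinM
    rw [Matrix.conjTranspose_conjTranspose]
  have hC : ladderOp (devCount k : Cfg X n → ℕ) Xk s = casimir k := ladderOp_block k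
  have hCX : Commute (casimir k : Op X n) Xk := by
    rw [← hC]; exact hlad.commute_op
  have hCY : Commute (casimir k : Op X n) (totalOp k (spinP n)) := by
    rw [← hC, ← hYk]; exact hlad.commute_op_H
  have hCP : ∀ σ τ : Cfg X n, (casimir k : Op X n) σ τ ≠ 0 → devCount k σ = devCount k τ := by
    rw [← hC]; exact hlad.ladderOp_preserve
  have hAC : Commute A (casimir k : Op X n) := by
    -- `casimir k = c(N) - ½ X X†`
    rw [← hC]
    unfold ladderOp
    refine Commute.sub_right (ha.comD (fun j => ((ladderC s j : ℝ) : ℂ))) ?_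
    refine Commute.smul_right ?_ _
    rw [hYk]
    exact ha.comM.mul_right ha.comP
  have hy0 : 0 < Real.exp (-w * s / 2) := Real.exp_pos _
  have hCH : (w • (casimir k : Op X n)).IsHermitian := by
    unfold Matrix.IsHermitian
    rw [Matrix.conjTranspose_smul, (casimir_isHermitian k).eq]
    simp
  refine ⟨ha.herm.add hCH, ha.loc.add ((loc_casimir k).smul w),
    ha.comM.add_left (hCX.smul_left w), ha.comP.add_left (hCY.smul_left w), ?_, ?_, ?_⟩
  · intro σ τ hne
    rw [Matrix.add_apply] at hne
    by_cases hA0 : A σ τ = 0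
    · refine hCP σ τ fun h => hne ?_
      simp [hA0, h]
    · exact ha.pres σ τ hA0
  · intro z hz0 hz1
    have h1z : 0 < 1 - z := by linarith
    refine mul_nonneg (by positivity) (ha.nonneg _ (mul_nonneg hz0 hy0.le) ?_)
    have : Real.exp (-w * s / 2) ≤ 1 := by
      apply Real.exp_le_one_iff.mpr
      have : 0 ≤ w * s := mul_nonneg hw hs0
      nlinarith
    nlinarith
  · intro F hF hFk z hz0 hz1
    have h1z : 0 < 1 - z := by linarith
    set E := NormedSpace.exp (-A) with hE
    have hFA : Commute F A := (ha.loc F hFk).symm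
    set F' := F * E with hF'
    have hF'pos : F'.PosSemidef := posSemidef_mul_exp hF ha.herm.neg hFA.neg_right
    have hF'w : LadderWeight (devCount k : Cfg X n → ℕ) Xk F' := by
      refine ⟨hF'pos, ?_, ?_, ?_⟩
      · exact (hFk.commute_total _).mul_left ha.comM.neg_left.exp_left
      · rw [hYk]
        exact (hFk.commute_total _).mul_left ha.comP.neg_left.exp_left
      · intro j
        exact (hFk.commute_secP j).mul_left (ha.comSec j).neg_left.exp_left
    have hmain : (trace (F' * (NormedSpace.exp (w • (-(casimir k : Op X n))) * wt k z))).re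
        ≤ (1 / (1 - z)) * (trace (F' * wt k (z * Real.exp (-w * s / 2)))).re := by
      have := ladder_trace_bound hlad hF'w hs0 hw hz0 hz1
      rw [hC] at this
      exact this
    have hyz : 0 ≤ z * Real.exp (-w * s / 2) := mul_nonneg hz0 hy0.le
    have hyz1 : z * Real.exp (-w * s / 2) < 1 := by
      have : Real.exp (-w * s / 2) ≤ 1 := by
        apply Real.exp_le_one_iff.mpr
        have : 0 ≤ w * s := mul_nonneg hw hs0
        nlinarith
      nlinarith
    have h2 := ha.bound F hF hFk _ hyz hyz1
    have hexp : NormedSpace.exp (-(A + w • (casimir k : Op X n)))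
        = E * NormedSpace.exp (w • (-(casimir k : Op X n))) := by
      rw [neg_add, ← smul_neg, Matrix.exp_add_of_commute _ _ ((hAC.neg_left.neg_right).smul_right w)]
    rw [hexp]
    have e1 : F * (E * NormedSpace.exp (w • (-(casimir k : Op X n))) * wt k z)
        = F' * (NormedSpace.exp (w • (-(casimir k : Op X n))) * wt k z) := by
      rw [hF']; simp only [mul_assoc]
    rw [e1]
    refine hmain.trans ?_
    have e2 : F' * wt k (z * Real.exp (-w * s / 2)) = F * (E * wt k (z * Real.exp (-w * s / 2))) := by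
      rw [hF', mul_assoc]
    rw [e2]
    have e4 : ∀ a b c : ℝ, a * b * c = a * (b * c) := fun a b c => mul_assoc a b c
    rw [e4]
    exact mul_le_mul_of_nonneg_left h2 (by positivity)

/-- Disjoint unions over a finite index set. -/
lemma good_biUnion {ι : Type} [DecidableEq ι] (s : Finset ι) (k : ι → Finset X) (A : ι → Op X n)
    (Ξ : ι → ℝ → ℝ) (hdis : ∀ i ∈ s, ∀ j ∈ s, i ≠ j → Disjoint (k i) (k j))
    (hg : ∀ i ∈ s, Good (k i) (A i) (Ξ i)) :
    Good (s.biUnion k) (∑ i ∈ s, A i) (fun z => ∏ i ∈ s, Ξ i z) := by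
  induction s using Finset.induction_on with
  | empty => simpa using (good_empty (X := X) (n := n))
  | insert a s ha ih =>
    rw [Finset.biUnion_insert, Finset.sum_insert ha]
    have hdis' : Disjoint (k a) (s.biUnion k) := by
      rw [Finset.disjoint_biUnion_right]
      intro j hj
      refine hdis a (Finset.mem_insert_self a s) j (Finset.mem_insert_of_mem hj) ?_
      rintro rfl
      exact ha hj
    have h1 := Good.union hdis' (hg a (Finset.mem_insert_self a s))
      (ih (fun i hi j hj hij => hdis i (Finset.mem_insert_of_mem hi) j (Finset.mem_insert_of_mem hj) hij)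
        (fun i hi => hg i (Finset.mem_insert_of_mem hi)))
    have e : (fun z => ∏ i ∈ insert a s, Ξ i z) = (fun z => Ξ a z * ∏ i ∈ s, Ξ i z) := by
      funext z
      rw [Finset.prod_insert ha]
    rw [e]
    exact h1

end Vale.Agent.P361Lib
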