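import Vale.Agent.Lib.P361.Grid

/-!
# The dyadic tree of Casimir operators
-/

open Matrix
open scoped MatrixOrder ComplexOrder

noncomputable section

namespace Vale.Agent.P361Lib

variable {X : Type} [Fintype X] [DecidableEq X] {n : ℕ}

/-- The grid map shifted to the corner `(a, b, c)`. -/
def shiftG (G : ℕ → ℕ → ℕ → X) (a b c : ℕ) : ℕ → ℕ → ℕ → X :=
  fun u v w => G (a + u) (b + v) (c + w)

omit [Fintype X] [DecidableEq X] in
lemma GridOK.shift {adj : X → X → Prop} {Q : ℕ} {G : ℕ → ℕ → ℕ → X} (h : GridOK adj Q G)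
    {a b c L : ℕ} (ha : a + L ≤ Q) (hb : b + L ≤ Q) (hc : c + L ≤ Q) :
    GridOK adj L (shiftG G a b c) where
  inj := by
    intro u v w u' v' w' h1 h2 h3 h1' h2' h3' e
    obtain ⟨e1, e2, e3⟩ := h.inj _ _ _ _ _ _ (by omega) (by omega) (by omega) (by omega) (by omega)
      (by omega) e
    exact ⟨by omega, by omega, by omega⟩
  adj1 := by
    intro u v w h1 h2 h3
    exact h.adj1 (a + u) (b + v) (c + w) (by omega) (by omega) (by omega)
  adj2 := by
    intro u v w h1 h2 h3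
    exact h.adj2 (a + u) (b + v) (c + w) (by omega) (by omega) (by omega)
  adj3 := by
    intro u v w h1 h2 h3
    exact h.adj3 (a + u) (b + v) (c + w) (by omega) (by omega) (by omega)

/-- The block of side `L` with corner `(a, b, c)`. -/
def blk (G : ℕ → ℕ → ℕ → X) (L a b c : ℕ) : Finset X := gridBlock L (shiftG G a b c)

omit [Fintype X] in
lemma mem_blk {G : ℕ → ℕ → ℕ → X} {L a b c : ℕ} {x : X} :
    x ∈ blk G L a b c ↔ ∃ u v w, u < L ∧ v < L ∧ w < L ∧ G (a + u) (b + v) (c + w) = x := by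
  unfold blk gridBlock shiftG
  simp only [Finset.mem_image, Finset.mem_product, Finset.mem_range, Prod.exists]
  constructor
  · rintro ⟨u, v, w, ⟨hu, hv, hw⟩, e⟩
    exact ⟨u, v, w, hu, hv, hw, e⟩
  · rintro ⟨u, v, w, hu, hv, hw, e⟩
    exact ⟨u, v, w, ⟨hu, hv, hw⟩, e⟩

omit [Fintype X] in
lemma blk_card {adj : X → X → Prop} {Q : ℕ} {G : ℕ → ℕ → ℕ → X} (h : GridOK adj Q G)
    {L a b c : ℕ} (ha : a + L ≤ Q) (hb : b + L ≤ Q) (hc : c + L ≤ Q) :
    (blk G L a b c).card = L ^ 3 := by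
  unfold blk gridBlock
  rw [Finset.card_image_of_injOn]
  · simp only [Finset.card_product, Finset.card_range]
    ring
  · rintro ⟨u, v, w⟩ hp ⟨u', v', w'⟩ hp' e
    simp only [Finset.coe_product, Finset.coe_range, Set.mem_prod, Set.mem_Iio] at hp hp'
    obtain ⟨e1, e2, e3⟩ := (h.shift ha hb hc).inj _ _ _ _ _ _ hp.1 hp.2.1 hp.2.2 hp'.1 hp'.2.1 hp'.2.2 e
    subst e1 e2 e3
    rfl

omit [Fintype X] in
/-- Blocks on a grid of spacing `P ≥ L` are pairwise disjoint. -/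
lemma spaced_disjoint {adj : X → X → Prop} {Q : ℕ} {G : ℕ → ℕ → ℕ → X} (h : GridOK adj Q G)
    {a b c P L : ℕ} (hLP : L ≤ P) {t t' : ℕ × ℕ × ℕ}
    (h1 : a + t.1 * P + L ≤ Q) (h2 : b + t.2.1 * P + L ≤ Q) (h3 : c + t.2.2 * P + L ≤ Q)
    (h1' : a + t'.1 * P + L ≤ Q) (h2' : b + t'.2.1 * P + L ≤ Q) (h3' : c + t'.2.2 * P + L ≤ Q)
    (hne : t ≠ t') :
    Disjoint (blk G L (a + t.1 * P) (b + t.2.1 * P) (c + t.2.2 * P))
      (blk G L (a + t'.1 * P) (b + t'.2.1 * P) (c + t'.2.2 * P)) := by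
  rw [Finset.disjoint_left]
  intro x hx hx'
  obtain ⟨u, v, w, hu, hv, hw, rfl⟩ := mem_blk.mp hx
  obtain ⟨u', v', w', hu', hv', hw', e⟩ := mem_blk.mp hx'
  obtain ⟨e1, e2, e3⟩ := h.inj _ _ _ _ _ _ (by omega) (by omega) (by omega) (by omega) (by omega)
    (by omega) e
  have key : ∀ {i i' s s' : ℕ}, s < P → s' < P → i * P + s = i' * P + s' → i = i' := by
    intro i i' s s' hs hs' hh
    by_contra hne
    rcases Nat.lt_or_gt_of_ne hne with hlt | hlt
    · have : (i + 1) * P ≤ i' * P := Nat.mul_le_mul_right P hlt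
      have e' : (i + 1) * P = i * P + P := by ring
      omega
    · have : (i' + 1) * P ≤ i * P := Nat.mul_le_mul_right P hlt
      have e' : (i' + 1) * P = i' * P + P := by ring
      omega
  apply hne
  have k1 : t.1 = t'.1 := key (show u < P by omega) (show u' < P by omega) (by omega)
  have k2 : t.2.1 = t'.2.1 := key (show v < P by omega) (show v' < P by omega) (by omega)
  have k3 : t.2.2 = t'.2.2 := key (show w < P by omega) (show w' < P by omega) (by omega)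
  exact Prod.ext k1 (Prod.ext k2 k3)

/-- The eight children of a block. -/
def cube2 : Finset (ℕ × ℕ × ℕ) := Finset.range 2 ×ˢ Finset.range 2 ×ˢ Finset.range 2

lemma cube2_card : cube2.card = 8 := by
  unfold cube2
  simp

lemma mem_cube2 {t : ℕ × ℕ × ℕ} : t ∈ cube2 ↔ t.1 < 2 ∧ t.2.1 < 2 ∧ t.2.2 < 2 := by
  unfold cube2
  simp

/-- The dyadic tree operator. -/
def treeOp (w : ℕ → ℝ) (G : ℕ → ℕ → ℕ → X) : ℕ → ℕ → ℕ → ℕ → Op X n
  | 0, _, _, _ => 0
  | r + 1, a, b, c =>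
    ∑ t ∈ cube2, treeOp w G r (a + t.1 * 2 ^ r) (b + t.2.1 * 2 ^ r) (c + t.2.2 * 2 ^ r)
      + (w (r + 1)) • casimir (blk G (2 ^ (r + 1)) a b c)

/-- The majorants in the elimination. -/
def Xi (y : ℕ → ℝ) : ℕ → ℝ → ℝ
  | 0, z => 1 / (1 - z)
  | r + 1, z => (1 / (1 - z)) * (Xi y r (z * y (r + 1))) ^ 8

omit [Fintype X] in
lemma blk_one (G : ℕ → ℕ → ℕ → X) (a b c : ℕ) : blk G 1 a b c = {G a b c} := by
  ext x
  rw [mem_blk, Finset.mem_singleton]
  constructor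
  · rintro ⟨u, v, w, hu, hv, hw, rfl⟩
    obtain rfl : u = 0 := by omega
    obtain rfl : v = 0 := by omega
    obtain rfl : w = 0 := by omega
    rfl
  · rintro rfl
    exact ⟨0, 0, 0, by omega, by omega, by omega, rfl⟩

omit [Fintype X] in
lemma blk_succ (G : ℕ → ℕ → ℕ → X) (r a b c : ℕ) :
    blk G (2 ^ (r + 1)) a b c
      = cube2.biUnion fun t => blk G (2 ^ r) (a + t.1 * 2 ^ r) (b + t.2.1 * 2 ^ r)
          (c + t.2.2 * 2 ^ r) := by
  have hP : 2 ^ (r + 1) = 2 * 2 ^ r := by rw [pow_succ]; ring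
  have hsplit : ∀ u, u < 2 ^ (r + 1) → ∃ i u', i < 2 ∧ u' < 2 ^ r ∧ u = i * 2 ^ r + u' := by
    intro u hu
    by_cases h : u < 2 ^ r
    · exact ⟨0, u, by omega, h, by omega⟩
    · exact ⟨1, u - 2 ^ r, by omega, by omega, by omega⟩
  have hcomb : ∀ i u', i < 2 → u' < 2 ^ r → i * 2 ^ r + u' < 2 ^ (r + 1) := by
    intro i u' hi hu'
    have : i = 0 ∨ i = 1 := by omega
    rcases this with rfl | rfl <;> omega
  ext x
  rw [Finset.mem_biUnion, mem_blk]
  constructor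
  · rintro ⟨u, v, w, hu, hv, hw, e⟩
    obtain ⟨i, u', hi, hu', rfl⟩ := hsplit u hu
    obtain ⟨j, v', hj, hv', rfl⟩ := hsplit v hv
    obtain ⟨l, w', hl, hw', rfl⟩ := hsplit w hw
    refine ⟨(i, j, l), mem_cube2.mpr ⟨hi, hj, hl⟩, mem_blk.mpr ⟨u', v', w', hu', hv', hw', ?_⟩⟩
    rw [← e]
    simp only [add_assoc]
  · rintro ⟨t, ht, hx⟩
    obtain ⟨u', v', w', hu', hv', hw', e⟩ := mem_blk.mp hx
    obtain ⟨h1, h2, h3⟩ := mem_cube2.mp ht
    refine ⟨t.1 * 2 ^ r + u', t.2.1 * 2 ^ r + v', t.2.2 * 2 ^ r + w', hcomb _ _ h1 hu',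
      hcomb _ _ h2 hv', hcomb _ _ h3 hw', ?_⟩
    rw [← e]
    simp only [add_assoc]

/-- The contraction factors attached to the weights. -/
def yOf (n : ℕ) (w : ℕ → ℝ) (q : ℕ) : ℝ :=
  Real.exp (-w q * ((n : ℝ) * (8 : ℝ) ^ q / 2) / 2)

theorem treeOp_good {adj : X → X → Prop} {Q : ℕ} {G : ℕ → ℕ → ℕ → X} (h : GridOK adj Q G)
    {w : ℕ → ℝ} (hw : ∀ q, 0 ≤ w q) (r : ℕ) :
    ∀ a b c : ℕ, a + 2 ^ r ≤ Q → b + 2 ^ r ≤ Q → c + 2 ^ r ≤ Q →
      Good (blk G (2 ^ r) a b c) (treeOp w G r a b c : Op X n) (Xi (yOf n w) r) := by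
  induction r with
  | zero =>
    intro a b c _ _ _
    have e : blk G (2 ^ 0) a b c = {G a b c} := by
      rw [pow_zero]
      exact blk_one G a b c
    rw [e]
    exact good_singleton (G a b c)
  | succ r ih =>
    intro a b c ha hb hc
    have hP : 2 ^ (r + 1) = 2 * 2 ^ r := by rw [pow_succ]; ring
    have hch : ∀ t ∈ cube2, a + t.1 * 2 ^ r + 2 ^ r ≤ Q ∧ b + t.2.1 * 2 ^ r + 2 ^ r ≤ Q ∧
        c + t.2.2 * 2 ^ r + 2 ^ r ≤ Q := by
      intro t ht
      obtain ⟨h1, h2, h3⟩ := mem_cube2.mp ht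
      have key : ∀ i, i < 2 → i * 2 ^ r + 2 ^ r ≤ 2 ^ (r + 1) := by
        intro i hi
        have : i = 0 ∨ i = 1 := by omega
        rcases this with rfl | rfl <;> omega
      have k1 := key _ h1
      have k2 := key _ h2
      have k3 := key _ h3
      exact ⟨by omega, by omega, by omega⟩
    have hg := good_biUnion (X := X) (n := n) cube2
      (fun t => blk G (2 ^ r) (a + t.1 * 2 ^ r) (b + t.2.1 * 2 ^ r) (c + t.2.2 * 2 ^ r))
      (fun t => treeOp w G r (a + t.1 * 2 ^ r) (b + t.2.1 * 2 ^ r) (c + t.2.2 * 2 ^ r))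
      (fun _ => Xi (yOf n w) r)
      (by
        intro t ht t' ht' hne
        obtain ⟨h1, h2, h3⟩ := hch t ht
        obtain ⟨h1', h2', h3'⟩ := hch t' ht'
        exact spaced_disjoint h le_rfl h1 h2 h3 h1' h2' h3' hne)
      (by
        intro t ht
        obtain ⟨h1, h2, h3⟩ := hch t ht
        exact ih _ _ _ h1 h2 h3)
    rw [← blk_succ] at hg
    have hs := hg.casimir_step (hw (r + 1))
    have hcard : ((blk G (2 ^ (r + 1)) a b c).card : ℝ) = (8 : ℝ) ^ (r + 1) := by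
      rw [blk_card h ha hb hc]
      push_cast
      rw [← pow_mul, mul_comm, pow_mul]
      norm_num
    have hXi : (fun z => (1 / (1 - z)) * (fun z => ∏ _t ∈ cube2, Xi (yOf n w) r z)
        (z * Real.exp (-w (r + 1) * ((n : ℝ) * ((blk G (2 ^ (r + 1)) a b c).card : ℝ) / 2) / 2)))
        = Xi (yOf n w) (r + 1) := by
      funext z
      rw [hcard]
      simp only [Finset.prod_const, cube2_card]
      rfl
    rw [hXi] at hs
    exact hs

/-- The accumulated coupling constant in the tree. -/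
def treeCoef (w : ℕ → ℝ) : ℕ → ℝ
  | 0 => 0
  | r + 1 => treeCoef w r + w (r + 1) * (9 * ((2 : ℝ) ^ (r + 1)) ^ 5)

lemma treeCoef_nonneg {w : ℕ → ℝ} (hw : ∀ q, 0 ≤ w q) (r : ℕ) : 0 ≤ treeCoef w r := by
  induction r with
  | zero => exact le_rfl
  | succ r ih =>
    unfold treeCoef
    have := hw (r + 1)
    positivity

theorem treeOp_le (hn : 1 ≤ n) {adj : X → X → Prop} [DecidableRel adj] {Q : ℕ}
    {G : ℕ → ℕ → ℕ → X} (h : GridOK adj Q G) {w : ℕ → ℝ} (hw : ∀ q, 0 ≤ w q) (r : ℕ) :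
    ∀ a b c : ℕ, a + 2 ^ r ≤ Q → b + 2 ^ r ≤ Q → c + 2 ^ r ≤ Q →
      (treeOp w G r a b c : Op X n) ≤ (treeCoef w r) • edgeSum adj (blk G (2 ^ r) a b c) := by
  induction r with
  | zero =>
    intro a b c _ _ _
    show (0 : Op X n) ≤ (0 : ℝ) • _
    simp
  | succ r ih =>
    intro a b c ha hb hc
    have hP : 2 ^ (r + 1) = 2 * 2 ^ r := by rw [pow_succ]; ring
    have hch : ∀ t ∈ cube2, a + t.1 * 2 ^ r + 2 ^ r ≤ Q ∧ b + t.2.1 * 2 ^ r + 2 ^ r ≤ Q ∧
        c + t.2.2 * 2 ^ r + 2 ^ r ≤ Q := by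
      intro t ht
      obtain ⟨h1, h2, h3⟩ := mem_cube2.mp ht
      have key : ∀ i, i < 2 → i * 2 ^ r + 2 ^ r ≤ 2 ^ (r + 1) := by
        intro i hi
        have : i = 0 ∨ i = 1 := by omega
        rcases this with rfl | rfl <;> omega
      have k1 := key _ h1
      have k2 := key _ h2
      have k3 := key _ h3
      exact ⟨by omega, by omega, by omega⟩
    have h1 : ∑ t ∈ cube2, (treeOp w G r (a + t.1 * 2 ^ r) (b + t.2.1 * 2 ^ r)
        (c + t.2.2 * 2 ^ r) : Op X n) ≤ (treeCoef w r) • edgeSum adj (blk G (2 ^ (r + 1)) a b c) := by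
      have h2 : ∑ t ∈ cube2, (treeOp w G r (a + t.1 * 2 ^ r) (b + t.2.1 * 2 ^ r)
          (c + t.2.2 * 2 ^ r) : Op X n)
          ≤ ∑ t ∈ cube2, (treeCoef w r) • edgeSum adj (blk G (2 ^ r) (a + t.1 * 2 ^ r)
            (b + t.2.1 * 2 ^ r) (c + t.2.2 * 2 ^ r)) := by
        refine Finset.sum_le_sum fun t ht => ?_
        obtain ⟨h1, h2, h3⟩ := hch t ht
        exact ih _ _ _ h1 h2 h3
      refine h2.trans ?_
      rw [← Finset.smul_sum, blk_succ]
      refine smul_le_smul_of_nonneg_left ?_ (treeCoef_nonneg hw r)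
      refine edgeSum_biUnion_le adj _ _ ?_
      intro t ht t' ht' hne
      obtain ⟨h1, h2, h3⟩ := hch t ht
      obtain ⟨h1', h2', h3'⟩ := hch t' ht'
      exact spaced_disjoint h le_rfl h1 h2 h3 h1' h2' h3' hne
    have h3 : (casimir (blk G (2 ^ (r + 1)) a b c) : Op X n)
        ≤ (9 * ((2 : ℝ) ^ (r + 1)) ^ 5) • edgeSum adj (blk G (2 ^ (r + 1)) a b c) := by
      have := casimir_le_edgeSum (n := n) (2 ^ (r + 1)) (shiftG G a b c) hn (h.shift ha hb hc)
      push_cast at this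
      exact this
    have h4 := smul_le_smul_of_nonneg_left h3 (hw (r + 1))
    rw [smul_smul] at h4
    refine (add_le_add h1 h4).trans (le_of_eq ?_)
    rw [← add_smul]
    rfl

end Vale.Agent.P361Lib
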