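import Vale.Agent.Lib.P361.TreeOp
import Vale.Agent.Lib.P361.TraceIneq

/-!
# The upper bound on the partition function
-/

open Matrix
open scoped MatrixOrder ComplexOrder

noncomputable section

namespace Vale.Agent.P361Lib

variable {X : Type} [Fintype X] [DecidableEq X] {n : ℕ}

/-- The weights on the tree. -/
def wOf (β : ℝ) (m q : ℕ) : ℝ := β * (1 / 2 : ℝ) ^ (m - q + 1) / (9 * (32 : ℝ) ^ q)

lemma wOf_nonneg {β : ℝ} (hβ : 0 ≤ β) (m q : ℕ) : 0 ≤ wOf β m q := by
  unfold wOf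
  positivity

lemma treeCoef_le {β : ℝ} (hβ : 0 ≤ β) (m r : ℕ) (hr : r ≤ m) :
    treeCoef (wOf β m) r ≤ β * (1 / 2 : ℝ) ^ (m - r) := by
  induction r with
  | zero =>
    show (0 : ℝ) ≤ _
    positivity
  | succ r ih =>
    have hr' : r ≤ m := by omega
    have h1 := ih hr'
    obtain ⟨d, rfl⟩ := Nat.exists_eq_add_of_le hr
    have e1 : r + 1 + d - (r + 1) = d := by omega
    have e2 : r + 1 + d - r = d + 1 := by omega
    rw [e2] at h1
    rw [e1]
    have e3 : wOf β (r + 1 + d) (r + 1) * (9 * ((2 : ℝ) ^ (r + 1)) ^ 5)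
        = β * (1 / 2 : ℝ) ^ (d + 1) := by
      unfold wOf
      rw [e1]
      have : ((2 : ℝ) ^ (r + 1)) ^ 5 = (32 : ℝ) ^ (r + 1) := by
        rw [← pow_mul, mul_comm, pow_mul]
        norm_num
      rw [this]
      have hp : (32 : ℝ) ^ (r + 1) ≠ 0 := by positivity
      field_simp
    show treeCoef (wOf β (r + 1 + d)) r + wOf β (r + 1 + d) (r + 1) * (9 * ((2 : ℝ) ^ (r + 1)) ^ 5)
      ≤ β * (1 / 2 : ℝ) ^ d
    rw [e3]
    have h2 : β * (1 / 2 : ℝ) ^ d = β * (1 / 2 : ℝ) ^ (d + 1) + β * (1 / 2 : ℝ) ^ (d + 1) := by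
      rw [pow_succ]
      ring
    linarith

lemma treeCoef_le_beta {β : ℝ} (hβ : 0 ≤ β) (m : ℕ) : treeCoef (wOf β m) m ≤ β := by
  have := treeCoef_le hβ m m le_rfl
  simpa using this

/-- The contraction factors are small at the lower levels. -/
lemma y_small {β : ℝ} {m q : ℕ} (hm : (4 : ℝ) ^ m ≤ β * n) (hq : q + 8 ≤ m) :
    yOf n (wOf β m) q ≤ 1 / 16 := by
  obtain ⟨d, rfl⟩ : ∃ d, m = q + (d + 8) := ⟨m - q - 8, by omega⟩
  have e1 : q + (d + 8) - q = d + 8 := by omega
  unfold yOf wOf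
  rw [e1]
  have hP : (32 : ℝ) ^ q = (8 : ℝ) ^ q * (4 : ℝ) ^ q := by
    rw [← mul_pow]
    norm_num
  rw [hP]
  set A : ℝ := (8 : ℝ) ^ q with hA
  set B : ℝ := (4 : ℝ) ^ q with hB
  set C : ℝ := (1 / 2 : ℝ) ^ (d + 8 + 1) with hC
  have hApos : 0 < A := by positivity
  have hBpos : 0 < B := by positivity
  have hCpos : 0 < C := by positivity
  have e2 : -(β * C / (9 * (A * B))) * ((n : ℝ) * A / 2) / 2 = -((β * n) * C / (36 * B)) := by
    field_simp
    ring
  rw [e2]
  have h4 : (4 : ℝ) ^ (q + (d + 8)) = B * (4 : ℝ) ^ (d + 8) := by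
    rw [pow_add]
  rw [h4] at hm
  have h5 : (4 : ℝ) ^ (d + 8) * C = 128 * (2 : ℝ) ^ d := by
    rw [hC]
    have : (4 : ℝ) ^ (d + 8) = (2 : ℝ) ^ (d + 8) * (2 : ℝ) ^ (d + 8) := by
      rw [← mul_pow]
      norm_num
    rw [this, pow_succ (1 / 2 : ℝ) (d + 8), one_div, inv_pow]
    have h2 : ((2 : ℝ) ^ (d + 8)) ≠ 0 := by positivity
    field_simp
    ring
  have h6 : (1 : ℝ) ≤ (2 : ℝ) ^ d := one_le_pow₀ (by norm_num)
  have h7 : 3 ≤ (β * n) * C / (36 * B) := by
    rw [le_div_iff₀ (by positivity)]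
    have h8 : B * (4 : ℝ) ^ (d + 8) * C ≤ (β * n) * C := mul_le_mul_of_nonneg_right hm hCpos.le
    have h9 : B * (4 : ℝ) ^ (d + 8) * C = B * (128 * (2 : ℝ) ^ d) := by
      rw [mul_assoc, h5]
    nlinarith
  have h10 : Real.exp (-((β * n) * C / (36 * B))) ≤ Real.exp (-3) :=
    Real.exp_le_exp.mpr (by linarith)
  refine h10.trans ?_
  rw [Real.exp_neg, one_div]
  refine inv_anti₀ (by norm_num) ?_
  have h11 : (2.7 : ℝ) ≤ Real.exp 1 := by
    have := Real.exp_one_gt_d9
    linarith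
  have h12 : Real.exp 3 = Real.exp 1 ^ 3 := by
    rw [← Real.exp_nat_mul]
    norm_num
  rw [h12]
  nlinarith [pow_le_pow_left₀ (by norm_num : (0 : ℝ) ≤ 2.7) h11 3]

lemma y_nonneg (w : ℕ → ℝ) (q : ℕ) : 0 ≤ yOf n w q := (Real.exp_pos _).le

lemma y_le_one {w : ℕ → ℝ} (hw : ∀ q, 0 ≤ w q) (q : ℕ) : yOf n w q ≤ 1 := by
  unfold yOf
  rw [Real.exp_le_one_iff]
  have := hw q
  have h2 : 0 ≤ w q * ((n : ℝ) * (8 : ℝ) ^ q / 2) / 2 := by positivity
  have e : -w q * ((n : ℝ) * (8 : ℝ) ^ q / 2) / 2 = -(w q * ((n : ℝ) * (8 : ℝ) ^ q / 2) / 2) := by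
    ring
  rw [e]
  linarith

lemma inv_one_sub_le_exp {z : ℝ} (hz0 : 0 ≤ z) (hz1 : z ≤ 1 / 2) : 1 / (1 - z) ≤ Real.exp (2 * z) := by
  have h1 : 0 < 1 - z := by linarith
  have h2 : 1 / (1 - z) ≤ 2 * z + 1 := by
    rw [div_le_iff₀ h1]
    nlinarith
  exact h2.trans (Real.add_one_le_exp _)

/-- The exponents in the majorant. -/
def phiC (m r : ℕ) : ℝ := 4 * (9 : ℝ) ^ (r + 8 - m)

lemma phiC_ge (m r : ℕ) : 4 ≤ phiC m r := by
  unfold phiC
  have : (1 : ℝ) ≤ (9 : ℝ) ^ (r + 8 - m) := one_le_pow₀ (by norm_num)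
  linarith

lemma Xi_bound {y : ℕ → ℝ} {m : ℕ} (hy0 : ∀ q, 0 ≤ y q) (hy1 : ∀ q, y q ≤ 1)
    (hy2 : ∀ q, q + 8 ≤ m → y q ≤ 1 / 16) (r : ℕ) :
    ∀ z : ℝ, 0 ≤ z → z ≤ 1 / 2 → 0 ≤ Xi y r z ∧ Xi y r z ≤ Real.exp (phiC m r * z) := by
  induction r with
  | zero =>
    intro z hz0 hz1
    have h1 : 0 < 1 - z := by linarith
    refine ⟨by show 0 ≤ 1 / (1 - z); positivity, ?_⟩
    refine (inv_one_sub_le_exp hz0 hz1).trans (Real.exp_le_exp.mpr ?_)
    have := phiC_ge m 0
    nlinarith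
  | succ r ih =>
    intro z hz0 hz1
    have h1 : 0 < 1 - z := by linarith
    have hy := hy0 (r + 1)
    have hy' := hy1 (r + 1)
    have hzy0 : 0 ≤ z * y (r + 1) := by positivity
    have hzy1 : z * y (r + 1) ≤ 1 / 2 := by nlinarith
    obtain ⟨h2, h3⟩ := ih _ hzy0 hzy1
    have e : Xi y (r + 1) z = (1 / (1 - z)) * (Xi y r (z * y (r + 1))) ^ 8 := rfl
    rw [e]
    refine ⟨by positivity, ?_⟩
    have h4 : (Xi y r (z * y (r + 1))) ^ 8 ≤ Real.exp (phiC m r * (z * y (r + 1))) ^ 8 :=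
      pow_le_pow_left₀ h2 h3 8
    have h5 : Real.exp (phiC m r * (z * y (r + 1))) ^ 8
        = Real.exp (8 * (phiC m r * (z * y (r + 1)))) := by
      rw [← Real.exp_nat_mul]
      norm_num
    rw [h5] at h4
    have h6 : (1 / (1 - z)) * (Xi y r (z * y (r + 1))) ^ 8
        ≤ Real.exp (2 * z) * Real.exp (8 * (phiC m r * (z * y (r + 1)))) :=
      mul_le_mul (inv_one_sub_le_exp hz0 hz1) h4 (by positivity) (Real.exp_pos _).le
    refine h6.trans ?_
    rw [← Real.exp_add]
    refine Real.exp_le_exp.mpr ?_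
    have h7 : 2 + 8 * (phiC m r * y (r + 1)) ≤ phiC m (r + 1) := by
      by_cases hc : r + 1 + 8 ≤ m
      · have e1 : r + 8 - m = 0 := by omega
        have e2 : r + 1 + 8 - m = 0 := by omega
        unfold phiC
        rw [e1, e2]
        have := hy2 (r + 1) hc
        norm_num
        nlinarith
      · have e1 : r + 1 + 8 - m = (r + 8 - m) + 1 := by omega
        have hphi : phiC m (r + 1) = 9 * phiC m r := by
          unfold phiC
          rw [e1, pow_succ]
          ring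
        rw [hphi]
        have := phiC_ge m r
        nlinarith
    nlinarith

/-- The exponential of the weighted deviation count. -/
lemma exp_neg_smul_devD (k : Finset X) (lam : ℝ) :
    NormedSpace.exp (-(lam • (totalOp k (devD n) : Op X n))) = wt k (Real.exp (-lam)) := by
  rw [totalOp_devD]
  have e : -(lam • diagonal (fun σ : Cfg X n => ((devCount k σ : ℕ) : ℂ)))
      = diagonal (fun σ : Cfg X n => (((-lam * (devCount k σ : ℝ) : ℝ)) : ℂ)) := by
    ext σ τ
    by_cases h : σ = τ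
    · subst h
      simp [Matrix.diagonal_apply_eq]
    · simp [Matrix.diagonal_apply_ne _ h]
  rw [e, Matrix.exp_diagonal]
  unfold wt
  congr 1
  funext σ
  rw [Pi.exp_def, ← Complex.exp_eq_exp_ℂ]
  show Complex.exp ((-lam * (devCount k σ : ℝ) : ℝ) : ℂ) = _
  rw [← Complex.ofReal_exp]
  congr 1
  rw [← Real.exp_nat_mul]
  congr 1
  ring

/-- The trace of the vacuum projector. -/
lemma trace_wt_univ_zero : (trace (wt (Finset.univ : Finset X) 0 : Op X n)).re = 1 := by
  unfold wt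
  rw [Matrix.trace_diagonal]
  have h : ∀ σ : Cfg X n, (((0 : ℝ) ^ (devCount (Finset.univ : Finset X) σ) : ℝ) : ℂ)
      = if σ = (fun _ => 0) then 1 else 0 := by
    intro σ
    by_cases hσ : σ = fun _ => 0
    · subst hσ
      simp [devCount]
    · rw [if_neg hσ]
      have : devCount (Finset.univ : Finset X) σ ≠ 0 := by
        intro h0
        apply hσ
        funext x
        unfold devCount at h0
        rw [Finset.sum_eq_zero_iff] at h0
        have := h0 x (Finset.mem_univ x)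
        exact Fin.ext (by simpa using this)
      simp [this]
  simp only [h]
  simp

lemma edgeSum_isHermitian (adj : X → X → Prop) [DecidableRel adj] (k : Finset X) :
    (edgeSum adj k : Op X n).IsHermitian := by
  unfold edgeSum Matrix.IsHermitian
  rw [Matrix.conjTranspose_smul, star_trivial]
  congr 1
  rw [Matrix.conjTranspose_sum]
  refine Finset.sum_congr rfl fun x _ => ?_
  rw [Matrix.conjTranspose_sum]
  refine Finset.sum_congr rfl fun y _ => ?_
  split_ifs
  · exact hEdge_isHermitian x y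
  · simp

/-- The upper bound on the partition function with a field. -/
theorem upper_main (hn : 1 ≤ n) {adj : X → X → Prop} [DecidableRel adj] {Q : ℕ}
    {G : ℕ → ℕ → ℕ → X} (h : GridOK adj Q G) {β : ℝ} (hβ : 0 ≤ β) (m : ℕ)
    (hm : (4 : ℝ) ^ m ≤ β * n) {lam : ℝ} (hlam : Real.exp (-lam) ≤ 1 / 2) :
    (trace (NormedSpace.exp (-(β • edgeSum adj (Finset.univ : Finset X)
        + lam • (totalOp (Finset.univ : Finset X) (devD n) : Op X n))))).re
      ≤ Real.exp ((((Q / 2 ^ m : ℕ) : ℝ) ^ 3 * (4 * (9 : ℝ) ^ 8)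
          + ((Fintype.card X : ℝ) - ((Q / 2 ^ m : ℕ) : ℝ) ^ 3 * (8 : ℝ) ^ m) * 2)
            * Real.exp (-lam)) := by
  set z : ℝ := Real.exp (-lam) with hz
  have hz0 : 0 ≤ z := (Real.exp_pos _).le
  set q : ℕ := Q / 2 ^ m with hq
  set T : Finset (ℕ × ℕ × ℕ) := Finset.range q ×ˢ Finset.range q ×ˢ Finset.range q with hT
  set w : ℕ → ℝ := wOf β m with hw
  have hw0 : ∀ q, 0 ≤ w q := wOf_nonneg hβ m
  set root : ℕ × ℕ × ℕ → Finset X :=
    fun t => blk G (2 ^ m) (0 + t.1 * 2 ^ m) (0 + t.2.1 * 2 ^ m) (0 + t.2.2 * 2 ^ m) with hroot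
  have hqP : q * 2 ^ m ≤ Q := Nat.div_mul_le_self Q (2 ^ m)
  have hbd : ∀ i, i < q → 0 + i * 2 ^ m + 2 ^ m ≤ Q := by
    intro i hi
    have : (i + 1) * 2 ^ m ≤ q * 2 ^ m := Nat.mul_le_mul_right _ hi
    have e : (i + 1) * 2 ^ m = i * 2 ^ m + 2 ^ m := by ring
    omega
  have hTmem : ∀ t ∈ T, t.1 < q ∧ t.2.1 < q ∧ t.2.2 < q := by
    intro t ht
    simpa [hT] using ht
  have hdisj : ∀ t ∈ T, ∀ t' ∈ T, t ≠ t' → Disjoint (root t) (root t') := by
    intro t ht t' ht' hne
    obtain ⟨h1, h2, h3⟩ := hTmem t ht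
    obtain ⟨h1', h2', h3'⟩ := hTmem t' ht'
    exact spaced_disjoint h le_rfl (hbd _ h1) (hbd _ h2) (hbd _ h3) (hbd _ h1') (hbd _ h2')
      (hbd _ h3') hne
  set Aroot : Op X n := ∑ t ∈ T, treeOp w G m (0 + t.1 * 2 ^ m) (0 + t.2.1 * 2 ^ m)
    (0 + t.2.2 * 2 ^ m) with hAroot
  have hGR : Good (T.biUnion root) Aroot (fun z => ∏ _t ∈ T, Xi (yOf n w) m z) := by
    refine good_biUnion T root _ (fun _ => Xi (yOf n w) m) hdisj ?_
    intro t ht
    obtain ⟨h1, h2, h3⟩ := hTmem t ht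
    exact treeOp_good h hw0 m _ _ _ (hbd _ h1) (hbd _ h2) (hbd _ h3)
  set R : Finset X := T.biUnion root with hR
  set U : Finset X := Finset.univ \ R with hU
  have hGU : Good U (0 : Op X n) (fun z => ∏ _x ∈ U, 1 / (1 - z)) := by
    have := good_biUnion (X := X) (n := n) U (fun x => ({x} : Finset X)) (fun _ => 0)
      (fun _ z => 1 / (1 - z))
      (by
        intro i _ j _ hij
        simpa using hij)
      (fun x _ => good_singleton x)
    rw [Finset.biUnion_singleton_eq_self] at this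
    simpa using this
  have hRU : Disjoint R U := Finset.disjoint_sdiff
  have hRUu : R ∪ U = Finset.univ := Finset.union_sdiff_of_subset (Finset.subset_univ R)
  have hG := hGR.union hRU hGU
  rw [hRUu, add_zero] at hG
  -- the trace estimate
  have hcomp : Aroot ≤ β • edgeSum adj (Finset.univ : Finset X) := by
    have h1 : Aroot ≤ ∑ t ∈ T, (treeCoef w m) • edgeSum adj (root t) := by
      refine Finset.sum_le_sum fun t ht => ?_
      obtain ⟨h1, h2, h3⟩ := hTmem t ht
      exact treeOp_le hn h hw0 m _ _ _ (hbd _ h1) (hbd _ h2) (hbd _ h3)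
    refine h1.trans ?_
    rw [← Finset.smul_sum]
    have h2 : ∑ t ∈ T, (edgeSum adj (root t) : Op X n) ≤ edgeSum adj (Finset.univ : Finset X) := by
      refine (edgeSum_biUnion_le adj T root hdisj).trans ?_
      rw [← hRUu]
      have := edgeSum_union_le (X := X) (n := n) adj hRU
      refine le_trans ?_ this
      exact le_add_of_nonneg_right (edgeSum_nonneg adj U)
    refine (smul_le_smul_of_nonneg_left h2 (treeCoef_nonneg hw0 m)).trans ?_
    exact smul_le_smul_of_nonneg_right (treeCoef_le_beta hβ m) (edgeSum_nonneg adj _)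
  set N : Op X n := lam • (totalOp (Finset.univ : Finset X) (devD n) : Op X n) with hN
  have hNH : N.IsHermitian := by
    rw [hN, totalOp_devD]
    unfold Matrix.IsHermitian
    rw [Matrix.conjTranspose_smul, star_trivial, Matrix.diagonal_conjTranspose]
    congr 2
    funext σ
    simp
  have hH1 : (Aroot + N).IsHermitian := hG.herm.add hNH
  have hH2 : (β • edgeSum adj (Finset.univ : Finset X) + N).IsHermitian := by
    refine Matrix.IsHermitian.add ?_ hNH
    unfold Matrix.IsHermitian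
    rw [Matrix.conjTranspose_smul, star_trivial, (edgeSum_isHermitian adj _).eq]
  have hmono := trace_exp_neg_mono hH1 hH2 (add_le_add_left hcomp N)
  refine hmono.trans ?_
  -- factor the exponential
  have hcomm : Commute (-Aroot) (-N) := by
    have : Commute Aroot N := by
      rw [hN, totalOp_devD]
      have := hG.comD (fun j => (j : ℂ))
      exact (Commute.smul_right this lam)
    exact (this.neg_left).neg_right
  rw [neg_add, Matrix.exp_add_of_commute _ _ hcomm, hN, exp_neg_smul_devD, ← hz]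
  have hb := hG.bound 1 Matrix.PosSemidef.one (Off.one _) z hz0
    (by linarith)
  rw [Matrix.one_mul, Matrix.one_mul, trace_wt_univ_zero, mul_one] at hb
  have hzle : z ≤ 1 / 2 := hlam
  refine hb.trans ?_
  -- the numerical bound
  have hy0 := y_nonneg (n := n) w
  have hy1 := y_le_one (n := n) hw0
  have hy2 : ∀ q, q + 8 ≤ m → yOf n w q ≤ 1 / 16 := fun q hq => y_small hm hq
  obtain ⟨hX0, hX1⟩ := Xi_bound hy0 hy1 hy2 m z hz0 hzle
  have hphi : phiC m m = 4 * (9 : ℝ) ^ 8 := by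
    unfold phiC
    have : m + 8 - m = 8 := by omega
    rw [this]
  rw [hphi] at hX1
  have hprod1 : ∏ _t ∈ T, Xi (yOf n w) m z ≤ Real.exp ((q : ℝ) ^ 3 * (4 * (9 : ℝ) ^ 8) * z) := by
    rw [Finset.prod_const]
    have hTc : T.card = q ^ 3 := by
      rw [hT]
      simp only [Finset.card_product, Finset.card_range]
      ring
    rw [hTc]
    refine (pow_le_pow_left₀ hX0 hX1 _).trans (le_of_eq ?_)
    rw [← Real.exp_nat_mul]
    congr 1
    push_cast
    ring
  have hRcard : (R.card : ℝ) = (q : ℝ) ^ 3 * (8 : ℝ) ^ m := by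
    rw [hR, Finset.card_biUnion hdisj]
    have : ∀ t ∈ T, (root t).card = (2 ^ m) ^ 3 := by
      intro t ht
      obtain ⟨h1, h2, h3⟩ := hTmem t ht
      exact blk_card h (hbd _ h1) (hbd _ h2) (hbd _ h3)
    rw [Finset.sum_congr rfl this, Finset.sum_const]
    have hTc : T.card = q ^ 3 := by
      rw [hT]
      simp only [Finset.card_product, Finset.card_range]
      ring
    rw [hTc]
    push_cast
    rw [nsmul_eq_mul]
    push_cast
    rw [← pow_mul, mul_comm m 3, pow_mul]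
    norm_num
  have hUcard : (U.card : ℝ) = (Fintype.card X : ℝ) - (q : ℝ) ^ 3 * (8 : ℝ) ^ m := by
    rw [hU, Finset.card_sdiff_of_subset (Finset.subset_univ R), Finset.card_univ,
      Nat.cast_sub (by rw [← Finset.card_univ]; exact Finset.card_le_card (Finset.subset_univ R)), hRcard]
  have hprod2 : ∏ _x ∈ U, 1 / (1 - z)
      ≤ Real.exp (((Fintype.card X : ℝ) - (q : ℝ) ^ 3 * (8 : ℝ) ^ m) * 2 * z) := by
    rw [Finset.prod_const]
    have h1 : 0 < 1 - z := by linarith
    refine (pow_le_pow_left₀ (by positivity) (inv_one_sub_le_exp hz0 hzle) _).trans (le_of_eq ?_)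
    rw [← Real.exp_nat_mul, hUcard]
    congr 1
    ring
  have hfin := mul_le_mul hprod1 hprod2 (Finset.prod_nonneg fun _ _ => by
    have h1 : 0 < 1 - z := by linarith
    positivity) (Real.exp_pos _).le
  refine hfin.trans (le_of_eq ?_)
  rw [← Real.exp_add]
  congr 1
  ring

end Vale.Agent.P361Lib
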