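import Vale.Agent.Lib.P361.Compare

/-!
# Decomposition of the partition function into sectors
-/

open Matrix Finset
open scoped MatrixOrder ComplexOrder

noncomputable section

namespace Vale.Agent.P361Lib

variable {X : Type} [Fintype X] [DecidableEq X] {n : ℕ}
variable (adj : X → X → Prop) [DecidableRel adj]

/-- The partition function of a general graph, measured from the ground state energy. -/
def Zgen (n : ℕ) (β lam : ℝ) : ℝ :=
  (trace (NormedSpace.exp (-(β • edgeSum adj (Finset.univ : Finset X)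
    + lam • (totalOp (Finset.univ : Finset X) (devD n) : Op X n))))).re

/-- The diagonal weights of the Gibbs factor. -/
def gw (n : ℕ) (β : ℝ) (σ : Cfg X n) : ℝ :=
  (NormedSpace.exp (-(β • (edgeSum adj (Finset.univ : Finset X) : Op X n))) σ σ).re

lemma gw_nonneg (β : ℝ) (σ : Cfg X n) : 0 ≤ gw adj n β σ := by
  unfold gw
  have hH : (-(β • (edgeSum adj (Finset.univ : Finset X) : Op X n))).IsHermitian := by
    unfold Matrix.IsHermitian
    rw [Matrix.conjTranspose_neg, Matrix.conjTranspose_smul, star_trivial,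
      (edgeSum_isHermitian adj _).eq]
  have := (exp_posSemidef hH).diag_nonneg (i := σ)
  exact (Complex.le_def.mp this).1

lemma Zgen_eq_sum (β lam : ℝ) :
    Zgen adj n β lam = ∑ σ : Cfg X n,
      gw adj n β σ * Real.exp (-lam) ^ (devCount (Finset.univ : Finset X) σ) := by
  unfold Zgen
  have hc : Commute (-(β • (edgeSum adj (Finset.univ : Finset X) : Op X n)))
      (-(lam • (totalOp (Finset.univ : Finset X) (devD n) : Op X n))) := by
    refine ((Commute.smul_left ?_ _).smul_right _).neg_left.neg_right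
    exact edgeSum_comm_devTotal adj
  rw [neg_add, Matrix.exp_add_of_commute _ _ hc, exp_neg_smul_devD]
  unfold wt
  rw [Matrix.trace, Complex.re_sum]
  refine Finset.sum_congr rfl fun σ _ => ?_
  rw [Matrix.diag_apply, Matrix.mul_diagonal, Complex.re_mul_ofReal]
  rfl

/-- The trace over the sector with `K` deviations. -/
def TK (n : ℕ) (β : ℝ) (K : ℕ) : ℝ :=
  ∑ σ ∈ Finset.univ.filter (fun σ : Cfg X n => devCount (Finset.univ : Finset X) σ = K), gw adj n β σ

lemma TK_eq (β : ℝ) (K : ℕ) :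
    TK adj n β K
      = (trace (NormedSpace.exp (-(β • secBlock K (edgeSum adj (Finset.univ : Finset X) : Op X n))))).re := by
  have hc : Commute (-(β • (edgeSum adj (Finset.univ : Finset X) : Op X n)))
      (totalOp (Finset.univ : Finset X) (devD n)) :=
    ((edgeSum_comm_devTotal adj).smul_left _).neg_left
  have h := sector_trace hc K
  have e : secBlock K (-(β • (edgeSum adj (Finset.univ : Finset X) : Op X n)))
      = -(β • secBlock K (edgeSum adj (Finset.univ : Finset X) : Op X n)) := rfl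
  rw [e] at h
  rw [← h, Complex.re_sum]
  rfl

/-- The splitting into low sectors and a tail. -/
theorem Zgen_split (β : ℝ) {lam lam₁ : ℝ} (hlam : lam₁ ≤ lam) (K₀ : ℕ) :
    Zgen adj n β lam ≤ ∑ K ∈ Finset.range (K₀ + 1), Real.exp (-lam) ^ K * TK adj n β K
      + (Real.exp (-lam) / Real.exp (-lam₁)) ^ (K₀ + 1) * Zgen adj n β lam₁ := by
  rw [Zgen_eq_sum, Zgen_eq_sum]
  set z := Real.exp (-lam) with hz
  set z₁ := Real.exp (-lam₁) with hz₁
  have hz0 : 0 < z := Real.exp_pos _
  have hz₁0 : 0 < z₁ := Real.exp_pos _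
  have hzz : z ≤ z₁ := Real.exp_le_exp.mpr (by linarith)
  have hr0 : 0 ≤ z / z₁ := by positivity
  have hr1 : z / z₁ ≤ 1 := (div_le_one hz₁0).mpr hzz
  rw [← Finset.sum_filter_add_sum_filter_not Finset.univ
    (fun σ : Cfg X n => devCount (Finset.univ : Finset X) σ < K₀ + 1)]
  refine add_le_add (le_of_eq ?_) ?_
  · have hmaps : ∀ σ ∈ Finset.univ.filter (fun σ : Cfg X n => devCount (Finset.univ : Finset X) σ < K₀ + 1),
        devCount (Finset.univ : Finset X) σ ∈ Finset.range (K₀ + 1) := by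
      intro σ hσ
      exact Finset.mem_range.mpr (Finset.mem_filter.mp hσ).2
    rw [← Finset.sum_fiberwise_of_maps_to hmaps]
    refine Finset.sum_congr rfl fun K hK => ?_
    unfold TK
    rw [Finset.mul_sum]
    have hK' := Finset.mem_range.mp hK
    have e : (Finset.univ.filter (fun σ : Cfg X n => devCount (Finset.univ : Finset X) σ < K₀ + 1)).filter
        (fun σ => devCount (Finset.univ : Finset X) σ = K)
        = Finset.univ.filter (fun σ : Cfg X n => devCount (Finset.univ : Finset X) σ = K) := by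
      ext σ
      simp only [Finset.mem_filter, Finset.mem_univ, true_and]
      constructor
      · exact fun h => h.2
      · intro h
        exact ⟨by omega, h⟩
    rw [e]
    refine Finset.sum_congr rfl fun σ hσ => ?_
    rw [(Finset.mem_filter.mp hσ).2]
    ring
  · rw [Finset.mul_sum]
    have h1 : ∀ σ ∈ Finset.univ.filter (fun σ : Cfg X n => ¬ devCount (Finset.univ : Finset X) σ < K₀ + 1),
        gw adj n β σ * z ^ devCount (Finset.univ : Finset X) σ
          ≤ (z / z₁) ^ (K₀ + 1) * (gw adj n β σ * z₁ ^ devCount (Finset.univ : Finset X) σ) := by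
      intro σ hσ
      have hd := not_lt.mp (Finset.mem_filter.mp hσ).2
      obtain ⟨d, hd'⟩ := Nat.exists_eq_add_of_le hd
      rw [hd']
      have h2 : (z / z₁) ^ (K₀ + 1 + d) ≤ (z / z₁) ^ (K₀ + 1) :=
        pow_le_pow_of_le_one hr0 hr1 (by omega)
      have e : z ^ (K₀ + 1 + d) = (z / z₁) ^ (K₀ + 1 + d) * z₁ ^ (K₀ + 1 + d) := by
        rw [← mul_pow, div_mul_cancel₀ _ hz₁0.ne']
      rw [e]
      have hg := gw_nonneg adj β σ
      have hp : 0 ≤ z₁ ^ (K₀ + 1 + d) := by positivity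
      calc gw adj n β σ * ((z / z₁) ^ (K₀ + 1 + d) * z₁ ^ (K₀ + 1 + d))
          = (z / z₁) ^ (K₀ + 1 + d) * (gw adj n β σ * z₁ ^ (K₀ + 1 + d)) := by ring
        _ ≤ (z / z₁) ^ (K₀ + 1) * (gw adj n β σ * z₁ ^ (K₀ + 1 + d)) :=
            mul_le_mul_of_nonneg_right h2 (by positivity)
    refine (Finset.sum_le_sum h1).trans ?_
    refine Finset.sum_le_sum_of_subset_of_nonneg (Finset.filter_subset _ _) fun σ _ _ => ?_
    have hg := gw_nonneg adj β σ
    positivity

/-- The truncated geometric series. -/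
lemma geom_le_inv {y : ℝ} (hy0 : 0 ≤ y) (hy1 : y < 1) (m : ℕ) :
    ∑ i ∈ Finset.range m, y ^ i ≤ (1 - y)⁻¹ := by
  have h1 : 0 < 1 - y := by linarith
  have h2 := mul_neg_geom_sum y m
  rw [← one_div, le_div_iff₀ h1, mul_comm, h2]
  have : 0 ≤ y ^ m := by positivity
  linarith

/-- The dimension of the sectors. -/
lemma card_sec_le (K : ℕ) :
    (Fintype.card (Sec X n K) : ℝ) ≤ Real.exp 1 * ((Fintype.card X : ℝ) + 1) ^ K := by
  set N : ℝ := (Fintype.card X : ℝ) with hN
  have hN0 : 0 ≤ N := by positivity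
  set y : ℝ := 1 / (N + 1) with hy
  have hy0 : 0 < y := by positivity
  -- the generating function
  have hgen : ∑ σ : Cfg X n, y ^ devCount (Finset.univ : Finset X) σ
      = ∏ _x : X, ∑ i : Fin (n + 1), y ^ (i : ℕ) := by
    have := Finset.prod_univ_sum (fun _ : X => (Finset.univ : Finset (Fin (n + 1)))) (fun _ i => y ^ (i : ℕ))
    rw [this, Fintype.piFinset_univ]
    refine Finset.sum_congr rfl fun σ _ => ?_
    unfold devCount
    rw [Finset.prod_pow_eq_pow_sum]
  have hgen2 : ∑ σ : Cfg X n, y ^ devCount (Finset.univ : Finset X) σ ≤ Real.exp 1 := by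
    rw [hgen]
    by_cases hX : Fintype.card X = 0
    · have : IsEmpty X := Fintype.card_eq_zero_iff.mp hX
      simp only [Finset.univ_eq_empty, Finset.prod_empty]
      have := Real.add_one_le_exp (1 : ℝ)
      linarith
    · have hNpos : 0 < N := by
        rw [hN]
        exact_mod_cast Nat.pos_of_ne_zero hX
      have hy1 : y < 1 := by
        rw [hy, div_lt_one (by linarith)]
        linarith
      have hsingle : ∑ i : Fin (n + 1), y ^ (i : ℕ) ≤ Real.exp (1 / N) := by
        rw [Fin.sum_univ_eq_sum_range (fun i => y ^ i) (n + 1)]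
        refine (geom_le_inv hy0.le hy1 _).trans ?_
        have e : (1 - y)⁻¹ = 1 / N + 1 := by
          rw [hy]
          have hN1 : N + 1 ≠ 0 := by positivity
          have hNne : N ≠ 0 := hNpos.ne'
          have e1 : 1 - 1 / (N + 1) = N / (N + 1) := by
            field_simp
            ring
          rw [e1, inv_div]
          field_simp
          ring
        rw [e]
        exact Real.add_one_le_exp _
      have h2 : ∏ _x : X, ∑ i : Fin (n + 1), y ^ (i : ℕ) ≤ ∏ _x : X, Real.exp (1 / N) :=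
        Finset.prod_le_prod (fun _ _ => Finset.sum_nonneg fun _ _ => by positivity) fun _ _ => hsingle
      refine h2.trans (le_of_eq ?_)
      rw [Finset.prod_const, Finset.card_univ, ← Real.exp_nat_mul]
      congr 1
      rw [← hN]
      field_simp
  have hcard : (Fintype.card (Sec X n K) : ℝ) * y ^ K ≤ ∑ σ : Cfg X n, y ^ devCount (Finset.univ : Finset X) σ := by
    have e : (Fintype.card (Sec X n K) : ℝ) * y ^ K
        = ∑ σ ∈ Finset.univ.filter (fun σ : Cfg X n => devCount (Finset.univ : Finset X) σ = K),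
            y ^ devCount (Finset.univ : Finset X) σ := by
      rw [Finset.sum_congr rfl fun σ hσ => by rw [(Finset.mem_filter.mp hσ).2], Finset.sum_const,
        nsmul_eq_mul, Fintype.card_subtype]
    rw [e]
    exact Finset.sum_le_sum_of_subset_of_nonneg (Finset.filter_subset _ _) fun _ _ _ => by positivity
  have h3 := hcard.trans hgen2
  have hyK : y ^ K * (N + 1) ^ K = 1 := by
    rw [← mul_pow, hy]
    have : N + 1 ≠ 0 := by positivity
    rw [one_div, inv_mul_cancel₀ this, one_pow]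
  have hpos : 0 ≤ (N + 1) ^ K := by positivity
  calc (Fintype.card (Sec X n K) : ℝ) = (Fintype.card (Sec X n K) : ℝ) * (y ^ K * (N + 1) ^ K) := by
        rw [hyK, mul_one]
    _ = ((Fintype.card (Sec X n K) : ℝ) * y ^ K) * (N + 1) ^ K := by ring
    _ ≤ Real.exp 1 * (N + 1) ^ K := mul_le_mul_of_nonneg_right h3 hpos

/-- The free sum over occupation numbers. -/
theorem free_sum_le {Q : Type} [Fintype Q] [DecidableEq Q] (w : Q → ℝ) (hw0 : ∀ q, 0 ≤ w q)
    (hw1 : ∀ q, w q < 1) (K₀ : ℕ) :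
    ∑ K ∈ Finset.range (K₀ + 1), ∑ m ∈ Occ Q K, ∏ q, w q ^ m q ≤ ∏ q, (1 - w q)⁻¹ := by
  set P : Finset (Q → ℕ) := Fintype.piFinset fun _ : Q => Finset.range (K₀ + 1) with hP
  have h1 : ∑ K ∈ Finset.range (K₀ + 1), ∑ m ∈ Occ Q K, ∏ q, w q ^ m q
      = ∑ m ∈ (Finset.range (K₀ + 1)).biUnion (Occ Q), ∏ q, w q ^ m q := by
    rw [Finset.sum_biUnion]
    intro K _ K' _ hne
    rw [Function.onFun, Finset.disjoint_left]
    intro m hm hm'
    rw [mem_Occ] at hm hm'
    exact hne (hm.symm.trans hm')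
  have h2 : (Finset.range (K₀ + 1)).biUnion (Occ Q) ⊆ P := by
    intro m hm
    obtain ⟨K, hK, hmK⟩ := Finset.mem_biUnion.mp hm
    rw [mem_Occ] at hmK
    refine Fintype.mem_piFinset.mpr fun q => Finset.mem_range.mpr ?_
    have h3 : m q ≤ ∑ p, m p := Finset.single_le_sum (fun _ _ => Nat.zero_le _) (Finset.mem_univ q)
    have := Finset.mem_range.mp hK
    omega
  rw [h1]
  refine (Finset.sum_le_sum_of_subset_of_nonneg h2 fun m _ _ =>
    Finset.prod_nonneg fun q _ => pow_nonneg (hw0 q) _).trans ?_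
  have h3 : ∑ m ∈ P, ∏ q, w q ^ m q = ∏ q, ∑ j ∈ Finset.range (K₀ + 1), w q ^ j :=
    (Finset.prod_univ_sum (fun _ : Q => Finset.range (K₀ + 1)) (fun q j => w q ^ j)).symm
  rw [h3]
  exact Finset.prod_le_prod (fun q _ => Finset.sum_nonneg fun j _ => pow_nonneg (hw0 q) _)
    fun q _ => geom_le_inv (hw0 q) (hw1 q) _

section Main

variable {adj} {a M : ℕ} {G : ℕ → ℕ → ℕ → X}

lemma occ_term {K : ℕ} {m : C3 M → ℕ} (hm : m ∈ Occ (C3 M) K) (z t : ℝ) :
    z ^ K * Real.exp (-(t * Eocc n a m)) = ∏ q, (z * Real.exp (-(t * epsQ n a q))) ^ m q := by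
  rw [mem_Occ] at hm
  simp only [mul_pow, Finset.prod_mul_distrib]
  rw [Finset.prod_pow_eq_pow_sum, hm]
  congr 1
  unfold Eocc
  rw [Finset.mul_sum, ← Finset.sum_neg_distrib, Real.exp_sum]
  refine Finset.prod_congr rfl fun q _ => ?_
  rw [← Real.exp_nat_mul]
  congr 1
  ring

/-- The main finite-volume upper bound for the partition function. -/
theorem Zgen_main (hn : 1 ≤ n) (ha : 0 < a) (hirr : ∀ x, ¬ adj x x)
    (hsym : ∀ x y, adj x y → adj y x) (h : GridOK adj (a * M) G)
    (hsurj : ∀ x, ∃ u v w, u < a * M ∧ v < a * M ∧ w < a * M ∧ G u v w = x)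
    {K₀ : ℕ} (hKv : (K₀ : ℝ) ^ 2 ≤ (n : ℝ) * (a : ℝ) ^ 3) {η : ℝ} (hη : 0 < η)
    {β E₀ : ℝ} (hβ : 0 < β) (hE₀ : 0 ≤ E₀)
    (hg : 0 < (1 - (K₀ : ℝ) ^ 2 / ((n : ℝ) * (a : ℝ) ^ 3)) - (18 * (K₀ : ℝ) * (a : ℝ) ^ 2 / n) * E₀)
    {lam lam₁ : ℝ} (hlam₁ : lam₁ ≤ lam) (hlam : 0 < lam) :
    Zgen adj n β lam
      ≤ Real.exp (β * ((1 + 1 / η) * (12 * (n : ℝ) * (K₀ : ℝ) ^ 2 / (a : ℝ) ^ 3)) / (1 + η))
          * ∏ q : C3 M, (1 - Real.exp (-lam) * Real.exp (-(β * ((1 - (K₀ : ℝ) ^ 2 / ((n : ℝ) * (a : ℝ) ^ 3))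
              - (18 * (K₀ : ℝ) * (a : ℝ) ^ 2 / n) * E₀) / (1 + η) * epsQ n a q)))⁻¹
        + ((K₀ : ℝ) + 1) * (Real.exp 1 * ((Fintype.card X : ℝ) + 1) ^ K₀ * Real.exp (-(β * E₀)))
        + (Real.exp (-lam) / Real.exp (-lam₁)) ^ (K₀ + 1) * Zgen adj n β lam₁ := by
  refine (Zgen_split adj β hlam₁ K₀).trans (add_le_add_left ?_ _)
  set z := Real.exp (-lam) with hz
  have hz0 : 0 < z := Real.exp_pos _
  have hz1 : z < 1 := by
    rw [hz, Real.exp_lt_one_iff] <;> linarith
  set g : ℝ := (1 - (K₀ : ℝ) ^ 2 / ((n : ℝ) * (a : ℝ) ^ 3)) - (18 * (K₀ : ℝ) * (a : ℝ) ^ 2 / n) * E₀ with hgdef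
  set t : ℝ := β * g / (1 + η) with ht
  have ht0 : 0 ≤ t := by positivity
  set c : ℝ := Real.exp (β * ((1 + 1 / η) * (12 * (n : ℝ) * (K₀ : ℝ) ^ 2 / (a : ℝ) ^ 3)) / (1 + η)) with hc
  have hc0 : 0 < c := Real.exp_pos _
  have hN1 : (1 : ℝ) ≤ (Fintype.card X : ℝ) + 1 := by
    have : (0 : ℝ) ≤ (Fintype.card X : ℝ) := by positivity
    linarith
  have hK : ∀ K ∈ Finset.range (K₀ + 1), z ^ K * TK adj n β K
      ≤ c * ∑ m ∈ Occ (C3 M) K, ∏ q, (z * Real.exp (-(t * epsQ n a q))) ^ m q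
        + Real.exp 1 * ((Fintype.card X : ℝ) + 1) ^ K₀ * Real.exp (-(β * E₀)) := by
    intro K hK
    have hK' : K ≤ K₀ := by
      have := Finset.mem_range.mp hK
      omega
    rw [TK_eq]
    have h1 := sector_trace_le hn ha hirr hsym h hsurj hK' hKv hη hβ hE₀ hg
    have h2 := mul_le_mul_of_nonneg_left h1 (show 0 ≤ z ^ K by positivity)
    refine h2.trans ?_
    rw [mul_add]
    refine add_le_add (le_of_eq ?_) ?_
    · rw [← mul_assoc, mul_comm (z ^ K), mul_assoc, Finset.mul_sum]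
      congr 1
      refine Finset.sum_congr rfl fun m hm => ?_
      exact occ_term hm z t
    · have h3 : (Fintype.card (Sec X n K) : ℝ) ≤ Real.exp 1 * ((Fintype.card X : ℝ) + 1) ^ K₀ :=
        (card_sec_le K).trans (mul_le_mul_of_nonneg_left (pow_le_pow_right₀ hN1 hK') (Real.exp_pos _).le)
      have h4 : z ^ K ≤ 1 := pow_le_one₀ hz0.le hz1.le
      have hE := Real.exp_pos (-(β * E₀))
      have hc3 : 0 ≤ (Fintype.card (Sec X n K) : ℝ) := by positivity
      calc z ^ K * ((Fintype.card (Sec X n K) : ℝ) * Real.exp (-(β * E₀)))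
          ≤ 1 * ((Fintype.card (Sec X n K) : ℝ) * Real.exp (-(β * E₀))) :=
            mul_le_mul_of_nonneg_right h4 (by positivity)
        _ = (Fintype.card (Sec X n K) : ℝ) * Real.exp (-(β * E₀)) := one_mul _
        _ ≤ _ := mul_le_mul_of_nonneg_right h3 hE.le
  refine (Finset.sum_le_sum hK).trans ?_
  rw [Finset.sum_add_distrib, ← Finset.mul_sum, Finset.sum_const, Finset.card_range, nsmul_eq_mul]
  push_cast
  refine add_le_add ?_ le_rfl
  refine mul_le_mul_of_nonneg_left ?_ hc0.le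
  refine free_sum_le _ (fun q => by positivity) (fun q => ?_) K₀
  have h1 : Real.exp (-(t * epsQ n a q)) ≤ 1 := by
    rw [Real.exp_le_one_iff]
    have := mul_nonneg ht0 (epsQ_nonneg (n := n) (a := a) q)
    linarith
  have h2 := mul_le_mul_of_nonneg_left h1 hz0.le
  linarith

end Main

end Vale.Agent.P361Lib
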